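import Crest.Agent.R181.A1Defs

/-! Row 181, stage A1: the bad locus has large codimension; properties of the generic point. -/

set_option autoImplicit false

namespace Crest.Agent.R181.A1

open MvPolynomial

variable {N a : ℕ} {ι : Type} [NeZero a] [Fintype ι] [DecidableEq ι] {L : Type} [Field L]
  {W : Submodule L (MvPolynomial ι L)} {h : ℕ}

/-- The standing hypotheses. -/
structure Hyp (V : WData W a h) (N : ℕ) : Prop where
  ch : CharZero L
  ha : 2 ≤ a
  hW : ∀ f ∈ W, f.IsHomogeneous a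
  hbp : ∀ i, X i ∈ (Ideal.span (W : Set (MvPolynomial ι L))).radical
  hN : (mon ι a).card + h + 1 ≤ N

/-- The matrix of the coefficients of the forms `AA x (e ν) 0`. -/
noncomputable def bad1_M {B : Type} [CommRing B] (e : mon ι a → Fin N) (x : Var N a ι → B) :
    Matrix (mon ι a) (mon ι a) B := Matrix.of fun ν μ => coeff μ.1 (AA x (e ν) 0)

theorem bad1_det {K : Type} [CommRing K] [Algebra L K] (e : mon ι a → Fin N) (x : Var N a ι → K) :
    aeval x (bad1_M e (X : Var N a ι → MvPolynomial (Var N a ι) L)).det = (bad1_M e x).det := by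
  rw [AlgHom.map_det]
  congr 1
  ext ν μ
  have := map_AA (aeval x : MvPolynomial (Var N a ι) L →ₐ[L] K).toRingHom X (e ν) 0
  simp only [AlgHom.toRingHom_eq_coe, RingHom.coe_coe, aeval_X] at this
  simp only [bad1_M, AlgHom.mapMatrix_apply, Matrix.map_apply, Matrix.of_apply]
  rw [← this, coeff_map]
  rfl

/-- Generically, any `#(mon ι a)` of the forms `AA x m 0` span all forms of degree `a`. -/
theorem exists_delta (L : Type) [Field L] [CharZero L] (M₀ : Finset (Fin N))
    (hM : (mon ι a).card ≤ M₀.card) :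
    ∃ δ : MvPolynomial (Var N a ι) L, δ ≠ 0 ∧ δ ∈ supported L (Set.range (uu N a ι))ᶜ ∧
      ∀ (K : Type) [Field K] [Algebra L K] (x : Var N a ι → K), aeval x δ ≠ 0 →
        ∀ φ : (ι →₀ ℕ) → K, (∀ m ∈ M₀, ap a φ (AA x m 0) = 0) → ∀ μ ∈ mon ι a, φ μ = 0 := by
  obtain ⟨e0⟩ := Function.Embedding.nonempty_of_card_le (α := mon ι a) (β := M₀)
    (by rwa [Fintype.card_coe, Fintype.card_coe])
  let e : mon ι a → Fin N := fun ν => (e0 ν).1
  have he : Function.Injective e := Subtype.val_injective.comp e0.injective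
  refine ⟨(bad1_M e X).det, ?_, ?_, fun K _ _ x hx φ hφ μ hμ => ?_⟩
  · obtain ⟨l, hl⟩ := exists_pow_basis (ι := ι) L a
    let x : Var N a ι → L := fun v => Sum.elim (fun q : ZMod a × Fin 2 => if q.2 = 0 then 1 else 0)
      (fun q : ι × Fin 2 => Function.extend e l 0 v.1 q.1) v.2
    intro h0
    apply hl
    have h1 := bad1_det (L := L) e x
    rw [h0, map_zero] at h1
    rw [h1]
    congr 1
    ext ν μ
    have h2 : lin x (e ν) 0 = lf (l ν) := by
      simp only [lin, x, Sum.elim_inr, he.extend_apply]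
    have h3 : ∀ i, fac x (e ν) i = lf (l ν) := by
      intro i
      simp [fac, x, ← h2]
    have h4 : AA x (e ν) 0 = lf (l ν) ^ a := by
      rw [AA, h2, Finset.prod_congr rfl fun i _ => h3 i, Finset.prod_const,
        Finset.card_erase_of_mem (Finset.mem_univ _), Finset.card_univ, ZMod.card, ← pow_succ',
        Nat.sub_add_cancel (Nat.pos_of_ne_zero (NeZero.ne a))]
    simp only [bad1_M, Matrix.of_apply, h4]
  · rw [Matrix.det_apply']
    refine sum_mem fun σ _ => mul_mem (intCast_mem _ _) (prod_mem fun i _ => ?_)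
    exact coeff_AA_mem (supported L (Set.range (uu N a ι))ᶜ).toSubring
      (fun v hv => X_mem_supported.2 hv) _ _ _
  · rw [bad1_det] at hx
    have h1 : (bad1_M e x).mulVec (fun μ => φ μ.1) = 0 := by
      funext ν
      have h2 := hφ (e ν) (e0 ν).2
      rw [ap_apply, ← Finset.sum_coe_sort] at h2
      simp only [Matrix.mulVec, dotProduct, bad1_M, Matrix.of_apply, Pi.zero_apply]
      rw [← h2]
      exact Finset.sum_congr rfl fun _ _ => mul_comm _ _
    exact congrFun (Matrix.eq_zero_of_mulVec_eq_zero hx h1) ⟨μ, hμ⟩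

variable {V : WData W a h}

theorem Hyp.exists_minor (H : Hyp V N) : ∃ J, (lq V N).minor J ≠ 0 := by
  have := H.ch
  obtain ⟨δ, h0, -, hδ⟩ := exists_delta (N := N) (a := a) (ι := ι) L Finset.univ
    (by rw [Finset.card_univ, Fintype.card_fin]; have := H.hN; omega)
  let x : Var N a ι → FractionRing (MvPolynomial (Var N a ι) L) :=
    fun v => algebraMap (MvPolynomial (Var N a ι) L) _ (X v)
  have hx : aeval x δ ≠ 0 := by
    have e : aeval x δ = algebraMap (MvPolynomial (Var N a ι) L) _ δ := by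
      have : aeval x = IsScalarTower.toAlgHom L (MvPolynomial (Var N a ι) L)
          (FractionRing (MvPolynomial (Var N a ι) L)) := algHom_ext fun v => by simp [x]
      rw [this]
      rfl
    rw [e]
    exact fun h1 => h0 (IsFractionRing.injective (MvPolynomial (Var N a ι) L) _
      (h1.trans (map_zero _).symm))
  refine (lq V N).exists_minor x fun c hc => ?_
  refine V.eq_zero (algebraMap L _) c (hδ _ x hx _ fun m _ => ?_)
  have h1 := hc (finProdFinEquiv (m, 0))
  simp only [aeval_φ, Equiv.symm_apply_apply] at h1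
  rw [ap_sum]
  exact h1

theorem card_T (V : WData W a h) :
    (lq V N).T.card = N * (2 * (a - 1) + 2 * Fintype.card ι) := by
  rw [LinEq.T, Finset.card_univ_sdiff, Finset.card_image_of_injective _ (lq V N).u_inj]
  simp only [Fintype.card_prod, Fintype.card_sum, Fintype.card_fin, ZMod.card, Finset.card_univ]
  obtain ⟨b, rfl⟩ := Nat.exists_eq_succ_of_ne_zero (NeZero.ne a)
  rw [Nat.succ_sub_one, Nat.succ_eq_add_one]
  exact Nat.sub_eq_of_eq_add (by ring)

/-- The bad locus. -/
theorem Hyp.codim (H : Hyp V N) :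
    K.Codim (lq V N).T (2 * N + 1 - h) (Set.range (lq V N).minor) := by
  have := H.ch
  refine (lq V N).codim_of_trLe _ fun K _ _ x hx => ?_
  obtain ⟨c0, hc0, hdep⟩ := (lq V N).exists_dep x hx
  obtain ⟨k0, hk0⟩ : ∃ k0, c0 k0 ≠ 0 := Function.ne_iff.1 hc0
  set c : Fin h → K := fun k => c0 k / c0 k0 with hc
  have hc1 : c k0 = 1 := div_self hk0
  have hdep' : ∀ j, ∑ k, c k * aeval x ((lq V N).φ k j) = 0 := fun j => by
    have : ∑ k, c k * aeval x ((lq V N).φ k j) =
        (∑ k, c0 k * aeval x ((lq V N).φ k j)) / c0 k0 := by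
      rw [Finset.sum_div]
      exact Finset.sum_congr rfl fun k _ => by simp only [hc]; ring
    rw [this, hdep, zero_div]
  have hcT : TrLe L c (h - 1) := by
    have h1 : (X k0 - 1 : MvPolynomial (Fin h) L) ≠ 0 := fun h0 => by
      simpa using congrArg (eval fun _ => (0 : L)) h0
    simpa using trLe_of_rel c h1 (by simp [hc1])
  set F := IntermediateField.adjoin L (Set.range c) with hF
  let cF : Fin h → F := fun k => ⟨c k, IntermediateField.subset_adjoin L _ ⟨k, rfl⟩⟩
  have hcF : cF ≠ 0 := fun h0 => by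
    have := congrArg (fun z : F => (z : K)) (congrFun h0 k0)
    simp [cF, hc1] at this
  obtain ⟨h1, h2⟩ := V.hankel H.ha H.hW H.hbp cF hcF
  have hcard : (Finset.univ.erase (0 : ZMod a)).card = a - 1 := by
    rw [Finset.card_erase_of_mem (Finset.mem_univ _), Finset.card_univ, ZMod.card]
  have ha := H.ha
  have hφ : (fun μ => algebraMap F K (∑ k, cF k * algebraMap L F (V.φ k μ))) =
      fun μ => ∑ k, c k * algebraMap L K (V.φ k μ) := by
    funext μ
    rw [map_sum]
    exact Finset.sum_congr rfl fun k _ => by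
      rw [map_mul, ← IsScalarTower.algebraMap_apply]
      rfl
  have hA : ∀ m ε, ap a (fun μ => ∑ k, c k * algebraMap L K (V.φ k μ)) (AA x m ε) = 0 := by
    intro m ε
    have := hdep' (finProdFinEquiv (m, ε))
    simp only [aeval_φ, Equiv.symm_apply_apply] at this
    rw [ap_sum]
    exact this
  have hb : ∀ m : Fin N, TrLe F (Sum.elim
      (fun p : (Finset.univ.erase (0 : ZMod a)) × Fin 2 => x (m, Sum.inl (p.1.1, p.2)))
      (fun q : ι × Fin 2 => x (m, Sum.inr q))) (2 * (a - 1) + 2 * Fintype.card ι - 2) := by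
    intro m
    obtain ⟨d, hd, hT⟩ := block _ h1 h2 (Finset.univ.erase (0 : ZMod a)) 1 le_rfl (by omega)
      (fun q => x (m, Sum.inr q)) (fun q => x (m, Sum.inl q)) (fun j hj => by
        rw [hφ]
        obtain rfl | rfl : j = 0 ∨ j = 1 := by omega
        · simp only [Nat.sub_zero, pow_one, pow_zero, mul_one]
          exact hA m 0
        · simp only [Nat.sub_self, pow_one, pow_zero, one_mul]
          exact hA m 1)
    exact hT.mono (by omega)
  have hp := trLe_prod (F := F) (κ := Fin N) (x := fun p => Sum.elim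
      (fun q : (Finset.univ.erase (0 : ZMod a)) × Fin 2 => x (p.1, Sum.inl (q.1.1, q.2)))
      (fun q : ι × Fin 2 => x (p.1, Sum.inr q)) p.2) hb
  have hq : TrLe F (fun j : (lq V N).T => x j.1)
      (Fintype.card (Fin N) * (2 * (a - 1) + 2 * Fintype.card ι - 2)) := by
    refine hp.of_range ?_
    rintro ⟨⟨m, ⟨i, ε⟩ | q⟩, hj⟩
    · have hi : i ≠ 0 := by
        rintro rfl
        have h3 : (m, Sum.inl (0, ε)) ∈ ((lq V N).T : Set (Var N a ι)) := hj
        rw [LinEq.coe_T, lq_u] at h3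
        exact h3 ((mem_range_uu _).2 ⟨ε, rfl⟩)
      exact ⟨(m, Sum.inl (⟨i, Finset.mem_erase.2 ⟨hi, Finset.mem_univ _⟩⟩, ε)), rfl⟩
    · exact ⟨(m, Sum.inr q), rfl⟩
  refine ⟨_, ?_, hcT.tower hq⟩
  rw [card_T, Fintype.card_fin]
  have e : N * (2 * (a - 1) + 2 * Fintype.card ι) =
      N * (2 * (a - 1) + 2 * Fintype.card ι - 2) + 2 * N := by
    rw [mul_comm 2 N, ← mul_add N]
    congr 1
    omega
  have h3 := H.hN
  have h4 := k0.pos
  omega

/-- The system of equations for the K-lemma. -/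
noncomputable def Hyp.eqs (H : Hyp V N) : K.Eqs L (wt N a ι) (N * 2) h (2 * N + 1 - h) where
  u := uu N a ι
  u_inj := uu_inj
  φ := (lq V N).φ
  w0 := w0 N a
  φ_hom := φ_hom V
  𝒟 := Set.range (lq V N).minor
  inv := by
    rintro _ ⟨J, rfl⟩
    exact (lq V N).inv J
  codim := H.codim

theorem Hyp.eqs_F (H : Hyp V N) (k : Fin h) : H.eqs.F k = (lq V N).F k := rfl

theorem Hyp.isPrime (H : Hyp V N) : (lq V N).p.IsPrime :=
  (lq V N).isPrime H.exists_minor.choose_spec

theorem Hyp.rename_mem (H : Hyp V N) (m : Fin N) {g : MvPolynomial (Var N a ι) L}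
    (hg : g ∈ (lq V N).p) : rename (rot ι m) g ∈ (lq V N).p ∧ rename (rot ι m).symm g ∈ (lq V N).p := by
  have hc : 2 < 2 * N + 1 - h := by
    have := H.hN
    omega
  exact ⟨(lq V N).rename_mem H.exists_minor.choose_spec H.codim _ (rename_F V m)
      ((card_moved V m).1.trans_lt hc) hg,
    (lq V N).rename_mem H.exists_minor.choose_spec H.codim _ (rename_symm_F V m)
      ((card_moved V m).2.trans_lt hc) hg⟩

theorem Hyp.hom_mem (H : Hyp V N) (y : YY N a) {g : MvPolynomial (Var N a ι) L}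
    (hg : g ∈ (lq V N).p) : weightedHomogeneousComponent (wt N a ι) y g ∈ (lq V N).p :=
  (lq V N).hom_mem (wt N a ι) (w0 N a) (φ_hom V) H.exists_minor.choose_spec y hg

/-- The multiplicity of the main component. -/
theorem Hyp.e_p (H : Hyp V N) :
    (K.poly L (wt N a ι) (sym N a).x0 x0_wt).e (sym N a).x0 h ((lq V N).p.restrictScalars L) ⊤ =
      (2 * (a : ℤ)) ^ h * h.factorial := by
  refine K.poly_e (sym N a).x0 x0_wt H.eqs (by have := H.hN; omega) ?_
    (fun y g hg => H.hom_mem y hg) (lq V N).F_mem ?_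
  · rintro k g hg _ ⟨J, rfl⟩
    exact (lq V N).reg k g hg J
  · rintro g hg _ ⟨J, rfl⟩
    exact (lq V N).sat hg J

section generic

variable {K : Type} [Field K] [Algebra L K] {x : Var N a ι → K}

theorem Hyp.lin' (H : Hyp V N) (hx : ∀ g, aeval x g = 0 ↔ g ∈ (lq V N).p) (α : Fin N → Fin 2 → K)
    (hα : ∀ m ε, IsAlgebraic (Algebra.adjoin L (x '' (Set.range (uu N a ι))ᶜ)) (α m ε))
    (h0 : ∑ m, ∑ ε, α m ε * x (m, Sum.inl (0, ε)) = 0) :
    ∃ c : Fin h → K, ∀ m ε,
      α m ε = ap a (fun μ => ∑ k, c k * algebraMap L K (V.φ k μ)) (AA x m ε) := by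
  obtain ⟨J, hJ⟩ := H.exists_minor
  obtain ⟨c, hc⟩ := (lq V N).lin hJ x hx
    (fun j => α (finProdFinEquiv.symm j).1 (finProdFinEquiv.symm j).2) (fun j => hα _ _) (by
      rw [← h0, ← Finset.sum_product', Finset.univ_product_univ]
      exact Fintype.sum_equiv finProdFinEquiv.symm _ _ fun j => rfl)
  refine ⟨c, fun m ε => ?_⟩
  have := hc (finProdFinEquiv (m, ε))
  simp only [Equiv.symm_apply_apply, aeval_φ] at this
  rw [this, ap_sum]

theorem Hyp.delta' (H : Hyp V N) (hx : ∀ g, aeval x g = 0 ↔ g ∈ (lq V N).p) (M₀ : Finset (Fin N))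
    (hM : (mon ι a).card ≤ M₀.card) (φ : (ι →₀ ℕ) → K) (hφ : ∀ m ∈ M₀, ap a φ (AA x m 0) = 0) :
    ∀ μ ∈ mon ι a, φ μ = 0 := by
  haveI := H.ch
  obtain ⟨δ, h0, hs, hδ⟩ := exists_delta (N := N) (a := a) (ι := ι) L M₀ hM
  exact hδ K x (fun h' => h0 ((lq V N).eq_zero_of_mem ((hx δ).1 h') hs)) φ hφ

theorem alg_x {v : Var N a ι} (hv : v ∉ Set.range (uu N a ι)) :
    IsAlgebraic (Algebra.adjoin L (x '' (Set.range (uu N a ι))ᶜ)) (x v) :=
  isAlgebraic_algebraMap (R := Algebra.adjoin L (x '' (Set.range (uu N a ι))ᶜ))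
    ⟨x v, Algebra.subset_adjoin ⟨v, hv, rfl⟩⟩

theorem alg_L (c : L) :
    IsAlgebraic (Algebra.adjoin L (x '' (Set.range (uu N a ι))ᶜ)) (algebraMap L K c) :=
  isAlgebraic_algebraMap (R := Algebra.adjoin L (x '' (Set.range (uu N a ι))ᶜ))
    ⟨algebraMap L K c, Subalgebra.algebraMap_mem _ c⟩

theorem not_mem_uu (m : Fin N) {i : ZMod a} (hi : i ≠ 0) (ε : Fin 2) :
    ((m, Sum.inl (i, ε)) : Var N a ι) ∉ Set.range (uu N a ι) := by
  rw [mem_range_uu]
  rintro ⟨ε', h'⟩
  simp only [Sum.inl.injEq, Prod.mk.injEq] at h'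
  exact hi h'.1

theorem Hyp.free (H : Hyp V N) (hx : ∀ g, aeval x g = 0 ↔ g ∈ (lq V N).p) (m : Fin N) {α β : K}
    (hα : IsAlgebraic (Algebra.adjoin L (x '' (Set.range (uu N a ι))ᶜ)) α)
    (hβ : IsAlgebraic (Algebra.adjoin L (x '' (Set.range (uu N a ι))ᶜ)) β)
    (h0 : α * x (m, Sum.inl (0, 0)) + β * x (m, Sum.inl (0, 1)) = 0) : α = 0 ∧ β = 0 := by
  obtain ⟨c, hc⟩ := H.lin' hx (fun m' ε => if m' = m then (if ε = 0 then α else β) else 0)
    (fun m' ε => by
      split_ifs
      exacts [hα, hβ, isAlgebraic_zero])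
    (by
      rw [Finset.sum_eq_single m]
      · simpa [Fin.sum_univ_two] using h0
      · intro m' _ hm
        simp [hm]
      · simp)
  have hcard : (mon ι a).card ≤ (Finset.univ.erase m).card := by
    have := H.hN
    rw [Finset.card_erase_of_mem (Finset.mem_univ _), Finset.card_univ, Fintype.card_fin]
    omega
  have hz := H.delta' hx _ hcard (fun μ => ∑ k, c k * algebraMap L K (V.φ k μ)) (fun m' hm => by
    have := hc m' 0
    rw [if_neg (Finset.ne_of_mem_erase hm)] at this
    exact this.symm)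
  have h1 := hc m 0
  have h2 := hc m 1
  rw [ap_eq_zero hz] at h1 h2
  simp only [if_true, one_ne_zero, if_false] at h1 h2
  exact ⟨h1, h2⟩

theorem Hyp.x_ne (H : Hyp V N) (hx : ∀ g, aeval x g = 0 ↔ g ∈ (lq V N).p) (v : Var N a ι) :
    x v ≠ 0 := by
  intro h0
  by_cases hv : v ∈ Set.range (uu N a ι)
  · obtain ⟨ε, hε⟩ := (mem_range_uu v).1 hv
    obtain ⟨m, q⟩ := v
    dsimp only at hε
    subst hε
    fin_cases ε
    · exact one_ne_zero (H.free hx m (α := 1) (β := 0) isAlgebraic_one isAlgebraic_zero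
        (by simpa using h0)).1
    · exact one_ne_zero (H.free hx m (α := 0) (β := 1) isAlgebraic_zero isAlgebraic_one
        (by simpa using h0)).2
  · exact X_ne_zero v ((lq V N).eq_zero_of_mem ((hx (X v)).1 (by simpa using h0))
      (X_mem_supported.2 hv))

/-- The roots of the `m`-th term. -/
noncomputable def bb (x : Var N a ι → K) (m : Fin N) (i : ZMod a) : K :=
  -x (m, Sum.inl (i, 1)) / x (m, Sum.inl (i, 0))

theorem Hyp.bb_inj (H : Hyp V N) (hx : ∀ g, aeval x g = 0 ↔ g ∈ (lq V N).p) (m : Fin N) :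
    Function.Injective (bb x m) := by
  intro i j hij
  by_contra hne
  have e : x (m, Sum.inl (i, 1)) * x (m, Sum.inl (j, 0)) =
      x (m, Sum.inl (j, 1)) * x (m, Sum.inl (i, 0)) := by
    unfold bb at hij
    rw [div_eq_div_iff (H.x_ne hx _) (H.x_ne hx _)] at hij
    linear_combination -hij
  by_cases hi : i = 0
  · subst hi
    have hj : j ≠ 0 := fun h' => hne h'.symm
    exact H.x_ne hx _ (H.free hx m (alg_x (not_mem_uu m hj 1)).neg (alg_x (not_mem_uu m hj 0))
      (by linear_combination e)).2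
  by_cases hj : j = 0
  · subst hj
    exact H.x_ne hx _ (H.free hx m (alg_x (not_mem_uu m hi 1)).neg (alg_x (not_mem_uu m hi 0))
      (by linear_combination -e)).2
  have hz := (lq V N).eq_zero_of_mem
    ((hx (X (m, Sum.inl (i, 1)) * X (m, Sum.inl (j, 0)) -
      X (m, Sum.inl (j, 1)) * X (m, Sum.inl (i, 0)))).1 (by simpa [sub_eq_zero] using e))
    (sub_mem (mul_mem (X_mem_supported.2 (not_mem_uu m hi 1)) (X_mem_supported.2 (not_mem_uu m hj 0)))
      (mul_mem (X_mem_supported.2 (not_mem_uu m hj 1)) (X_mem_supported.2 (not_mem_uu m hi 0))))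
  have := congrArg (eval fun v : Var N a ι =>
    if v = (m, Sum.inl (j, 1)) then (0 : L) else 1) hz
  simp [hne] at this

theorem Hyp.sum_bb_ne (H : Hyp V N) (hx : ∀ g, aeval x g = 0 ↔ g ∈ (lq V N).p) (m : Fin N)
    (c : ZMod a → L) (hc : c 0 ≠ 0) : ∑ i, algebraMap L K (c i) * bb x m i ≠ 0 := by
  intro h0
  rw [← Finset.add_sum_erase _ _ (Finset.mem_univ (0 : ZMod a))] at h0
  have hα : IsAlgebraic (Algebra.adjoin L (x '' (Set.range (uu N a ι))ᶜ))
      (∑ i ∈ Finset.univ.erase (0 : ZMod a), algebraMap L K (c i) * bb x m i) := by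
    refine Finset.sum_induction _ _ (fun _ _ => IsAlgebraic.add) isAlgebraic_zero fun i hi => ?_
    have hi := Finset.ne_of_mem_erase hi
    unfold bb
    rw [div_eq_mul_inv]
    exact (alg_L _).mul ((alg_x (not_mem_uu m hi 1)).neg.mul (alg_x (not_mem_uu m hi 0)).inv)
  have h1 := (H.free hx m hα (alg_L (c 0)).neg (by
    have h2 : bb x m 0 * x (m, Sum.inl (0, 0)) = -x (m, Sum.inl (0, 1)) :=
      div_mul_cancel₀ _ (H.x_ne hx _)
    linear_combination x (m, Sum.inl (0, 0)) * h0 - algebraMap L K (c 0) * h2)).2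
  rw [neg_eq_zero, map_eq_zero] at h1
  exact hc h1

/-- The generic form does not vanish at algebraic points outside the base locus. -/
theorem Hyp.gen (H : Hyp V N) (hx : ∀ g, aeval x g = 0 ↔ g ∈ (lq V N).p) (P : ι → K)
    (hP : ∀ i, IsAlgebraic L (P i)) (h0 : eval P (FF x) = 0) :
    ∀ f ∈ W, eval₂ (algebraMap L K) P f = 0 := by
  have hα : ∀ m ε, IsAlgebraic (Algebra.adjoin L (x '' (Set.range (uu N a ι))ᶜ))
      (eval P (AA x m ε)) := by
    intro m ε
    have : eval P (AA x m ε) ∈ (Subalgebra.algebraicClosure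
        (Algebra.adjoin L (x '' (Set.range (uu N a ι))ᶜ)) K).toSubring := by
      refine eval_mem (fun μ _ => coeff_AA_mem _ (fun v hv => alg_x hv) m ε μ) fun i => ?_
      exact (hP i).extendScalars (algebraMap L _).injective
    exact this
  obtain ⟨c, hc⟩ := H.lin' hx (fun m ε => eval P (AA x m ε)) hα (by
    rw [← h0, FF_eq, map_sum, ← Finset.sum_product', Finset.univ_product_univ]
    refine (Fintype.sum_equiv finProdFinEquiv.symm _ _ fun j => ?_).symm
    rw [map_mul, eval_C, mul_comm]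
    rfl)
  have hcard : (mon ι a).card ≤ (Finset.univ : Finset (Fin N)).card := by
    have := H.hN
    rw [Finset.card_univ, Fintype.card_fin]
    omega
  have hz := H.delta' hx _ hcard
    (fun μ => (μ.prod fun i e => P i ^ e) - ∑ k, c k * algebraMap L K (V.φ k μ)) (fun m _ => by
      rw [ap_sub, ap_eval P (AA_isHomogeneous x m 0), ← hc m 0, sub_self])
  intro f hf
  have h1 := ap_eq_zero hz (MvPolynomial.map (algebraMap L K) f)
  rw [ap_sub, ap_eval P ((H.hW f hf).map _), ap_sum, eval_map] at h1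
  rw [sub_eq_zero.1 h1]
  refine Finset.sum_eq_zero fun k _ => ?_
  rw [← map_ap, V.kill k f hf, map_zero, mul_zero]

end generic

theorem anchor_A1Bad : True := by
  have := @Hyp.eqs.eq_1
  have := @bb.eq_1
  trivial

end Crest.Agent.R181.A1
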