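import Crest.Agent.R181.LPPDefs

/-!
Row 181, noncommutative construction: objects and the three oracle statements
(`A1Stmt`, `SymStmt`, `BindStmt`) from which `NCCoord` is assembled.
-/

set_option autoImplicit false

namespace Crest.Agent.R181

open MvPolynomial

/-- A skew field `D` over a central field `L ⊇ ℂ`. -/
structure DA where
  L : Type
  [fL : Field L]
  [aL : Algebra ℂ L]
  D : Type
  [rD : DivisionRing D]
  [aD : Algebra L D]

attribute [instance] DA.fL DA.aL DA.rD DA.aD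

/-- The finite-dimensional objects. -/
def DA.Fin (A : DA) : Prop := Module.Finite A.L A.D

/-- The initial object. -/
noncomputable def DA.base : DA := { L := ℂ, D := ℂ }

/-- Homomorphism of skew fields with central fields. -/
structure DA.Hom (A A' : DA) where
  l : A.L →ₐ[ℂ] A'.L
  d : A.D →+* A'.D
  hl : ∀ r : A.L, d (algebraMap A.L A.D r) = algebraMap A'.L A'.D (l r)

/-- Homomorphism defined on a subalgebra only. -/
structure DA.PHom (A A' : DA) (C : Subalgebra A.L A.D) where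
  l : A.L →ₐ[ℂ] A'.L
  d : C →+* A'.D
  hl : ∀ r : A.L, d (algebraMap A.L C r) = algebraMap A'.L A'.D (l r)

/-- The linear forms `∑ k, c i k * x k` (central variables `x k`) commute pairwise. -/
def Manin {D ι ν : Type} [Ring D] (c : ι → ν → D) : Prop :=
  ∀ i i' k k', c i k * c i' k' + c i k' * c i' k = c i' k * c i k' + c i' k' * c i k

/-- A linear form with given coefficients. -/
noncomputable def lf {L ι : Type} [CommRing L] [Fintype ι] (t : ι → L) : MvPolynomial ι L :=
  ∑ i, C (t i) * X i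

/-- Linear relations over `L` between the forms `c i`. -/
def linRel (L : Type) {D ι ν : Type} [Field L] [Ring D] [Algebra L D] [Fintype ι]
    (c : ι → ν → D) : Set (MvPolynomial ι L) :=
  {p | ∃ t : ι → L, (∀ k, ∑ i, t i • c i k = 0) ∧ p = lf t}

/-- Quadratic relations over `L` between the forms `c i`. -/
def quadRel (L : Type) {D ι ν : Type} [Field L] [Ring D] [Algebra L D] [Fintype ι]
    (c : ι → ν → D) : Set (MvPolynomial ι L) :=
  {p | ∃ q : ι → ι → L,
    (∀ k k', ∑ i, ∑ i', q i i' • (c i k * c i' k' + c i k' * c i' k) = 0) ∧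
      p = ∑ i, ∑ i', C (q i i') * (X i * X i')}

/-- The ideal generated by the linear and quadratic relations. -/
noncomputable def rel2 (L : Type) {D ι ν : Type} [Field L] [Ring D] [Algebra L D] [Fintype ι]
    (c : ι → ν → D) : Ideal (MvPolynomial ι L) :=
  Ideal.span (linRel L c ∪ quadRel L c)

/-- The binary form of degree `a` attached to `φ`, evaluated at `(p, q)`. -/
noncomputable def bform {L ι : Type} [CommRing L] (φ : Polynomial L) (a : ℕ)
    (p q : MvPolynomial ι L) : MvPolynomial ι L :=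
  aeval ![p, q] (φ.homogenize a)

/-- A symbol pair `u θ = ζ θ u`, `u ^ a = T`, `θ ^ a = Θ`. -/
structure Pair (A : DA) (a : ℕ) (ζ : ℂ) where
  u : A.D
  θ : A.D
  T : A.L
  Θ : A.L
  hT : T ≠ 0
  hΘ : Θ ≠ 0
  hu : u ^ a = algebraMap A.L A.D T
  hθ : θ ^ a = algebraMap A.L A.D Θ
  hc : u * θ = algebraMap ℂ A.L ζ • (θ * u)

/-- The conjugate `b (ζ ^ i θ)`. -/
noncomputable def conjB {A : DA} (ζ : ℂ) (θ : A.D) (b : Polynomial A.L) (i : ℕ) : A.D :=
  Polynomial.aeval (algebraMap ℂ A.L (ζ ^ i) • θ) b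

/-- A gadget datum: a symbol pair and a monic `φ` of degree `a` with the distinct roots
`b (ζ ^ i θ)`. -/
structure Gad (A : DA) (a : ℕ) (ζ : ℂ) extends Pair A a ζ where
  b : Polynomial A.L
  φ : Polynomial A.L
  monic : φ.Monic
  deg : φ.natDegree = a
  root : ∀ i : ℕ, Polynomial.aeval (conjB ζ θ b i) φ = 0
  inj : ∀ i j : ℕ, i < a → j < a → conjB ζ θ b i = conjB ζ θ b j → i = j

/-- The centraliser of the pair. -/
def Pair.cent {A : DA} {a : ℕ} {ζ : ℂ} (p : Pair A a ζ) : Subalgebra A.L A.D :=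
  Subalgebra.centralizer A.L {p.u, p.θ}

/-- The two central variables followed by the forms `w k`. -/
def binFam {D κ : Type} [Ring D] (w : κ → Fin 2 → D) : Fin 2 ⊕ κ → Fin 2 → D :=
  Sum.elim (fun ε => Pi.single ε 1) w

/-- Output of the binding lemma: commuting forms `w k = w k 0 * l + w k 1 * l'` over a bigger skew
field, centralising the image of the centraliser, whose linear and quadratic relations force
`y ^ a = T φ(l, l')` and are finite over `(l, l')`. -/
structure BindOut {A : DA} {a : ℕ} {ζ : ℂ} (g : Gad A a ζ) where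
  A' : DA
  f : DA.PHom A A' g.toPair.cent
  κ : Type
  [fκ : Fintype κ]
  [dκ : DecidableEq κ]
  w : κ → Fin 2 → A'.D
  y : κ
  comm : ∀ z k ε, Commute (f.d z) (w k ε)
  manin : Manin (binFam w)
  rel : X (Sum.inr y) ^ a - C (f.l g.T) *
      bform (g.φ.map (f.l : A.L →+* A'.L)) a (X (Sum.inl 0)) (X (Sum.inl 1)) ∈
    (rel2 A'.L (binFam w)).radical
  fib : ∀ k, X (Sum.inr k) ∈
    (rel2 A'.L (binFam w) ⊔ Ideal.span {X (Sum.inl 0), X (Sum.inl 1)}).radical

attribute [instance] BindOut.fκ BindOut.dκ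

/-- Oracle B: the binding lemma inside the class `P`. -/
def BindStmt (P : DA → Prop) (a : ℕ) (ζ : ℂ) : Prop :=
  ∀ (A : DA), P A → ∀ g : Gad A a ζ, ∃ B : BindOut g, P B.A'

/-- Oracle A2: adjoining a free symbol pair. -/
def SymStmt (P : DA → Prop) (a : ℕ) (ζ : ℂ) : Prop :=
  ∀ (A : DA), P A → ∃ (A' : DA) (f : DA.Hom A A') (p : Pair A' a ζ), P A' ∧
    ∀ z, Commute (f.d z) p.u ∧ Commute (f.d z) p.θ

/-- The commutation rules of a family of gadgets whose `u`'s `ζ`-commute. -/
def HubRel {A : DA} {a : ℕ} {ζ : ℂ} {N : ℕ} (g : Fin N → Gad A a ζ) : Prop :=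
  (∀ m m', m < m' → (g m').u * (g m).u = algebraMap ℂ A.L ζ • ((g m).u * (g m').u)) ∧
  (∀ m m', m ≠ m' → Commute (g m).u (g m').θ) ∧ (∀ m m', Commute (g m).θ (g m').θ)

/-- The form `∑ m, T m * φ m (l m, l' m)`. -/
noncomputable def hubForm {A : DA} {a : ℕ} {ζ : ℂ} {N : ℕ} {ι : Type} [Fintype ι]
    (g : Fin N → Gad A a ζ) (l l' : Fin N → ι → A.L) : MvPolynomial ι A.L :=
  ∑ m, C (g m).T * bform (g m).φ a (lf (l m)) (lf (l' m))

/-- Oracle A1: a base point free space `W` of forms of degree `a` contains, after a skew field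
extension, a generic sum of binary norm forms with `ζ`-commuting gadgets. -/
def A1Stmt (P : DA → Prop) (a : ℕ) (ζ : ℂ) : Prop :=
  ∀ (A : DA), P A → ∀ (ι : Type) [Fintype ι] [DecidableEq ι] [Nonempty ι]
    (W : Submodule A.L (MvPolynomial ι A.L)), (∀ w ∈ W, w.IsHomogeneous a) →
    (∀ i, X i ∈ (Ideal.span (W : Set (MvPolynomial ι A.L))).radical) →
    ∃ (A' : DA) (f : DA.Hom A A') (N : ℕ) (g : Fin N → Gad A' a ζ) (l l' : Fin N → ι → A'.L),
      P A' ∧ (∀ m z, Commute (f.d z) (g m).u ∧ Commute (f.d z) (g m).θ) ∧ HubRel g ∧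
      hubForm g l l' ∈ Submodule.span A'.L (MvPolynomial.map (f.l : A.L →+* A'.L) '' W) ∧
      ∀ π : ι → AlgebraicClosure A'.L,
        (∀ i, ∃ p : Polynomial A.L, p ≠ 0 ∧ Polynomial.eval₂
          ((algebraMap A'.L (AlgebraicClosure A'.L)).comp (f.l : A.L →+* A'.L)) (π i) p = 0) →
        (∃ w ∈ W, eval₂ ((algebraMap A'.L (AlgebraicClosure A'.L)).comp (f.l : A.L →+* A'.L))
          π w ≠ 0) →
        aeval π (hubForm g l l') ≠ 0

/-- A stage: commuting linear forms in `D ⊗ ℂ[x]_1`, the variables among them. -/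
structure St (n : ℕ) where
  A : DA
  ι : Type
  [fι : Fintype ι]
  [dι : DecidableEq ι]
  c : ι → Fin n → A.D
  manin : Manin c
  x : Fin n → ι
  hx : ∀ k, c (x k) = Pi.single k 1

attribute [instance] St.fι St.dι

/-- The ideal of linear and quadratic relations of a stage. -/
noncomputable def St.rel {n : ℕ} (M : St n) : Ideal (MvPolynomial M.ι M.A.L) := rel2 M.A.L M.c

/-- Transport of polynomials along a field map and a map of variables. -/
noncomputable def push {L L' ι ι' : Type} [Field L] [Field L'] [Algebra ℂ L] [Algebra ℂ L']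
    (l : L →ₐ[ℂ] L') (e : ι → ι') : MvPolynomial ι L →+* MvPolynomial ι' L' :=
  (rename e : MvPolynomial ι L' →ₐ[L'] MvPolynomial ι' L').toRingHom.comp
    (MvPolynomial.map (l : L →+* L'))

/-- Weak extension of stages (only the commutative data). -/
structure WExt {n : ℕ} (M M' : St n) where
  l : M.A.L →ₐ[ℂ] M'.A.L
  e : M.ι → M'.ι
  hx : ∀ k, e (M.x k) = M'.x k
  hrel : ∀ p ∈ M.rel, push l e p ∈ M'.rel
  fib : ∀ i', X i' ∈ (M'.rel ⊔ Ideal.span (Set.range fun i => X (e i))).radical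

/-- Extension of stages along a partial homomorphism. -/
structure Ext {n : ℕ} (M M' : St n) (C : Subalgebra M.A.L M.A.D) where
  f : DA.PHom M.A M'.A C
  hc : ∀ i k, M.c i k ∈ C
  e : M.ι → M'.ι
  he : ∀ i k, M'.c (e i) k = f.d ⟨M.c i k, hc i k⟩
  hx : ∀ k, e (M.x k) = M'.x k
  fib : ∀ i', X i' ∈ (M'.rel ⊔ Ideal.span (Set.range fun i => X (e i))).radical
  hcomm : ∀ z : C, (∀ i k, Commute (z : M.A.D) (M.c i k)) → ∀ i' k, Commute (f.d z) (M'.c i' k)

/-- The polynomial `f(x)` in the variables of a stage. -/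
noncomputable def St.px {n : ℕ} (M : St n) (f : MvPolynomial (Fin n) ℂ) :
    MvPolynomial M.ι M.A.L :=
  rename M.x (MvPolynomial.map (algebraMap ℂ M.A.L) f)

/-- The ideal of level `j`: relations, the forms `y i` (`j ≤ i`) and the `f i` (`i < j'`). -/
noncomputable def St.lev {n : ℕ} (M : St n) (f : Fin n → MvPolynomial (Fin n) ℂ)
    (y : Fin n → M.ι → M.A.L) (j j' : ℕ) : Ideal (MvPolynomial M.ι M.A.L) :=
  M.rel ⊔ Ideal.span {p | ∃ i : Fin n, j ≤ i.val ∧ p = lf (y i)} ⊔
    Ideal.span {p | ∃ i : Fin n, i.val < j' ∧ p = M.px (f i)}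

/-- The invariant of the descending induction at level `j`. -/
def St.Inv {n : ℕ} (M : St n) (a : Fin n → ℕ) (f : Fin n → MvPolynomial (Fin n) ℂ)
    (y : Fin n → M.ι → M.A.L) (j : ℕ) : Prop :=
  (∀ i, X i ∈ (M.lev f y j j).radical) ∧
    ∀ i : Fin n, j ≤ i.val → lf (y i) ^ a i ∈ M.rel.radical ⊔ M.lev f y (i.val + 1) n

theorem anchor_NCDefs : True := by
  have := @DA.Fin.eq_1
  have := @DA.base.eq_1
  have := @Manin.eq_1
  have := @lf.eq_1
  have := @linRel.eq_1
  have := @quadRel.eq_1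
  have := @rel2.eq_1
  have := @bform.eq_1
  have := @conjB.eq_1
  have := @Pair.cent.eq_1
  have := @binFam.eq_1
  have := @BindStmt.eq_1
  have := @SymStmt.eq_1
  have := @HubRel.eq_1
  have := @hubForm.eq_1
  have := @A1Stmt.eq_1
  have := @St.rel.eq_1
  have := @push.eq_1
  have := @St.px.eq_1
  have := @St.lev.eq_1
  have := @St.Inv.eq_1
  trivial

end Crest.Agent.R181
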