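import Crest.Agent.R181.A1BadCl
import Crest.Agent.R181.NCDefs

/-! Row 181, bad locus, part 2: functionals on forms, the Hankel lemma. -/

set_option autoImplicit false

namespace Crest.Agent.R181.A1B

open MvPolynomial

variable {ι : Type}

/-- The functional with values `c α` on the monomials. -/
noncomputable def ap {R : Type} [CommRing R] (c : (ι →₀ ℕ) → R) : MvPolynomial ι R →ₗ[R] R :=
  (basisMonomials ι R).constr R c

section ring

variable {R R' : Type} [CommRing R] [CommRing R']

theorem ap_monomial (c : (ι →₀ ℕ) → R) (α : ι →₀ ℕ) (r : R) : ap c (monomial α r) = r * c α := by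
  have h : (monomial α r : MvPolynomial ι R) = r • basisMonomials ι R α := by
    simp [coe_basisMonomials, smul_monomial]
  rw [h, map_smul, ap, Module.Basis.constr_basis, smul_eq_mul]

theorem ap_eq_sum (c : (ι →₀ ℕ) → R) (f : MvPolynomial ι R) :
    ap c f = ∑ α ∈ f.support, coeff α f * c α := by
  conv_lhs => rw [f.as_sum, map_sum]
  exact Finset.sum_congr rfl fun α _ => ap_monomial c α _

theorem map_ap (g : R →+* R') (c : (ι →₀ ℕ) → R) (f : MvPolynomial ι R) :
    g (ap c f) = ap (fun α => g (c α)) (map g f) := by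
  induction f using MvPolynomial.induction_on' with
  | monomial α r => simp [ap_monomial]
  | add p q hp hq => simp [hp, hq]

theorem ap_eq_linear (φ : MvPolynomial ι R →ₗ[R] R) (f : MvPolynomial ι R) :
    ap (fun α => φ (monomial α 1)) f = φ f := by
  induction f using MvPolynomial.induction_on' with
  | monomial α r =>
    rw [ap_monomial, ← smul_eq_mul, ← map_smul, smul_monomial, smul_eq_mul, mul_one]
  | add p q hp hq => simp [hp, hq]

theorem ap_sum {κ : Type} (s : Finset κ) (lam : κ → R) (c : κ → (ι →₀ ℕ) → R)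
    (f : MvPolynomial ι R) : ap (fun α => ∑ k ∈ s, lam k * c k α) f = ∑ k ∈ s, lam k * ap (c k) f := by
  simp only [ap_eq_sum, Finset.mul_sum]
  rw [Finset.sum_comm]
  refine Finset.sum_congr rfl fun k _ => Finset.sum_congr rfl fun α _ => by ring

theorem ap_eval (e : R) (p : ι → R) (f : MvPolynomial ι R) :
    ap (fun α => e * α.prod fun i k => p i ^ k) f = e * eval p f := by
  induction f using MvPolynomial.induction_on' with
  | monomial α r =>
    rw [ap_monomial, eval_monomial]
    ring
  | add p q hp hq => simp [hp, hq, mul_add]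

theorem ap_congr {c c' : (ι →₀ ℕ) → R} {a : ℕ} (h : ∀ α, α.degree = a → c α = c' α)
    {f : MvPolynomial ι R} (hf : f.IsHomogeneous a) : ap c f = ap c' f := by
  rw [ap_eq_sum, ap_eq_sum]
  refine Finset.sum_congr rfl fun α hα => ?_
  rw [h α]
  have := hf (mem_support_iff.1 hα)
  rw [Finsupp.degree_eq_weight_one]
  exact this

theorem map_lf [Fintype ι] (g : R →+* R') (t : ι → R) : map g (lf t) = lf fun i => g (t i) := by
  simp [lf]

theorem lf_hom [Fintype ι] (t : ι → R) : (lf t).IsHomogeneous 1 :=
  IsHomogeneous.sum _ _ _ fun i _ => by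
    simpa using (isHomogeneous_C ι (t i)).mul (isHomogeneous_X R i)

theorem eval_lf [Fintype ι] (t p : ι → R) : eval p (lf t) = ∑ i, t i * p i := by
  simp [lf]

end ring

variable [Fintype ι] {Ω : Type} [Field Ω] [CharZero Ω]

/-- The powers of linear forms span the forms of degree `a`. -/
theorem eq_zero_of_pow {c : (ι →₀ ℕ) → Ω} {a : ℕ} (h : ∀ l : ι → Ω, ap c (lf l ^ a) = 0)
    (α : ι →₀ ℕ) (hα : α.degree = a) : c α = 0 := by
  classical
  set U : MvPolynomial ι Ω := ap (fun β => C (c β)) (lf (X : ι → MvPolynomial ι Ω) ^ a) with hU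
  have hU0 : U = 0 := by
    refine MvPolynomial.funext fun l => ?_
    rw [hU, map_ap, map_pow, map_lf]
    simpa using h l
  have hc : ∀ β : ι →₀ ℕ, coeff β (lf (X : ι → MvPolynomial ι Ω) ^ a) =
      if β.degree = a then monomial β (β.multinomial : Ω) else 0 := by
    intro β
    have h1 : lf (X : ι → MvPolynomial ι Ω) = ∑ i, (X i : MvPolynomial ι Ω) • X i := by
      simp [lf, smul_eq_C_mul]
    rw [h1, coeff_linearCombination_X_pow_of_fintype]
    have h2 : (β.sum fun _ m => m) = β.degree := rfl
    rw [h2]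
    split_ifs
    · rw [monomial_eq]
      simp
    · rfl
  have h2 : coeff α U = α.multinomial * c α := by
    rw [hU, ap_eq_sum, coeff_sum, Finset.sum_eq_single α]
    · rw [hc, if_pos hα, mul_comm, coeff_C_mul, coeff_monomial, if_pos rfl, mul_comm]
    · intro β _ hβ
      rw [hc]
      split_ifs
      · rw [mul_comm, coeff_C_mul, coeff_monomial, if_neg hβ, mul_zero]
      · simp
    · intro hn
      rw [notMem_support_iff.1 hn]
      simp
  rw [hU0, coeff_zero] at h2
  have h3 : (α.multinomial : Ω) ≠ 0 := by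
    rw [Finsupp.multinomial_eq]
    exact Nat.cast_ne_zero.2 (Nat.multinomial_pos _ _).ne'
  exact (mul_eq_zero.1 h2.symm).resolve_left h3

/-- The moments of the functional on a pencil. -/
noncomputable def psi {R : Type} [CommRing R] (c : (ι →₀ ℕ) → R) (a : ℕ) (l l' : ι → R) (j : ℕ) : R :=
  ap c (lf l ^ (a - j) * lf l' ^ j)

theorem map_psi {R R' : Type} [CommRing R] [CommRing R'] (g : R →+* R') (c : (ι →₀ ℕ) → R) (a : ℕ)
    (l l' : ι → R) (j : ℕ) :
    g (psi c a l l' j) = psi (fun α => g (c α)) a (fun i => g (l i)) (fun i => g (l' i)) j := by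
  simp [psi, map_ap, map_lf]

/-- `c` is a multiple of an evaluation in degree `a`. -/
def IsEv (c : (ι →₀ ℕ) → Ω) (a : ℕ) : Prop :=
  ∃ (e : Ω) (p : ι → Ω), ∀ α : ι →₀ ℕ, α.degree = a → c α = e * α.prod fun i k => p i ^ k

theorem isEv_of_pow {c : (ι →₀ ℕ) → Ω} {a : ℕ} (e : Ω) (p : ι → Ω)
    (h : ∀ l : ι → Ω, ap c (lf l ^ a) = e * (∑ i, l i * p i) ^ a) : IsEv c a := by
  refine ⟨e, p, fun α hα => ?_⟩
  have := eq_zero_of_pow (c := fun α => c α - e * α.prod fun i k => p i ^ k) (a := a) (fun l => by
    have h1 := ap_sum (Finset.univ : Finset (Fin 2)) ![1, -1]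
      ![c, fun α => e * α.prod fun i k => p i ^ k] (lf l ^ a)
    simp only [Fin.sum_univ_two, Matrix.cons_val_zero, Matrix.cons_val_one, one_mul, neg_mul,
      ← sub_eq_add_neg] at h1
    rw [h1, ap_eval, h, map_pow, eval_lf, sub_self]) α hα
  exact sub_eq_zero.1 this

/-- Hankel rank at most one on every pencil forces an evaluation. -/
theorem isEv_of_hankel {c : (ι →₀ ℕ) → Ω} {a : ℕ}
    (h : ∀ (l l' : ι → Ω) (j : ℕ), j < a →
      psi c a l l' 0 * psi c a l l' (j + 1) = psi c a l l' 1 * psi c a l l' j) : IsEv c a := by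
  by_cases h0 : ∀ l : ι → Ω, ap c (lf l ^ a) = 0
  · exact isEv_of_pow 0 0 fun l => by rw [h0, zero_mul]
  push Not at h0
  obtain ⟨l, hl⟩ := h0
  set e := ap c (lf l ^ a) with he
  refine isEv_of_pow e (fun i => ap c (lf l ^ (a - 1) * X i) / e) fun l' => ?_
  set ρ := ∑ i, l' i * (ap c (lf l ^ (a - 1) * X i) / e) with hρ
  have h00 : psi c a l l' 0 = e := by simp [psi, he]
  have h1 : psi c a l l' 1 = e * ρ := by
    rw [hρ, Finset.mul_sum, psi, pow_one, lf.eq_1 l', Finset.mul_sum, map_sum]
    refine Finset.sum_congr rfl fun i _ => ?_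
    rw [mul_left_comm, ← smul_eq_C_mul, map_smul, smul_eq_mul]
    field_simp
  have h2 : ∀ j, j ≤ a → psi c a l l' j = e * ρ ^ j := by
    intro j
    induction j with
    | zero => simp [h00]
    | succ j ih =>
      intro hj
      have := h l l' j hj
      rw [h00, h1, ih (by omega)] at this
      apply mul_left_cancel₀ hl
      rw [this]
      ring
  have := h2 a le_rfl
  simpa [psi] using this

omit [CharZero Ω] [Fintype ι] in
/-- Expansion of a product of binary linear forms. -/
theorem prod_expand {κ : Type} [Fintype κ] (s t : κ → Ω) (A B : MvPolynomial ι Ω) :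
    ∏ i, (C (s i) * A + C (t i) * B) = ∑ k ∈ Finset.range (Fintype.card κ + 1),
      C ((∏ i, (Polynomial.C (s i) + Polynomial.C (t i) * Polynomial.X)).coeff k) *
        (A ^ (Fintype.card κ - k) * B ^ k) := by
  have hd : ∀ i, (Polynomial.C (s i) + Polynomial.C (t i) * Polynomial.X).natDegree ≤ 1 := by
    intro i
    compute_degree
  have h1 := Polynomial.homogenize_finsetProd (s := Finset.univ)
    (p := fun i => Polynomial.C (s i) + Polynomial.C (t i) * Polynomial.X) (n := fun _ => 1)
    (fun i _ => hd i)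
  have h2 := congrArg (aeval ![B, A]) h1
  rw [map_prod] at h2
  have h3 : ∀ i, aeval ![B, A] ((Polynomial.C (s i) + Polynomial.C (t i) * Polynomial.X).homogenize 1)
      = C (s i) * A + C (t i) * B := by
    intro i
    rw [Polynomial.homogenize_add, Polynomial.homogenize_C_mul, Polynomial.homogenize_C,
      Polynomial.homogenize_X one_ne_zero]
    simp
  simp only [h3] at h2
  rw [← h2, Polynomial.homogenize, map_sum, Finset.sum_const, smul_eq_mul, mul_one, Finset.card_univ,
    Finset.Nat.sum_antidiagonal_eq_sum_range_succ_mk]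
  refine Finset.sum_congr rfl fun k _ => ?_
  rw [aeval_monomial, Finsupp.prod_fintype _ _ (by simp)]
  rw [Fin.prod_univ_two, mul_comm (A ^ _)]
  simp

theorem anchor_A1BadAp : True := by
  have := @ap.eq_1
  have := @psi.eq_1
  have := @IsEv.eq_1
  trivial

end Crest.Agent.R181.A1B
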