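import Crest.Agent.R181.A1BadAp

/-! Row 181, bad locus, part 3: every block loses two dimensions. -/

set_option autoImplicit false

namespace Crest.Agent.R181.A1B

open MvPolynomial

variable {L Ω : Type} [Field L] [Field Ω] [Algebra L Ω] {ι κ : Type} [Fintype ι] [Fintype κ]

theorem coeff_lf_pow_mem (K : IntermediateField L Ω) {c : (ι →₀ ℕ) → Ω} (hc : ∀ α, c α ∈ K)
    {l l' : ι → Ω} (hl : ∀ i, l i ∈ K) (hl' : ∀ i, l' i ∈ K) (a j : ℕ) : psi c a l l' j ∈ K := by
  have := map_psi (algebraMap K Ω) (fun α => (⟨c α, hc α⟩ : K)) a (fun i => ⟨l i, hl i⟩)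
    (fun i => ⟨l' i, hl' i⟩) j
  change _ = psi c a l l' j at this
  rw [← this]
  exact SetLike.coe_mem _

/-- the factors of a nonzero product are determined by the product up to scalings -/
theorem gen_factors (Z : Set Ω) (s t : κ → Ω) [Nonempty κ]
    (hP : ∏ i, (Polynomial.C (s i) + Polynomial.C (t i) * Polynomial.X) ≠ 0)
    (hc : ∀ k, (∏ i, (Polynomial.C (s i) + Polynomial.C (t i) * Polynomial.X)).coeff k ∈ acl L Z) :
    GenD L Z (Set.range s ∪ Set.range t) (Fintype.card κ) 1 := by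
  classical
  obtain ⟨i₀⟩ := ‹Nonempty κ›
  let r : κ → Ω := fun i => if s i = 0 then t i else s i
  refine ⟨(Finset.univ.erase i₀).image r, ?_, ?_⟩
  · have := Finset.card_image_le (s := Finset.univ.erase i₀) (f := r)
    have h2 := Finset.card_erase_add_one (Finset.mem_univ i₀)
    rw [Finset.card_univ] at h2
    omega
  set K := acl L (Z ∪ ((Finset.univ.erase i₀).image r : Finset Ω)) with hK
  have hc' : ∀ k, (∏ i, (Polynomial.C (s i) + Polynomial.C (t i) * Polynomial.X)).coeff k ∈ K :=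
    fun k => acl_mono Set.subset_union_left (hc k)
  have h1 : ∀ i, i ≠ i₀ → s i ∈ K ∧ t i ∈ K := by
    intro i hi
    have hr : r i ∈ K := subset_acl _ (Or.inr (by
      rw [Finset.mem_coe]
      exact Finset.mem_image_of_mem _ (Finset.mem_erase.2 ⟨hi, Finset.mem_univ _⟩)))
    by_cases hs : s i = 0
    · simp only [r, if_pos hs] at hr
      exact ⟨hs ▸ zero_mem _, hr⟩
    simp only [r, if_neg hs] at hr
    refine ⟨hr, ?_⟩
    by_cases ht : t i = 0
    · exact ht ▸ zero_mem _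
    have h2 : -s i / t i ∈ K := by
      refine root_mem hP hc' ?_
      rw [Polynomial.eval_prod]
      refine Finset.prod_eq_zero (Finset.mem_univ i) ?_
      simp only [Polynomial.eval_add, Polynomial.eval_C, Polynomial.eval_mul, Polynomial.eval_X]
      field_simp
      ring
    have h3 : t i = -s i / (-s i / t i) := by field_simp
    rw [h3]
    exact div_mem (neg_mem hr) h2
  have h2 : s i₀ ∈ K ∧ t i₀ ∈ K := by
    let P' : Polynomial K := ∏ i : {i // i ≠ i₀}, (Polynomial.C (⟨s i, (h1 i i.2).1⟩ : K) +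
      Polynomial.C (⟨t i, (h1 i i.2).2⟩ : K) * Polynomial.X)
    have hP' : P'.map (algebraMap K Ω) =
        ∏ i ∈ Finset.univ.erase i₀, (Polynomial.C (s i) + Polynomial.C (t i) * Polynomial.X) := by
      rw [Polynomial.map_prod, Finset.prod_subtype (Finset.univ.erase i₀) (p := fun i => i ≠ i₀)
        (by simp)]
      refine Finset.prod_congr rfl fun i _ => ?_
      simp
    have hm := Finset.mul_prod_erase Finset.univ
      (fun i => Polynomial.C (s i) + Polynomial.C (t i) * Polynomial.X) (Finset.mem_univ i₀)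
    have hl : ∏ i, (Polynomial.C (s i) + Polynomial.C (t i) * Polynomial.X) ∈
        Polynomial.lifts (algebraMap K Ω) := by
      rw [Polynomial.lifts_iff_coeff_lifts]
      intro k
      exact ⟨⟨_, hc' k⟩, rfl⟩
    obtain ⟨Q, hQ⟩ := hl
    replace hQ : Q.map (algebraMap K Ω) = _ := hQ
    have hdvd : P' ∣ Q := by
      rw [← Polynomial.map_dvd_map' (algebraMap K Ω), hP', hQ, ← hm]
      exact Dvd.intro_left _ rfl
    obtain ⟨q, hq⟩ := hdvd
    have hne : ∏ i ∈ Finset.univ.erase i₀,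
        (Polynomial.C (s i) + Polynomial.C (t i) * Polynomial.X) ≠ 0 := by
      intro h0
      rw [← hm, h0, mul_zero] at hP
      exact hP rfl
    have h3 : q.map (algebraMap K Ω) = Polynomial.C (s i₀) + Polynomial.C (t i₀) * Polynomial.X := by
      apply mul_right_cancel₀ hne
      rw [hm, ← hQ, hq, Polynomial.map_mul, hP', mul_comm]
    have h4 := congrArg (fun p => p.coeff 0) h3
    have h5 := congrArg (fun p => p.coeff 1) h3
    simp only [Polynomial.coeff_map, Polynomial.coeff_add, Polynomial.coeff_C_mul,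
      Polynomial.coeff_X_zero, Polynomial.coeff_C_zero, mul_zero, add_zero, Polynomial.coeff_X_one,
      mul_one, Polynomial.coeff_C_succ, zero_add] at h4 h5
    exact ⟨h4 ▸ SetLike.coe_mem _, h5 ▸ SetLike.coe_mem _⟩
  have h3 : ∀ i, s i ∈ K ∧ t i ∈ K := fun i => by
    by_cases hi : i = i₀
    · exact hi ▸ h2
    · exact h1 i hi
  rintro _ (⟨i, rfl⟩ | ⟨i, rfl⟩)
  · exact (h3 i).1
  · exact (h3 i).2

/-- Hankel rank two: `(s, t)` lose two dimensions -/
theorem gen_rank_two (Z : Set Ω) (s t : κ → Ω) (ψ : ℕ → Ω) (hψ : ∀ k, ψ k ∈ acl L Z) (j : ℕ)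
    (hj : j < Fintype.card κ + 1) (hδ : ψ 0 * ψ (j + 1) ≠ ψ 1 * ψ j)
    (h0 : ∑ k ∈ Finset.range (Fintype.card κ + 1),
      (∏ i, (Polynomial.C (s i) + Polynomial.C (t i) * Polynomial.X)).coeff k * ψ k = 0)
    (h1 : ∑ k ∈ Finset.range (Fintype.card κ + 1),
      (∏ i, (Polynomial.C (s i) + Polynomial.C (t i) * Polynomial.X)).coeff k * ψ (k + 1) = 0) :
    GenD L Z (Set.range s ∪ Set.range t) (2 * Fintype.card κ) 2 := by
  classical
  have hj0 : j ≠ 0 := by
    rintro rfl
    exact hδ (mul_comm _ _)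
  have : Nonempty κ := Fintype.card_pos_iff.1 (by omega)
  set P := ∏ i, (Polynomial.C (s i) + Polynomial.C (t i) * Polynomial.X) with hPdef
  by_cases hP : P = 0
  · obtain ⟨i, -, hi⟩ := Finset.prod_eq_zero_iff.1 hP
    have hs : s i = 0 := by simpa using congrArg (fun p => p.coeff 0) hi
    have ht : t i = 0 := by simpa using congrArg (fun p => p.coeff 1) hi
    have g1 := (GenD.image (L := L) Z s (Finset.univ.erase i)).trans
      (GenD.image (L := L) _ t (Finset.univ.erase i))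
    have g2 := g1.trans (GenD.of_subset (L := L) (X := {0}) (by simp))
    have h2 := Finset.card_erase_add_one (Finset.mem_univ i)
    rw [Finset.card_univ] at h2
    refine g2.mono subset_rfl ?_ (by omega)
    rintro _ (⟨k, rfl⟩ | ⟨k, rfl⟩)
    · by_cases hk : k = i
      · exact Or.inr (by simp [hk, hs])
      · exact Or.inl (Or.inl ⟨k, by simp [hk], rfl⟩)
    · by_cases hk : k = i
      · exact Or.inr (by simp [hk, ht])
      · exact Or.inl (Or.inr ⟨k, by simp [hk], rfl⟩)
  set A := ((Finset.range (Fintype.card κ + 1)).erase 0).erase j with hA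
  have hjm : j ∈ (Finset.range (Fintype.card κ + 1)).erase 0 :=
    Finset.mem_erase.2 ⟨hj0, Finset.mem_range.2 hj⟩
  have h0m : 0 ∈ Finset.range (Fintype.card κ + 1) := by simp
  have hcard : A.card + 1 = Fintype.card κ := by
    have e1 := Finset.card_erase_add_one hjm
    have e2 := Finset.card_erase_add_one h0m
    rw [Finset.card_range] at e2
    rw [← hA] at e1
    omega
  have g1 := GenD.image (L := L) Z P.coeff A
  set K := acl L (Z ∪ P.coeff '' A) with hK
  have hψ' : ∀ k, ψ k ∈ K := fun k => acl_mono Set.subset_union_left (hψ k)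
  have hA' : ∀ k ∈ A, P.coeff k ∈ K := fun k hk => subset_acl _ (Or.inr ⟨k, hk, rfl⟩)
  rw [← Finset.add_sum_erase _ _ h0m, ← Finset.add_sum_erase _ _ hjm] at h0 h1
  have r0 : ∑ k ∈ A, P.coeff k * ψ k ∈ K := sum_mem fun k hk => mul_mem (hA' k hk) (hψ' _)
  have r1 : ∑ k ∈ A, P.coeff k * ψ (k + 1) ∈ K := sum_mem fun k hk => mul_mem (hA' k hk) (hψ' _)
  set R0 := ∑ k ∈ A, P.coeff k * ψ k
  set R1 := ∑ k ∈ A, P.coeff k * ψ (k + 1)
  have hδ' : ψ 0 * ψ (j + 1) - ψ 1 * ψ j ≠ 0 := sub_ne_zero.2 hδ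
  have hδK : ψ 0 * ψ (j + 1) - ψ 1 * ψ j ∈ K :=
    sub_mem (mul_mem (hψ' _) (hψ' _)) (mul_mem (hψ' _) (hψ' _))
  have e0 : P.coeff 0 = (ψ j * R1 - ψ (j + 1) * R0) / (ψ 0 * ψ (j + 1) - ψ 1 * ψ j) := by
    rw [eq_div_iff hδ']
    simp only [zero_add] at h1
    linear_combination ψ (j + 1) * h0 - ψ j * h1
  have ej : P.coeff j = (ψ 1 * R0 - ψ 0 * R1) / (ψ 0 * ψ (j + 1) - ψ 1 * ψ j) := by
    rw [eq_div_iff hδ']
    simp only [zero_add] at h1
    linear_combination ψ 0 * h1 - ψ 1 * h0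
  have hall : ∀ k, P.coeff k ∈ K := by
    intro k
    by_cases hk0 : k = 0
    · rw [hk0, e0]
      exact div_mem (sub_mem (mul_mem (hψ' _) r1) (mul_mem (hψ' _) r0)) hδK
    by_cases hkj : k = j
    · rw [hkj, ej]
      exact div_mem (sub_mem (mul_mem (hψ' _) r0) (mul_mem (hψ' _) r1)) hδK
    by_cases hk : k < Fintype.card κ + 1
    · exact hA' k (by simp [hA, hk0, hkj]; omega)
    have hd : P.natDegree ≤ Fintype.card κ := by
      refine (Polynomial.natDegree_prod_le _ _).trans ?_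
      refine (Finset.sum_le_card_nsmul _ _ 1 fun i _ => ?_).trans (by simp)
      compute_degree
    rw [Polynomial.coeff_eq_zero_of_natDegree_lt (by omega)]
    exact zero_mem _
  have g2 := g1.trans (gen_factors (Z ∪ P.coeff '' A) s t hP hall)
  exact g2.mono subset_rfl Set.subset_union_right (by omega)

/-- One nonzero row of the Hankel matrix: `(s, t)` lose one dimension -/
theorem gen_rank_one (Z : Set Ω) (s t : κ → Ω) (c : (ι →₀ ℕ) → Ω) (hc : ∀ α, c α ∈ acl L Z)
    (n l l' : ι → Ω) (hn : ∀ i, n i ∈ acl L Z) (hl : ∀ i, l i ∈ acl L Z) (hl' : ∀ i, l' i ∈ acl L Z)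
    (h0 : ap c (lf n * ∏ i, (C (s i) * lf l + C (t i) * lf l')) = 0)
    (h1 : ap c (lf n * lf l ^ Fintype.card κ) ≠ 0 ∨ ap c (lf n * lf l' ^ Fintype.card κ) ≠ 0) :
    GenD L Z (Set.range s ∪ Set.range t) (2 * Fintype.card κ) 1 := by
  let P : MvPolynomial (κ ⊕ κ) (acl L Z) :=
    ap (fun α => C ⟨c α, hc α⟩) (lf (fun i => C (⟨n i, hn i⟩ : acl L Z)) *
      ∏ i, (C (X (Sum.inl i)) * lf (fun i => C (⟨l i, hl i⟩ : acl L Z)) +
        C (X (Sum.inr i)) * lf (fun i => C (⟨l' i, hl' i⟩ : acl L Z))))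
  have hP : ∀ s t : κ → Ω, aeval (Sum.elim s t) P =
      ap c (lf n * ∏ i, (C (s i) * lf l + C (t i) * lf l')) := by
    intro s t
    have := map_ap ((aeval (Sum.elim s t) : MvPolynomial (κ ⊕ κ) (acl L Z) →ₐ[acl L Z] Ω) :
      MvPolynomial (κ ⊕ κ) (acl L Z) →+* Ω) (fun α => C ⟨c α, hc α⟩) (lf (fun i => C (⟨n i, hn i⟩ : acl L Z)) *
      ∏ i, (C (X (Sum.inl i)) * lf (fun i => C (⟨l i, hl i⟩ : acl L Z)) +
        C (X (Sum.inr i)) * lf (fun i => C (⟨l' i, hl' i⟩ : acl L Z))))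
    simpa [map_lf, map_prod] using this
  have hP0 : P ≠ 0 := by
    intro h
    rcases h1 with h1 | h1
    · have := hP (fun _ => 1) (fun _ => 0)
      rw [h, map_zero] at this
      exact h1 (by simpa using this.symm)
    · have := hP (fun _ => 0) (fun _ => 1)
      rw [h, map_zero] at this
      exact h1 (by simpa using this.symm)
  have := GenD.drop Z (Sum.elim s t) P hP0 (by rw [hP, h0])
  refine this.mono subset_rfl ?_ (by simp [two_mul])
  rw [Set.Sum.elim_range]

variable [CharZero Ω]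

/-- a zero of the form `l ↦ c (l ^ a)` -/
theorem gen_pow (Z : Set Ω) (c : (ι →₀ ℕ) → Ω) (hc : ∀ α, c α ∈ acl L Z) {a : ℕ} (hne : ¬IsEv c a)
    (l : ι → Ω) (h : ap c (lf l ^ a) = 0) : GenD L Z (Set.range l) (Fintype.card ι) 1 := by
  let P : MvPolynomial ι (acl L Z) := ap (fun α => C ⟨c α, hc α⟩) (lf X ^ a)
  have hP : ∀ l : ι → Ω, aeval l P = ap c (lf l ^ a) := by
    intro l
    have := map_ap ((aeval l : MvPolynomial ι (acl L Z) →ₐ[acl L Z] Ω) :
      MvPolynomial ι (acl L Z) →+* Ω) (fun α => C ⟨c α, hc α⟩) (lf X ^ a)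
    simpa [map_lf] using this
  refine GenD.drop Z l P (fun h0 => hne (isEv_of_pow 0 0 fun l' => ?_)) (by rw [hP, h])
  rw [← hP, h0, map_zero, zero_mul]

/-- Hankel rank at most one: `(l, l')` lose one dimension -/
theorem gen_hankel (Z : Set Ω) (c : (ι →₀ ℕ) → Ω) (hc : ∀ α, c α ∈ acl L Z) {a : ℕ}
    (hne : ¬IsEv c a) (l l' : ι → Ω) (h : ∀ j, j < a →
      psi c a l l' 0 * psi c a l l' (j + 1) = psi c a l l' 1 * psi c a l l' j) :
    GenD L Z (Set.range l ∪ Set.range l') (2 * Fintype.card ι) 1 := by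
  let ψ : ℕ → MvPolynomial (ι ⊕ ι) (acl L Z) :=
    psi (fun α => C ⟨c α, hc α⟩) a (fun i => X (Sum.inl i)) (fun i => X (Sum.inr i))
  have hψ : ∀ (l l' : ι → Ω) (j : ℕ), aeval (Sum.elim l l') (ψ j) = psi c a l l' j := by
    intro l l' j
    have := map_psi ((aeval (Sum.elim l l') : MvPolynomial (ι ⊕ ι) (acl L Z) →ₐ[acl L Z] Ω) :
      MvPolynomial (ι ⊕ ι) (acl L Z) →+* Ω) (fun α => C ⟨c α, hc α⟩) a (fun i => X (Sum.inl i))
      (fun i => X (Sum.inr i)) j
    simpa using this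
  have h1 : ∃ j, j < a ∧ ψ 0 * ψ (j + 1) - ψ 1 * ψ j ≠ 0 := by
    by_contra h2
    push Not at h2
    refine hne (isEv_of_hankel fun l l' j hj => ?_)
    have := congrArg (aeval (Sum.elim l l')) (h2 j hj)
    simp only [map_sub, map_mul, hψ, map_zero] at this
    exact sub_eq_zero.1 this
  obtain ⟨j, hj, hne'⟩ := h1
  have := GenD.drop Z (Sum.elim l l') _ hne' (by
    simp only [map_sub, map_mul, hψ]
    exact sub_eq_zero.2 (h j hj))
  refine this.mono subset_rfl ?_ (by simp [two_mul])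
  rw [Set.Sum.elim_range]

/-- The block lemma. -/
theorem gen_block (Z : Set Ω) (c : (ι →₀ ℕ) → Ω) (hc : ∀ α, c α ∈ acl L Z)
    (hne : ¬IsEv c (Fintype.card κ + 1)) (l l' : ι → Ω) (s t : κ → Ω)
    (h0 : ap c (lf l * ∏ i, (C (s i) * lf l + C (t i) * lf l')) = 0)
    (h1 : ap c (lf l' * ∏ i, (C (s i) * lf l + C (t i) * lf l')) = 0) :
    GenD L Z ((Set.range l ∪ Set.range l') ∪ (Set.range s ∪ Set.range t))
      (2 * Fintype.card ι + 2 * Fintype.card κ) 2 := by
  set a := Fintype.card κ + 1 with ha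
  set Z' := Z ∪ (Set.range l ∪ Set.range l') with hZ'
  have hc' : ∀ α, c α ∈ acl L Z' := fun α => acl_mono Set.subset_union_left (hc α)
  have hl : ∀ i, l i ∈ acl L Z' := fun i => subset_acl _ (Or.inr (Or.inl ⟨i, rfl⟩))
  have hl' : ∀ i, l' i ∈ acl L Z' := fun i => subset_acl _ (Or.inr (Or.inr ⟨i, rfl⟩))
  have gl : GenD L Z (Set.range l ∪ Set.range l') (2 * Fintype.card ι) 0 :=
    ((GenD.range Z l).trans (GenD.range _ l')).mono subset_rfl subset_rfl (by omega)
  have gs : GenD L Z' (Set.range s ∪ Set.range t) (2 * Fintype.card κ) 0 :=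
    ((GenD.range Z' s).trans (GenD.range _ t)).mono subset_rfl subset_rfl (by omega)
  by_cases hr : ∀ j, j < a →
      psi c a l l' 0 * psi c a l l' (j + 1) = psi c a l l' 1 * psi c a l l' j
  · by_cases e0 : ap c (lf l ^ a) = 0
    · by_cases e1 : ap c (lf l' ^ a) = 0
      · have g1 := (gen_pow Z c hc hne l e0).trans
          ((gen_pow Z c hc hne l' e1).mono Set.subset_union_left subset_rfl le_rfl)
        exact (g1.trans gs).mono subset_rfl subset_rfl (by omega)
      · exact (gen_hankel Z c hc hne l l' hr).trans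
          (gen_rank_one Z' s t c hc' l' l l' hl' hl hl' h1 (Or.inr (by rwa [← pow_succ'])))
    · exact (gen_hankel Z c hc hne l l' hr).trans
        (gen_rank_one Z' s t c hc' l l l' hl hl hl' h0 (Or.inl (by rwa [← pow_succ'])))
  · push Not at hr
    obtain ⟨j, hj, hδ⟩ := hr
    refine gl.trans (gen_rank_two Z' s t (psi c a l l')
      (coeff_lf_pow_mem _ hc' hl hl' a) j hj hδ ?_ ?_)
    · rw [← h0, prod_expand, Finset.mul_sum, map_sum]
      refine Finset.sum_congr rfl fun k hk => ?_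
      have hk' := Finset.mem_range.1 hk
      rw [mul_left_comm, ← smul_eq_C_mul, map_smul, smul_eq_mul, psi, ← mul_assoc (lf l), ← pow_succ',
        show a - k = Fintype.card κ - k + 1 by omega]
    · rw [← h1, prod_expand, Finset.mul_sum, map_sum]
      refine Finset.sum_congr rfl fun k hk => ?_
      rw [mul_left_comm, ← smul_eq_C_mul, map_smul, smul_eq_mul, psi, mul_left_comm (lf l'),
        ← pow_succ', show a - (k + 1) = Fintype.card κ - k by omega]

end Crest.Agent.R181.A1B
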