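import Mathlib

/-! Row 181, bad locus, part 1: a calculus for transcendence degree bounds. -/

set_option autoImplicit false

namespace Crest.Agent.R181.A1B

open MvPolynomial

variable (L : Type) {Ω : Type} [Field L] [Field Ω] [Algebra L Ω]

/-- The elements algebraic over `L[Z]`. -/
noncomputable def acl (Z : Set Ω) : IntermediateField L Ω :=
  Subalgebra.toIntermediateField
    ((Subalgebra.algebraicClosure (Algebra.adjoin L Z) Ω).restrictScalars L)
    (fun _ hx => IsAlgebraic.inv hx)

variable {L}

theorem mem_acl {Z : Set Ω} {x : Ω} : x ∈ acl L Z ↔ IsAlgebraic (Algebra.adjoin L Z) x := Iff.rfl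

theorem acl_eq (Z : Set Ω) :
    (acl L Z : Set Ω) = (AlgebraicIndependent.matroid L Ω).closure Z := by
  rw [AlgebraicIndependent.matroid_closure_eq]
  rfl

theorem subset_acl (Z : Set Ω) : Z ⊆ acl L Z := by
  rw [acl_eq]
  exact Matroid.subset_closure _ _ (by simp)

theorem acl_le {X Z : Set Ω} (h : X ⊆ acl L Z) : acl L X ≤ acl L Z := by
  intro x hx
  have hx' : x ∈ (acl L X : Set Ω) := hx
  change x ∈ (acl L Z : Set Ω)
  rw [acl_eq] at hx' h ⊢
  exact Matroid.closure_subset_closure_of_subset_closure h hx'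

theorem acl_mono {X Z : Set Ω} (h : X ⊆ Z) : acl L X ≤ acl L Z :=
  acl_le (h.trans (subset_acl Z))

/-- roots of nonzero polynomials with coefficients in `acl Z` -/
theorem root_mem {Z : Set Ω} {p : Polynomial Ω} (hp : p ≠ 0) (hc : ∀ k, p.coeff k ∈ acl L Z)
    {x : Ω} (hx : p.eval x = 0) : x ∈ acl L Z := by
  refine acl_le (X := (acl L Z : Set Ω)) subset_rfl ?_
  rw [mem_acl]
  have h1 : p ∈ Polynomial.lifts (algebraMap (Algebra.adjoin L (acl L Z : Set Ω)) Ω) := by
    rw [Polynomial.lifts_iff_coeff_lifts]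
    intro k
    exact ⟨⟨p.coeff k, Algebra.subset_adjoin (hc k)⟩, rfl⟩
  obtain ⟨q, hq⟩ := h1
  refine ⟨q, ?_, ?_⟩
  · rintro rfl
    exact hp (by simpa using hq.symm)
  · rw [Polynomial.aeval_def, Polynomial.eval₂_eq_eval_map]
    have : q.map (algebraMap _ Ω) = p := hq
    rw [this, hx]

variable (L) in
/-- `X` is algebraic over `Z` and `n - d` further elements. -/
def GenD (Z X : Set Ω) (n d : ℕ) : Prop :=
  ∃ G : Finset Ω, G.card + d ≤ n ∧ X ⊆ acl L (Z ∪ G)

theorem GenD.trans {Z X Y : Set Ω} {n m d e : ℕ} (h : GenD L Z X n d)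
    (h' : GenD L (Z ∪ X) Y m e) : GenD L Z (X ∪ Y) (n + m) (d + e) := by
  classical
  obtain ⟨G, hG, hX⟩ := h
  obtain ⟨G', hG', hY⟩ := h'
  refine ⟨G ∪ G', ?_, ?_⟩
  · have := Finset.card_union_le G G'
    omega
  have h1 : acl L (Z ∪ G) ≤ acl L (Z ∪ ((G ∪ G' : Finset Ω) : Set Ω)) :=
    acl_mono (by
      rw [Finset.coe_union]
      exact Set.union_subset_union_right _ Set.subset_union_left)
  refine Set.union_subset (hX.trans h1) (hY.trans (acl_le ?_))
  refine Set.union_subset (Set.union_subset ?_ (hX.trans h1)) ?_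
  · exact Set.subset_union_left.trans (subset_acl _)
  · refine Set.Subset.trans ?_ (subset_acl _)
    rw [Finset.coe_union]
    exact Set.subset_union_right.trans Set.subset_union_right

theorem GenD.mono {Z Z' X X' : Set Ω} {n n' d d' : ℕ} (h : GenD L Z X n d) (hZ : Z ⊆ Z')
    (hX : X' ⊆ X) (hn : n + d' ≤ n' + d) : GenD L Z' X' n' d' := by
  obtain ⟨G, hG, hX'⟩ := h
  exact ⟨G, by omega, hX.trans (hX'.trans (acl_mono (Set.union_subset_union_left _ hZ)))⟩

theorem GenD.of_subset {Z X : Set Ω} (h : X ⊆ acl L Z) : GenD L Z X 0 0 :=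
  ⟨∅, by simp, by simpa using h⟩

theorem GenD.image {κ : Type} (Z : Set Ω) (x : κ → Ω) (s : Finset κ) :
    GenD L Z (x '' s) s.card 0 := by
  classical
  refine ⟨s.image x, Finset.card_image_le, ?_⟩
  rw [Finset.coe_image]
  exact Set.subset_union_right.trans (subset_acl _)

theorem GenD.range {κ : Type} [Fintype κ] (Z : Set Ω) (x : κ → Ω) :
    GenD L Z (Set.range x) (Fintype.card κ) 0 := by
  simpa using GenD.image (L := L) Z x Finset.univ

/-- one algebraic relation lowers the bound by one -/
theorem GenD.drop {κ : Type} [Fintype κ] (Z : Set Ω) (x : κ → Ω) (P : MvPolynomial κ (acl L Z))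
    (hP : P ≠ 0) (hx : aeval x P = 0) : GenD L Z (Set.range x) (Fintype.card κ) 1 := by
  classical
  obtain ⟨B, hB⟩ := (AlgebraicIndependent.matroid (acl L Z) Ω).exists_isBasis (Set.range x)
  obtain ⟨h1, h2, h3⟩ := AlgebraicIndependent.matroid_isBasis_iff.1 hB
  have hfin : B.Finite := (Set.finite_range x).subset h2
  refine ⟨hfin.toFinset, ?_, ?_⟩
  · by_contra hlt
    have hle : Fintype.card κ ≤ hfin.toFinset.card := by omega
    have hsub : hfin.toFinset ⊆ Finset.univ.image x := by
      intro b hb
      obtain ⟨i, rfl⟩ := h2 (hfin.mem_toFinset.1 hb)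
      exact Finset.mem_image_of_mem _ (Finset.mem_univ _)
    have hc := Finset.card_le_card hsub
    have hc' : (Finset.univ.image x).card ≤ Fintype.card κ := Finset.card_image_le
    have hinj : Function.Injective x := by
      have : (Finset.univ.image x).card = (Finset.univ : Finset κ).card := by
        rw [Finset.card_univ]; omega
      have := Finset.card_image_iff.1 this
      intro i j hij
      exact this (Finset.mem_univ i) (Finset.mem_univ j) hij
    have heq : hfin.toFinset = Finset.univ.image x := Finset.eq_of_subset_of_card_le hsub (by omega)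
    have hB' : ∀ i, x i ∈ B := fun i => by
      rw [← hfin.mem_toFinset, heq]
      exact Finset.mem_image_of_mem _ (Finset.mem_univ _)
    have hind : AlgebraicIndependent (acl L Z) x :=
      AlgebraicIndependent.comp h1 (fun i => (⟨x i, hB' i⟩ : B))
        (fun i j hij => hinj (congrArg Subtype.val hij))
    exact hP (algebraicIndependent_iff.1 hind P hx)
  · rintro _ ⟨i, rfl⟩
    obtain ⟨q, hq, hq'⟩ := h3 (x i) ⟨i, rfl⟩
    have hsub : ∀ y : Algebra.adjoin (acl L Z) B, (y : Ω) ∈ acl L (Z ∪ hfin.toFinset) := by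
      rintro ⟨y, hy⟩
      induction hy using Algebra.adjoin_induction with
      | mem y hy => exact subset_acl _ (Or.inr (by simpa using hy))
      | algebraMap r => exact acl_mono Set.subset_union_left r.2
      | add _ _ _ _ h h' => exact add_mem h h'
      | mul _ _ _ _ h h' => exact mul_mem h h'
    refine root_mem (p := q.map (algebraMap _ Ω)) ?_ (fun k => ?_) ?_
    · exact (Polynomial.map_ne_zero_iff Subtype.val_injective).2 hq
    · rw [Polynomial.coeff_map]
      exact hsub _
    · rw [← Polynomial.eval₂_eq_eval_map, ← Polynomial.aeval_def, hq']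

theorem GenD.biUnion {β : Type} [DecidableEq β] (Z : Set Ω) (X : β → Set Ω) (n d : ℕ)
    (h : ∀ b, GenD L Z (X b) n d) (s : Finset β) :
    GenD L Z (⋃ b ∈ s, X b) (s.card * n) (s.card * d) := by
  induction s using Finset.induction_on with
  | empty => simpa using GenD.of_subset (L := L) (Z := Z) (X := ∅) (Set.empty_subset _)
  | insert b s hb ih =>
    have := ih.trans ((h b).mono (Z' := Z ∪ ⋃ b ∈ s, X b) Set.subset_union_left subset_rfl le_rfl)
    refine this.mono subset_rfl ?_ ?_
    · rw [Finset.set_biUnion_insert, Set.union_comm]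
    · rw [Finset.card_insert_of_notMem hb]
      nlinarith

/-- an algebraically independent family inside `X` is small -/
theorem GenD.card_le {X : Set Ω} {n d : ℕ} (h : GenD L ∅ X n d) {κ : Type} [Fintype κ]
    {x : κ → Ω} (hx : AlgebraicIndependent L x) (hX : ∀ i, x i ∈ X) : Fintype.card κ + d ≤ n := by
  obtain ⟨G, hG, hX'⟩ := h
  rw [Set.empty_union, acl_eq] at hX'
  have h1 : (AlgebraicIndependent.matroid L Ω).Indep (Set.range x) :=
    AlgebraicIndependent.matroid_indep_iff.2 hx.to_subtype_range
  have h2 := h1.encard_le_eRk_of_subset (X := (AlgebraicIndependent.matroid L Ω).closure G)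
    (by rintro _ ⟨i, rfl⟩; exact hX' (hX i))
  rw [Matroid.eRk_closure_eq] at h2
  have h3 := h2.trans (Matroid.eRk_le_encard _ _)
  rw [Set.encard_coe_eq_coe_finsetCard, ← Set.image_univ, hx.injective.encard_image,
    Set.encard_univ, ENat.card_eq_coe_fintype_card, Nat.cast_le] at h3
  omega

theorem anchor_A1BadCl : True := by
  have := @acl.eq_1
  have := @GenD.eq_1
  trivial

end Crest.Agent.R181.A1B
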