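import Mathlib

/-!
Row 181 (route 2): standard monomials over a skew field.

`X u` (`u` an exponent vector) is a commuting family of `D`-linear operators, given as a monoid map.
-/

set_option autoImplicit false

namespace Crest.Agent.R181.Mc

variable {D V : Type} [DivisionRing D] [AddCommGroup V] [Module D V] {σ : Type}

/-- `X` is a monoid map from exponent vectors to operators. -/
structure IsMon (X : (σ →₀ ℕ) → Module.End D V) : Prop where
  zero : X 0 = 1
  add : ∀ u v, X (u + v) = X u * X v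

/-- the vectors `X u (m i)` span -/
def Gens (X : (σ →₀ ℕ) → Module.End D V) {g : ℕ} (m : Fin g → V) (N : Submodule D V) : Prop :=
  Submodule.span D (Set.range fun p : Fin g × (σ →₀ ℕ) => X p.2 (m p.1)) = N

namespace McStd

section key

variable {I J : Type} [LinearOrder J] (key : I → J) (f : I → V)

/-- the indices that are standard modulo `N` -/
def Std (N : Submodule D V) : Set I :=
  {p | f p ∉ N ⊔ Submodule.span D (f '' {q | key q < key p})}

theorem mem_sup_std [WellFoundedLT J] (N : Submodule D V) (p : I) :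
    f p ∈ N ⊔ Submodule.span D (f '' Std key f N) := by
  induction h : key p using WellFoundedLT.induction generalizing p with
  | ind j ih =>
    by_cases hp : p ∈ Std key f N
    · exact Submodule.mem_sup_right (Submodule.subset_span ⟨p, hp, rfl⟩)
    · have h1 : f p ∈ N ⊔ Submodule.span D (f '' {q | key q < key p}) := not_not.1 hp
      refine (sup_le le_sup_left (Submodule.span_le.2 ?_) : _ ≤ N ⊔ _) h1
      rintro _ ⟨q, hq, rfl⟩
      exact ih (key q) (h ▸ hq) q rfl

theorem eq_zero_of_std (hk : Function.Injective key) (N : Submodule D V) (l : I →₀ D)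
    (hl : l ∈ Finsupp.supported D D (Std key f N)) (h : Finsupp.linearCombination D f l ∈ N) :
    l = 0 := by
  classical
  by_contra h0
  obtain ⟨p, hp, hmax⟩ := Finset.exists_max_image l.support key (Finsupp.support_nonempty_iff.2 h0)
  have hlp : l p ≠ 0 := Finsupp.mem_support_iff.1 hp
  refine hl hp ?_
  have e : Finsupp.linearCombination D f l = l p • f p + ∑ q ∈ l.support.erase p, l q • f q := by
    rw [Finsupp.linearCombination_apply, Finsupp.sum, Finset.add_sum_erase _ (fun q => l q • f q) hp]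
  have h1 : ∑ q ∈ l.support.erase p, l q • f q ∈ Submodule.span D (f '' {q | key q < key p}) := by
    refine Submodule.sum_mem _ fun q hq => Submodule.smul_mem _ _ (Submodule.subset_span ⟨q, ?_, rfl⟩)
    obtain ⟨h2, h3⟩ := Finset.mem_erase.1 hq
    exact lt_of_le_of_ne (hmax q h3) fun h4 => h2 (hk h4)
  have h2 : l p • f p ∈ N ⊔ Submodule.span D (f '' {q | key q < key p}) := by
    rw [eq_sub_of_add_eq e.symm]
    exact Submodule.sub_mem _ (Submodule.mem_sup_left h) (Submodule.mem_sup_right h1)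
  exact (Submodule.smul_mem_iff _ hlp).1 h2

theorem std_anti {N N' : Submodule D V} (h : N ≤ N') : Std key f N' ⊆ Std key f N :=
  fun _ hp h1 => hp (sup_le_sup_right h _ h1)

end key

theorem exists_key (σ : Type) [Finite σ] (g : ℕ) :
    ∃ (J : Type) (_ : LinearOrder J) (_ : WellFoundedLT J) (key : Fin g × (σ →₀ ℕ) → J),
      Function.Injective key ∧
      (∀ p q w, key p < key q → key (p.1, w + p.2) < key (q.1, w + q.2)) ∧
      ∀ p q, key p < key q → p.1 ≤ q.1 := by
  let _ : LinearOrder σ := LinearOrder.lift' (Finite.equivFin σ) (Equiv.injective _)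
  refine ⟨Fin g ×ₗ Lex (σ →₀ ℕ), inferInstance, inferInstance, fun p => toLex (p.1, toLex p.2),
    ?_, ?_, ?_⟩
  · intro p q h
    have h1 := toLex.injective h
    exact Prod.ext (congrArg Prod.fst h1) (toLex.injective (congrArg Prod.snd h1))
  · intro p q w h
    rw [Prod.Lex.toLex_lt_toLex] at h ⊢
    rcases h with h | ⟨h1, h2⟩
    · exact Or.inl h
    · refine Or.inr ⟨h1, ?_⟩
      simp only [toLex_add]
      exact add_lt_add_right h2 _
  · intro p q h
    rw [Prod.Lex.toLex_lt_toLex] at h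
    rcases h with h | ⟨h1, -⟩
    · exact h.le
    · exact h1.le

theorem upper {X : (σ →₀ ℕ) → Module.End D V} (hX : IsMon X) {g : ℕ} (m : Fin g → V) {J : Type}
    [LinearOrder J] (key : Fin g × (σ →₀ ℕ) → J)
    (hk : ∀ p q w, key p < key q → key (p.1, w + p.2) < key (q.1, w + q.2))
    (N : Submodule D V) (hN : ∀ u, ∀ x ∈ N, X u x ∈ N) (i : Fin g) :
    IsUpperSet {u | (i, u) ∉ Std key (fun p => X p.2 (m p.1)) N} := by
  intro u v huv hu
  obtain ⟨w, rfl⟩ := exists_add_of_le huv
  have h1 : X u (m i) ∈ N ⊔ Submodule.span D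
    ((fun p : Fin g × (σ →₀ ℕ) => X p.2 (m p.1)) '' {q | key q < key (i, u)}) := not_not.1 hu
  refine not_not.2 ?_
  show X (u + w) (m i) ∈ _
  rw [add_comm u w, hX.add, Module.End.mul_apply]
  refine (sup_le (fun x hx => ?_) (Submodule.span_le.2 ?_) :
    _ ≤ Submodule.comap (X w) (N ⊔ Submodule.span D _)) h1
  · exact Submodule.mem_sup_left (hN w x hx)
  · rintro _ ⟨q, hq, rfl⟩
    refine Submodule.mem_sup_right (Submodule.subset_span ⟨(q.1, w + q.2), hk q (i, u) w hq, ?_⟩)
    simp only [hX.add, Module.End.mul_apply]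

theorem acc_upper {α : Type} [Preorder α] [WellQuasiOrderedLE α] (U : ℕ → Set α) (hU : Monotone U)
    (hu : ∀ k, IsUpperSet (U k)) : ∃ k₀, ∀ k, k₀ ≤ k → U k = U k₀ := by
  by_contra h
  push Not at h
  have h1 : ∀ k, ∃ k', k ≤ k' ∧ ∃ x, x ∈ U k' ∧ x ∉ U k := by
    intro k
    obtain ⟨k', h1, h2⟩ := h k
    refine ⟨k', h1, ?_⟩
    by_contra h3
    push Not at h3
    exact h2 (Set.Subset.antisymm h3 (hU h1))
  choose nx h2 x h3 h4 using h1
  have hm : Monotone fun n => nx^[n] 0 :=
    monotone_nat_of_le_succ fun n => by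
      rw [Function.iterate_succ_apply']
      exact h2 _
  obtain ⟨a, b, hab, h5⟩ := wellQuasiOrdered_le (fun n => x (nx^[n] 0))
  have h6 : nx (nx^[a] 0) ≤ nx^[b] 0 := by
    have := hm (show a + 1 ≤ b from hab)
    simpa only [Function.iterate_succ_apply'] using this
  exact h4 _ (hU h6 (hu _ h5 (h3 _)))

end McStd

open McStd

/-- Standard monomials.  Order the pairs `(i, u)` by `i` first, then by a monomial order; call `(i, u)`
nonstandard (`u ∈ U i`) when `X u (m i)` lies in the span of the smaller pairs. -/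
theorem exists_std [Finite σ] {X : (σ →₀ ℕ) → Module.End D V} (hX : IsMon X) {g : ℕ} (m : Fin g → V) :
    ∃ U : Fin g → Set (σ →₀ ℕ), (∀ i, IsUpperSet (U i)) ∧
      LinearIndependent D (fun p : {p : Fin g × (σ →₀ ℕ) // p.2 ∉ U p.1} => X p.1.2 (m p.1.1)) ∧
      Submodule.span D (Set.range fun p : {p : Fin g × (σ →₀ ℕ) // p.2 ∉ U p.1} => X p.1.2 (m p.1.1)) =
        Submodule.span D (Set.range fun p : Fin g × (σ →₀ ℕ) => X p.2 (m p.1)) ∧
      (∀ i u, X u (m i) = 0 → u ∈ U i) ∧
      (∀ i : Fin g, (i : ℕ) = 0 → LinearIndependent D (fun u => X u (m i)) → U i = ∅) := by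
  obtain ⟨J, _, _, key, hk1, hk2, hk3⟩ := exists_key σ g
  set f : Fin g × (σ →₀ ℕ) → V := fun p => X p.2 (m p.1) with hf
  have e : {p : Fin g × (σ →₀ ℕ) | p.2 ∉ {u | (p.1, u) ∉ Std key f (⊥ : Submodule D V)}} =
      Std key f (⊥ : Submodule D V) := by
    ext p
    exact not_not
  refine ⟨fun i => {u | (i, u) ∉ Std key f (⊥ : Submodule D V)},
    upper hX m key hk2 ⊥ (fun u x hx => by rw [(Submodule.mem_bot D).1 hx, map_zero]; exact zero_mem _),
    ?_, ?_, ?_, ?_⟩
  · have : LinearIndepOn D f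
        {p : Fin g × (σ →₀ ℕ) | p.2 ∉ {u | (p.1, u) ∉ Std key f (⊥ : Submodule D V)}} := by
      rw [e, linearIndepOn_iff]
      exact fun l hl h => eq_zero_of_std key f hk1 ⊥ l hl ((Submodule.mem_bot D).2 h)
    exact this
  · refine le_antisymm (Submodule.span_mono ?_) (Submodule.span_le.2 ?_)
    · rintro _ ⟨p, rfl⟩
      exact ⟨p.1, rfl⟩
    · rintro _ ⟨p, rfl⟩
      have h1 := mem_sup_std (D := D) key f ⊥ p
      rw [bot_sup_eq] at h1
      refine Submodule.span_mono ?_ h1
      rintro _ ⟨q, hq, rfl⟩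
      exact ⟨⟨q, not_not.2 hq⟩, rfl⟩
  · intro i u h
    refine not_not.2 ?_
    show X u (m i) ∈ _
    rw [h]
    exact zero_mem _
  · intro i hi hli
    refine Set.eq_empty_of_forall_notMem fun u hu => ?_
    have h1 : X u (m i) ∈ ⊥ ⊔ Submodule.span D (f '' {q | key q < key (i, u)}) := not_not.1 hu
    rw [bot_sup_eq] at h1
    refine hli.notMem_span_image (s := {u}ᶜ) (x := u) (by simp) (Submodule.span_mono ?_ h1)
    rintro _ ⟨⟨l, v⟩, hq, rfl⟩
    have h2 : l ≤ i := hk3 _ _ hq
    have h3 : l = i := le_antisymm h2 (by rw [Fin.le_def, hi]; exact Nat.zero_le _)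
    subst h3
    refine ⟨v, ?_, rfl⟩
    rintro rfl
    exact lt_irrefl _ (show key (l, v) < key (l, v) from hq)

/-- Ascending chain condition for stable subspaces. -/
theorem acc [Finite σ] {X : (σ →₀ ℕ) → Module.End D V} (hX : IsMon X) {g : ℕ} (m : Fin g → V)
    (hm : Gens X m ⊤) (N : ℕ →o Submodule D V) (hN : ∀ k u, ∀ x ∈ N k, X u x ∈ N k) :
    ∃ k₀, ∀ k, k₀ ≤ k → N k = N k₀ := by
  obtain ⟨J, _, _, key, hk1, hk2, -⟩ := exists_key σ g
  set f : Fin g × (σ →₀ ℕ) → V := fun p => X p.2 (m p.1) with hf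
  have h1 := fun i : Fin g => acc_upper (fun k => {u | (i, u) ∉ Std key f (N k)})
    (fun a b hab u hu h => hu (std_anti key f (N.monotone hab) h))
    (fun k => upper hX m key hk2 (N k) (hN k) i)
  choose κ hκ using h1
  refine ⟨Finset.univ.sup κ, fun k hk => le_antisymm (fun x hx => ?_) (N.monotone hk)⟩
  set k₀ := Finset.univ.sup κ
  have h2 : Std key f (N k₀) ⊆ Std key f (N k) := by
    rintro ⟨i, u⟩ hp
    have h3 : κ i ≤ k₀ := Finset.le_sup (f := κ) (Finset.mem_univ i)
    have h4 := (hκ i k (h3.trans hk)).trans (hκ i k₀ h3).symm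
    by_contra h5
    have h6 : u ∈ {u | (i, u) ∉ Std key f (N k)} := h5
    rw [h4] at h6
    exact h6 hp
  have h3 : x ∈ N k₀ ⊔ Submodule.span D (f '' Std key f (N k₀)) := by
    have h4 : x ∈ Submodule.span D (Set.range f) := by
      rw [show Submodule.span D (Set.range f) = ⊤ from hm]
      trivial
    refine (Submodule.span_le.2 ?_ : _ ≤ N k₀ ⊔ _) h4
    rintro _ ⟨p, rfl⟩
    exact mem_sup_std key f _ p
  obtain ⟨n, hn, y, hy, rfl⟩ := Submodule.mem_sup.1 h3
  obtain ⟨l, hl, rfl⟩ := (Finsupp.mem_span_image_iff_linearCombination D).1 hy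
  have h4 : Finsupp.linearCombination D f l ∈ N k :=
    (Submodule.add_mem_iff_right _ (N.monotone hk hn)).1 hx
  rw [eq_zero_of_std key f hk1 (N k) l (Finsupp.supported_mono h2 hl) h4, map_zero, add_zero]
  exact hn

/-- A stable subspace spanned by a set `s` is generated by finitely many members of `s`. -/
theorem exists_gens [Finite σ] {X : (σ →₀ ℕ) → Module.End D V} (hX : IsMon X) {g : ℕ} (m : Fin g → V)
    (hm : Gens X m ⊤) (N : Submodule D V) (hN : ∀ u, ∀ x ∈ N, X u x ∈ N) (s : Set V)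
    (hs : Submodule.span D s = N) :
    ∃ (g' : ℕ) (m' : Fin g' → V), (∀ i, m' i ∈ s) ∧ Gens X m' N := by
  classical
  set G : Finset V → Submodule D V := fun t => Submodule.span D {y | ∃ u, ∃ x ∈ t, y = X u x} with hG
  have hGm : Monotone G := fun t t' h => Submodule.span_mono fun y ⟨u, x, hx, e⟩ => ⟨u, x, h hx, e⟩
  have hGs : ∀ t u, ∀ x ∈ G t, X u x ∈ G t := by
    intro t u x hx
    refine (Submodule.span_le.2 ?_ : G t ≤ Submodule.comap (X u) (G t)) hx
    rintro _ ⟨v, y, hy, rfl⟩
    exact Submodule.subset_span ⟨u + v, y, hy, by rw [hX.add, Module.End.mul_apply]⟩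
  have key : ∃ t : Finset V, (t : Set V) ⊆ s ∧ s ⊆ G t := by
    by_contra h
    have h1 : ∀ t : {t : Finset V // (t : Set V) ⊆ s}, ∃ x ∈ s, x ∉ G t.1 := fun t =>
      Set.not_subset.1 fun h2 => h ⟨t.1, t.2, h2⟩
    choose x hx1 hx2 using h1
    let nx : {t : Finset V // (t : Set V) ⊆ s} → {t : Finset V // (t : Set V) ⊆ s} := fun t =>
      ⟨insert (x t) t.1, by rw [Finset.coe_insert]; exact Set.insert_subset (hx1 t) t.2⟩
    let T : ℕ → {t : Finset V // (t : Set V) ⊆ s} := fun n => nx^[n] ⟨∅, by simp⟩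
    have hT : ∀ n, (T (n + 1)).1 = insert (x (T n)) (T n).1 := fun n =>
      congrArg Subtype.val (Function.iterate_succ_apply' nx n _)
    obtain ⟨k, hk⟩ := acc hX m hm ⟨fun n => G (T n).1, monotone_nat_of_le_succ fun n =>
      hGm (by rw [hT]; exact Finset.subset_insert _ _)⟩ fun k => hGs _
    have h2 : G (T (k + 1)).1 = G (T k).1 := hk (k + 1) (Nat.le_succ k)
    refine hx2 (T k) ?_
    rw [← h2, hT]
    exact Submodule.subset_span ⟨0, _, Finset.mem_insert_self _ _, by rw [hX.zero]; rfl⟩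
  obtain ⟨t, ht1, ht2⟩ := key
  refine ⟨t.card, fun i => (t.equivFin.symm i).1, fun i => ht1 (t.equivFin.symm i).2, ?_⟩
  refine le_antisymm (Submodule.span_le.2 ?_) ?_
  · rintro _ ⟨p, rfl⟩
    exact hN _ _ (hs ▸ Submodule.subset_span (ht1 (t.equivFin.symm p.1).2))
  · rw [← hs]
    refine (Submodule.span_le.2 ht2).trans (Submodule.span_mono ?_)
    rintro _ ⟨u, x, hx, rfl⟩
    exact ⟨(t.equivFin ⟨x, hx⟩, u), by simp⟩

/-- A basis of homogeneous vectors: the piece of degree `γ` is spanned by the basis vectors of degree `γ`. -/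
theorem piece_eq_span {ι Γ : Type} [DecidableEq Γ] (b : ι → V) (hb : LinearIndependent D b)
    (deg : ι → Γ) (γ : Γ) (p : Module.End D V) (hp : ∀ i, p (b i) = if deg i = γ then b i else 0) :
    LinearMap.eqLocus p 1 ⊓ Submodule.span D (Set.range b) =
      Submodule.span D (Set.range fun i : {i // deg i = γ} => b i.1) := by
  have _ := hb
  refine le_antisymm ?_ (Submodule.span_le.2 ?_)
  · rintro x ⟨h1, h2⟩
    have h3 : p x = x := h1
    rw [← h3]
    refine (Submodule.span_le.2 ?_ : _ ≤ Submodule.comap p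
      (Submodule.span D (Set.range fun i : {i // deg i = γ} => b i.1))) h2
    rintro _ ⟨i, rfl⟩
    show p (b i) ∈ Submodule.span D _
    rw [hp]
    split_ifs with h
    · exact Submodule.subset_span ⟨⟨i, h⟩, rfl⟩
    · exact zero_mem _
  · rintro _ ⟨i, rfl⟩
    refine ⟨?_, Submodule.subset_span ⟨i.1, rfl⟩⟩
    show p (b i.1) = b i.1
    rw [hp, if_pos i.2]

theorem finrank_piece {ι Γ : Type} [DecidableEq Γ] (b : ι → V) (hb : LinearIndependent D b)
    (deg : ι → Γ) (γ : Γ) (p : Module.End D V) (hp : ∀ i, p (b i) = if deg i = γ then b i else 0) :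
    Module.finrank D (LinearMap.eqLocus p 1 ⊓ Submodule.span D (Set.range b) : Submodule D V) =
      Nat.card {i // deg i = γ} := by
  rw [piece_eq_span b hb deg γ p hp]
  exact Module.finrank_eq_nat_card_basis
    (Module.Basis.span (hb.comp (fun i : {i // deg i = γ} => i.1) Subtype.val_injective))

end Crest.Agent.R181.Mc
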