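import Crest.Agent.R181.KFun
import Crest.Agent.R181.McStd

/-!
Row 181, module K, part 2: graded modules over `D[x]` (`D` a skew field), graded pairs `A ≤ B` in a
fixed ambient module, Hilbert functions.
-/

set_option autoImplicit false

namespace Crest.Agent.R181.K

open MvPolynomial

/-- A finitely generated graded module over `D[x]` with finite-dimensional pieces. -/
structure GM (D L : Type) [DivisionRing D] [Field L] [Algebra L D] {σ Y : Type} [AddCommGroup Y]
    (w : σ → Y) (M : Type) [AddCommGroup M] [Module D M] where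
  ρ : MvPolynomial σ L →+* Module.End D M
  ρ_C : ∀ c m, ρ (C c) m = algebraMap L D c • m
  π : Y → Module.End D M
  π_self : ∀ y m, π y (π y m) = π y m
  π_ne : ∀ y y' m, y ≠ y' → π y (π y' m) = 0
  ρ_π : ∀ j y m, ρ (X j) (π y m) = π (y + w j) (ρ (X j) m)
  fd : ∀ y, Module.Finite D (LinearMap.range (π y))
  fg : ∃ s : Finset M, Submodule.span D {x | ∃ g, ∃ m ∈ s, x = ρ g m} = ⊤

variable {D L : Type} [DivisionRing D] [Field L] [Algebra L D] {σ Y : Type} [AddCommGroup Y]
  {w : σ → Y} {M : Type} [AddCommGroup M] [Module D M]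
  {M' : Type} [AddCommGroup M'] [Module D M']

namespace GM

/-- Graded submodules. -/
structure Good (G : GM D L w M) (N : Submodule D M) : Prop where
  st : ∀ g, ∀ m ∈ N, G.ρ g m ∈ N
  gr : ∀ y, ∀ m ∈ N, G.π y m ∈ N

/-- The Hilbert function of a graded subspace. -/
noncomputable def hf (G : GM D L w M) (N : Submodule D M) : Y → ℤ :=
  fun y => (Module.finrank D (N.map (G.π y)) : ℤ)

/-- The Hilbert function of the pair `A ≤ B`. -/
noncomputable def H (G : GM D L w M) (A B : Submodule D M) : Y → ℤ := G.hf B - G.hf A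

/-- Homogeneous maps of degree `v`. -/
def Hom (G : GM D L w M) (G' : GM D L w M') (f : M →ₗ[D] M') (v : Y) : Prop :=
  ∀ y m, f (G.π y m) = G'.π (y + v) (f m)

/-- Maps commuting with the polynomial action. -/
def Lin (G : GM D L w M) (G' : GM D L w M') (f : M →ₗ[D] M') : Prop :=
  ∀ g m, f (G.ρ g m) = G'.ρ g (f m)

/-- `B / A` has codimension at least `c` over the variables in `T`. -/
def Small (G : GM D L w M) (T : Finset σ) (c : ℕ) (A B : Submodule D M) : Prop :=
  ∀ S ⊆ T, T.card < S.card + c →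
    ∃ g : MvPolynomial σ L, g ≠ 0 ∧ g ∈ supported L (S : Set σ) ∧ ∀ m ∈ B, G.ρ g m ∈ A

variable (G : GM D L w M) (G' : GM D L w M')

theorem H_apply (A B : Submodule D M) (y : Y) : G.H A B y = G.hf B y - G.hf A y := rfl

theorem H_add (A B C : Submodule D M) : G.H A C = G.H A B + G.H B C := by
  simp [H]

theorem H_self (A : Submodule D M) : G.H A A = 0 := by
  simp [H]

theorem ρ_comm (g g' : MvPolynomial σ L) (m : M) : G.ρ g (G.ρ g' m) = G.ρ g' (G.ρ g m) := by
  rw [← Module.End.mul_apply, ← map_mul, mul_comm, map_mul, Module.End.mul_apply]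

theorem lin_ρ (g : MvPolynomial σ L) : G.Lin G (G.ρ g) := fun g' m => G.ρ_comm g g' m

/-- Stability under the variables is enough. -/
theorem st_of_X {N : Submodule D M} (h : ∀ j, ∀ m ∈ N, G.ρ (X j) m ∈ N) :
    ∀ g, ∀ m ∈ N, G.ρ g m ∈ N := by
  intro g
  induction g using MvPolynomial.induction_on with
  | C a =>
    intro m hm
    rw [G.ρ_C]
    exact N.smul_mem _ hm
  | add p q hp hq =>
    intro m hm
    rw [map_add, LinearMap.add_apply]
    exact N.add_mem (hp m hm) (hq m hm)
  | mul_X p j hp =>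
    intro m hm
    rw [map_mul, Module.End.mul_apply]
    exact hp _ (h j m hm)

theorem ρ_monomial (u : σ →₀ ℕ) (c : L) (m : M) :
    G.ρ (monomial u c) m = algebraMap L D c • G.ρ (monomial u 1) m := by
  rw [← G.ρ_C, ← Module.End.mul_apply, ← map_mul, C_mul_monomial, mul_one]

theorem ρ_eq_sum (g : MvPolynomial σ L) (m : M) :
    G.ρ g m = ∑ u ∈ g.support, algebraMap L D (coeff u g) • G.ρ (monomial u 1) m := by
  conv_lhs => rw [g.as_sum, map_sum, LinearMap.sum_apply]
  exact Finset.sum_congr rfl fun u _ => G.ρ_monomial u _ m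

/-- The chain condition for stable subspaces. -/
theorem noeth [Finite σ] (N : ℕ →o Submodule D M) (hN : ∀ k g, ∀ m ∈ N k, G.ρ g m ∈ N k) :
    ∃ k₀, ∀ k, k₀ ≤ k → N k = N k₀ := by
  obtain ⟨s, hs⟩ := G.fg
  have hX : Mc.IsMon (D := D) fun u : σ →₀ ℕ => G.ρ (monomial u 1) :=
    ⟨map_one G.ρ, fun u v => by rw [← map_mul, monomial_mul, one_mul]⟩
  refine Mc.acc hX (fun i : Fin s.card => (s.equivFin.symm i : M)) ?_ N fun k u => hN k _
  refine eq_top_iff.2 (hs ▸ Submodule.span_le.2 ?_)
  rintro _ ⟨g, m, hm, rfl⟩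
  rw [G.ρ_eq_sum]
  refine Submodule.sum_mem _ fun u _ => Submodule.smul_mem _ _ (Submodule.subset_span ?_)
  exact ⟨(s.equivFin ⟨m, hm⟩, u), by simp⟩

theorem hom_X_pow (j : σ) (e : ℕ) : G.Hom G (G.ρ (X j ^ e)) (e • w j) := by
  induction e with
  | zero =>
    intro y m
    simp
  | succ e ih =>
    intro y m
    rw [pow_succ, map_mul, Module.End.mul_apply, Module.End.mul_apply, G.ρ_π, ih, succ_nsmul',
      add_assoc]

theorem hom_monomial (u : σ →₀ ℕ) :
    G.Hom G (G.ρ (monomial u 1)) (Finsupp.weight w u) := by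
  induction u using Finsupp.induction with
  | zero =>
    intro y m
    rw [show (monomial (0 : σ →₀ ℕ) (1 : L)) = 1 from rfl]
    simp
  | single_add j e u _ _ ih =>
    intro y m
    rw [monomial_single_add, map_mul, Module.End.mul_apply, Module.End.mul_apply, ih,
      G.hom_X_pow, map_add, Finsupp.weight_single, add_assoc, add_comm (e • w j)]

theorem hom_ρ {g : MvPolynomial σ L} {v : Y} (hg : IsWeightedHomogeneous w g v) :
    G.Hom G (G.ρ g) v := by
  intro y m
  rw [G.ρ_eq_sum, G.ρ_eq_sum, map_sum]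
  refine Finset.sum_congr rfl fun u hu => ?_
  rw [map_smul, G.hom_monomial u y m, hg (mem_support_iff.1 hu)]

theorem good_bot : G.Good ⊥ := by
  refine ⟨fun g m hm => ?_, fun y m hm => ?_⟩
  · rw [(Submodule.mem_bot D).1 hm, map_zero]
    exact zero_mem _
  · rw [(Submodule.mem_bot D).1 hm, map_zero]
    exact zero_mem _

theorem good_top : G.Good ⊤ := by
  exact ⟨fun _ _ _ => trivial, fun _ _ _ => trivial⟩

variable {G G'}

theorem Good.sup {A B : Submodule D M} (hA : G.Good A) (hB : G.Good B) : G.Good (A ⊔ B) := by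
  refine ⟨fun g m hm => ?_, fun y m hm => ?_⟩
  · obtain ⟨a, ha, b, hb, rfl⟩ := Submodule.mem_sup.1 hm
    rw [map_add]
    exact Submodule.add_mem_sup (hA.st g a ha) (hB.st g b hb)
  · obtain ⟨a, ha, b, hb, rfl⟩ := Submodule.mem_sup.1 hm
    rw [map_add]
    exact Submodule.add_mem_sup (hA.gr y a ha) (hB.gr y b hb)

theorem Good.inf {A B : Submodule D M} (hA : G.Good A) (hB : G.Good B) : G.Good (A ⊓ B) := by
  exact ⟨fun g m hm => ⟨hA.st g m hm.1, hB.st g m hm.2⟩, fun y m hm => ⟨hA.gr y m hm.1, hB.gr y m hm.2⟩⟩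

theorem Good.iSup {κ : Sort*} {A : κ → Submodule D M} (hA : ∀ k, G.Good (A k)) :
    G.Good (⨆ k, A k) := by
  have key : ∀ f : Module.End D M, (∀ k, ∀ m ∈ A k, f m ∈ A k) →
      ∀ m ∈ ⨆ k, A k, f m ∈ ⨆ k, A k := by
    intro f hf m hm
    have : (⨆ k, A k) ≤ (⨆ k, A k).comap f :=
      iSup_le fun k x hx => Submodule.mem_iSup_of_mem k (hf k x hx)
    exact this hm
  exact ⟨fun g => key _ fun k => (hA k).st g, fun y => key _ fun k => (hA k).gr y⟩

theorem Good.map {f : M →ₗ[D] M'} {v : Y} (hf : G.Hom G' f v) (hl : G.Lin G' f)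
    {B : Submodule D M} (hB : G.Good B) : G'.Good (B.map f) := by
  refine ⟨?_, ?_⟩
  · rintro g _ ⟨m, hm, rfl⟩
    exact ⟨_, hB.st g m hm, hl g m⟩
  · rintro y _ ⟨m, hm, rfl⟩
    refine ⟨_, hB.gr (y - v) m hm, ?_⟩
    rw [hf, sub_add_cancel]

theorem Good.comap {f : M →ₗ[D] M'} {v : Y} (hf : G.Hom G' f v) (hl : G.Lin G' f)
    {A : Submodule D M'} (hA : G'.Good A) : G.Good (A.comap f) := by
  refine ⟨fun g m hm => ?_, fun y m hm => ?_⟩
  · rw [Submodule.mem_comap, hl]
    exact hA.st g _ hm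
  · rw [Submodule.mem_comap, hf]
    exact hA.gr _ _ hm

theorem KGM2_fin (G : GM D L w M) (N : Submodule D M) (y : Y) :
    Module.Finite D (N.map (G.π y)) :=
  haveI := G.fd y
  Submodule.finiteDimensional_of_le (S₂ := LinearMap.range (G.π y)) LinearMap.map_le_range

theorem KGM2_rn (f : M →ₗ[D] M') (R : Submodule D M) [Module.Finite D R] :
    Module.finrank D (R.map f) + Module.finrank D (R ⊓ LinearMap.ker f : Submodule D M) =
      Module.finrank D R := by
  have h := LinearMap.finrank_range_add_finrank_ker (f.domRestrict R)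
  rw [LinearMap.range_domRestrict, LinearMap.ker_domRestrict,
    ← Submodule.finrank_map_subtype_eq R, Submodule.map_comap_subtype] at h
  exact h

theorem KGM2_iso (f : M →ₗ[D] M') (P : Submodule D M) (Q : Submodule D M') [Module.Finite D P]
    [Module.Finite D Q] :
    Module.finrank D (P.map f ⊔ Q : Submodule D M') +
      Module.finrank D (P ⊓ Q.comap f : Submodule D M) =
      Module.finrank D P + Module.finrank D Q := by
  haveI : Module.Finite D (P ⊓ Q.comap f : Submodule D M) :=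
    Submodule.finiteDimensional_of_le (S₂ := P) inf_le_left
  have h1 := Submodule.finrank_sup_add_finrank_inf_eq (P.map f) Q
  have h2 := KGM2_rn f P
  have h3 := KGM2_rn f (P ⊓ Q.comap f)
  have e : (P ⊓ Q.comap f) ⊓ LinearMap.ker f = P ⊓ LinearMap.ker f := by
    rw [inf_assoc, inf_eq_right.2 (LinearMap.ker_le_comap f)]
  rw [e, ← Submodule.map_inf_eq_map_inf_comap] at h3
  omega

theorem H_nonneg {A B : Submodule D M} (h : A ≤ B) (y : Y) : 0 ≤ G.H A B y := by
  haveI := KGM2_fin G B y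
  have := Submodule.finrank_mono (Submodule.map_mono (f := G.π y) h)
  simp only [H_apply, hf]
  omega

/-- `H` vanishes at `y` exactly when the degree `y` part of `B` lies in `A`. -/
theorem H_eq_zero_iff {A B : Submodule D M} (hA : G.Good A) (h : A ≤ B) (y : Y) :
    G.H A B y = 0 ↔ ∀ m ∈ B, G.π y m ∈ A := by
  haveI := KGM2_fin G B y
  simp only [H_apply, hf]
  constructor
  · intro h0 m hm
    have e : A.map (G.π y) = B.map (G.π y) :=
      Submodule.eq_of_le_of_finrank_eq (Submodule.map_mono h) (by omega)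
    obtain ⟨a, ha, e'⟩ : G.π y m ∈ A.map (G.π y) := e ▸ Submodule.mem_map_of_mem hm
    exact e' ▸ hA.gr y a ha
  · intro h0
    have e : A.map (G.π y) = B.map (G.π y) := by
      refine le_antisymm (Submodule.map_mono h) ?_
      rintro _ ⟨m, hm, rfl⟩
      exact ⟨_, h0 m hm, G.π_self y m⟩
    rw [e, sub_self]

/-- The isomorphism theorem for pairs. -/
theorem H_iso {f : M →ₗ[D] M'} {v : Y} (hf : G.Hom G' f v) {B : Submodule D M} (hB : G.Good B)
    {A : Submodule D M'} (hA : G'.Good A) :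
    G'.H A (B.map f ⊔ A) = act (z v) (G.H (B ⊓ A.comap f) B) := by
  funext y'
  obtain ⟨y, rfl⟩ : ∃ y, y' = y + v := ⟨y' - v, (sub_add_cancel _ _).symm⟩
  rw [act_z, add_sub_cancel_right]
  haveI := KGM2_fin G B y
  haveI := KGM2_fin G' A (y + v)
  have e1 : (B.map f ⊔ A).map (G'.π (y + v)) =
      (B.map (G.π y)).map f ⊔ A.map (G'.π (y + v)) := by
    rw [Submodule.map_sup, ← Submodule.map_comp, ← Submodule.map_comp]
    congr 2
    exact LinearMap.ext fun m => (hf y m).symm
  have e2 : (B ⊓ A.comap f).map (G.π y) =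
      B.map (G.π y) ⊓ (A.map (G'.π (y + v))).comap f := by
    refine le_antisymm ?_ ?_
    · rintro _ ⟨m, ⟨hm, hm'⟩, rfl⟩
      exact ⟨⟨m, hm, rfl⟩, ⟨f m, hm', (hf y m).symm⟩⟩
    · rintro _ ⟨⟨m, hm, rfl⟩, ⟨a, ha, e⟩⟩
      refine ⟨G.π y m, ⟨hB.gr y m hm, ?_⟩, G.π_self y m⟩
      change f (G.π y m) ∈ A
      exact e ▸ hA.gr _ a ha
  have h := KGM2_iso f (B.map (G.π y)) (A.map (G'.π (y + v)))
  simp only [H_apply, GM.hf]
  rw [e1, e2]
  omega

/-- A pair killed by all variables has finite support. -/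
theorem finite_support [Finite σ] {A B : Submodule D M} (hA : G.Good A) (hB : G.Good B) (h : A ≤ B)
    (hX : ∀ j, ∀ m ∈ B, G.ρ (X j) m ∈ A) : (Function.support (G.H A B)).Finite := by
  by_contra hinf
  let y : ℕ ↪ Function.support (G.H A B) := Set.Infinite.natEmbedding _ hinf
  let N : ℕ →o Submodule D M :=
    ⟨fun k => A ⊔ ⨆ i < k, B.map (G.π (y i)), fun k k' hk =>
      sup_le_sup_left (biSup_mono fun i hi => lt_of_lt_of_le hi hk) A⟩
  have hNB : ∀ k, N k ≤ B := fun k => sup_le h (iSup₂_le fun i _ => by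
    rintro _ ⟨m, hm, rfl⟩
    exact hB.gr _ m hm)
  have hAN : ∀ k, A ≤ N k := fun k => le_sup_left
  obtain ⟨k, hk⟩ := G.noeth N fun k =>
    G.st_of_X fun j m hm => hAN k (hX j m (hNB k hm))
  have h1 : N k ≤ A.comap (G.π (y k)) := by
    refine sup_le (fun m hm => hA.gr _ m hm) (iSup₂_le fun i hi => ?_)
    rintro _ ⟨m, -, rfl⟩
    have : (y k : Y) ≠ y i := fun e => hi.ne' (y.injective (Subtype.ext e))
    change G.π (y k) (G.π (y i) m) ∈ A
    rw [G.π_ne _ _ _ this]
    exact A.zero_mem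
  refine (y k).2 ((H_eq_zero_iff hA h _).2 fun m hm => ?_)
  have h2 : B.map (G.π (y k)) ≤ N (k + 1) :=
    le_sup_of_le_right (le_iSup₂_of_le (f := fun i (_ : i < k + 1) => B.map (G.π (y i))) k
      (Nat.lt_succ_self k) le_rfl)
  have h3 := h1 (hk (k + 1) (Nat.le_succ k) ▸ h2 (Submodule.mem_map_of_mem hm))
  rw [Submodule.mem_comap, G.π_self] at h3
  exact h3

theorem Small.mono {T : Finset σ} {c : ℕ} {A B A' B' : Submodule D M} (h : G.Small T c A B)
    (hA : A ≤ A') (hB : B' ≤ B) : G.Small T c A' B' := by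
  intro S hS hc
  obtain ⟨g, h0, h1, h2⟩ := h S hS hc
  exact ⟨g, h0, h1, fun m hm => hA (h2 m (hB hm))⟩

theorem small_zero (T : Finset σ) (A B : Submodule D M) : G.Small T 0 A B := by
  intro S hS hc
  have := Finset.card_le_card hS
  omega

end GM

/-- The ideal generated by `𝒟` has codimension at least `c` over the variables in `T`. -/
def Codim (T : Finset σ) (c : ℕ) (𝒟 : Set (MvPolynomial σ L)) : Prop :=
  ∀ S ⊆ T, T.card < S.card + c →
    ∃ g : MvPolynomial σ L, g ≠ 0 ∧ g ∈ supported L (S : Set σ) ∧ g ∈ Ideal.span 𝒟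

/-- Codimension over fewer variables gives codimension over more variables. -/
theorem Codim.mono {T T' : Finset σ} (hT : T ⊆ T') {c : ℕ} {𝒟 : Set (MvPolynomial σ L)}
    (h : Codim T c 𝒟) : Codim T' c 𝒟 := by
  classical
  intro S hS hc
  have h1 : (T \ S).card ≤ (T' \ S).card :=
    Finset.card_le_card (Finset.sdiff_subset_sdiff hT le_rfl)
  have h2 := Finset.card_sdiff_add_card_inter T S
  have h3 := Finset.card_sdiff_add_card_eq_card hS
  obtain ⟨g, h4, h5, h6⟩ := h (T ∩ S) Finset.inter_subset_left (by omega)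
  exact ⟨g, h4, supported_mono (by simp) h5, h6⟩

theorem GM.small_of_codim [Finite σ] {G : GM D L w M} {T : Finset σ} {c : ℕ}
    {𝒟 : Set (MvPolynomial σ L)} (h𝒟 : Codim T c 𝒟) {A B : Submodule D M} (hA : G.Good A)
    (hB : G.Good B) (h : ∀ Δ ∈ 𝒟, ∀ m ∈ B, ∃ r : ℕ, G.ρ (Δ ^ r) m ∈ A) : G.Small T c A B := by
  intro S hS hc
  obtain ⟨g, h0, h1, h2⟩ := h𝒟 S hS hc
  have key : ∀ m ∈ B, ∃ r : ℕ, G.ρ (g ^ r) m ∈ A := by
    intro m hm
    let J : Ideal (MvPolynomial σ L) :=
      { carrier := {p | G.ρ p m ∈ A}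
        add_mem' := fun {p q} hp hq => by
          show G.ρ (p + q) m ∈ A
          rw [map_add, LinearMap.add_apply]
          exact A.add_mem hp hq
        zero_mem' := by
          show G.ρ 0 m ∈ A
          rw [map_zero, LinearMap.zero_apply]
          exact A.zero_mem
        smul_mem' := fun p q hq => by
          show G.ρ (p * q) m ∈ A
          rw [map_mul, Module.End.mul_apply]
          exact hA.st p _ hq }
    have h3 : Ideal.span 𝒟 ≤ J.radical := Ideal.span_le.2 fun Δ hΔ => h Δ hΔ m hm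
    exact h3 h2
  let N : ℕ →o Submodule D M :=
    ⟨fun k => B ⊓ A.comap (G.ρ (g ^ k)), monotone_nat_of_le_succ fun k m hm => ⟨hm.1, by
      show G.ρ (g ^ (k + 1)) m ∈ A
      rw [pow_succ', map_mul, Module.End.mul_apply]
      exact hA.st g _ hm.2⟩⟩
  obtain ⟨k₀, hk⟩ := G.noeth N fun k p m hm => ⟨hB.st p m hm.1, by
    show G.ρ (g ^ k) (G.ρ p m) ∈ A
    rw [G.ρ_comm]
    exact hA.st p _ hm.2⟩
  refine ⟨g ^ k₀, pow_ne_zero _ h0, pow_mem h1 _, fun m hm => ?_⟩
  obtain ⟨r, hr⟩ := key m hm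
  have h4 : m ∈ N (max r k₀) := N.monotone (le_max_left r k₀) (show m ∈ N r from ⟨hm, hr⟩)
  rw [hk _ (le_max_right _ _)] at h4
  exact h4.2

namespace GM

theorem KGM3_map {κ : Type} (f : κ → M →ₗ[D] M) (N : Submodule D M) :
    (Submodule.pi Set.univ fun _ : κ => N).map (LinearMap.pi fun k => f k ∘ₗ LinearMap.proj k) =
      Submodule.pi Set.univ fun k => N.map (f k) := by
  ext x
  constructor
  · rintro ⟨c, hc, rfl⟩ k hk
    exact ⟨c k, hc k hk, rfl⟩
  · intro h
    choose c hc hc' using fun k => h k (Set.mem_univ k)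
    exact ⟨c, fun k _ => hc k, funext hc'⟩

theorem KGM3_equiv {κ : Type} (P : κ → Submodule D M) :
    Nonempty (Submodule.pi Set.univ P ≃ₗ[D] ((k : κ) → P k)) :=
  ⟨{ toFun := fun x k => ⟨x.1 k, x.2 k (Set.mem_univ k)⟩
     map_add' := fun _ _ => rfl
     map_smul' := fun _ _ => rfl
     invFun := fun c => ⟨fun k => c k, fun k _ => (c k).2⟩
     left_inv := fun _ => rfl
     right_inv := fun _ => rfl }⟩

theorem KGM3_fin {κ : Type} [Finite κ] (f : κ → M →ₗ[D] M)
    (h : ∀ k, Module.Finite D (LinearMap.range (f k))) : Module.Finite D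
      (LinearMap.range (LinearMap.pi fun k => f k ∘ₗ LinearMap.proj k : (κ → M) →ₗ[D] κ → M)) := by
  rw [LinearMap.range_eq_map, ← Submodule.pi_top Set.univ, KGM3_map]
  obtain ⟨e⟩ := KGM3_equiv fun k => (⊤ : Submodule D M).map (f k)
  have : ∀ k, Module.Finite D ((⊤ : Submodule D M).map (f k)) := fun k =>
    Submodule.finiteDimensional_of_le (LinearMap.map_le_range (f := f k) (p := ⊤))
  exact Module.Finite.equiv e.symm

theorem KGM3_rank {κ : Type} [Fintype κ] (f : κ → M →ₗ[D] M)
    (h : ∀ k, Module.Finite D (LinearMap.range (f k))) (N : Submodule D M) :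
    Module.finrank D ((Submodule.pi Set.univ fun _ : κ => N).map
      (LinearMap.pi fun k => f k ∘ₗ LinearMap.proj k)) = ∑ k, Module.finrank D (N.map (f k)) := by
  rw [KGM3_map]
  obtain ⟨e⟩ := KGM3_equiv fun k => N.map (f k)
  have : ∀ k, Module.Finite D (N.map (f k)) := fun k =>
    Submodule.finiteDimensional_of_le (LinearMap.map_le_range (f := f k) (p := N))
  rw [e.finrank_eq, Module.finrank_pi_fintype]

theorem KGM3_ite {κ : Type} (p : κ → Prop) [DecidablePred p] (f : κ → M →ₗ[D] M) :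
    (LinearMap.pi fun k => if p k then f k ∘ₗ LinearMap.proj k else 0 : (κ → M) →ₗ[D] κ → M) =
      LinearMap.pi fun k => (if p k then f k else 0) ∘ₗ LinearMap.proj k := by
  congr 1
  funext k
  split_ifs
  · rfl
  · rw [LinearMap.zero_comp]

theorem KGM3_fd (G : GM D L w M) (p : Prop) [Decidable p] (y : Y) :
    Module.Finite D (LinearMap.range (if p then G.π y else 0)) := by
  by_cases h : p
  · rw [if_pos h]
    exact G.fd y
  · rw [if_neg h, LinearMap.range_zero]
    infer_instance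

/-- Finite sums of shifted copies. -/
noncomputable def pi (G : GM D L w M) (κ : Type) [Fintype κ] (o : κ → Y) : GM D L w (κ → M) where
  ρ :=
    { toFun := fun g => (G.ρ g).compLeft κ
      map_one' := by ext c k; simp
      map_mul' := fun g g' => by ext c k; simp
      map_zero' := by ext c k; simp
      map_add' := fun g g' => by ext c k; simp }
  ρ_C c m := funext fun k => G.ρ_C c (m k)
  π y := LinearMap.pi fun k => G.π (y - o k) ∘ₗ LinearMap.proj k
  π_self y m := funext fun k => G.π_self _ _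
  π_ne y y' m h := funext fun k => G.π_ne _ _ _ fun h' => h (sub_left_injective h')
  ρ_π j y m := funext fun k => (G.ρ_π j (y - o k) (m k)).trans (by rw [sub_add_eq_add_sub]; rfl)
  fd y := KGM3_fin _ fun k => G.fd (y - o k)
  fg := by
    classical
    obtain ⟨s, hs⟩ := G.fg
    refine ⟨(Finset.univ ×ˢ s).image fun t : κ × M => Pi.single t.1 t.2, ?_⟩
    rw [eq_top_iff]
    intro c _
    rw [← Finset.univ_sum_single c]
    refine Submodule.sum_mem _ fun k _ => ?_
    have hm : c k ∈ Submodule.span D {x | ∃ g, ∃ m ∈ s, x = G.ρ g m} := hs ▸ Submodule.mem_top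
    have := Submodule.mem_map_of_mem (f := LinearMap.single D (fun _ : κ => M) k) hm
    rw [Submodule.map_span] at this
    refine Submodule.span_mono ?_ this
    rintro _ ⟨_, ⟨g, m, hm, rfl⟩, rfl⟩
    refine ⟨g, Pi.single k m, Finset.mem_image.2 ⟨(k, m), by simp [hm], rfl⟩, funext fun k' => ?_⟩
    exact (Pi.apply_single (fun _ => G.ρ g) (fun _ => map_zero _) k m k').symm

/-- Finite sums of shifted copies with parities. -/
noncomputable def pi2 (G : GM D L w M) (κ : Type) [Fintype κ] (o : κ → Y) (par : κ → ZMod 2) :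
    GM D L (fun j => (w j, (0 : ZMod 2))) (κ → M) where
  ρ := (G.pi κ o).ρ
  ρ_C := (G.pi κ o).ρ_C
  π y := LinearMap.pi fun k => if par k = y.2 then G.π (y.1 - o k) ∘ₗ LinearMap.proj k else 0
  π_self y m := by
    funext k
    by_cases h : par k = y.2 <;> simp [h, G.π_self]
  π_ne y y' m hne := by
    funext k
    by_cases h : par k = y.2
    · by_cases h' : par k = y'.2
      · have : y.1 - o k ≠ y'.1 - o k := fun e =>
          hne (Prod.ext (sub_left_injective e) (h.symm.trans h'))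
        simp only [LinearMap.pi_apply, if_pos h, if_pos h', LinearMap.comp_apply,
          LinearMap.proj_apply, Pi.zero_apply]
        exact G.π_ne _ _ _ this
      · simp only [LinearMap.pi_apply, if_pos h, if_neg h', LinearMap.comp_apply,
          LinearMap.proj_apply, Pi.zero_apply, LinearMap.zero_apply, map_zero]
    · simp only [LinearMap.pi_apply, if_neg h, Pi.zero_apply, LinearMap.zero_apply]
  ρ_π j y m := by
    funext k
    change G.ρ (X j) ((if par k = y.2 then G.π (y.1 - o k) ∘ₗ LinearMap.proj k else 0 :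
        (κ → M) →ₗ[D] M) m) =
      (if par k = y.2 + 0 then G.π (y.1 + w j - o k) ∘ₗ LinearMap.proj k else 0 :
        (κ → M) →ₗ[D] M) fun k => G.ρ (X j) (m k)
    rw [add_zero]
    split_ifs
    · exact (G.ρ_π j (y.1 - o k) (m k)).trans (by rw [sub_add_eq_add_sub]; rfl)
    · simp
  fd y := by
    rw [KGM3_ite (fun k => par k = y.2) fun k => G.π (y.1 - o k)]
    exact KGM3_fin _ fun k => G.KGM3_fd _ _
  fg := (G.pi κ o).fg

variable (G : GM D L w M) (κ : Type) [Fintype κ] (o : κ → Y)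

theorem pi_ρ (g : MvPolynomial σ L) (c : κ → M) (k : κ) : (G.pi κ o).ρ g c k = G.ρ g (c k) := rfl

theorem pi_π (y : Y) (c : κ → M) (k : κ) : (G.pi κ o).π y c k = G.π (y - o k) (c k) := rfl

theorem pi2_ρ (par : κ → ZMod 2) (g : MvPolynomial σ L) (c : κ → M) (k : κ) :
    (G.pi2 κ o par).ρ g c k = G.ρ g (c k) := rfl

theorem pi2_π (par : κ → ZMod 2) (y : Y × ZMod 2) (c : κ → M) (k : κ) :
    (G.pi2 κ o par).π y c k = if par k = y.2 then G.π (y.1 - o k) (c k) else 0 := by
  change (if par k = y.2 then G.π (y.1 - o k) ∘ₗ LinearMap.proj k else 0 : (κ → M) →ₗ[D] M) c = _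
  split_ifs <;> rfl

theorem good_pi {N : Submodule D M} (hN : G.Good N) :
    (G.pi κ o).Good (Submodule.pi Set.univ fun _ => N) :=
  ⟨fun g _ hm k hk => hN.st g _ (hm k hk), fun _ _ hm k hk => hN.gr _ _ (hm k hk)⟩

theorem good_pi2 (par : κ → ZMod 2) {N : Submodule D M} (hN : G.Good N) :
    (G.pi2 κ o par).Good (Submodule.pi Set.univ fun _ => N) := by
  refine ⟨fun g m hm k hk => hN.st g _ (hm k hk), fun y m hm k hk => ?_⟩
  rw [pi2_π]
  split_ifs
  · exact hN.gr _ _ (hm k hk)
  · exact N.zero_mem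

theorem hf_pi (N : Submodule D M) (y : Y) :
    (G.pi κ o).hf (Submodule.pi Set.univ fun _ => N) y = ∑ k, G.hf N (y - o k) := by
  have := KGM3_rank (fun k => G.π (y - o k)) (fun k => G.fd _) N
  unfold hf
  rw [← Nat.cast_sum, ← this]
  rfl

theorem hf_pi2 (par : κ → ZMod 2) (N : Submodule D M) (y : Y × ZMod 2) :
    (G.pi2 κ o par).hf (Submodule.pi Set.univ fun _ => N) y =
      ∑ k, if par k = y.2 then G.hf N (y.1 - o k) else 0 := by
  have := KGM3_rank (fun k => if par k = y.2 then G.π (y.1 - o k) else 0)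
    (fun k => G.KGM3_fd _ _) N
  rw [← KGM3_ite (fun k => par k = y.2) fun k => G.π (y.1 - o k)] at this
  refine (congrArg Nat.cast this).trans ?_
  rw [Nat.cast_sum]
  refine Finset.sum_congr rfl fun k _ => ?_
  by_cases h : par k = y.2
  · rw [if_pos h, if_pos h]
    rfl
  · rw [if_neg h, if_neg h, Submodule.map_zero, finrank_bot, Nat.cast_zero]

end GM

theorem anchor_KGM : True := by
  have := @GM.hf.eq_1
  have := @GM.H.eq_1
  have := @GM.Hom.eq_1
  have := @GM.Lin.eq_1
  have := @GM.Small.eq_1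
  have := @Codim.eq_1
  have := @GM.pi.eq_1
  have := @GM.pi2.eq_1
  trivial

end Crest.Agent.R181.K
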