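import Crest.Agent.R181.A1BadBlk
import Crest.Agent.R181.KGM

/-! Row 181, bad locus, part 4: the codimension of the locus where the equations become dependent. -/

set_option autoImplicit false

namespace Crest.Agent.R181.A1B

open MvPolynomial

/-- If all maximal minors vanish, the rows are dependent. -/
theorem exists_rel {Ω ν : Type} [Field Ω] {h : ℕ} (M : Matrix (Fin h) ν Ω)
    (hM : ∀ J : Fin h → ν, (M.submatrix id J).det = 0) :
    ∃ lam : Fin h → Ω, lam ≠ 0 ∧ ∀ j, ∑ k, lam k * M k j = 0 := by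
  classical
  by_cases hs : Submodule.span Ω (Set.range fun j : ν => fun k => M k j) = ⊤
  · exfalso
    obtain ⟨β, a, -, hsp, hli⟩ := exists_linearIndependent' Ω (fun j : ν => fun k => M k j)
    rw [hs] at hsp
    let b := Module.Basis.mk hli hsp.ge
    have := Module.Finite.finite_basis b
    have := Fintype.ofFinite β
    have hc : Fintype.card (Fin h) = Fintype.card β := by
      rw [← Module.finrank_eq_card_basis b, Module.finrank_pi]
    let e := Fintype.equivOfCardEq hc
    have h1 : LinearIndependent Ω (M.submatrix id (a ∘ e)).col := hli.comp e e.injective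
    rw [Matrix.linearIndependent_cols_iff_isUnit, Matrix.isUnit_iff_isUnit_det, hM] at h1
    exact not_isUnit_zero h1
  · obtain ⟨f, hf, hf'⟩ := Submodule.exists_le_ker_of_lt_top _ (lt_top_iff_ne_top.2 hs)
    refine ⟨fun k => f (Pi.single k 1), fun h0 => hf ?_, fun j => ?_⟩
    · refine LinearMap.pi_ext' fun k => ?_
      ext
      simpa using congrFun h0 k
    · have h1 : f (fun k => M k j) = 0 := hf' (Submodule.subset_span ⟨j, rfl⟩)
      rw [LinearMap.pi_apply_eq_sum_univ] at h1
      rw [← h1]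
      refine Finset.sum_congr rfl fun k _ => ?_
      rw [smul_eq_mul, mul_comm]
      refine congrArg (M k j * ·) (congrArg f ?_)
      funext i
      simp [Pi.single_apply, eq_comm]

/-- Codimension can be tested on points. -/
theorem codim_of_points {L σ : Type} [Field L] (T : Finset σ) (c : ℕ) (𝒟 : Set (MvPolynomial σ L))
    (h : ∀ (Ω : Type) [Field Ω] [Algebra L Ω] (x : σ → Ω), (∀ Δ ∈ 𝒟, aeval x Δ = 0) →
      ∃ n d : ℕ, GenD L ∅ (x '' T) n d ∧ n + c ≤ T.card + d) : K.Codim T c 𝒟 := by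
  intro S hS hc
  by_contra hne
  push Not at hne
  let M : Submonoid (MvPolynomial σ L) :=
    (supported L (S : Set σ)).toSubmonoid ⊓ nonZeroDivisors _
  obtain ⟨q, hq, hq1, hq2⟩ := (Ideal.span 𝒟).exists_le_prime_disjoint M (by
    rw [Set.disjoint_left]
    intro g hg hg'
    exact hne g (nonZeroDivisors.ne_zero hg'.2) hg'.1 hg)
  let Ω := FractionRing (MvPolynomial σ L ⧸ q)
  let ψ : MvPolynomial σ L →ₐ[L] Ω :=
    (IsScalarTower.toAlgHom L (MvPolynomial σ L ⧸ q) Ω).comp (Ideal.Quotient.mkₐ L q)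
  have hψ : ∀ g, ψ g = 0 ↔ g ∈ q := fun g => by
    change algebraMap (MvPolynomial σ L ⧸ q) Ω (Ideal.Quotient.mk q g) = 0 ↔ _
    rw [map_eq_zero_iff _ (IsFractionRing.injective _ _), Ideal.Quotient.eq_zero_iff_mem]
  have hx : ∀ g, aeval (fun j => ψ (X j)) g = ψ g := fun g =>
    (DFunLike.congr_fun (MvPolynomial.aeval_unique ψ) g).symm
  obtain ⟨n, d, hG, hnd⟩ := h Ω (fun j => ψ (X j)) fun Δ hΔ => by
    rw [hx, hψ]
    exact hq1 (Ideal.subset_span hΔ)
  have hind : AlgebraicIndependent L fun j : S => ψ (X j) := by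
    rw [algebraicIndependent_iff]
    intro p hp
    have h1 : ψ (rename ((↑) : S → σ) p) = 0 := by
      rw [← hx, aeval_rename]
      exact hp
    by_contra hp0
    have h2 : rename ((↑) : S → σ) p ∈ M := by
      refine ⟨?_, mem_nonZeroDivisors_of_ne_zero ?_⟩
      · change _ ∈ supported L (S : Set σ)
        rw [supported_eq_range_rename]
        exact ⟨p, rfl⟩
      · exact fun h0 => hp0 (rename_injective _ Subtype.val_injective (by rw [h0, map_zero]))
    exact Set.disjoint_left.1 hq2 ((hψ _).1 h1) h2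
  have := hG.card_le hind fun j => ⟨j, hS j.2, rfl⟩
  rw [Fintype.card_coe] at this
  omega

variable {L : Type} [Field L] {ι : Type}

/-- A nonzero combination of the equations of a base point free space is not an evaluation. -/
theorem not_isEv {Ω : Type} [Field Ω] [Algebra L Ω] {a h : ℕ} (ha : 1 ≤ a)
    (W : Submodule L (MvPolynomial ι L)) (hW : ∀ w ∈ W, w.IsHomogeneous a)
    (hbp : ∀ i, X i ∈ (Ideal.span (W : Set (MvPolynomial ι L))).radical)
    (φ : Fin h → MvPolynomial ι L →ₗ[L] L) (hφW : ∀ k, ∀ w ∈ W, φ k w = 0)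
    (hdual : ∀ k, ∃ f : MvPolynomial ι L, f.IsHomogeneous a ∧ ∀ k', φ k' f = if k' = k then 1 else 0)
    (lam : Fin h → Ω) (hlam : lam ≠ 0) :
    ¬IsEv (fun α => ∑ k, lam k * algebraMap L Ω (φ k (monomial α 1))) a := by
  rintro ⟨e, p, hep⟩
  have key : ∀ f : MvPolynomial ι L, f.IsHomogeneous a →
      ∑ k, lam k * algebraMap L Ω (φ k f) = e * aeval p f := by
    intro f hf
    have h1 := ap_congr hep (hf.map (algebraMap L Ω))
    rw [ap_sum, ap_eval, eval_map, ← aeval_def] at h1
    rw [← h1]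
    refine Finset.sum_congr rfl fun k _ => ?_
    rw [← map_ap, ap_eq_linear]
  have h0 : ∀ f : MvPolynomial ι L, f.IsHomogeneous a → e * aeval p f = 0 := by
    by_cases he : e = 0
    · intro f _
      rw [he, zero_mul]
    have h1 : ∀ g ∈ Ideal.span (W : Set (MvPolynomial ι L)), aeval p g = 0 := by
      intro g hg
      have : Ideal.span (W : Set (MvPolynomial ι L)) ≤ RingHom.ker (aeval p) := by
        rw [Ideal.span_le]
        intro w hw
        have h2 := key w (hW w hw)
        simp only [hφW _ w hw, map_zero, mul_zero, Finset.sum_const_zero] at h2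
        exact (mul_eq_zero.1 h2.symm).resolve_left he
      exact this hg
    have h2 : p = 0 := by
      funext i
      obtain ⟨r, hr⟩ := hbp i
      have := h1 _ hr
      rw [map_pow, aeval_X] at this
      exact eq_zero_of_pow_eq_zero this
    intro f hf
    rw [h2, aeval_zero, constantCoeff_eq, hf.coeff_eq_zero (by simp; omega), map_zero, mul_zero]
  apply hlam
  funext k
  obtain ⟨f, hf, hf'⟩ := hdual k
  have := key f hf
  rw [h0 f hf] at this
  simpa [hf', apply_ite] using this

variable [Fintype ι] {κ σ ν : Type} [Fintype κ]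

/-- The product of the binary linear forms of a block, with indeterminate coefficients. -/
noncomputable def blockP (L : Type) [Field L] (vl vl' : ι → σ) (vs vt : κ → σ) :
    MvPolynomial ι (MvPolynomial σ L) :=
  ∏ i, (C (X (vs i)) * lf (fun j => (X (vl j) : MvPolynomial σ L)) +
    C (X (vt i)) * lf (fun j => (X (vl' j) : MvPolynomial σ L)))

/-- The bad locus has codimension at least `2 N - h`. -/
theorem codim_bad [CharZero L] {a h N : ℕ} (ha : Fintype.card κ + 1 = a)
    (W : Submodule L (MvPolynomial ι L)) (hW : ∀ w ∈ W, w.IsHomogeneous a)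
    (hbp : ∀ i, X i ∈ (Ideal.span (W : Set (MvPolynomial ι L))).radical)
    (φ : Fin h → MvPolynomial ι L →ₗ[L] L) (hφW : ∀ k, ∀ w ∈ W, φ k w = 0)
    (hdual : ∀ k, ∃ f : MvPolynomial ι L, f.IsHomogeneous a ∧ ∀ k', φ k' f = if k' = k then 1 else 0)
    (vl vl' : Fin N → ι → σ) (vs vt : Fin N → κ → σ) (T : Finset σ)
    (hT : ∀ j ∈ T, ∃ m, (∃ i, j = vl m i) ∨ (∃ i, j = vl' m i) ∨ (∃ i, j = vs m i) ∨ ∃ i, j = vt m i)
    (hcard : N * (2 * Fintype.card ι + 2 * Fintype.card κ) ≤ T.card)
    (Φ : Matrix (Fin h) ν (MvPolynomial σ L)) (c0 c1 : Fin N → ν)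
    (h0 : ∀ k m, Φ k (c0 m) = ap (fun α => C (φ k (monomial α 1)))
      (lf (fun j => X (vl m j)) * blockP L (vl m) (vl' m) (vs m) (vt m)))
    (h1 : ∀ k m, Φ k (c1 m) = ap (fun α => C (φ k (monomial α 1)))
      (lf (fun j => X (vl' m j)) * blockP L (vl m) (vl' m) (vs m) (vt m)))
    (𝒟 : Set (MvPolynomial σ L))
    (h𝒟 : ∀ J : Fin h → ν, (Φ.submatrix id J).det ∈ (Ideal.span 𝒟).radical)
    {c : ℕ} (hc : c + h ≤ 2 * N) : K.Codim T c 𝒟 := by
  subst ha
  refine codim_of_points T c 𝒟 fun Ω _ _ x hx => ?_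
  have : CharZero Ω := charZero_of_injective_algebraMap (algebraMap L Ω).injective
  let ev : MvPolynomial σ L →+* Ω := (aeval x : MvPolynomial σ L →ₐ[L] Ω)
  obtain ⟨lam, hlam, hrel⟩ := exists_rel (Φ.map ev) fun J => by
    obtain ⟨r, hr⟩ := h𝒟 J
    have h2 : Ideal.span 𝒟 ≤ RingHom.ker ev := Ideal.span_le.2 fun Δ hΔ => hx Δ hΔ
    have h3 : ev _ = 0 := h2 hr
    rw [map_pow] at h3
    have h4 := eq_zero_of_pow_eq_zero h3
    rw [RingHom.map_det] at h4
    exact h4
  let cc : (ι →₀ ℕ) → Ω := fun α => ∑ k, lam k * algebraMap L Ω (φ k (monomial α 1))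
  have hne : ¬IsEv cc (Fintype.card κ + 1) := not_isEv (by omega) W hW hbp φ hφW hdual lam hlam
  have hcc : ∀ α, cc α ∈ acl L (∅ ∪ Set.range lam) := fun α =>
    sum_mem fun k _ => mul_mem (subset_acl _ (Or.inr ⟨k, rfl⟩)) (IntermediateField.algebraMap_mem _ _)
  have key : ∀ (j : ν) (f : MvPolynomial ι (MvPolynomial σ L)),
      (∀ k, Φ k j = ap (fun α => C (φ k (monomial α 1))) f) → ap cc (map ev f) = 0 := by
    intro j f hf
    rw [ap_sum, ← hrel j]
    refine Finset.sum_congr rfl fun k _ => ?_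
    rw [Matrix.map_apply, hf, map_ap]
    simp [ev]
  have hb : ∀ m, GenD L (∅ ∪ Set.range lam)
      ((Set.range (fun i => x (vl m i)) ∪ Set.range fun i => x (vl' m i)) ∪
        (Set.range (fun i => x (vs m i)) ∪ Set.range fun i => x (vt m i)))
      (2 * Fintype.card ι + 2 * Fintype.card κ) 2 := fun m => by
    refine gen_block _ cc hcc hne _ _ _ _ ?_ ?_
    · simpa [blockP, map_lf, map_prod, ev] using key _ _ (h0 · m)
    · simpa [blockP, map_lf, map_prod, ev] using key _ _ (h1 · m)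
  have g := (GenD.range (L := L) ∅ lam).trans (GenD.biUnion _ _ _ _ hb Finset.univ)
  refine ⟨_, _, g.mono subset_rfl ?_ le_rfl, ?_⟩
  · rintro _ ⟨j, hj, rfl⟩
    obtain ⟨m, hm⟩ := hT j hj
    refine Or.inr (Set.mem_biUnion (Finset.mem_coe.2 (Finset.mem_univ m)) ?_)
    rcases hm with ⟨i, rfl⟩ | ⟨i, rfl⟩ | ⟨i, rfl⟩ | ⟨i, rfl⟩
    · exact Or.inl (Or.inl ⟨i, rfl⟩)
    · exact Or.inl (Or.inr ⟨i, rfl⟩)
    · exact Or.inr (Or.inl ⟨i, rfl⟩)
    · exact Or.inr (Or.inr ⟨i, rfl⟩)
  · simp only [Finset.card_univ, Fintype.card_fin]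
    omega

/-- A maximal minor is a multiple of the identity in the image of the matrix. -/
theorem exists_inv {R : Type} [CommRing R] {h : ℕ} [Fintype ν] [DecidableEq ν]
    (Φ : Matrix (Fin h) ν R) (J : Fin h → ν) :
    ∃ ψ : ν → Fin h → R, ∀ k k', ∑ j, Φ k j * ψ j k' =
      if k = k' then (Φ.submatrix id J).det else 0 := by
  refine ⟨fun j k' => ∑ i, if J i = j then (Φ.submatrix id J).adjugate i k' else 0, fun k k' => ?_⟩
  have h1 := congrFun (congrFun (Matrix.mul_adjugate (Φ.submatrix id J)) k) k'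
  rw [Matrix.mul_apply, Matrix.smul_apply, Matrix.one_apply, smul_eq_mul, mul_ite, mul_one,
    mul_zero] at h1
  rw [← h1]
  simp only [Finset.mul_sum, mul_ite, mul_zero]
  rw [Finset.sum_comm]
  simp

theorem anchor_A1BadMain : True := by
  have := @blockP.eq_1
  trivial

end Crest.Agent.R181.A1B
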