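import Crest.Agent.R181.NCDefs

/-! Row 181, stage A1: linear functionals on forms of degree `a`. -/

set_option autoImplicit false

namespace Crest.Agent.R181.A1

open MvPolynomial

/-- The exponents of degree `a`. -/
noncomputable def mon (ι : Type) [Fintype ι] [DecidableEq ι] (a : ℕ) : Finset (ι →₀ ℕ) :=
  Finset.finsuppAntidiag Finset.univ a

variable {ι : Type} [Fintype ι] [DecidableEq ι]

/-- The functional with values `φ μ` on the monomials of degree `a` (zero in other degrees). -/
noncomputable def ap {B : Type} [CommRing B] (a : ℕ) (φ : (ι →₀ ℕ) → B) :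
    MvPolynomial ι B →ₗ[B] B where
  toFun f := ∑ μ ∈ mon ι a, φ μ * coeff μ f
  map_add' f g := by simp [mul_add, Finset.sum_add_distrib]
  map_smul' c f := by simp [Finset.mul_sum, mul_left_comm]

section ring

variable {B B' : Type} [CommRing B] [CommRing B'] {a : ℕ}

theorem ap_apply (φ : (ι →₀ ℕ) → B) (f : MvPolynomial ι B) :
    ap a φ f = ∑ μ ∈ mon ι a, φ μ * coeff μ f := rfl

theorem mem_mon {μ : ι →₀ ℕ} : μ ∈ mon ι a ↔ μ.degree = a := by
  simp [mon, Finset.mem_finsuppAntidiag, Finsupp.degree_eq_sum]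

theorem map_ap (ψ : B →+* B') (φ : (ι →₀ ℕ) → B) (f : MvPolynomial ι B) :
    ψ (ap a φ f) = ap a (fun μ => ψ (φ μ)) (MvPolynomial.map ψ f) := by
  simp [ap_apply, map_sum, coeff_map]

theorem map_lf (ψ : B →+* B') (t : ι → B) : MvPolynomial.map ψ (lf t) = lf fun i => ψ (t i) := by
  simp [lf, map_sum]

theorem lf_isHomogeneous (t : ι → B) : (lf t).IsHomogeneous 1 := by
  unfold lf
  exact IsHomogeneous.sum _ _ _ fun i _ => isHomogeneous_C_mul_X _ _

theorem ap_monomial (φ : (ι →₀ ℕ) → B) {μ : ι →₀ ℕ} (hμ : μ ∈ mon ι a) (c : B) :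
    ap a φ (monomial μ c) = φ μ * c := by
  rw [ap_apply, Finset.sum_eq_single μ]
  · simp
  · intro ν _ hne
    rw [coeff_monomial, if_neg (Ne.symm hne), mul_zero]
  · intro h
    exact absurd hμ h

theorem ap_sum {κ : Type} (s : Finset κ) (c : κ → B) (φ : κ → (ι →₀ ℕ) → B) (f : MvPolynomial ι B) :
    ap a (fun μ => ∑ k ∈ s, c k * φ k μ) f = ∑ k ∈ s, c k * ap a (φ k) f := by
  simp only [ap_apply, Finset.sum_mul, Finset.mul_sum, mul_assoc]
  exact Finset.sum_comm

theorem ap_sub (φ φ' : (ι →₀ ℕ) → B) (f : MvPolynomial ι B) :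
    ap a (fun μ => φ μ - φ' μ) f = ap a φ f - ap a φ' f := by
  simp only [ap_apply, sub_mul, Finset.sum_sub_distrib]

theorem ap_eq_zero {φ : (ι →₀ ℕ) → B} (h : ∀ μ ∈ mon ι a, φ μ = 0) (f : MvPolynomial ι B) :
    ap a φ f = 0 := by
  rw [ap_apply]
  exact Finset.sum_eq_zero fun μ hμ => by rw [h μ hμ, zero_mul]

/-- Evaluation at a point is such a functional. -/
theorem ap_eval (P : ι → B) {f : MvPolynomial ι B} (hf : f.IsHomogeneous a) :
    ap a (fun μ => μ.prod fun i e => P i ^ e) f = eval P f := by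
  rw [ap_apply, eval_eq]
  symm
  have hsub : f.support ⊆ mon ι a := by
    intro μ hμ
    rw [mem_mon]
    by_contra hne
    exact (mem_support_iff.1 hμ) (hf.coeff_eq_zero hne)
  rw [← Finset.sum_subset hsub]
  · refine Finset.sum_congr rfl fun μ _ => ?_
    rw [mul_comm]
    rfl
  · intro μ _ hμ
    rw [notMem_support_iff.1 hμ, mul_zero]

theorem coeff_lf_pow (t : ι → B) {μ : ι →₀ ℕ} (hμ : μ ∈ mon ι a) :
    coeff μ (lf t ^ a) = (μ.multinomial : B) * μ.prod fun i e => t i ^ e := by
  have h1 : lf t = ∑ i, t i • (X i : MvPolynomial ι B) := by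
    simp [lf, smul_eq_C_mul]
  have h2 : (μ.sum fun _ m => m) = a := by
    rw [← mem_mon.1 hμ, Finsupp.degree_apply]
    rfl
  rw [h1, coeff_linearCombination_X_pow_of_fintype, if_pos h2]

end ring

section field

variable {F : Type} [Field F] [CharZero F] {a : ℕ}

/-- Powers of linear forms span. -/
theorem eq_zero_of_pow {φ : (ι →₀ ℕ) → F} (h : ∀ l : ι → F, ap a φ (lf l ^ a) = 0) :
    ∀ μ ∈ mon ι a, φ μ = 0 := by
  intro μ hμ
  have key : (∑ ν ∈ mon ι a, monomial ν (φ ν * (ν.multinomial : F)) : MvPolynomial ι F) = 0 := by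
    apply MvPolynomial.funext
    intro l
    rw [map_zero, ← h l, ap_apply, map_sum]
    refine Finset.sum_congr rfl fun ν hν => ?_
    rw [coeff_lf_pow l hν, eval_monomial, mul_assoc]
  have h2 := congrArg (coeff μ) key
  rw [coeff_sum, Finset.sum_eq_single μ, coeff_monomial, if_pos rfl, coeff_zero] at h2
  · refine (mul_eq_zero.1 h2).resolve_right ?_
    have : 0 < μ.multinomial := by
      rw [Finsupp.multinomial_eq]
      exact Nat.multinomial_pos _ _
    exact_mod_cast this.ne'
  · intro ν _ hne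
    rw [coeff_monomial, if_neg hne]
  · intro hn
    exact absurd hμ hn

/-- A basis of powers of linear forms. -/
theorem exists_pow_basis (F : Type) [Field F] [CharZero F] (a : ℕ) :
    ∃ l : mon ι a → ι → F, (Matrix.of fun ν μ : mon ι a => coeff μ.1 (lf (l ν) ^ a)).det ≠ 0 := by
  classical
  let v : (ι → F) → (mon ι a → F) := fun l μ => coeff μ.1 (lf l ^ a)
  have hspan : Submodule.span F (Set.range v) = ⊤ := by
    by_contra hne
    obtain ⟨ψ, hψ0, hψ⟩ := Submodule.exists_le_ker_of_lt_top _ (lt_top_iff_ne_top.2 hne)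
    let φ : (ι →₀ ℕ) → F := fun μ => if hμ : μ ∈ mon ι a then ψ (Pi.single ⟨μ, hμ⟩ 1) else 0
    have hφ : ∀ x : mon ι a → F, ψ x = ∑ μ : mon ι a, φ μ.1 * x μ := by
      intro x
      conv_lhs => rw [← Finset.univ_sum_single x, map_sum]
      refine Finset.sum_congr rfl fun μ _ => ?_
      have : (Pi.single μ (x μ) : mon ι a → F) = x μ • Pi.single μ 1 := by
        rw [← Pi.single_smul, smul_eq_mul, mul_one]
      rw [this, map_smul, smul_eq_mul, mul_comm]
      simp [φ]
    have h0 : ∀ μ ∈ mon ι a, φ μ = 0 := by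
      apply eq_zero_of_pow
      intro l
      have h1 : ψ (v l) = 0 := hψ (Submodule.subset_span ⟨l, rfl⟩)
      rw [hφ] at h1
      rw [ap_apply, ← h1]
      exact (Finset.sum_coe_sort (mon ι a) fun μ => φ μ * coeff μ (lf l ^ a)).symm
    apply hψ0
    refine LinearMap.ext fun x => ?_
    rw [hφ]
    exact Finset.sum_eq_zero fun μ _ => by rw [h0 μ.1 μ.2, zero_mul]
  obtain ⟨κ, e, -, he, hli⟩ := exists_linearIndependent' F v
  let b : Module.Basis κ F (mon ι a → F) := Module.Basis.mk hli (by rw [he, hspan])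
  let g : mon ι a ≃ κ := (Pi.basisFun F (mon ι a)).indexEquiv b
  refine ⟨fun ν => e (g ν), ?_⟩
  have hli' : LinearIndependent F
      (Matrix.of fun ν μ : mon ι a => coeff μ.1 (lf (e (g ν)) ^ a)).row :=
    hli.comp g g.injective
  have hu := Matrix.linearIndependent_rows_iff_isUnit.1 hli'
  exact ((Matrix.isUnit_iff_isUnit_det _).1 hu).ne_zero

omit [CharZero F] in
lemma hankel_expand {R : Type} [CommRing R] [Algebra F R] (Φ : R →ₗ[F] F) (A B : R) (t : F)
    (n k : ℕ) : Φ ((A + t • B) ^ n * B ^ k) = Polynomial.eval t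
      (∑ i ∈ Finset.range (n + 1),
        Polynomial.monomial i ((n.choose i : F) * Φ (A ^ (n - i) * B ^ (i + k)))) := by
  rw [add_comm A, add_pow, Finset.sum_mul, map_sum, Polynomial.eval_finsetSum]
  refine Finset.sum_congr rfl fun i _ => ?_
  have : (t • B) ^ i * A ^ (n - i) * (n.choose i : R) * B ^ k =
      ((n.choose i : F) * t ^ i) • (A ^ (n - i) * B ^ (i + k)) := by
    simp only [Algebra.smul_def, map_mul, map_pow, map_natCast]
    ring
  rw [this, map_smul, Polynomial.eval_monomial, smul_eq_mul]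
  ring

omit [CharZero F] in
lemma hankel_coeff (c : ℕ → F) (n j : ℕ) :
    (∑ i ∈ Finset.range (n + 1), Polynomial.monomial i (c i)).coeff j =
      if j ≤ n then c j else 0 := by
  simp [Polynomial.coeff_monomial]

lemma hankel_zero {R : Type} [CommRing R] [Algebra F R] (Φ : R →ₗ[F] F) (A B : R) (n : ℕ)
    (h : ∀ t : F, Φ ((A + t • B) ^ (n + 2)) * Φ ((A + t • B) ^ n * B ^ 2) =
      Φ ((A + t • B) ^ (n + 1) * B) ^ 2) (h0 : Φ (A ^ (n + 2)) ≠ 0)
    (h1 : Φ (A ^ (n + 1) * B) = 0) :
    ∀ j, j ≤ n + 1 → Φ (A ^ (n + 1 - j) * B ^ (j + 1)) = 0 := by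
  set G : ℕ → ℕ → Polynomial F := fun m k => ∑ i ∈ Finset.range (m + 1),
    Polynomial.monomial i ((m.choose i : F) * Φ (A ^ (m - i) * B ^ (i + k))) with hG
  have hGG : G (n + 2) 0 * G n 2 = G (n + 1) 1 ^ 2 := by
    refine Polynomial.funext fun t => ?_
    have e0 := hankel_expand Φ A B t (n + 2) 0
    have e1 := hankel_expand Φ A B t (n + 1) 1
    have e2 := hankel_expand Φ A B t n 2
    rw [pow_zero, mul_one] at e0
    rw [pow_one] at e1
    rw [Polynomial.eval_mul, Polynomial.eval_pow, hG]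
    dsimp only
    rw [← e0, ← e1, ← e2]
    exact h t
  have hX : ¬ Polynomial.X ∣ G (n + 2) 0 := by
    rw [Polynomial.X_dvd_iff, hG]
    simp only [hankel_coeff]
    simpa using h0
  intro j
  induction j using Nat.strong_induction_on with
  | _ j ih =>
    intro hj
    rcases j with _ | j
    · simpa using h1
    have e1 : Polynomial.X ^ (j + 1) ∣ G (n + 1) 1 := by
      rw [Polynomial.X_pow_dvd_iff]
      intro d hd
      simp only [hG, hankel_coeff]
      rw [ih d hd (by omega)]
      simp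
    have e2 : Polynomial.X ^ (j + 1) ∣ G n 2 := by
      refine Polynomial.prime_X.pow_dvd_of_dvd_mul_left _ hX ?_
      rw [hGG, sq]
      exact e1.mul_right _
    have e3 := Polynomial.X_pow_dvd_iff.1 e2 j (by omega)
    have hjn : j ≤ n := by omega
    simp only [hG, hankel_coeff, if_pos hjn, mul_eq_zero, Nat.cast_eq_zero] at e3
    rcases e3 with e3 | e3
    · exact absurd e3 (Nat.choose_pos hjn).ne'
    · rw [show n + 1 - (j + 1) = n - j by omega]
      exact e3

omit [DecidableEq ι] [CharZero F] in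
lemma hankel_lf_add (l l' : ι → F) (t : F) : lf (l + t • l') = lf l + t • lf l' := by
  simp only [lf, Pi.add_apply, Pi.smul_apply, smul_eq_mul, map_add, map_mul, add_mul,
    Finset.sum_add_distrib, Finset.smul_sum, smul_eq_C_mul, mul_assoc]

/-- A functional whose first Hankel determinant vanishes identically is an evaluation. -/
theorem exists_eval_of_hankel (ha : 2 ≤ a) {φ : (ι →₀ ℕ) → F}
    (h : ∀ l l' : ι → F, ap a φ (lf l ^ a) * ap a φ (lf l ^ (a - 2) * lf l' ^ 2) =
      ap a φ (lf l ^ (a - 1) * lf l') ^ 2) :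
    ∃ (κ : F) (P : ι → F), ∀ f : MvPolynomial ι F, f.IsHomogeneous a → ap a φ f = κ * eval P f := by
  by_cases h0 : ∀ l : ι → F, ap a φ (lf l ^ a) = 0
  · exact ⟨0, 0, fun f _ => by rw [ap_eq_zero (eq_zero_of_pow h0), zero_mul]⟩
  push Not at h0
  obtain ⟨l0, hl0⟩ := h0
  obtain ⟨n, rfl⟩ : ∃ n, a = n + 2 := ⟨a - 2, by omega⟩
  set Φ := ap (n + 2) φ with hΦ
  set κ := Φ (lf l0 ^ (n + 2)) with hκ
  set P : ι → F := fun i => Φ (lf l0 ^ (n + 1) * X i) / κ with hP
  have key : ∀ l : ι → F, Φ (lf l ^ (n + 2)) = κ * eval P (lf l ^ (n + 2)) := by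
    intro l
    set s := eval P (lf l) with hs
    have hs' : Φ (lf l0 ^ (n + 1) * lf l) = κ * s := by
      rw [hs]
      simp only [lf, Finset.mul_sum, map_sum, map_mul, eval_C, eval_X]
      refine Finset.sum_congr rfl fun i _ => ?_
      rw [mul_left_comm, ← smul_eq_C_mul, map_smul, smul_eq_mul, hP]
      simp only [lf]
      field_simp
    set B := lf (l + (-s) • l0) with hB
    have hB' : B = lf l + (-s) • lf l0 := hankel_lf_add _ _ _
    have hz := hankel_zero Φ (lf l0) B n (fun t => by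
      have := h (l0 + t • (l + (-s) • l0)) (l + (-s) • l0)
      rwa [hankel_lf_add] at this) hl0 (by
      rw [hB', mul_add, map_add, hs', mul_smul_comm, map_smul, ← pow_succ, ← hκ, smul_eq_mul]
      ring)
    have e1 : lf l = B + s • lf l0 := by rw [hB']; simp
    have e2 := hankel_expand Φ B (lf l0) s (n + 2) 0
    rw [pow_zero, mul_one, ← e1, Polynomial.eval_finsetSum, Finset.sum_range_succ,
      Finset.sum_eq_zero] at e2
    · rw [e2, map_pow, ← hs]
      simp [← hκ]
    · intro i hi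
      have hi' := Finset.mem_range.1 hi
      have := hz (n + 1 - i) (by omega)
      rw [show n + 1 - (n + 1 - i) = i by omega, show n + 1 - i + 1 = n + 2 - i by omega,
        mul_comm] at this
      simp [this]
  have hz := eq_zero_of_pow (a := n + 2)
    (φ := fun μ => φ μ - ∑ _k ∈ ({()} : Finset Unit), κ * μ.prod fun i e => P i ^ e) (fun l => by
      rw [ap_sub, ap_sum, Finset.sum_singleton, ← hΦ, key,
        ap_eval P (by simpa using (lf_isHomogeneous l).pow (n + 2)), sub_self])
  refine ⟨κ, P, fun f hf => ?_⟩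
  have := ap_eq_zero hz f
  rw [ap_sub, ap_sum, Finset.sum_singleton, ap_eval P hf] at this
  exact sub_eq_zero.1 this

end field

/-- Equations for `W` inside the forms of degree `a`, with a dual family. -/
structure WData {L : Type} [Field L] (W : Submodule L (MvPolynomial ι L)) (a h : ℕ) where
  φ : Fin h → (ι →₀ ℕ) → L
  e : Fin h → MvPolynomial ι L
  e_hom : ∀ k, (e k).IsHomogeneous a
  kill : ∀ k, ∀ f ∈ W, ap a (φ k) f = 0
  dual : ∀ k k', ap a (φ k) (e k') = if k = k' then 1 else 0
  mem : ∀ μ ∈ mon ι a, monomial μ (1 : L) - ∑ k, φ k μ • e k ∈ W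
  le : h ≤ (mon ι a).card

variable {L : Type} [Field L] {W : Submodule L (MvPolynomial ι L)} {a h : ℕ}

theorem W3_expand {B : Type} [CommRing B] {f : MvPolynomial ι B} (hf : f.IsHomogeneous a) :
    f = ∑ μ ∈ mon ι a, coeff μ f • monomial μ (1 : B) := by
  ext ν
  simp only [coeff_sum, coeff_smul, coeff_monomial, smul_eq_mul, mul_ite, mul_one, mul_zero,
    Finset.sum_ite_eq']
  split_ifs with hν
  · rfl
  · exact hf.coeff_eq_zero fun h => hν (mem_mon.2 h)

theorem W3_ap_lin (T : MvPolynomial ι L →ₗ[L] L) {f : MvPolynomial ι L} (hf : f.IsHomogeneous a) :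
    ap a (fun μ => T (monomial μ 1)) f = T f := by
  conv_rhs => rw [W3_expand hf]
  rw [ap_apply, map_sum]
  exact Finset.sum_congr rfl fun μ _ => by rw [map_smul, smul_eq_mul, mul_comm]

theorem exists_wData (W : Submodule L (MvPolynomial ι L)) (a : ℕ)
    (hW : ∀ f ∈ W, f.IsHomogeneous a) : ∃ h, Nonempty (WData W a h) := by
  classical
  let V : Submodule L (MvPolynomial ι L) := homogeneousSubmodule ι L a
  let s : Finset (MvPolynomial ι L) := (mon ι a).image fun μ => monomial μ (1 : L)
  have hV : V ≤ Submodule.span L (s : Set (MvPolynomial ι L)) := by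
    intro f hf
    rw [W3_expand (a := a) hf]
    exact Submodule.sum_mem _ fun μ hμ => Submodule.smul_mem _ _
      (Submodule.subset_span (Finset.mem_coe.2 (Finset.mem_image_of_mem _ hμ)))
  have hfin : FiniteDimensional L V := Submodule.finiteDimensional_of_le hV
  let W' : Submodule L V := W.comap V.subtype
  let b := Module.finBasis L (V ⧸ W')
  let pr : MvPolynomial ι L →ₗ[L] V :=
    (homogeneousComponent a).codRestrict V fun f => homogeneousComponent_mem a f
  have hpr : ∀ f : V, pr f = f := fun f => Subtype.ext (homogeneousComponent_eq_self f.2)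
  let T : Fin (Module.finrank L (V ⧸ W')) → MvPolynomial ι L →ₗ[L] L :=
    fun k => b.coord k ∘ₗ W'.mkQ ∘ₗ pr
  have hT : ∀ k (f : V), T k f = b.repr (W'.mkQ f) k := fun k f => by
    show b.repr (W'.mkQ (pr f)) k = _
    rw [hpr]
  choose e he using fun k => W'.mkQ_surjective (b k)
  refine ⟨_, ⟨⟨fun k μ => T k (monomial μ 1), fun k => e k, fun k => (e k).2, fun k f hf => ?_,
    fun k k' => ?_, fun μ hμ => ?_, ?_⟩⟩⟩
  · have h0 : W'.mkQ ⟨f, hW f hf⟩ = 0 := (Submodule.Quotient.mk_eq_zero W').2 hf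
    rw [W3_ap_lin _ (hW f hf)]
    refine (hT k ⟨f, hW f hf⟩).trans ?_
    rw [h0, map_zero, Finsupp.zero_apply]
  · rw [W3_ap_lin _ (e k').2, hT, he, b.repr_self, Finsupp.single_apply]
    simp only [eq_comm]
  · let m : V := ⟨monomial μ 1, isHomogeneous_monomial _ (mem_mon.1 hμ)⟩
    have h1 : m - ∑ k, T k m • e k ∈ W' := by
      rw [← Submodule.Quotient.mk_eq_zero, ← Submodule.mkQ_apply, map_sub, map_sum]
      simp only [map_smul, he, hT, b.sum_repr, sub_self]
    have h2 : V.subtype (m - ∑ k, T k m • e k) ∈ W := h1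
    rw [map_sub, map_sum] at h2
    exact h2
  · exact (Submodule.finrank_quotient_le W').trans ((Submodule.finrank_mono hV).trans
      ((finrank_span_finset_le_card s).trans Finset.card_image_le))

theorem WData.mem_span (V : WData W a h) {B : Type} [CommRing B] (ψ : L →+* B)
    {f : MvPolynomial ι B} (hf : f.IsHomogeneous a)
    (h0 : ∀ k, ap a (fun μ => ψ (V.φ k μ)) f = 0) :
    f ∈ Submodule.span B (MvPolynomial.map ψ '' (W : Set (MvPolynomial ι L))) := by
  have e : f = ∑ μ ∈ mon ι a, coeff μ f •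
      MvPolynomial.map ψ (monomial μ (1 : L) - ∑ k, V.φ k μ • V.e k) := by
    have h1 : ∀ μ, MvPolynomial.map ψ (monomial μ (1 : L) - ∑ k, V.φ k μ • V.e k) =
        monomial μ (1 : B) - ∑ k, ψ (V.φ k μ) • MvPolynomial.map ψ (V.e k) := by
      intro μ
      simp only [map_sub, map_sum, map_monomial, map_one, smul_eq_C_mul, map_mul, map_C]
    simp only [h1, smul_sub, Finset.sum_sub_distrib, Finset.smul_sum, smul_smul]
    rw [← W3_expand hf, Finset.sum_comm, Finset.sum_eq_zero, sub_zero]
    intro k _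
    have h2 := h0 k
    rw [ap_apply] at h2
    rw [← Finset.sum_smul, Finset.sum_congr rfl fun μ _ => mul_comm _ _, h2, zero_smul]
  rw [e]
  exact Submodule.sum_mem _ fun μ hμ => Submodule.smul_mem _ _
    (Submodule.subset_span ⟨_, V.mem μ hμ, rfl⟩)

/-- The coefficients of a combination of the equations are its values on the dual family. -/
theorem WData.eq_zero (V : WData W a h) {B : Type} [CommRing B] (ψ : L →+* B) (c : Fin h → B)
    (h0 : ∀ μ ∈ mon ι a, ∑ k, c k * ψ (V.φ k μ) = 0) : c = 0 := by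
  funext k'
  have h1 := ap_eq_zero (φ := fun μ => ∑ k, c k * ψ (V.φ k μ)) h0 (MvPolynomial.map ψ (V.e k'))
  rw [ap_sum Finset.univ c fun k μ => ψ (V.φ k μ)] at h1
  simpa only [← map_ap, V.dual, apply_ite ψ, map_one, map_zero, mul_ite, mul_one, mul_zero,
    Finset.sum_ite_eq', Finset.mem_univ, if_true, Pi.zero_apply] using h1

/-- Over a base point free `W` no combination of the equations is an evaluation. -/
theorem WData.hankel [CharZero L] (V : WData W a h) (ha : 2 ≤ a) (hW : ∀ f ∈ W, f.IsHomogeneous a)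
    (hbp : ∀ i, X i ∈ (Ideal.span (W : Set (MvPolynomial ι L))).radical)
    {F : Type} [Field F] [Algebra L F] (c : Fin h → F) (hc : c ≠ 0) :
    (∃ l : ι → F, ap a (fun μ => ∑ k, c k * algebraMap L F (V.φ k μ)) (lf l ^ a) ≠ 0) ∧
    ∃ l l' : ι → F, ap a (fun μ => ∑ k, c k * algebraMap L F (V.φ k μ)) (lf l ^ a) *
        ap a (fun μ => ∑ k, c k * algebraMap L F (V.φ k μ)) (lf l ^ (a - 2) * lf l' ^ 2) ≠
      ap a (fun μ => ∑ k, c k * algebraMap L F (V.φ k μ)) (lf l ^ (a - 1) * lf l') ^ 2 := by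
  have : CharZero F := charZero_of_injective_algebraMap (algebraMap L F).injective
  have h1 : ∃ l : ι → F, ap a (fun μ => ∑ k, c k * algebraMap L F (V.φ k μ)) (lf l ^ a) ≠ 0 := by
    by_contra hn
    push Not at hn
    exact hc (V.eq_zero (algebraMap L F) c (eq_zero_of_pow hn))
  refine ⟨h1, ?_⟩
  by_contra hn
  push Not at hn
  obtain ⟨κ, P, hP⟩ := exists_eval_of_hankel ha hn
  obtain ⟨l, hl⟩ := h1
  have hh : (lf l ^ a).IsHomogeneous a := by
    simpa only [one_mul] using (lf_isHomogeneous l).pow a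
  rw [hP _ hh] at hl
  have hκ : κ ≠ 0 := left_ne_zero_of_mul hl
  have hk : Ideal.span (W : Set (MvPolynomial ι L)) ≤
      RingHom.ker ((eval P).comp (MvPolynomial.map (algebraMap L F))) := by
    refine Ideal.span_le.2 fun f hf => ?_
    have h2 := hP _ ((hW f hf).map (algebraMap L F))
    rw [ap_sum Finset.univ c fun k μ => algebraMap L F (V.φ k μ)] at h2
    simp only [← map_ap, V.kill _ f hf, map_zero, mul_zero, Finset.sum_const_zero] at h2
    exact (mul_eq_zero.1 h2.symm).resolve_left hκ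
  have hP0 : ∀ i, P i = 0 := by
    intro i
    obtain ⟨n, hn⟩ := hbp i
    have h2 := hk hn
    rw [RingHom.mem_ker, map_pow, RingHom.comp_apply, map_X, eval_X] at h2
    exact eq_zero_of_pow_eq_zero h2
  refine right_ne_zero_of_mul hl ?_
  have h3 : eval P (lf l) = 0 := by
    show eval P (∑ i, C (l i) * X i) = 0
    simp only [map_sum, map_mul, eval_X, hP0, mul_zero, Finset.sum_const_zero]
  rw [map_pow, h3, zero_pow (by omega)]

theorem anchor_A1Form : True := by
  have := @mon.eq_1
  have := @ap.eq_1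
  trivial

end Crest.Agent.R181.A1
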