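import Crest.Agent.R181.A1Tr
import Crest.Agent.R181.A1Form

/-! Row 181, stage A1: each term imposes two independent conditions. -/

set_option autoImplicit false

namespace Crest.Agent.R181.A1

open MvPolynomial

variable {ι : Type} [Fintype ι] [DecidableEq ι] {F K : Type} [Field F] [Field K] [Algebra F K]

/-- The values of the functional on `p ^ u * q ^ v * ∏ (s p + t q)`. -/
noncomputable def blkA {B : Type} [CommRing B] (a : ℕ) (φ : (ι →₀ ℕ) → B) {κ : Type} (I : Finset κ)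
    (l : ι × Fin 2 → B) (s : κ × Fin 2 → B) (u v : ℕ) : B :=
  ap a φ (lf (fun k => l (k, 0)) ^ u * lf (fun k => l (k, 1)) ^ v *
    ∏ i ∈ I, (C (s (i, 0)) * lf (fun k => l (k, 0)) + C (s (i, 1)) * lf (fun k => l (k, 1))))

theorem blkA_map {B B' : Type} [CommRing B] [CommRing B'] (ψ : B →+* B') (a : ℕ)
    (φ : (ι →₀ ℕ) → B) {κ : Type} (I : Finset κ) (l : ι × Fin 2 → B) (s : κ × Fin 2 → B) (u v : ℕ) :
    ψ (blkA a φ I l s u v) =
      blkA a (fun μ => ψ (φ μ)) I (fun p => ψ (l p)) (fun p => ψ (s p)) u v := by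
  simp only [blkA, map_ap, map_mul, map_pow, map_prod, map_add, map_C, map_lf]

theorem blkA_coe {B : Type} [CommRing B] (a : ℕ) (φ : (ι →₀ ℕ) → B) {κ : Type} (I : Finset κ)
    (l : ι × Fin 2 → B) (s : κ × Fin 2 → B) (u v : ℕ) :
    blkA a φ (Finset.univ : Finset I) l (fun p => s (p.1.1, p.2)) u v = blkA a φ I l s u v := by
  unfold blkA
  rw [← Finset.prod_coe_sort I]

theorem blkA_insert {B : Type} [CommRing B] (a : ℕ) (φ : (ι →₀ ℕ) → B) {κ : Type} [DecidableEq κ]
    {I : Finset κ} {i : κ} (hi : i ∉ I) (l : ι × Fin 2 → B) (s : κ × Fin 2 → B) (u v : ℕ) :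
    blkA a φ (insert i I) l s u v =
      s (i, 0) * blkA a φ I l s (u + 1) v + s (i, 1) * blkA a φ I l s u (v + 1) := by
  unfold blkA
  rw [Finset.prod_insert hi, ← smul_eq_mul (s (i, 0)), ← smul_eq_mul (s (i, 1)), ← map_smul,
    ← map_smul, ← map_add, smul_eq_C_mul, smul_eq_C_mul]
  congr 1
  ring

/-- The universal value. -/
noncomputable def blkU (a : ℕ) (φ : (ι →₀ ℕ) → F) (κ : Type) [Fintype κ] (u v : ℕ) :
    MvPolynomial ((κ × Fin 2) ⊕ (ι × Fin 2)) F :=
  blkA a (fun μ => C (φ μ)) Finset.univ (fun p => X (.inr p)) (fun p : κ × Fin 2 => X (.inl p)) u v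

theorem aeval_blkU (a : ℕ) (φ : (ι →₀ ℕ) → F) {κ : Type} [Fintype κ] (l : ι × Fin 2 → K)
    (s : κ × Fin 2 → K) (u v : ℕ) : aeval (Sum.elim s l) (blkU a φ κ u v) =
      blkA a (fun μ => algebraMap F K (φ μ)) Finset.univ l s u v := by
  have h := blkA_map (aeval (R := F) (Sum.elim s l)).toRingHom a (fun μ => C (φ μ)) Finset.univ
    (fun p => X (Sum.inr p)) (fun p : κ × Fin 2 => X (Sum.inl p)) u v
  simpa [blkU] using h

theorem aeval_blkU_one (a : ℕ) (φ : (ι →₀ ℕ) → F) (κ : Type) [Fintype κ] (l l' : ι → F) (u v : ℕ) :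
    aeval (Sum.elim (fun p : κ × Fin 2 => (![1, 0] p.2 : F)) fun p : ι × Fin 2 => ![l, l'] p.2 p.1)
      (blkU a φ κ u v) = ap a φ (lf l ^ (u + Fintype.card κ) * lf l' ^ v) := by
  rw [aeval_blkU, blkA]
  simp only [Algebra.algebraMap_self, RingHom.id_apply, Matrix.cons_val_zero, Matrix.cons_val_one,
    map_one, map_zero, one_mul, zero_mul, add_zero, Finset.prod_const, Finset.card_univ]
  congr 1
  ring

theorem blk_alg {S : Subalgebra F K} {α β y : K} (hα : α ∈ S) (hβ : β ∈ S) (h0 : α ≠ 0)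
    (h : y * α + β = 0) : IsAlgebraic S y := by
  refine ⟨Polynomial.C ⟨α, hα⟩ * Polynomial.X + Polynomial.C ⟨β, hβ⟩, fun h1 => h0 ?_, ?_⟩
  · have h2 := congrArg (Polynomial.coeff · 1) h1
    have h3 : (⟨α, hα⟩ : S) = 0 := by simpa [Polynomial.coeff_C] using h2
    exact congrArg Subtype.val h3
  · rw [map_add, map_mul, Polynomial.aeval_C, Polynomial.aeval_C, Polynomial.aeval_X, mul_comm]
    exact h

theorem blk_alg_mem {S : Subalgebra F K} {y : K} (h : y ∈ S) : IsAlgebraic S y :=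
  blk_alg S.one_mem (S.neg_mem h) one_ne_zero (by ring)

omit [Fintype ι] [DecidableEq ι] in
theorem blk_step {κ : Type} [DecidableEq κ] (I : Finset κ) (i : κ) (l : ι × Fin 2 → K)
    (s : κ × Fin 2 → K) {β : Type} {y : β → K} {d : ℕ} (hy : TrLe F y d)
    (hx : ∀ b, ∃ b', Sum.elim (fun p : I × Fin 2 => s (p.1.1, p.2)) l b = y b')
    (hs : ∀ e, IsAlgebraic (Algebra.adjoin F (Set.range y)) (s (i, e))) :
    TrLe F (Sum.elim (fun p : ↥(insert i I : Finset κ) × Fin 2 => s (p.1.1, p.2)) l) d := by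
  have h1 : ∀ b, IsAlgebraic (Algebra.adjoin F (Set.range y))
      (Sum.elim (fun p : I × Fin 2 => s (p.1.1, p.2)) l b) := fun b => by
    obtain ⟨b', hb⟩ := hx b
    exact blk_alg_mem (Algebra.subset_adjoin ⟨b', hb.symm⟩)
  refine hy.alg ?_
  rintro (⟨⟨k, hk⟩, e⟩ | p)
  · rcases Finset.mem_insert.1 hk with rfl | hk
    · exact hs e
    · exact h1 (.inl (⟨k, hk⟩, e))
  · exact h1 (.inr p)

/-- The Hankel induction. -/
theorem block {a : ℕ} (φ : (ι →₀ ℕ) → F) (h1 : ∃ l : ι → F, ap a φ (lf l ^ a) ≠ 0)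
    (h2 : ∃ l l' : ι → F, ap a φ (lf l ^ a) * ap a φ (lf l ^ (a - 2) * lf l' ^ 2) ≠
      ap a φ (lf l ^ (a - 1) * lf l') ^ 2)
    {κ : Type} (I : Finset κ) (r : ℕ) (hr : 1 ≤ r) (hI : r + I.card = a)
    (l : ι × Fin 2 → K) (s : κ × Fin 2 → K)
    (h : ∀ j ≤ r, ap a (fun μ => algebraMap F K (φ μ))
      (lf (fun k => l (k, 0)) ^ (r - j) * lf (fun k => l (k, 1)) ^ j *
        ∏ i ∈ I, (C (s (i, 0)) * lf (fun k => l (k, 0)) + C (s (i, 1)) * lf (fun k => l (k, 1)))) = 0) :
    ∃ d, d + 2 = 2 * I.card + 2 * Fintype.card ι ∧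
      TrLe F (Sum.elim (fun p : I × Fin 2 => s (p.1.1, p.2)) l) d := by
  classical
  replace h : ∀ j ≤ r, blkA a (fun μ => algebraMap F K (φ μ)) I l s (r - j) j = 0 := h
  have hι : 1 ≤ Fintype.card ι := by
    obtain ⟨l₀, hl₀⟩ := h1
    by_contra h0
    have : IsEmpty ι := Fintype.card_eq_zero_iff.1 (by omega)
    apply hl₀
    rw [lf, Finset.univ_eq_empty, Finset.sum_empty, zero_pow (by omega), map_zero]
  induction I using Finset.induction_on generalizing r with
  | empty =>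
    obtain rfl : r = a := by simpa using hI
    have hP : ∀ (B : Type) [CommRing B] [Algebra F B] (t : ι → B),
        aeval t (ap r (fun μ => C (φ μ)) (lf X ^ r : MvPolynomial ι (MvPolynomial ι F))) =
          ap r (fun μ => algebraMap F B (φ μ)) (lf t ^ r) := by
      intro B _ _ t
      have h3 := map_ap ((aeval t : MvPolynomial ι F →ₐ[F] B) : MvPolynomial ι F →+* B)
        (a := r) (fun μ => C (φ μ)) (lf X ^ r)
      simpa [map_lf] using h3
    have hne : ap r (fun μ => C (φ μ)) (lf X ^ r : MvPolynomial ι (MvPolynomial ι F)) ≠ 0 := by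
      obtain ⟨l₀, hl₀⟩ := h1
      intro h0
      have h3 := hP F l₀
      rw [h0, map_zero] at h3
      exact hl₀ h3.symm
    have t0 := trLe_of_rel (fun k => l (k, 0)) hne (by simpa [hP, blkA] using h 0 (Nat.zero_le _))
    have t1 := trLe_of_rel (fun k => l (k, 1)) hne (by simpa [hP, blkA] using h r le_rfl)
    refine ⟨_, ?_, (t0.sum t1).of_range ?_⟩
    · rw [Finset.card_empty]
      omega
    · rintro (⟨⟨k, hk⟩, e⟩ | ⟨k, e⟩)
      · exact absurd hk (Finset.notMem_empty k)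
      · fin_cases e
        · exact ⟨.inl k, rfl⟩
        · exact ⟨.inr k, rfl⟩
  | insert i I hi ih =>
    rw [Finset.card_insert_of_notMem hi] at hI ⊢
    set A : ℕ → K := fun j => blkA a (fun μ => algebraMap F K (φ μ)) I l s (r + 1 - j) j with hA
    set x : (I × Fin 2) ⊕ (ι × Fin 2) → K := Sum.elim (fun p => s (p.1.1, p.2)) l with hx
    have hrel : ∀ j ≤ r, s (i, 0) * A j + s (i, 1) * A (j + 1) = 0 := fun j hj => by
      have h3 := h j hj
      rw [blkA_insert _ _ hi] at h3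
      simp only [hA, Nat.add_sub_add_right, Nat.sub_add_comm hj]
      exact h3
    have hU : ∀ j, aeval x (blkU a φ I (r + 1 - j) j) = A j := fun j => by
      rw [hx, aeval_blkU, blkA_coe]
    have hcard : Fintype.card ((I × Fin 2) ⊕ (ι × Fin 2)) = 2 * I.card + 2 * Fintype.card ι := by
      simp [mul_comm]
    by_cases hz : ∀ j ≤ r + 1, A j = 0
    · obtain ⟨d, hd, ht⟩ := ih (r + 1) (by omega) (by omega) hz
      refine ⟨d + Fintype.card (Fin 2), by rw [Fintype.card_fin]; omega,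
        blk_step I i l s (ht.sum (trLe_card fun e => s (i, e))) (fun b => ⟨.inl b, rfl⟩) fun e => ?_⟩
      exact blk_alg_mem (Algebra.subset_adjoin ⟨.inr e, rfl⟩)
    by_cases hs : s (i, 0) = 0 ∧ s (i, 1) = 0
    · refine ⟨Fintype.card ((I × Fin 2) ⊕ (ι × Fin 2)), by omega,
        blk_step I i l s (trLe_card x) (fun b => ⟨b, rfl⟩) fun e => ?_⟩
      fin_cases e
      · exact blk_alg_mem (hs.1 ▸ zero_mem _ : s (i, 0) ∈ _)
      · exact blk_alg_mem (hs.2 ▸ zero_mem _ : s (i, 1) ∈ _)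
    have hH : A 0 * A 2 - A 1 ^ 2 = 0 := by
      by_contra h0
      refine hs ⟨(mul_eq_zero.1 ?_).resolve_right h0, (mul_eq_zero.1 ?_).resolve_right h0⟩
      · linear_combination A 2 * hrel 0 (Nat.zero_le _) - A 1 * hrel 1 hr
      · linear_combination A 0 * hrel 1 hr - A 1 * hrel 0 (Nat.zero_le _)
    have hne : blkU a φ I (r + 1 - 0) 0 * blkU a φ I (r + 1 - 2) 2 - blkU a φ I (r + 1 - 1) 1 ^ 2 ≠ 0 := by
      obtain ⟨l₀, l₁, hl⟩ := h2
      intro h0
      have h3 := congrArg (aeval (Sum.elim (fun p : I × Fin 2 => (![1, 0] p.2 : F))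
        fun p : ι × Fin 2 => ![l₀, l₁] p.2 p.1)) h0
      simp only [map_sub, map_mul, map_pow, aeval_blkU_one, map_zero, Fintype.card_coe, pow_zero,
        mul_one, pow_one] at h3
      rw [show r + 1 - 0 + I.card = a by omega, show r + 1 - 2 + I.card = a - 2 by omega,
        show r + 1 - 1 + I.card = a - 1 by omega] at h3
      exact hl (sub_eq_zero.1 h3)
    have ht := trLe_of_rel x hne (by rw [map_sub, map_mul, map_pow, hU, hU, hU, hH])
    have hmem : ∀ (t : K) j, A j ∈ Algebra.adjoin F (Set.range (Sum.elim x fun _ : Unit => t)) := by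
      intro t j
      refine Algebra.adjoin_mono (s := Set.range x) ?_ ?_
      · rintro _ ⟨b, rfl⟩
        exact ⟨.inl b, rfl⟩
      · rw [Algebra.adjoin_range_eq_range_aeval]
        exact ⟨_, hU j⟩
    have hself : ∀ t : K, t ∈ Algebra.adjoin F (Set.range (Sum.elim x fun _ : Unit => t)) :=
      fun t => Algebra.subset_adjoin ⟨.inr (), rfl⟩
    push Not at hz
    obtain ⟨j, hj, hj0⟩ := hz
    refine ⟨Fintype.card ((I × Fin 2) ⊕ (ι × Fin 2)) - 1 + Fintype.card Unit,
      by rw [Fintype.card_unit]; omega, ?_⟩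
    rcases Nat.lt_or_ge r j with hjr | hjr
    · obtain rfl : j = r + 1 := by omega
      refine blk_step I i l s (ht.sum (trLe_card fun _ : Unit => s (i, 0))) (fun b => ⟨.inl b, rfl⟩)
        fun e => ?_
      fin_cases e
      · exact blk_alg_mem (hself _)
      · exact blk_alg (hmem _ (r + 1)) (mul_mem (hself _) (hmem _ r)) hj0
          ((add_comm _ _).trans (hrel r le_rfl))
    · refine blk_step I i l s (ht.sum (trLe_card fun _ : Unit => s (i, 1))) (fun b => ⟨.inl b, rfl⟩)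
        fun e => ?_
      fin_cases e
      · exact blk_alg (hmem _ j) (mul_mem (hself _) (hmem _ (j + 1))) hj0 (hrel j hjr)
      · exact blk_alg_mem (hself _)

end Crest.Agent.R181.A1
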