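import Crest.Agent.R181.NCDefs

/-! Row 181 (route 2): `A1Stmt` for arbitrary skew fields from its strong form over the base field. -/

set_option autoImplicit false

namespace Crest.Agent.R181.Mc

open MvPolynomial

/-- `E` can be amalgamated over `L` with every skew field. -/
def Amalg (L : Type) [Field L] [Algebra ℂ L] (E : DA) (fl : L →ₐ[ℂ] E.L) : Prop :=
  ∀ (D : Type) [DivisionRing D] [Algebra L D],
    ∃ (D' : Type) (_ : DivisionRing D') (f : D →+* D') (k : E.D →+* D'),
      (∀ d e, Commute (f d) (k e)) ∧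
      (∀ l : L, k (algebraMap E.L E.D (fl l)) = f (algebraMap L D l)) ∧
      ∀ (r : E.L) (x : D'), Commute (k (algebraMap E.L E.D r)) x

/-- The output of stage A1 over the base field, together with the amalgamation property. -/
def A1Strong (a : ℕ) (ζ : ℂ) : Prop :=
  ∀ (L : Type) [Field L] [Algebra ℂ L] (ι : Type) [Fintype ι] [DecidableEq ι] [Nonempty ι]
    (W : Submodule L (MvPolynomial ι L)), (∀ w ∈ W, w.IsHomogeneous a) →
    (∀ i, X i ∈ (Ideal.span (W : Set (MvPolynomial ι L))).radical) →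
    ∃ (E : DA) (fl : L →ₐ[ℂ] E.L) (N : ℕ) (g : Fin N → Gad E a ζ) (l l' : Fin N → ι → E.L),
      Amalg L E fl ∧ HubRel g ∧
      hubForm g l l' ∈ Submodule.span E.L (MvPolynomial.map (fl : L →+* E.L) '' W) ∧
      ∀ π : ι → AlgebraicClosure E.L,
        (∀ i, ∃ p : Polynomial L, p ≠ 0 ∧ Polynomial.eval₂
          ((algebraMap E.L (AlgebraicClosure E.L)).comp (fl : L →+* E.L)) (π i) p = 0) →
        (∃ w ∈ W, eval₂ ((algebraMap E.L (AlgebraicClosure E.L)).comp (fl : L →+* E.L))
          π w ≠ 0) →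
        aeval π (hubForm g l l') ≠ 0

/-- transport of a gadget along a homomorphism over the same central field -/
noncomputable def Gad.tr {E : DA} {a : ℕ} {ζ : ℂ} (g : Gad E a ζ) {D' : Type} [DivisionRing D']
    [Algebra E.L D'] (k : E.D →ₐ[E.L] D') : Gad { L := E.L, D := D' } a ζ where
  u := k g.u
  θ := k g.θ
  T := g.T
  Θ := g.Θ
  hT := g.hT
  hΘ := g.hΘ
  hu := by
    have h := congrArg k g.hu
    rw [map_pow, k.commutes] at h
    exact h
  hθ := by
    have h := congrArg k g.hθ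
    rw [map_pow, k.commutes] at h
    exact h
  hc := by
    have h := congrArg k g.hc
    rw [map_mul, map_smul, map_mul] at h
    exact h
  b := g.b
  φ := g.φ
  monic := g.monic
  deg := g.deg
  root := fun i => by
    have h1 : (conjB (A := { L := E.L, D := D' }) ζ (k g.θ) g.b i : D') = k (conjB ζ g.θ g.b i) := by
      show Polynomial.aeval (algebraMap ℂ E.L (ζ ^ i) • k g.θ) g.b =
        k (Polynomial.aeval (algebraMap ℂ E.L (ζ ^ i) • g.θ) g.b)
      rw [← map_smul, Polynomial.aeval_algHom_apply]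
    show Polynomial.aeval (conjB (A := { L := E.L, D := D' }) ζ (k g.θ) g.b i : D') g.φ = 0
    rw [h1, Polynomial.aeval_algHom_apply, g.root i, map_zero]
  inj := fun i j hi hj h => by
    have h1 : ∀ i, (conjB (A := { L := E.L, D := D' }) ζ (k g.θ) g.b i : D') =
        k (conjB ζ g.θ g.b i) := fun i => by
      show Polynomial.aeval (algebraMap ℂ E.L (ζ ^ i) • k g.θ) g.b =
        k (Polynomial.aeval (algebraMap ℂ E.L (ζ ^ i) • g.θ) g.b)
      rw [← map_smul, Polynomial.aeval_algHom_apply]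
    rw [h1, h1] at h
    exact g.inj i j hi hj ((k : E.D →+* D').injective h)

theorem a1Stmt_of_strong {a : ℕ} {ζ : ℂ} (h : A1Strong a ζ) : A1Stmt (fun _ => True) a ζ := by
  intro A _ ι _ _ _ W hW hbp
  obtain ⟨E, fl, N, g, l, l', hAm, hHub, hF, hG⟩ := h A.L ι W hW hbp
  obtain ⟨D', iD, f, k, hc, hl, hz⟩ := hAm A.D
  letI : Algebra E.L D' := (k.comp (algebraMap E.L E.D)).toAlgebra' fun r x => (hz r x).eq
  let k' : E.D →ₐ[E.L] D' := { k with commutes' := fun _ => rfl }
  refine ⟨{ L := E.L, D := D' }, ⟨fl, f, fun r => (hl r).symm⟩, N, fun m => Gad.tr (g m) k', l, l',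
    trivial, fun m z => ⟨hc z _, hc z _⟩, ⟨fun m m' hm => ?_, fun m m' hm => ?_, fun m m' => ?_⟩,
    hF, hG⟩
  · have h := congrArg k' (hHub.1 m m' hm)
    rw [map_mul, map_smul, map_mul] at h
    exact h
  · exact (hHub.2.1 m m' hm).map k
  · exact (hHub.2.2 m m').map k

end Crest.Agent.R181.Mc
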