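import Crest.Agent.R181.MaAm
import Crest.Agent.R181.MaTr

/-! Row 181, stage A1: the commutant of a simple family of monomial symmetries. -/

set_option autoImplicit false

namespace Crest.Agent.R181.A1

open scoped TensorProduct

variable {L : Type} [Field L] {R₀ : Type} [CommRing R₀] [Algebra L R₀] {μ J : Type}

/-- Stable saturated submodules of `μ → D ⊗ R₀` are trivial. -/
def Simple (Γ : J → Mc.Sym L R₀ μ) (D : Type) [DivisionRing D] [Algebra L D] : Prop :=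
  ∀ M : Submodule (D ⊗[L] R₀) (μ → D ⊗[L] R₀),
    (∀ γ, ∀ x ∈ M, (fun m => (((Γ γ).c ((Γ γ).π.symm m) : Lˣ) : L) •
        Algebra.TensorProduct.map (AlgHom.id L D) (Γ γ).ρ.toAlgHom (x ((Γ γ).π.symm m))) ∈ M) →
    (∀ r : D ⊗[L] R₀, r ≠ 0 → ∀ x, r • x ∈ M → x ∈ M) → M = ⊥ ∨ M = ⊤

variable (Ω : Type) [Field Ω] [Algebra R₀ Ω] [Algebra L Ω] [IsScalarTower L R₀ Ω]
  (Γ : J → Mc.Sym L R₀ μ)

/-- `ρΩ` extends the symmetry `γ`. -/
def Ext (γ : J) (ρΩ : Ω →+* Ω) : Prop :=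
  ∀ r, ρΩ (algebraMap R₀ Ω r) = algebraMap R₀ Ω ((Γ γ).ρ r)

variable {Ω Γ} in
theorem Ext.alg {γ : J} {ρΩ : Ω →+* Ω} (h : Ext Ω Γ γ ρΩ) (l : L) :
    ρΩ (algebraMap L Ω l) = algebraMap L Ω l := by
  rw [IsScalarTower.algebraMap_apply L R₀ Ω, h, AlgEquiv.commutes]

/-- The fixed field. -/
def fixF : IntermediateField L Ω where
  carrier := {ω | ∀ γ ρΩ, Ext Ω Γ γ ρΩ → ρΩ ω = ω}
  mul_mem' h1 h2 γ ρΩ h := by rw [map_mul, h1 γ ρΩ h, h2 γ ρΩ h]
  add_mem' h1 h2 γ ρΩ h := by rw [map_add, h1 γ ρΩ h, h2 γ ρΩ h]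
  algebraMap_mem' l _ _ h := h.alg l
  inv_mem' _ h1 γ ρΩ h := by rw [map_inv₀, h1 γ ρΩ h]

theorem mem_fixF {ω : Ω} : ω ∈ fixF Ω Γ ↔ ∀ γ ρΩ, Ext Ω Γ γ ρΩ → ρΩ ω = ω := Iff.rfl

variable [Fintype μ] [DecidableEq μ]

omit [Algebra R₀ Ω] [Algebra L Ω] [IsScalarTower L R₀ Ω] in
theorem comm1_rel (π : Equiv.Perm μ) (c : μ → Ω) (ρ : Ω →+* Ω) (e : Matrix μ μ Ω) :
    (∀ m m', e (π m) (π m') * c m' = c m * ρ (e m m')) ↔
      e.submatrix π π * Matrix.diagonal c = Matrix.diagonal c * e.map ρ := by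
  rw [← Matrix.ext_iff]
  simp only [Matrix.mul_diagonal, Matrix.diagonal_mul, Matrix.submatrix_apply, Matrix.map_apply]

/-- The commutant. -/
def comm : Subalgebra (fixF Ω Γ) (Matrix μ μ Ω) where
  carrier := {e | ∀ γ ρΩ, Ext Ω Γ γ ρΩ → ∀ m m',
    e ((Γ γ).π m) ((Γ γ).π m') * algebraMap L Ω ((Γ γ).c m') =
      algebraMap L Ω ((Γ γ).c m) * ρΩ (e m m')}
  mul_mem' := by
    intro e e' h h' γ ρΩ hρ
    have h1 := (comm1_rel Ω _ _ ρΩ e).1 (h γ ρΩ hρ)
    have h2 := (comm1_rel Ω _ _ ρΩ e').1 (h' γ ρΩ hρ)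
    refine (comm1_rel Ω _ (fun m => algebraMap L Ω ((Γ γ).c m)) ρΩ (e * e')).2 ?_
    rw [← Matrix.submatrix_mul_equiv e e' _ (Γ γ).π _, Matrix.map_mul, mul_assoc, h2,
      ← mul_assoc, h1, mul_assoc]
  add_mem' := by
    intro e e' h h' γ ρΩ hρ m m'
    rw [Matrix.add_apply, Matrix.add_apply, add_mul, h γ ρΩ hρ, h' γ ρΩ hρ, map_add, mul_add]
  algebraMap_mem' := by
    intro r γ ρΩ hρ m m'
    have hr : ρΩ (r : Ω) = r := r.2 γ ρΩ hρ
    rw [Matrix.algebraMap_matrix_apply, Matrix.algebraMap_matrix_apply]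
    by_cases hm : m = m'
    · subst hm
      rw [if_pos rfl, if_pos rfl]
      change (r : Ω) * _ = _ * ρΩ (r : Ω)
      rw [hr, mul_comm]
    · rw [if_neg hm, if_neg (fun h => hm ((Γ γ).π.injective h)), map_zero, zero_mul, mul_zero]

theorem mem_comm {e : Matrix μ μ Ω} : e ∈ comm Ω Γ ↔ ∀ γ ρΩ, Ext Ω Γ γ ρΩ → ∀ m m',
    e ((Γ γ).π m) ((Γ γ).π m') * algebraMap L Ω ((Γ γ).c m') =
      algebraMap L Ω ((Γ γ).c m) * ρΩ (e m m') := Iff.rfl

variable [IsDomain R₀] [IsFractionRing R₀ Ω] [Nonempty μ]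

omit [Algebra L Ω] [IsScalarTower L R₀ Ω] [Fintype μ] [DecidableEq μ] [IsDomain R₀]
  [Nonempty μ] in
theorem comm1_ext (γ : J) : ∃ ρΩ, Ext Ω Γ γ ρΩ :=
  ⟨IsFractionRing.lift (g := (algebraMap R₀ Ω).comp (Γ γ).ρ.toAlgHom.toRingHom)
    ((IsFractionRing.injective R₀ Ω).comp (Γ γ).ρ.injective),
    fun r => IsFractionRing.lift_algebraMap _ r⟩

/-- Schur's lemma. -/
theorem comm_isUnit (hS : Simple Γ L) (e : comm Ω Γ) : IsUnit e ∨ e = 0 := by
  let φ : L ⊗[L] R₀ →+* Ω :=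
    (algebraMap R₀ Ω).comp (Algebra.TensorProduct.lid L R₀).toAlgHom.toRingHom
  have hφ : ∀ y, φ y = algebraMap R₀ Ω (Algebra.TensorProduct.lid L R₀ y) := fun _ => rfl
  have hφi : Function.Injective φ :=
    (IsFractionRing.injective R₀ Ω).comp (Algebra.TensorProduct.lid L R₀).injective
  have hsm : ∀ (r : L ⊗[L] R₀) (v : μ → L ⊗[L] R₀),
      (fun m => φ ((r • v) m)) = φ r • fun m => φ (v m) := by
    intro r v
    funext m
    rw [Pi.smul_apply, smul_eq_mul, map_mul, Pi.smul_apply, smul_eq_mul]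
  let M : Submodule (L ⊗[L] R₀) (μ → L ⊗[L] R₀) :=
    { carrier := {v | (e : Matrix μ μ Ω).mulVec (fun m => φ (v m)) = 0}
      add_mem' := by
        intro a b ha hb
        have h1 : (fun m => φ ((a + b) m)) = (fun m => φ (a m)) + fun m => φ (b m) := by
          funext m
          rw [Pi.add_apply, map_add, Pi.add_apply]
        change (e : Matrix μ μ Ω).mulVec (fun m => φ ((a + b) m)) = 0
        rw [h1, Matrix.mulVec_add, ha, hb, add_zero]
      zero_mem' := by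
        have h1 : (fun m => φ ((0 : μ → L ⊗[L] R₀) m)) = 0 := by
          funext m
          rw [Pi.zero_apply, map_zero, Pi.zero_apply]
        change (e : Matrix μ μ Ω).mulVec (fun m => φ ((0 : μ → L ⊗[L] R₀) m)) = 0
        rw [h1, Matrix.mulVec_zero]
      smul_mem' := by
        intro r a ha
        change (e : Matrix μ μ Ω).mulVec (fun m => φ ((r • a) m)) = 0
        rw [hsm, Matrix.mulVec_smul, ha, smul_zero] }
  have hM : ∀ v, v ∈ M ↔ (e : Matrix μ μ Ω).mulVec (fun m => φ (v m)) = 0 := fun _ => Iff.rfl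
  refine (hS M (fun γ x hx => ?_) (fun r hr x hx => ?_)).elim (fun h => ?_) (fun h => ?_)
  rotate_left 2
  · left
    have hdet : (e : Matrix μ μ Ω).det ≠ 0 := by
      intro h0
      obtain ⟨x, hx0, hx⟩ := Matrix.exists_mulVec_eq_zero_iff.2 h0
      obtain ⟨b, hb⟩ := IsLocalization.exist_integer_multiples_of_finite
        (nonZeroDivisors R₀) x
      choose y hy using hb
      have hb0 : algebraMap R₀ Ω b ≠ 0 := fun h1 =>
        nonZeroDivisors.ne_zero b.2 (IsFractionRing.injective R₀ Ω (h1.trans (map_zero _).symm))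
      have h1 : (fun m => φ ((Algebra.TensorProduct.lid L R₀).symm (y m))) =
          algebraMap R₀ Ω b • x := by
        funext m
        rw [hφ, AlgEquiv.apply_symm_apply, hy, Algebra.smul_def, Pi.smul_apply, smul_eq_mul]
      have h2 : (fun m => (Algebra.TensorProduct.lid L R₀).symm (y m)) ∈ M := by
        rw [hM, h1, Matrix.mulVec_smul, hx, smul_zero]
      rw [h, Submodule.mem_bot] at h2
      have h3 : algebraMap R₀ Ω b • x = 0 := by
        rw [← h1]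
        funext m
        rw [congrFun h2 m, Pi.zero_apply, map_zero, Pi.zero_apply]
      exact hx0 ((smul_eq_zero.1 h3).resolve_left hb0)
    have hu : IsUnit (e : Matrix μ μ Ω).det := isUnit_iff_ne_zero.2 hdet
    have h1 := Matrix.nonsing_inv_mul _ hu
    have h2 := Matrix.mul_nonsing_inv _ hu
    have hinv : (e : Matrix μ μ Ω)⁻¹ ∈ comm Ω Γ := by
      intro γ ρΩ hρ
      have h3 := (comm1_rel Ω _ _ ρΩ (e : Matrix μ μ Ω)).1 (e.2 γ ρΩ hρ)
      refine (comm1_rel Ω _ (fun m => algebraMap L Ω ((Γ γ).c m)) ρΩ _).2 ?_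
      have h4 : (e : Matrix μ μ Ω)⁻¹.submatrix (Γ γ).π (Γ γ).π *
          (e : Matrix μ μ Ω).submatrix (Γ γ).π (Γ γ).π = 1 := by
        rw [Matrix.submatrix_mul_equiv, h1, Matrix.submatrix_one_equiv]
      have h5 : (e : Matrix μ μ Ω).map ρΩ * (e : Matrix μ μ Ω)⁻¹.map ρΩ = 1 := by
        rw [← Matrix.map_mul, h2, Matrix.map_one _ (map_zero _) (map_one _)]
      rw [← mul_one (_ * Matrix.diagonal _), ← h5, ← mul_assoc, mul_assoc _ (Matrix.diagonal _),
        ← h3, ← mul_assoc, h4, one_mul]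
    exact ⟨⟨e, ⟨_, hinv⟩, Subtype.ext h2, Subtype.ext h1⟩, rfl⟩
  · right
    apply Subtype.ext
    ext m m'
    have h1 : (Pi.single m' 1 : μ → L ⊗[L] R₀) ∈ M := by rw [h]; trivial
    have h2 : (fun n => φ ((Pi.single m' 1 : μ → L ⊗[L] R₀) n)) = Pi.single m' 1 := by
      funext n
      by_cases hn : n = m'
      · subst hn; rw [Pi.single_eq_same, Pi.single_eq_same, map_one]
      · rw [Pi.single_eq_of_ne hn, Pi.single_eq_of_ne hn, map_zero]
    rw [hM, h2, Matrix.mulVec_single_one] at h1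
    exact congrFun h1 m
  · obtain ⟨ρΩ, hρ⟩ := comm1_ext Ω Γ γ
    have h1 : ∀ y, φ (Algebra.TensorProduct.map (AlgHom.id L L) (Γ γ).ρ.toAlgHom y) =
        ρΩ (φ y) := by
      intro y
      rw [hφ, hφ, hρ]
      congr 1
      induction y using TensorProduct.induction_on with
      | zero => simp
      | tmul a b => simp
      | add a b ha hb => simp only [map_add, ha, hb]
    have h2 : ∀ (l : L) y, φ (l • y) = algebraMap L Ω l * φ y := by
      intro l y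
      rw [hφ, hφ, map_smul, Algebra.smul_def, map_mul, ← IsScalarTower.algebraMap_apply]
    rw [hM] at hx ⊢
    funext n
    obtain ⟨n, rfl⟩ := (Γ γ).π.surjective n
    have h3 := congrArg ρΩ (congrFun hx n)
    rw [Pi.zero_apply, map_zero, Matrix.mulVec, dotProduct, map_sum] at h3
    rw [Pi.zero_apply, Matrix.mulVec, dotProduct, ← Equiv.sum_comp (Γ γ).π,
      ← mul_zero (algebraMap L Ω ((Γ γ).c n)), ← h3, Finset.mul_sum]
    refine Finset.sum_congr rfl fun n' _ => ?_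
    rw [h2, h1, Equiv.symm_apply_apply, ← mul_assoc, e.2 γ ρΩ hρ, map_mul, mul_assoc]
  · rw [hM, hsm, Matrix.mulVec_smul] at hx
    exact (smul_eq_zero.1 hx).resolve_left fun h1 => hr (hφi (h1.trans (map_zero φ).symm))

variable [Algebra ℂ L]

/-- The commutant as a skew field over the fixed field. -/
noncomputable def cDA (hS : Simple Γ L) : DA where
  L := fixF Ω Γ
  aL := Algebra.compHom (fixF Ω Γ) (algebraMap ℂ L)
  D := comm Ω Γ
  rD := DivisionRing.ofIsUnitOrEqZero (comm_isUnit Ω Γ hS)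
  aD := (inferInstance : Algebra (fixF Ω Γ) (comm Ω Γ))

/-- The inclusion of the base field. -/
noncomputable def cfl (hS : Simple Γ L) : L →ₐ[ℂ] (cDA Ω Γ hS).L :=
  { (algebraMap L (fixF Ω Γ)) with commutes' := fun _ => rfl }

/-- The central field inside `Ω`. -/
noncomputable def toΩ (hS : Simple Γ L) : (cDA Ω Γ hS).L →+* Ω := algebraMap (fixF Ω Γ) Ω

/-- The skew field inside the matrices. -/
noncomputable def toM (hS : Simple Γ L) : (cDA Ω Γ hS).D →+* Matrix μ μ Ω :=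
  (comm Ω Γ).val.toRingHom

theorem toΩ_cfl (hS : Simple Γ L) (l : L) : toΩ Ω Γ hS (cfl Ω Γ hS l) = algebraMap L Ω l := rfl

theorem toΩ_algebraMap (hS : Simple Γ L) (c : ℂ) :
    toΩ Ω Γ hS (algebraMap ℂ (cDA Ω Γ hS).L c) = algebraMap L Ω (algebraMap ℂ L c) := rfl

theorem toM_injective (hS : Simple Γ L) : Function.Injective (toM Ω Γ hS) :=
  Subtype.val_injective

theorem toM_smul (hS : Simple Γ L) (r : (cDA Ω Γ hS).L) (e : (cDA Ω Γ hS).D) :
    toM Ω Γ hS (r • e) = toΩ Ω Γ hS r • toM Ω Γ hS e := rfl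

theorem toM_algebraMap (hS : Simple Γ L) (r : (cDA Ω Γ hS).L) :
    toM Ω Γ hS (algebraMap (cDA Ω Γ hS).L (cDA Ω Γ hS).D r) =
      algebraMap Ω (Matrix μ μ Ω) (toΩ Ω Γ hS r) := rfl

theorem exists_toΩ (hS : Simple Γ L) {ω : Ω} (h : ω ∈ fixF Ω Γ) : ∃ r, toΩ Ω Γ hS r = ω :=
  ⟨⟨ω, h⟩, rfl⟩

theorem exists_toM (hS : Simple Γ L) {e : Matrix μ μ Ω} (h : e ∈ comm Ω Γ) :
    ∃ d, toM Ω Γ hS d = e :=
  ⟨⟨e, h⟩, rfl⟩

/-- The amalgamation property. -/
theorem amalg (hS : Simple Γ L)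
    (hS' : ∀ (D : Type) [DivisionRing D] [Algebra L D] [IsDomain (D ⊗[L] R₀)], Simple Γ D)
    [Algebra.FiniteType L R₀] {τ : Type} (β : MvPolynomial τ L →ₐ[L] R₀)
    (hβ : Function.Injective β) (hb : ∀ r : R₀, ∃ b c, b ≠ 0 ∧ β b * r = β c) :
    Mc.Amalg L (cDA Ω Γ hS) (cfl Ω Γ hS) := by
  intro D _ _
  have := Mc.domain_tensor Dᵐᵒᵖ R₀ β hβ hb
  have := Mc.noeth_tensor (L := L) Dᵐᵒᵖ R₀
  obtain ⟨D', hD', f, k, h1, h2, h3⟩ := Mc.exists_amalgam Dᵐᵒᵖ R₀ Ω Γ (hS' Dᵐᵒᵖ)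
    (cDA Ω Γ hS).D (toM Ω Γ hS) (fun γ ρΩ hρ e m m' => by
      rw [← IsScalarTower.algebraMap_apply, ← IsScalarTower.algebraMap_apply]
      exact e.2 γ ρΩ hρ m m')
  refine ⟨D', hD', f.comp (RingEquiv.opOp D).toRingHom, k, fun d e => h1 _ e, fun l => ?_,
    fun r x => h3 _ _ (toM_algebraMap Ω Γ hS r) x⟩
  exact h2 l _ (by rw [toM_algebraMap, toΩ_cfl, ← IsScalarTower.algebraMap_apply L R₀ Ω])

/-- The Lagrange resolvent. -/
noncomputable def th {a : ℕ} [NeZero a] {K : Type} [Field K] (ζ : K) (b : ZMod a → K) (i : ZMod a) : K :=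
  ∑ k : ZMod a, ζ ^ k.val * b (i + k)

theorem th_succ {a : ℕ} [NeZero a] {K : Type} [Field K] {ζ : K} (hζ : ζ ^ a = 1) (b : ZMod a → K)
    (i : ZMod a) : th ζ b i = ζ * th ζ b (i + 1) := by
  unfold th
  rw [Finset.mul_sum, ← Equiv.sum_comp (Equiv.addRight (1 : ZMod a))]
  refine Finset.sum_congr rfl fun k _ => ?_
  have e : ζ ^ (k + 1).val = ζ * ζ ^ k.val := by
    rw [ZMod.val_add, ← pow_eq_pow_mod _ hζ, pow_add, ZMod.val_one_eq_one_mod,
      ← pow_eq_pow_mod _ hζ, pow_one, mul_comm]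
  simp only [Equiv.coe_addRight]
  rw [e, mul_assoc, add_comm k 1, ← add_assoc]

theorem gad_th_nat {a : ℕ} [NeZero a] {K : Type} [Field K] {ζ : K} (hζ : ζ ^ a = 1)
    (b : ZMod a → K) (n : ℕ) (i : ZMod a) : th ζ b (i - n) = ζ ^ n * th ζ b i := by
  induction n generalizing i with
  | zero => simp
  | succ n ih =>
    rw [th_succ hζ, Nat.cast_succ, show i - (n + 1) + 1 = i - n by ring, ih, pow_succ]
    ring

theorem gad_th_zero {a : ℕ} [NeZero a] {K : Type} [Field K] {ζ : K} (hζ : ζ ^ a = 1)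
    (b : ZMod a → K) (i : ZMod a) : th ζ b 0 = ζ ^ i.val * th ζ b i := by
  rw [← gad_th_nat hζ, ZMod.natCast_zmod_val, sub_self]

theorem gad_th_pow {a : ℕ} [NeZero a] {K : Type} [Field K] {ζ : K} (hζ : ζ ^ a = 1)
    (b : ZMod a → K) (i : ZMod a) : th ζ b i ^ a = th ζ b 0 ^ a := by
  rw [gad_th_zero hζ b i, mul_pow, ← pow_mul, mul_comm i.val, pow_mul, hζ, one_pow, one_mul]

theorem gad_th_inj {a : ℕ} [NeZero a] {K : Type} [Field K] {ζ : K} (hζ : IsPrimitiveRoot ζ a)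
    (b : ZMod a → K) (h0 : th ζ b 0 ≠ 0) : Function.Injective (th ζ b) := by
  intro i j h
  have h1 := gad_th_zero hζ.pow_eq_one b i
  have h2 := gad_th_zero hζ.pow_eq_one b j
  have h3 : th ζ b j ≠ 0 := fun h' => h0 (by rw [h2, h', mul_zero])
  rw [h, h2] at h1
  exact (ZMod.val_injective a
    (hζ.pow_inj (ZMod.val_lt j) (ZMod.val_lt i) (mul_right_cancel₀ h3 h1))).symm

theorem gad_lift (hS : Simple Γ L) (p : Polynomial Ω)
    (h : ∀ γ ρΩ, Ext Ω Γ γ ρΩ → p.map ρΩ = p) :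
    ∃ q : Polynomial (cDA Ω Γ hS).L, q.map (toΩ Ω Γ hS) = p := by
  refine (Polynomial.mem_lifts p).1 ((Polynomial.lifts_iff_coeff_lifts p).2 fun n => ?_)
  exact exists_toΩ Ω Γ hS ((mem_fixF Ω Γ).2 fun γ ρΩ hρ => by
    rw [← Polynomial.coeff_map, h γ ρΩ hρ])

theorem gad_aeval (hS : Simple Γ L) (x : (cDA Ω Γ hS).D) (v : μ → Ω)
    (hx : toM Ω Γ hS x = Matrix.diagonal v) (q : Polynomial (cDA Ω Γ hS).L) :
    toM Ω Γ hS (Polynomial.aeval x q) =
      Matrix.diagonal fun m => (q.map (toΩ Ω Γ hS)).eval (v m) := by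
  induction q using Polynomial.induction_on' with
  | add p q hp hq =>
    rw [map_add, map_add, hp, hq, Matrix.diagonal_add]
    simp only [Polynomial.map_add, Polynomial.eval_add]
  | monomial n c =>
    rw [Polynomial.aeval_monomial, map_mul, map_pow, hx, toM_algebraMap,
      Matrix.algebraMap_eq_diagonal, Matrix.diagonal_pow, Matrix.diagonal_mul_diagonal]
    simp only [Polynomial.map_monomial, Polynomial.eval_monomial, Pi.pow_apply,
      Pi.algebraMap_apply, Algebra.algebraMap_self, RingHom.id_apply]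

/-- Gadgets from a cyclically permuted family of roots and a shift matrix. -/
theorem exists_gad (hS : Simple Γ L) {a : ℕ} [NeZero a] {ζ : ℂ} (hζ : IsPrimitiveRoot ζ a)
    (idx : μ → ZMod a) (b : ZMod a → Ω) (hb : Function.Injective b)
    (hθ : th (algebraMap L Ω (algebraMap ℂ L ζ)) b 0 ≠ 0)
    (hperm : ∀ γ ρΩ, Ext Ω Γ γ ρΩ → ∃ k : ZMod a, (∀ i, ρΩ (b i) = b (i + k)) ∧
      ∀ m, idx ((Γ γ).π m) = idx m + k)
    (U : Matrix μ μ Ω) (hU : U ∈ comm Ω Γ) (hUi : ∀ m' m, U m' m ≠ 0 → idx m' = idx m + 1)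
    (T : Ω) (hT : T ∈ fixF Ω Γ) (hT0 : T ≠ 0) (hUa : U ^ a = algebraMap Ω (Matrix μ μ Ω) T) :
    ∃ g : Gad (cDA Ω Γ hS) a ζ, toM Ω Γ hS g.u = U ∧
      toM Ω Γ hS g.θ = Matrix.diagonal (fun m => th (algebraMap L Ω (algebraMap ℂ L ζ)) b (idx m)) ∧
      toΩ Ω Γ hS g.T = T ∧
      g.φ.map (toΩ Ω Γ hS) = ∏ i, (Polynomial.X - Polynomial.C (b i)) := by
  classical
  have hz : IsPrimitiveRoot (algebraMap L Ω (algebraMap ℂ L ζ)) a :=
    (hζ.map_of_injective (algebraMap ℂ L).injective).map_of_injective (algebraMap L Ω).injective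
  have hzp : ∀ i : ℕ, toΩ Ω Γ hS (algebraMap ℂ (cDA Ω Γ hS).L (ζ ^ i)) =
      algebraMap L Ω (algebraMap ℂ L ζ) ^ i := fun i => by
    rw [toΩ_algebraMap, map_pow, map_pow]
  have hzρ : ∀ γ ρΩ, Ext Ω Γ γ ρΩ → ρΩ (algebraMap L Ω (algebraMap ℂ L ζ)) =
      algebraMap L Ω (algebraMap ℂ L ζ) := fun γ ρΩ h => h.alg _
  have hz1' := toΩ_algebraMap Ω Γ hS ζ
  generalize algebraMap L Ω (algebraMap ℂ L ζ) = z at *
  have hz1 := hz.pow_eq_one
  have hinj := gad_th_inj hz b hθ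
  have hp : ∀ γ ρΩ, Ext Ω Γ γ ρΩ → ∃ k : ZMod a, (∀ i, ρΩ (b i) = b (i + k)) ∧
      (∀ m, idx ((Γ γ).π m) = idx m + k) ∧ ∀ i, ρΩ (th z b i) = th z b (i + k) := by
    intro γ ρΩ h
    obtain ⟨k, h1, h2⟩ := hperm γ ρΩ h
    refine ⟨k, h1, h2, fun i => ?_⟩
    unfold th
    rw [map_sum]
    refine Finset.sum_congr rfl fun j _ => ?_
    rw [map_mul, map_pow, hzρ γ ρΩ h, h1, add_right_comm]
  obtain ⟨u, hu⟩ := exists_toM Ω Γ hS hU
  obtain ⟨θ, hθm⟩ := exists_toM Ω Γ hS (e := Matrix.diagonal fun m => th z b (idx m))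
    ((mem_comm Ω Γ).2 fun γ ρΩ h m m' => by
      obtain ⟨k, -, h2, h3⟩ := hp γ ρΩ h
      by_cases hm : m = m'
      · subst hm
        rw [Matrix.diagonal_apply_eq, Matrix.diagonal_apply_eq, h3, h2, mul_comm]
      · rw [Matrix.diagonal_apply_ne _ hm, Matrix.diagonal_apply_ne _ ((Γ γ).π.injective.ne hm),
          zero_mul, map_zero, mul_zero])
  obtain ⟨t, ht⟩ := exists_toΩ Ω Γ hS hT
  obtain ⟨Θ, hΘ⟩ := exists_toΩ Ω Γ hS (ω := th z b 0 ^ a) ((mem_fixF Ω Γ).2 fun γ ρΩ h => by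
    obtain ⟨k, -, -, h3⟩ := hp γ ρΩ h
    rw [map_pow, h3, gad_th_pow hz1])
  obtain ⟨φ, hφ⟩ := gad_lift Ω Γ hS (∏ i, (Polynomial.X - Polynomial.C (b i))) fun γ ρΩ h => by
    obtain ⟨k, h1, -, -⟩ := hp γ ρΩ h
    rw [Polynomial.map_prod]
    simp only [Polynomial.map_sub, Polynomial.map_X, Polynomial.map_C, h1]
    exact Equiv.prod_comp (Equiv.addRight k) fun i => Polynomial.X - Polynomial.C (b i)
  have hev : ∀ i, (Lagrange.interpolate Finset.univ (th z b) b).eval (th z b i) = b i := fun i =>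
    Lagrange.eval_interpolate_at_node b hinj.injOn (Finset.mem_univ i)
  obtain ⟨B, hB⟩ := gad_lift Ω Γ hS (Lagrange.interpolate Finset.univ (th z b) b) fun γ ρΩ h => by
    obtain ⟨k, h1, -, h3⟩ := hp γ ρΩ h
    refine Lagrange.eq_interpolate_of_eval_eq b hinj.injOn
      (Polynomial.degree_map_le.trans_lt (Lagrange.degree_interpolate_lt b hinj.injOn))
      fun i _ => ?_
    have e : th z b i = ρΩ (th z b (i - k)) := by rw [h3, sub_add_cancel]
    rw [e, Polynomial.eval_map, Polynomial.eval₂_hom, hev, h1, sub_add_cancel]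
  have hmon : (∏ i, (Polynomial.X - Polynomial.C (b i))).Monic :=
    Polynomial.monic_prod_of_monic _ _ fun i _ => Polynomial.monic_X_sub_C _
  have hconj : ∀ i : ℕ, toM Ω Γ hS (conjB ζ θ B i) = Matrix.diagonal fun m => b (idx m - i) := by
    intro i
    unfold conjB
    rw [gad_aeval Ω Γ hS _ (fun m => th z b (idx m - i)), hB]
    · simp only [hev]
    · rw [toM_smul, hzp, hθm, ← Matrix.diagonal_smul]
      congr 1
      funext m
      rw [gad_th_nat hz1, Pi.smul_apply, smul_eq_mul]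
  refine ⟨{ u := u, θ := θ, T := t, Θ := Θ, hT := ?_, hΘ := ?_, hu := ?_, hθ := ?_, hc := ?_
            b := B, φ := φ, monic := ?_, deg := ?_, root := ?_, inj := ?_ }, hu, hθm, ht, hφ⟩
  · rintro rfl
    exact hT0 (by rw [← ht, map_zero])
  · rintro rfl
    exact pow_ne_zero a hθ (by rw [← hΘ, map_zero])
  · apply toM_injective Ω Γ hS
    rw [map_pow, hu, toM_algebraMap, ht, hUa]
  · apply toM_injective Ω Γ hS
    rw [map_pow, hθm, toM_algebraMap, hΘ, Matrix.algebraMap_eq_diagonal, Matrix.diagonal_pow]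
    congr 1
    funext m
    rw [Pi.pow_apply, gad_th_pow hz1]
    rfl
  · apply toM_injective Ω Γ hS
    rw [toM_smul, map_mul, map_mul, hu, hθm, hz1']
    ext m' m
    rw [Matrix.mul_diagonal, Matrix.smul_apply, Matrix.diagonal_mul, smul_eq_mul]
    by_cases h : U m' m = 0
    · simp [h]
    · rw [hUi m' m h, th_succ hz1 b (idx m)]
      ring
  · rw [← hφ] at hmon
    exact (Function.Injective.monic_map_iff (toΩ Ω Γ hS).injective).2 hmon
  · rw [← Polynomial.natDegree_map_eq_of_injective (toΩ Ω Γ hS).injective, hφ,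
      Polynomial.natDegree_prod_of_monic _ _ fun i _ => Polynomial.monic_X_sub_C _]
    simp
  · intro i
    apply toM_injective Ω Γ hS
    rw [gad_aeval Ω Γ hS _ _ (hconj i), hφ, map_zero, ← Matrix.diagonal_zero]
    congr 1
    funext m
    rw [Polynomial.eval_prod]
    exact Finset.prod_eq_zero (Finset.mem_univ (idx m - i)) (by simp)
  · intro i j hi hj h
    obtain ⟨m⟩ := ‹Nonempty μ›
    have h1 := congrArg (fun e => toM Ω Γ hS e m m) h
    simp only [hconj, Matrix.diagonal_apply_eq] at h1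
    have h2 : (i : ZMod a) = j := sub_right_injective (hb h1)
    rw [← ZMod.val_cast_of_lt hi, h2, ZMod.val_cast_of_lt hj]

theorem anchor_A1Comm : True := by
  have := @Simple.eq_1
  have := @Ext.eq_1
  have := @fixF.eq_1
  have := @comm.eq_1
  have := @cDA.eq_1
  have := @cfl.eq_1
  have := @toΩ.eq_1
  have := @toM.eq_1
  have := @th.eq_1
  trivial

end Crest.Agent.R181.A1
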