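import Crest.Agent.R181.KMain

/-!
Row 181, module K, part 6: the polynomial ring, base change to a skew field.
-/

set_option autoImplicit false

namespace Crest.Agent.R181.K

open MvPolynomial
open scoped TensorProduct

variable {L : Type} [Field L] {σ Y : Type} [AddCommGroup Y]

theorem kp1_X_mul (w : σ → Y) (j : σ) (y : Y) (m : MvPolynomial σ L) :
    X j * weightedHomogeneousComponent w y m =
      weightedHomogeneousComponent w (y + w j) (X j * m) := by
  classical
  induction m using MvPolynomial.induction_on' with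
  | monomial d r =>
    have h1 := isWeightedHomogeneous_monomial w d r rfl
    have h2 := (isWeightedHomogeneous_X L w j).mul h1
    rw [weightedHomogeneousComponent_of_mem h1, weightedHomogeneousComponent_of_mem h2]
    by_cases h : y = Finsupp.weight w d
    · rw [if_pos h, if_pos (by rw [h, add_comm])]
    · rw [if_neg h, if_neg fun h' => h (add_right_cancel (h'.trans (add_comm _ _))), mul_zero]
  | add p q hp hq => rw [map_add, mul_add, mul_add, map_add, hp, hq]

theorem kp1_deg {w : σ → Y} (x0 : Y →+ ℤ) (hw : ∀ j, x0 (w j) = 1) (d : σ →₀ ℕ) :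
    x0 (Finsupp.weight w d) = ((d.sum fun _ e => e : ℕ) : ℤ) := by
  rw [Finsupp.weight_apply, Finsupp.sum, Finsupp.sum, map_sum, Nat.cast_sum]
  refine Finset.sum_congr rfl fun i _ => ?_
  rw [map_nsmul, hw, nsmul_eq_mul, mul_one]

theorem kp1_weight_zero {w : σ → Y} (x0 : Y →+ ℤ) (hw : ∀ j, x0 (w j) = 1) {d : σ →₀ ℕ}
    (h : Finsupp.weight w d = 0) : d = 0 := by
  have h1 := kp1_deg x0 hw d
  rw [h, map_zero, eq_comm, Nat.cast_eq_zero, Finsupp.sum, Finset.sum_eq_zero_iff] at h1
  ext i
  by_contra hi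
  exact hi (h1 i (Finsupp.mem_support_iff.2 hi))

theorem kp1_supp {w : σ → Y} {y : Y} {m : MvPolynomial σ L} {d : σ →₀ ℕ}
    (h : d ∈ (weightedHomogeneousComponent w y m).support) :
    d ∈ m.support ∧ Finsupp.weight w d = y := by
  classical
  rw [mem_support_iff, coeff_weightedHomogeneousComponent] at h
  by_cases h1 : Finsupp.weight w d = y
  · rw [if_pos h1] at h
    exact ⟨mem_support_iff.2 h, h1⟩
  · rw [if_neg h1] at h
    exact (h rfl).elim

/-- The polynomial ring as a graded module. -/
noncomputable def poly (L : Type) [Field L] [Fintype σ] (w : σ → Y) (x0 : Y →+ ℤ) (hw : ∀ j, x0 (w j) = 1) :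
    GM L L w (MvPolynomial σ L) where
  ρ := (Algebra.lmul L (MvPolynomial σ L)).toRingHom
  ρ_C c m := by
    change C c * m = _
    rw [Algebra.algebraMap_self, RingHom.id_apply, smul_eq_C_mul]
  π y := weightedHomogeneousComponent w y
  π_self y m :=
    (weightedHomogeneousComponent_isWeightedHomogeneous y m).weightedHomogeneousComponent_same
  π_ne y y' m h :=
    (weightedHomogeneousComponent_isWeightedHomogeneous y' m).weightedHomogeneousComponent_ne y h
  ρ_π j y m := kp1_X_mul w j y m
  fd y := by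
    refine Submodule.finiteDimensional_of_le (S₂ := restrictTotalDegree σ L (x0 y).toNat) ?_
    rintro _ ⟨m, rfl⟩
    rw [mem_restrictTotalDegree, totalDegree, Finset.sup_le_iff]
    intro d hd
    rw [← (kp1_supp hd).2, kp1_deg x0 hw, Int.toNat_natCast]
  fg := ⟨{1}, eq_top_iff.2 fun g _ =>
    Submodule.subset_span ⟨g, 1, Finset.mem_singleton_self _, (mul_one g).symm⟩⟩

section poly

variable [Fintype σ] {w : σ → Y} (x0 : Y →+ ℤ) (hw : ∀ j, x0 (w j) = 1)

theorem poly_ρ (g m : MvPolynomial σ L) : (poly L w x0 hw).ρ g m = g * m := rfl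

theorem poly_π (y : Y) (m : MvPolynomial σ L) :
    (poly L w x0 hw).π y m = weightedHomogeneousComponent w y m := rfl

theorem poly_good {I : Ideal (MvPolynomial σ L)}
    (hI : ∀ y, ∀ g ∈ I, weightedHomogeneousComponent w y g ∈ I) :
    (poly L w x0 hw).Good (I.restrictScalars L) :=
  ⟨fun g _ hm => I.mul_mem_left g hm, hI⟩

theorem kp1_good (T : Set σ) :
    (poly L w x0 hw).Good ((Ideal.span (X '' T : Set (MvPolynomial σ L))).restrictScalars L) :=
  poly_good x0 hw fun _ _ hg => mem_ideal_span_X_image.2 fun d hd =>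
    mem_ideal_span_X_image.1 hg d (kp1_supp hd).1

theorem kp1_step (T : Finset σ) :
    act (dP w T) ((poly L w x0 hw).H ⊥ ⊤) = (poly L w x0 hw).H
      ((Ideal.span (X '' (T : Set σ) : Set (MvPolynomial σ L))).restrictScalars L) ⊤ := by
  classical
  induction T using Finset.induction_on with
  | empty =>
    have e : dP w (∅ : Finset σ) = 1 := Finset.prod_empty
    rw [e, map_one, Finset.coe_empty, Set.image_empty, Ideal.span_empty]
    rfl
  | insert j T hj ih =>
    have e : dP w (insert j T) = (1 - z (w j)) * dP w T := Finset.prod_insert hj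
    have h1 := GM.H_iso ((poly L w x0 hw).hom_ρ (isWeightedHomogeneous_X L w j))
      (poly L w x0 hw).good_top (kp1_good x0 hw (T : Set σ))
    have h2 : ⊤ ⊓ ((Ideal.span (X '' (T : Set σ) : Set (MvPolynomial σ L))).restrictScalars L).comap
        ((poly L w x0 hw).ρ (X j)) =
        (Ideal.span (X '' (T : Set σ) : Set (MvPolynomial σ L))).restrictScalars L := by
      rw [top_inf_eq]
      ext g
      change X j * g ∈ Ideal.span _ ↔ g ∈ Ideal.span _
      refine ⟨fun hg => mem_ideal_span_X_image.2 fun d hd => ?_, Ideal.mul_mem_left _ _⟩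
      obtain ⟨i, hi, hi'⟩ := mem_ideal_span_X_image.1 hg (Finsupp.single j 1 + d) (by
        rw [mem_support_iff, coeff_X_mul]
        exact mem_support_iff.1 hd)
      have hij : i ≠ j := fun h => hj (h ▸ hi)
      rw [Finsupp.add_apply, Finsupp.single_eq_of_ne hij, zero_add] at hi'
      exact ⟨i, hi, hi'⟩
    have h3 : (⊤ : Submodule L (MvPolynomial σ L)).map ((poly L w x0 hw).ρ (X j)) ⊔
        (Ideal.span (X '' (T : Set σ) : Set (MvPolynomial σ L))).restrictScalars L =
        (Ideal.span (X '' ((insert j T : Finset σ) : Set σ) :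
          Set (MvPolynomial σ L))).restrictScalars L := by
      ext g
      rw [Finset.coe_insert, Set.image_insert_eq, Submodule.restrictScalars_mem,
        Ideal.mem_span_insert, Submodule.mem_sup]
      constructor
      · rintro ⟨_, ⟨a, -, rfl⟩, b, hb, rfl⟩
        exact ⟨a, b, hb, congrArg (· + b) (mul_comm _ _)⟩
      · rintro ⟨a, b, hb, rfl⟩
        exact ⟨_, ⟨a, trivial, rfl⟩, b, hb, congrArg (· + b) (mul_comm _ _)⟩
    rw [h2, h3] at h1
    rw [e, map_mul, Module.End.mul_apply, ih, map_sub, map_one, LinearMap.sub_apply,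
      Module.End.one_apply, ← h1, sub_eq_iff_eq_add', ← GM.H_add]

theorem kp1_last : (poly L w x0 hw).H ((Ideal.span (X '' ((Finset.univ : Finset σ) : Set σ) :
    Set (MvPolynomial σ L))).restrictScalars L) ⊤ = tf 1 := by
  classical
  funext y
  rw [← z_zero, tf_z]
  split_ifs with hy
  · subst hy
    have h0 : ∀ m : MvPolynomial σ L, weightedHomogeneousComponent w 0 m = C (coeff 0 m) := by
      intro m
      ext d
      rw [coeff_weightedHomogeneousComponent, coeff_C]
      by_cases hd : 0 = d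
      · subst hd
        rw [if_pos (map_zero _), if_pos rfl]
      · rw [if_neg hd, if_neg fun h => hd (kp1_weight_zero x0 hw h).symm]
    have h1 : (⊤ : Submodule L (MvPolynomial σ L)).map ((poly L w x0 hw).π 0) =
        Submodule.span L {1} := by
      refine le_antisymm ?_ ((Submodule.span_singleton_le_iff_mem _ _).2 ⟨1, trivial, ?_⟩)
      · rintro _ ⟨m, -, rfl⟩
        refine Submodule.mem_span_singleton.2 ⟨coeff 0 m, ?_⟩
        rw [poly_π, h0, smul_eq_C_mul, mul_one]
      · rw [poly_π, h0, coeff_zero_one, C_1]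
    have h2 : ((Ideal.span (X '' ((Finset.univ : Finset σ) : Set σ) :
        Set (MvPolynomial σ L))).restrictScalars L).map ((poly L w x0 hw).π 0) = ⊥ := by
      rw [eq_bot_iff]
      rintro _ ⟨m, hm, rfl⟩
      have h3 : coeff 0 m = 0 := by
        by_contra h3
        obtain ⟨i, -, hi⟩ := mem_ideal_span_X_image.1 hm 0 (mem_support_iff.2 h3)
        exact hi rfl
      rw [poly_π, h0, h3, C_0]
      exact Submodule.zero_mem _
    change ((Module.finrank L ((⊤ : Submodule L (MvPolynomial σ L)).map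
      ((poly L w x0 hw).π 0)) : ℕ) : ℤ) - ((Module.finrank L (Submodule.map
      ((poly L w x0 hw).π 0) _) : ℕ) : ℤ) = 1
    rw [h1, h2, finrank_span_singleton one_ne_zero, finrank_bot]
    rfl
  · refine (GM.H_eq_zero_iff (kp1_good x0 hw _) le_top y).2 fun m _ => ?_
    refine mem_ideal_span_X_image.2 fun d hd => ?_
    by_contra h
    push Not at h
    have h1 : d = 0 := Finsupp.ext fun i => h i (Finset.mem_coe.2 (Finset.mem_univ i))
    have h2 := (kp1_supp hd).2
    rw [h1, map_zero] at h2
    exact hy h2.symm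

theorem poly_Kp : (poly L w x0 hw).Kp ⊥ ⊤ = 1 :=
  GM.Kp_eq ((kp1_step x0 hw Finset.univ).trans (kp1_last x0 hw))

theorem poly_J [DecidableEq σ] {n h c : ℕ} (E : Eqs L w n h c) (k : ℕ) :
    E.J (poly L w x0 hw) k =
      (Ideal.span {g | ∃ i : Fin h, i.val < k ∧ g = E.F i}).restrictScalars L := by
  refine le_antisymm (iSup_le fun i => iSup_le fun hi => ?_) fun g hg => ?_
  · rintro _ ⟨m, rfl⟩
    exact Ideal.mul_mem_right m _ (Ideal.subset_span ⟨i, hi, rfl⟩)
  · have key : ∀ r, r * g ∈ E.J (poly L w x0 hw) k := by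
      have hg' : g ∈ Ideal.span {g | ∃ i : Fin h, i.val < k ∧ g = E.F i} := hg
      clear hg
      induction hg' using Submodule.span_induction with
      | mem g hg =>
        obtain ⟨i, hi, rfl⟩ := hg
        intro r
        exact Submodule.mem_iSup_of_mem i (Submodule.mem_iSup_of_mem hi ⟨r, mul_comm _ _⟩)
      | zero =>
        intro r
        rw [mul_zero]
        exact Submodule.zero_mem _
      | add a b _ _ ha hb =>
        intro r
        rw [mul_add]
        exact Submodule.add_mem _ (ha r) (hb r)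
      | smul a b _ hb =>
        intro r
        rw [smul_eq_mul, ← mul_assoc]
        exact hb _
    simpa only [one_mul] using key 1

/-- The multiplicity of the main component of the equations. -/
theorem poly_e [DecidableEq σ] {n h c : ℕ} (E : Eqs L w n h c) (hc : h + 1 ≤ c)
    (hreg : ∀ (k : Fin h) (g : MvPolynomial σ L),
      E.F k * g ∈ Ideal.span {g | ∃ i : Fin h, i.val < k ∧ g = E.F i} →
      ∀ Δ ∈ E.𝒟, ∃ r : ℕ, Δ ^ r * g ∈ Ideal.span {g | ∃ i : Fin h, i.val < k ∧ g = E.F i})
    {p : Ideal (MvPolynomial σ L)} (hp : ∀ y, ∀ g ∈ p, weightedHomogeneousComponent w y g ∈ p)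
    (hF : ∀ k, E.F k ∈ p)
    (hsat : ∀ g ∈ p, ∀ Δ ∈ E.𝒟, ∃ r : ℕ, Δ ^ r * g ∈ Ideal.span (Set.range E.F)) :
    (poly L w x0 hw).e x0 h (p.restrictScalars L) ⊤ = x0 E.w0 ^ h * h.factorial := by
  have hs : {g | ∃ i : Fin h, i.val < h ∧ g = E.F i} = Set.range E.F := by
    ext g
    exact ⟨fun ⟨i, _, e⟩ => ⟨i, e.symm⟩, fun ⟨i, e⟩ => ⟨i, i.2, e.symm⟩⟩
  obtain ⟨q, hq, e⟩ := E.Kp_ci (poly L w x0 hw)
    (fun k m hm Δ hΔ => by
      rw [poly_J] at hm ⊢
      exact hreg k m hm Δ hΔ)
    (poly_good x0 hw hp)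
    (by
      rw [poly_J, hs]
      exact fun g hg => (Ideal.span_le.2 (Set.range_subset_iff.2 hF) : Ideal.span _ ≤ p) hg)
    (fun m hm Δ hΔ => by
      rw [poly_J, hs]
      exact hsat m hm Δ hΔ)
  change lam (pw x0 h) ((poly L w x0 hw).Kp (p.restrictScalars L) ⊤) = _
  rw [e, poly_Kp, mul_one, map_add, lam_pw_eq_zero x0 h (Ideal.pow_le_pow_right hc hq), add_zero,
    lam_apply]
  have h1 := congrFun (act_pow_mul x0 h E.w0 (fun _ => 1) fun _ => rfl) 0
  simp only [one_mul, mul_one] at h1
  exact h1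

end poly

variable {w : σ → Y} {M : Type} [AddCommGroup M] [Module L M]

theorem bc_map (D : Type) [DivisionRing D] [Algebra L D] (N : Submodule L M) (f : M →ₗ[L] M) :
    (N.baseChange D).map (f.baseChange D) = (N.map f).baseChange D := by
  rw [Submodule.baseChange_eq_span, Submodule.baseChange_eq_span, Submodule.map_span]
  congr 1
  ext x
  constructor
  · rintro ⟨_, ⟨m, hm, rfl⟩, rfl⟩
    exact ⟨f m, ⟨m, hm, rfl⟩, rfl⟩
  · rintro ⟨_, ⟨m, hm, rfl⟩, rfl⟩
    exact ⟨_, ⟨m, hm, rfl⟩, rfl⟩

theorem bc_finrank (D : Type) [DivisionRing D] [Algebra L D] (N : Submodule L M) :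
    Module.finrank D (N.baseChange D) = Module.finrank L N := by
  rw [← (Submodule.toBaseChange.toLinearEquiv D N).finrank_eq, Module.finrank_baseChange]

theorem bc_mem (D : Type) [DivisionRing D] [Algebra L D] {N : Submodule L M} {f : M →ₗ[L] M}
    (h : ∀ m ∈ N, f m ∈ N) : ∀ m ∈ N.baseChange D, f.baseChange D m ∈ N.baseChange D := by
  intro m hm
  have h1 : N.map f ≤ N := by
    rintro _ ⟨x, hx, rfl⟩
    exact h x hx
  refine Submodule.baseChange_mono D h1 ?_
  rw [← bc_map]
  exact ⟨m, hm, rfl⟩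

/-- Base change to a skew field. -/
noncomputable def GM.bc (G : GM L L w M) (D : Type) [DivisionRing D] [Algebra L D] :
    GM D L w (D ⊗[L] M) where
  ρ := (Module.End.baseChangeHom L D M).toRingHom.comp G.ρ
  ρ_C := by
    intro c m
    have h : G.ρ (C c) = c • LinearMap.id := LinearMap.ext fun x => G.ρ_C c x
    change (G.ρ (C c)).baseChange D m = _
    rw [h, LinearMap.baseChange_smul, LinearMap.baseChange_id, algebraMap_smul]
    rfl
  π y := (G.π y).baseChange D
  π_self := by
    intro y m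
    have h : G.π y ∘ₗ G.π y = G.π y := LinearMap.ext fun x => G.π_self y x
    rw [← LinearMap.comp_apply, ← LinearMap.baseChange_comp, h]
  π_ne := by
    intro y y' m hy
    have h : G.π y ∘ₗ G.π y' = 0 := LinearMap.ext fun x => G.π_ne y y' x hy
    rw [← LinearMap.comp_apply, ← LinearMap.baseChange_comp, h, LinearMap.baseChange_zero,
      LinearMap.zero_apply]
  ρ_π := by
    intro j y m
    have h : G.ρ (X j) ∘ₗ G.π y = G.π (y + w j) ∘ₗ G.ρ (X j) := LinearMap.ext fun x => G.ρ_π j y x
    change (G.ρ (X j)).baseChange D ((G.π y).baseChange D m) =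
      (G.π (y + w j)).baseChange D ((G.ρ (X j)).baseChange D m)
    rw [← LinearMap.comp_apply, ← LinearMap.baseChange_comp, h, LinearMap.baseChange_comp,
      LinearMap.comp_apply]
  fd := by
    intro y
    have := G.fd y
    rw [← Submodule.map_top, ← Submodule.baseChange_top, bc_map, Submodule.map_top]
    exact Module.Finite.equiv (Submodule.toBaseChange.toLinearEquiv D _)
  fg := by
    classical
    obtain ⟨s, hs⟩ := G.fg
    refine ⟨s.image fun m => (1 : D) ⊗ₜ[L] m, ?_⟩
    rw [eq_top_iff, ← Submodule.baseChange_top, ← hs, Submodule.baseChange_span]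
    refine Submodule.span_mono ?_
    rintro _ ⟨_, ⟨g, m, hm, rfl⟩, rfl⟩
    exact ⟨g, _, Finset.mem_image_of_mem _ hm, rfl⟩

variable (G : GM L L w M) (D : Type) [DivisionRing D] [Algebra L D]

theorem GM.bc_ρ (g : MvPolynomial σ L) : (G.bc D).ρ g = (G.ρ g).baseChange D := rfl

theorem GM.bc_π (y : Y) : (G.bc D).π y = (G.π y).baseChange D := rfl

theorem GM.good_bc {N : Submodule L M} (hN : G.Good N) : (G.bc D).Good (N.baseChange D) :=
  ⟨fun g => bc_mem D (hN.st g), fun y => bc_mem D (hN.gr y)⟩

theorem GM.hf_bc (N : Submodule L M) : (G.bc D).hf (N.baseChange D) = G.hf N := by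
  funext y
  change (Module.finrank D ((N.baseChange D).map ((G.π y).baseChange D)) : ℤ) =
    (Module.finrank L (N.map (G.π y)) : ℤ)
  rw [bc_map, bc_finrank]

theorem GM.Kp_bc [Fintype σ] (A B : Submodule L M) :
    (G.bc D).Kp (A.baseChange D) (B.baseChange D) = G.Kp A B := by
  change ofF (act (dP w Finset.univ)
      ((G.bc D).hf (B.baseChange D) - (G.bc D).hf (A.baseChange D))) =
    ofF (act (dP w Finset.univ) (G.hf B - G.hf A))
  rw [GM.hf_bc, GM.hf_bc]

theorem anchor_KPoly : True := by
  have := @poly.eq_1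
  have := @GM.bc.eq_1
  trivial

end Crest.Agent.R181.K
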