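import Crest.Agent.R181.A1Lin
import Crest.Agent.R181.A1Blk
import Crest.Agent.R181.KPoly

/-! Row 181, stage A1: the parameter ring, its grading and its symmetries. -/

set_option autoImplicit false

namespace Crest.Agent.R181.A1

open MvPolynomial

/-- The variables: `(m, inl (i, 0)) = s m i`, `(m, inl (i, 1)) = t m i`, `(m, inr (k, 0)) = l m k`,
`(m, inr (k, 1)) = l' m k`. -/
abbrev Var (N a : ℕ) (ι : Type) : Type := Fin N × ((ZMod a × Fin 2) ⊕ (ι × Fin 2))

/-- The grading group. -/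
abbrev YY (N a : ℕ) : Type := ℤ × (Fin N × ZMod a → ℤ)

/-- The index set of the module. -/
abbrev Idx (N a : ℕ) : Type := Fin N → ZMod a

variable {N a : ℕ} {ι : Type}

/-- The weights of the variables. -/
def wt (N a : ℕ) (ι : Type) : Var N a ι → YY N a := fun v =>
  (1, Sum.elim (fun q : ZMod a × Fin 2 =>
      (Pi.single (v.1, q.1) 1 - Pi.single (v.1, q.1 + 1) 1 : Fin N × ZMod a → ℤ))
    (fun _ => 0) v.2)

/-- The weights of the basis vectors. -/
def off (μ : Idx N a) : YY N a := (0, ∑ m, Pi.single (m, μ m) 1)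

/-- The degree of the equations. -/
def w0 (N a : ℕ) : YY N a := (2 * (a : ℤ), 0)

/-- The variables in which the equations are linear. -/
def uu (N a : ℕ) (ι : Type) : Fin (N * 2) → Var N a ι := fun j =>
  ((finProdFinEquiv.symm j).1, Sum.inl (0, (finProdFinEquiv.symm j).2))

/-- The cyclic shift of the variables of the `m`-th term. -/
def rot (ι : Type) (m : Fin N) : Var N a ι ≃ Var N a ι :=
  Equiv.prodCongrRight fun m' => Equiv.sumCongr
    (Equiv.prodCongr (Equiv.addRight (if m' = m then (1 : ZMod a) else 0)) (Equiv.refl _))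
    (Equiv.refl _)

/-- The cyclic shift of the grading group. -/
def rotY (m : Fin N) : YY N a ≃+ YY N a where
  toFun y := (y.1, fun q => y.2 (q.1, q.2 - if q.1 = m then 1 else 0))
  invFun y := (y.1, fun q => y.2 (q.1, q.2 + if q.1 = m then 1 else 0))
  left_inv y := by
    ext q <;> simp
  right_inv y := by
    ext q <;> simp
  map_add' y y' := rfl

/-- The coordinates of the grading group. -/
def xc (m : Fin N) (i : ZMod a) : YY N a →+ ℤ where
  toFun y := y.2 (m, i)
  map_zero' := rfl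
  map_add' _ _ := rfl

/-- The symmetry data. -/
def sym (N a : ℕ) : K.Sym (YY N a) N a where
  x0 := AddMonoidHom.fst _ _
  x := xc
  s := rotY
  x0_s _ _ := rfl
  x_s m i y := by simp [xc, rotY]
  x_s_ne m m' i y h := by simp [xc, rotY, h]

theorem rot_inl (m m' : Fin N) (i : ZMod a) (ε : Fin 2) :
    rot ι m (m', Sum.inl (i, ε)) = (m', Sum.inl (i + if m' = m then 1 else 0, ε)) := rfl

theorem rot_inr (m m' : Fin N) (q : ι × Fin 2) : rot (a := a) ι m (m', Sum.inr q) = (m', Sum.inr q) :=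
  rfl

theorem x0_wt (j : Var N a ι) : (sym N a).x0 (wt N a ι j) = 1 := rfl

theorem uu_inj : Function.Injective (uu N a ι) := by
  intro j j' h
  apply finProdFinEquiv.symm.injective
  simp only [uu, Prod.mk.injEq, Sum.inl.injEq, true_and] at h
  exact Prod.ext h.1 h.2

theorem mem_range_uu (v : Var N a ι) :
    v ∈ Set.range (uu N a ι) ↔ ∃ ε, v.2 = Sum.inl (0, ε) := by
  constructor
  · rintro ⟨j, rfl⟩
    exact ⟨_, rfl⟩
  · rintro ⟨ε, h⟩
    refine ⟨finProdFinEquiv (v.1, ε), ?_⟩
    simp only [uu, Equiv.symm_apply_apply]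
    rw [← h]

theorem A1Defs_single (m m' : Fin N) (i : ZMod a) (q : Fin N × ZMod a) :
    (Pi.single (m', i + if m' = m then 1 else 0) 1 : Fin N × ZMod a → ℤ) q =
      (Pi.single (m', i) 1 : Fin N × ZMod a → ℤ) (q.1, q.2 - if q.1 = m then 1 else 0) := by
  obtain ⟨q1, q2⟩ := q
  simp only [Pi.single_apply, Prod.mk.injEq]
  refine if_congr (and_congr_right fun h => ?_) rfl rfl
  rw [h, sub_eq_iff_eq_add]

theorem A1Defs_sum [NeZero a] (m m' : Fin N) (i' : ZMod a) :
    ∑ i, (Pi.single (m', i') 1 : Fin N × ZMod a → ℤ) (m, i) = if m = m' then 1 else 0 := by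
  simp only [Pi.single_apply, Prod.mk.injEq]
  by_cases h : m = m' <;> simp [h]

theorem wt_rot (m : Fin N) (j : Var N a ι) : wt N a ι (rot ι m j) = (sym N a).s m (wt N a ι j) := by
  obtain ⟨m', ⟨i, ε⟩ | q⟩ := j
  · rw [rot_inl]
    refine Prod.ext rfl (funext fun q => ?_)
    show (Pi.single (m', i + if m' = m then 1 else 0) 1 : Fin N × ZMod a → ℤ) q -
        (Pi.single (m', (i + if m' = m then 1 else 0) + 1) 1 : Fin N × ZMod a → ℤ) q =
      (Pi.single (m', i) 1 : Fin N × ZMod a → ℤ) (q.1, q.2 - if q.1 = m then 1 else 0) -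
        (Pi.single (m', i + 1) 1 : Fin N × ZMod a → ℤ) (q.1, q.2 - if q.1 = m then 1 else 0)
    rw [add_right_comm, A1Defs_single, A1Defs_single]
  · rfl

theorem sum_x_wt [NeZero a] (j : Var N a ι) (m : Fin N) :
    ∑ i, (sym N a).x m i (wt N a ι j) = 0 := by
  obtain ⟨m', ⟨i', ε⟩ | q⟩ := j
  · show ∑ i, ((Pi.single (m', i') 1 : Fin N × ZMod a → ℤ) (m, i) -
      (Pi.single (m', i' + 1) 1 : Fin N × ZMod a → ℤ) (m, i)) = 0
    rw [Finset.sum_sub_distrib, A1Defs_sum, A1Defs_sum, sub_self]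
  · exact Finset.sum_const_zero

theorem sum_x_off [NeZero a] (μ : Idx N a) (m : Fin N) : ∑ i, (sym N a).x m i (off μ) = 1 := by
  show ∑ i, (∑ m', Pi.single (m', μ m') 1 : Fin N × ZMod a → ℤ) (m, i) = 1
  simp only [Finset.sum_apply]
  rw [Finset.sum_comm]
  simp only [A1Defs_sum]
  simp

theorem off_add (μ : Idx N a) (m : Fin N) : off (μ + Pi.single m 1) = (sym N a).s m (off μ) := by
  refine Prod.ext rfl (funext fun q => ?_)
  show (∑ m', Pi.single (m', (μ + Pi.single m 1 : Idx N a) m') 1 : Fin N × ZMod a → ℤ) q =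
    (∑ m', Pi.single (m', μ m') 1 : Fin N × ZMod a → ℤ) (q.1, q.2 - if q.1 = m then 1 else 0)
  simp only [Finset.sum_apply]
  refine Finset.sum_congr rfl fun m' _ => ?_
  rw [← A1Defs_single, Pi.add_apply, Pi.single_apply m]

theorem off_add' (μ : Idx N a) (m : Fin N) (ε : Fin 2) (k : Var N a ι) (hk : ∃ q, k.2 = Sum.inr q) :
    off (μ + Pi.single m 1) + wt N a ι (m, Sum.inl (μ m, ε)) = off μ + wt N a ι k := by
  obtain ⟨m', k⟩ := k
  obtain ⟨q, rfl⟩ := hk
  refine Prod.ext rfl ?_
  show (∑ m', Pi.single (m', (μ + Pi.single m 1 : Idx N a) m') 1 : Fin N × ZMod a → ℤ) +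
      (Pi.single (m, μ m) 1 - Pi.single (m, μ m + 1) 1) = ∑ m', Pi.single (m', μ m') 1 + 0
  rw [← Finset.add_sum_erase _ _ (Finset.mem_univ m), ← Finset.add_sum_erase _ _ (Finset.mem_univ m),
    Finset.sum_congr rfl fun m' hm' => by
      rw [Pi.add_apply, Pi.single_eq_of_ne (Finset.ne_of_mem_erase hm'), add_zero],
    Pi.add_apply, Pi.single_eq_same]
  abel

section forms

variable [NeZero a] [Fintype ι] {B B' : Type} [CommRing B] [CommRing B']

/-- The linear forms `l m`, `l' m` at a point `x`. -/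
noncomputable def lin (x : Var N a ι → B) (m : Fin N) (ε : Fin 2) : MvPolynomial ι B :=
  lf fun k => x (m, Sum.inr (k, ε))

/-- The factor `s m i * l m + t m i * l' m`. -/
noncomputable def fac (x : Var N a ι → B) (m : Fin N) (i : ZMod a) : MvPolynomial ι B :=
  C (x (m, Sum.inl (i, 0))) * lin x m 0 + C (x (m, Sum.inl (i, 1))) * lin x m 1

/-- The coefficient of `s m 0` (`ε = 0`) and of `t m 0` (`ε = 1`). -/
noncomputable def AA (x : Var N a ι → B) (m : Fin N) (ε : Fin 2) : MvPolynomial ι B :=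
  lin x m ε * ∏ i ∈ Finset.univ.erase (0 : ZMod a), fac x m i

/-- The generic sum of products. -/
noncomputable def FF (x : Var N a ι → B) : MvPolynomial ι B := ∑ m, ∏ i, fac x m i

theorem map_AA (ψ : B →+* B') (x : Var N a ι → B) (m : Fin N) (ε : Fin 2) :
    MvPolynomial.map ψ (AA x m ε) = AA (fun v => ψ (x v)) m ε := by
  classical
  simp only [AA, fac, lin, map_mul, map_prod, map_add, map_C, map_lf]

theorem map_FF (ψ : B →+* B') (x : Var N a ι → B) :
    MvPolynomial.map ψ (FF x) = FF (fun v => ψ (x v)) := by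
  classical
  simp only [FF, fac, lin, map_sum, map_mul, map_prod, map_add, map_C, map_lf]

omit [NeZero a] in
theorem A1Defs_fac_hom (x : Var N a ι → B) (m : Fin N) (i : ZMod a) : (fac x m i).IsHomogeneous 1 := by
  classical
  exact ((lf_isHomogeneous _).C_mul _).add ((lf_isHomogeneous _).C_mul _)

theorem AA_isHomogeneous (x : Var N a ι → B) (m : Fin N) (ε : Fin 2) : (AA x m ε).IsHomogeneous a := by
  classical
  have h := (lf_isHomogeneous fun k => x (m, Sum.inr (k, ε))).mul
    (IsHomogeneous.prod (Finset.univ.erase (0 : ZMod a)) (fac x m) (fun _ => 1)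
      fun i _ => A1Defs_fac_hom x m i)
  have e : 1 + ∑ _i ∈ Finset.univ.erase (0 : ZMod a), 1 = a := by
    have := NeZero.pos a
    rw [Finset.sum_const, Finset.card_erase_of_mem (Finset.mem_univ _), Finset.card_univ, ZMod.card,
      smul_eq_mul]
    omega
  rwa [e] at h

theorem FF_isHomogeneous (x : Var N a ι → B) : (FF x).IsHomogeneous a := by
  refine IsHomogeneous.sum _ _ _ fun m _ => ?_
  have h := IsHomogeneous.prod Finset.univ (fac x m) (fun _ => 1) fun i _ => A1Defs_fac_hom x m i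
  rwa [Finset.sum_const, Finset.card_univ, ZMod.card, smul_eq_mul, mul_one] at h

theorem FF_eq (x : Var N a ι → B) :
    FF x = ∑ j : Fin (N * 2), C (x (uu N a ι j)) *
      AA x (finProdFinEquiv.symm j).1 (finProdFinEquiv.symm j).2 := by
  rw [← Equiv.sum_comp finProdFinEquiv, Fintype.sum_prod_type, FF]
  refine Finset.sum_congr rfl fun m _ => ?_
  simp only [uu, Equiv.symm_apply_apply, Fin.sum_univ_two, AA]
  rw [← Finset.mul_prod_erase _ _ (Finset.mem_univ (0 : ZMod a)), fac]
  ring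

theorem FF_rot (x : Var N a ι → B) (m : Fin N) : FF (fun v => x (rot ι m v)) = FF x := by
  refine Finset.sum_congr rfl fun m' _ => ?_
  rw [← Equiv.prod_comp (Equiv.addRight (if m' = m then (1 : ZMod a) else 0)) (fac x m')]
  rfl

/-- `AA` only depends on the coordinates outside the `uu j`. -/
theorem AA_congr {x x' : Var N a ι → B} (h : ∀ v, v ∉ Set.range (uu N a ι) → x v = x' v)
    (m : Fin N) (ε : Fin 2) : AA x m ε = AA x' m ε := by
  have h1 : ∀ ε, lin x m ε = lin x' m ε := fun ε => by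
    unfold lin
    congr 1
    funext k
    refine h _ fun hk => ?_
    obtain ⟨_, hk⟩ := (mem_range_uu _).1 hk
    cases hk
  unfold AA fac
  refine congrArg₂ (· * ·) (h1 ε) (Finset.prod_congr rfl fun i hi => ?_)
  have h2 : ∀ ε', x (m, Sum.inl (i, ε')) = x' (m, Sum.inl (i, ε')) := fun ε' => by
    refine h _ fun hk => ?_
    obtain ⟨_, hk⟩ := (mem_range_uu _).1 hk
    exact Finset.ne_of_mem_erase hi (congrArg Prod.fst (Sum.inl.inj hk))
  rw [h1, h1, h2, h2]

/-- The coefficients of `AA` lie in any subring containing the coordinates outside the `uu j`. -/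
theorem coeff_AA_mem {x : Var N a ι → B} (S : Subring B)
    (h : ∀ v, v ∉ Set.range (uu N a ι) → x v ∈ S) (m : Fin N) (ε : Fin 2) (μ : ι →₀ ℕ) :
    coeff μ (AA x m ε) ∈ S := by
  classical
  obtain ⟨y, hy⟩ : ∃ y : Var N a ι → S, ∀ v, v ∉ Set.range (uu N a ι) → x v = S.subtype (y v) :=
    ⟨fun v => if hv : v ∈ Set.range (uu N a ι) then 0 else ⟨x v, h v hv⟩, fun v hv => by
      simp only [dif_neg hv, Subring.subtype_apply]⟩
  rw [AA_congr hy, ← map_AA S.subtype y, coeff_map]
  exact Subtype.property _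

end forms

variable [NeZero a] [Fintype ι] [DecidableEq ι] {L : Type} [Field L]
  {W : Submodule L (MvPolynomial ι L)} {h : ℕ}

/-- The linear system of the parameter variety. -/
noncomputable def lq (V : WData W a h) (N : ℕ) : LinEq L (Var N a ι) (N * 2) h where
  u := uu N a ι
  u_inj := uu_inj
  φ k j := ap a (fun μ => C (V.φ k μ))
    (AA X (finProdFinEquiv.symm j).1 (finProdFinEquiv.symm j).2)
  φ_supp := by
    intro k j
    rw [ap_apply]
    refine Subalgebra.sum_mem _ fun μ _ => Subalgebra.mul_mem _ (Subalgebra.algebraMap_mem _ _) ?_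
    exact coeff_AA_mem (supported L (Set.range (uu N a ι))ᶜ).toSubring
      (fun v hv => Algebra.subset_adjoin ⟨v, hv, rfl⟩) _ _ μ

variable (V : WData W a h)

theorem lq_u : (lq V N).u = uu N a ι := rfl

theorem aeval_φ {K : Type} [CommRing K] [Algebra L K] (x : Var N a ι → K) (k : Fin h)
    (j : Fin (N * 2)) : aeval x ((lq V N).φ k j) = ap a (fun μ => algebraMap L K (V.φ k μ))
      (AA x (finProdFinEquiv.symm j).1 (finProdFinEquiv.symm j).2) := by
  refine (map_ap (aeval x : MvPolynomial (Var N a ι) L →ₐ[L] K).toRingHom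
    (fun μ => C (V.φ k μ)) _).trans ?_
  rw [map_AA]
  simp only [AlgHom.toRingHom_eq_coe, RingHom.coe_coe, aeval_C, aeval_X]

theorem aeval_F {K : Type} [CommRing K] [Algebra L K] (x : Var N a ι → K) (k : Fin h) :
    aeval x ((lq V N).F k) = ap a (fun μ => algebraMap L K (V.φ k μ)) (FF x) := by
  rw [FF_eq, map_sum, LinEq.F, map_sum]
  refine Finset.sum_congr rfl fun j _ => ?_
  rw [map_mul, aeval_φ, aeval_X, C_mul', map_smul, smul_eq_mul, mul_comm, lq_u]

section cw

variable {σ Y κ : Type} [AddCommGroup Y] {w : σ → Y}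

/-- all coefficients are homogeneous of weight `y` -/
def CW (w : σ → Y) (f : MvPolynomial κ (MvPolynomial σ L)) (y : Y) : Prop :=
  ∀ μ, IsWeightedHomogeneous w (coeff μ f) y

theorem CW.sum {τ : Type} (s : Finset τ) {f : τ → MvPolynomial κ (MvPolynomial σ L)} {y : Y}
    (h : ∀ i ∈ s, CW w (f i) y) : CW w (∑ i ∈ s, f i) y := fun μ => by
  rw [coeff_sum]
  exact IsWeightedHomogeneous.sum _ _ _ fun i hi => h i hi μ

theorem CW.add {f g : MvPolynomial κ (MvPolynomial σ L)} {y : Y} (hf : CW w f y) (hg : CW w g y) :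
    CW w (f + g) y := fun μ => by
  rw [coeff_add]
  exact (hf μ).add (hg μ)

theorem CW.mul {f g : MvPolynomial κ (MvPolynomial σ L)} {y y' : Y} (hf : CW w f y)
    (hg : CW w g y') : CW w (f * g) (y + y') := fun μ => by
  classical
  rw [coeff_mul]
  exact IsWeightedHomogeneous.sum _ _ _ fun i _ => (hf _).mul (hg _)

theorem CW.monomial {r : MvPolynomial σ L} {y : Y} (h : IsWeightedHomogeneous w r y)
    (ν : κ →₀ ℕ) : CW w (monomial ν r) y := fun μ => by
  classical
  rw [coeff_monomial]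
  split_ifs
  · exact h
  · exact isWeightedHomogeneous_zero _ _ _

theorem CW.prod {τ : Type} (s : Finset τ) {f : τ → MvPolynomial κ (MvPolynomial σ L)} {y : τ → Y}
    (h : ∀ i ∈ s, CW w (f i) (y i)) : CW w (∏ i ∈ s, f i) (∑ i ∈ s, y i) := by
  classical
  induction s using Finset.induction_on with
  | empty => exact CW.monomial (isWeightedHomogeneous_one _ _) 0
  | insert i s hi ih =>
    rw [Finset.prod_insert hi, Finset.sum_insert hi]
    exact (h i (Finset.mem_insert_self _ _)).mul (ih fun j hj => h j (Finset.mem_insert_of_mem hj))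

end cw

omit [NeZero a] [DecidableEq ι] in
theorem cw_lin (m : Fin N) (ε : Fin 2) :
    CW (wt N a ι) (lin (X : Var N a ι → MvPolynomial _ L) m ε) (1, 0) := by
  refine CW.sum _ fun k _ => ?_
  rw [C_mul_X_eq_monomial]
  exact CW.monomial (isWeightedHomogeneous_X L (wt N a ι) (m, Sum.inr (k, ε))) _

omit [NeZero a] [DecidableEq ι] in
theorem cw_fac (m : Fin N) (i : ZMod a) :
    CW (wt N a ι) (fac (X : Var N a ι → MvPolynomial _ L) m i)
      (wt N a ι (m, Sum.inl (i, 0)) + (1, 0)) :=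
  ((CW.monomial (isWeightedHomogeneous_X L (wt N a ι) (m, Sum.inl (i, 0))) 0).mul
    (cw_lin m 0)).add
  ((CW.monomial (isWeightedHomogeneous_X L (wt N a ι) (m, Sum.inl (i, 1))) 0).mul (cw_lin m 1))

omit [Fintype ι] [DecidableEq ι] in
theorem sum_wt_fac (m : Fin N) :
    ∑ i : ZMod a, (wt N a ι (m, Sum.inl (i, 0)) + (1, 0)) = w0 N a := by
  refine Prod.ext ?_ ?_
  · rw [Prod.fst_sum]
    change ∑ _i : ZMod a, ((1 : ℤ) + 1) = 2 * (a : ℤ)
    rw [Finset.sum_const, Finset.card_univ, ZMod.card, nsmul_eq_mul]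
    ring
  · rw [Prod.snd_sum]
    change ∑ i : ZMod a, ((Pi.single (m, i) 1 - Pi.single (m, i + 1) 1 :
      Fin N × ZMod a → ℤ) + 0) = 0
    simp only [add_zero]
    rw [Finset.sum_sub_distrib, sub_eq_zero]
    exact (Equiv.sum_comp (Equiv.addRight (1 : ZMod a))
      fun i => (Pi.single (m, i) 1 : Fin N × ZMod a → ℤ)).symm

omit [DecidableEq ι] in
theorem cw_AA (m : Fin N) (ε : Fin 2) :
    CW (wt N a ι) (AA (X : Var N a ι → MvPolynomial _ L) m ε)
      (w0 N a - wt N a ι (m, Sum.inl (0, ε))) := by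
  have h := (cw_lin (L := L) (ι := ι) (a := a) m ε).mul
    (CW.prod (Finset.univ.erase (0 : ZMod a)) fun i _ => cw_fac m i)
  have e : w0 N a - wt N a ι (m, Sum.inl (0, ε)) = (1, 0) +
      ∑ i ∈ Finset.univ.erase (0 : ZMod a), (wt N a ι (m, Sum.inl (i, 0)) + (1, 0)) := by
    have e' : wt N a ι (m, Sum.inl (0, ε)) = wt N a ι (m, Sum.inl (0, 0)) := rfl
    rw [← sum_wt_fac (ι := ι) m, ← Finset.add_sum_erase _ _ (Finset.mem_univ (0 : ZMod a)), e']
    abel
  rw [e]
  exact h

theorem φ_hom (k : Fin h) (j : Fin (N * 2)) :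
    IsWeightedHomogeneous (wt N a ι) ((lq V N).φ k j) (w0 N a - wt N a ι ((lq V N).u j)) := by
  refine IsWeightedHomogeneous.sum _ _ _ fun μ _ => ?_
  have := (isWeightedHomogeneous_C (wt N a ι) (V.φ k μ)).mul
    (cw_AA (L := L) (finProdFinEquiv.symm j).1 (finProdFinEquiv.symm j).2 μ)
  rwa [zero_add] at this

theorem rename_F (m : Fin N) (k : Fin h) : rename (rot ι m) ((lq V N).F k) = (lq V N).F k := by
  have h1 := aeval_F V (fun v => (X (rot ι m v) : MvPolynomial (Var N a ι) L)) k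
  have h2 := aeval_F V (X : Var N a ι → MvPolynomial (Var N a ι) L) k
  rw [FF_rot, ← h2, aeval_X_left_apply] at h1
  rw [rename_eq_aeval]
  exact h1

theorem rename_symm_F (m : Fin N) (k : Fin h) :
    rename (rot ι m).symm ((lq V N).F k) = (lq V N).F k := by
  conv_lhs => rw [← rename_F V m k]
  rw [rename_rename, Equiv.symm_comp_self, rename_id_apply]

theorem card_moved (m : Fin N) :
    ((lq V N).T.filter fun j => rot ι m j ∉ (lq V N).T).card ≤ 2 ∧
    ((lq V N).T.filter fun j => (rot ι m).symm j ∉ (lq V N).T).card ≤ 2 := by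
  have hT : ∀ j, j ∉ (lq V N).T ↔ ∃ ε, j.2 = Sum.inl (0, ε) := fun j => by
    rw [← mem_range_uu, ← Finset.mem_coe, LinEq.coe_T, Set.mem_compl_iff, not_not, lq_u]
  have key : ∀ (i : ZMod a) (s : Finset (Var N a ι)),
      (∀ j ∈ s, ∃ ε, ((m, Sum.inl (i, ε)) : Var N a ι) = j) → s.card ≤ 2 := by
    intro i s hs
    have : s ⊆ Finset.univ.image fun ε : Fin 2 => ((m, Sum.inl (i, ε)) : Var N a ι) :=
      fun j hj => by
        obtain ⟨ε, hε⟩ := hs j hj
        exact Finset.mem_image.2 ⟨ε, Finset.mem_univ _, hε⟩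
    exact (Finset.card_le_card this).trans (Finset.card_image_le.trans (by simp))
  refine ⟨key (-1) _ fun j hj => ?_, key 1 _ fun j hj => ?_⟩
  · obtain ⟨h1, h2⟩ := Finset.mem_filter.1 hj
    obtain ⟨ε, hε⟩ := (hT _).1 h2
    obtain ⟨m', ⟨i, ε'⟩ | q⟩ := j
    · rw [rot_inl] at hε
      have h3 : i + (if m' = m then 1 else 0) = 0 := (Prod.mk.inj (Sum.inl.inj hε)).1
      by_cases hm : m' = m
      · rw [if_pos hm] at h3
        exact ⟨ε', by rw [hm, eq_neg_of_add_eq_zero_left h3]⟩
      · rw [if_neg hm, add_zero] at h3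
        exact absurd h1 ((hT _).2 ⟨ε', by rw [h3]⟩)
    · rw [rot_inr] at hε
      exact absurd hε Sum.inr_ne_inl
  · obtain ⟨h1, h2⟩ := Finset.mem_filter.1 hj
    obtain ⟨ε, hε⟩ := (hT _).1 h2
    obtain ⟨⟨m', q⟩, rfl⟩ := (rot (a := a) ι m).surjective j
    rw [Equiv.symm_apply_apply] at hε
    obtain rfl : q = Sum.inl (0, ε) := hε
    rw [rot_inl] at h1 ⊢
    by_cases hm : m' = m
    · exact ⟨ε, by rw [if_pos hm, zero_add, hm]⟩
    · exact absurd h1 ((hT _).2 ⟨ε, by rw [if_neg hm, add_zero]⟩)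

theorem anchor_A1Defs : True := by
  have := @wt.eq_1
  have := @off.eq_1
  have := @w0.eq_1
  have := @uu.eq_1
  have := @rot.eq_1
  have := @rotY.eq_1
  have := @xc.eq_1
  have := @sym.eq_1
  have := @lin.eq_1
  have := @fac.eq_1
  have := @AA.eq_1
  have := @FF.eq_1
  have := @lq.eq_1
  trivial

end Crest.Agent.R181.A1
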