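import Crest.Agent.R181.A1Simple

/-! Row 181, stage A1: the generic point and the shift matrices. -/

set_option autoImplicit false

namespace Crest.Agent.R181.A1

open MvPolynomial

variable {N a : ℕ} {ι : Type} [NeZero a] [Fintype ι] [DecidableEq ι] {L : Type} [Field L] [CharZero L]
  {W : Submodule L (MvPolynomial ι L)} {h : ℕ} (V : WData W a h) (N)
  (Ω : Type) [Field Ω] [Algebra (R0 V N) Ω] [Algebra L Ω] [IsScalarTower L (R0 V N) Ω]

/-- The generic point of the main component. -/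
noncomputable def xb : Var N a ι → Ω := fun v =>
  algebraMap (R0 V N) Ω (Ideal.Quotient.mk (lq V N).p (X v))

theorem aeval_xb (g : MvPolynomial (Var N a ι) L) :
    aeval (xb V N Ω) g = algebraMap (R0 V N) Ω (Ideal.Quotient.mk (lq V N).p g) := by
  have : aeval (xb V N Ω) =
      (IsScalarTower.toAlgHom L (R0 V N) Ω).comp (Ideal.Quotient.mkₐ L (lq V N).p) :=
    algHom_ext fun v => by
      rw [aeval_X]
      rfl
  rw [this]
  rfl

theorem aeval_xb_eq_zero [IsFractionRing (R0 V N) Ω] (g : MvPolynomial (Var N a ι) L) :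
    aeval (xb V N Ω) g = 0 ↔ g ∈ (lq V N).p := by
  rw [aeval_xb, map_eq_zero_iff _ (IsFractionRing.injective (R0 V N) Ω),
    Ideal.Quotient.eq_zero_iff_mem]

/-- The shift matrix of the `m`-th term, normalised by the coordinate `k0`. -/
noncomputable def uM (ζ : Lˣ) (k0 : Var N a ι) (m : Fin N) : Matrix (Idx N a) (Idx N a) Ω :=
  Matrix.of fun μ' μ => if μ' = μ + Pi.single m 1 then
    algebraMap L Ω ((ζ ^ (∑ m' ∈ Finset.univ.filter (· < m), μ m').val : Lˣ) : L) *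
      (xb V N Ω (m, Sum.inl (μ m, 0)) / xb V N Ω k0) else 0

variable {V N Ω} (H : Hyp V N) (ζ : Lˣ)

theorem Hyp.ext_inl {x : YY N a →+ ℤ} {ρΩ : Ω →+* Ω} (hρ : Ext Ω (H.Gam ζ) (Sum.inl x) ρΩ)
    (v : Var N a ι) : ρΩ (xb V N Ω v) = (2 : Ω) ^ x (wt N a ι v) * xb V N Ω v := by
  have h1 := hρ (Ideal.Quotient.mk _ (X v))
  rw [Hyp.Gam_inl_ρ, sc_X, ← aeval_xb, ← aeval_xb, map_mul, aeval_C, aeval_X, map_zpow₀,
    map_ofNat] at h1
  exact h1

theorem Hyp.ext_inr {m : Fin N} {ρΩ : Ω →+* Ω} (hρ : Ext Ω (H.Gam ζ) (Sum.inr m) ρΩ)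
    (v : Var N a ι) : ρΩ (xb V N Ω v) = xb V N Ω (rot ι m v) := by
  have h1 := hρ (Ideal.Quotient.mk _ (X v))
  rw [Hyp.Gam_inr_ρ, rename_X] at h1
  exact h1

theorem gad1_two (L Ω : Type) [Field L] [CharZero L] [Field Ω] [Algebra L Ω] : (2 : Ω) ≠ 0 := by
  have h : algebraMap L Ω 2 ≠ 0 := (map_ne_zero _).2 two_ne_zero
  rwa [map_ofNat] at h

omit [NeZero a] [Fintype ι] [DecidableEq ι] in
theorem gad1_wt {k0 : Var N a ι} (hk : ∃ q, k0.2 = Sum.inr q) : wt N a ι k0 = (1, 0) := by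
  obtain ⟨m, k⟩ := k0
  obtain ⟨q, rfl⟩ := hk
  rfl

omit [NeZero a] [Fintype ι] [DecidableEq ι] in
theorem gad1_rot {k0 : Var N a ι} (hk : ∃ q, k0.2 = Sum.inr q) (m : Fin N) : rot ι m k0 = k0 := by
  obtain ⟨m', k⟩ := k0
  obtain ⟨q, rfl⟩ := hk
  rfl

theorem gad1_pow {G : Type} [Monoid G] {ζ : G} (hζ : ζ ^ a = 1) (k k' : ZMod a) :
    ζ ^ (k + k').val = ζ ^ k.val * ζ ^ k'.val := by
  rw [ZMod.val_add, ← pow_add, ← pow_eq_pow_mod _ hζ]

omit [NeZero a] in
theorem gad1_sum (s : Finset (Fin N)) (μ : Idx N a) (m : Fin N) :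
    ∑ m' ∈ s, (μ + Pi.single m 1 : Idx N a) m' = ∑ m' ∈ s, μ m' + if m ∈ s then 1 else 0 := by
  simp only [Pi.add_apply, Finset.sum_add_distrib, Finset.sum_pi_single']

theorem Hyp.l_mem {k0 : Var N a ι} (hk : ∃ q, k0.2 = Sum.inr q) (m : Fin N) (q : ι × Fin 2) :
    xb V N Ω (m, Sum.inr q) / xb V N Ω k0 ∈ fixF Ω (H.Gam ζ) := by
  rw [mem_fixF]
  rintro (x | m') ρΩ hρ
  · rw [map_div₀, H.ext_inl ζ hρ, H.ext_inl ζ hρ, gad1_wt hk, gad1_wt ⟨q, rfl⟩,
      mul_div_mul_left _ _ (zpow_ne_zero _ (gad1_two L Ω))]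
  · rw [map_div₀, H.ext_inr ζ hρ, H.ext_inr ζ hρ, gad1_rot hk, rot_inr]

theorem Hyp.T_mem {k0 : Var N a ι} (hk : ∃ q, k0.2 = Sum.inr q) (m : Fin N) :
    ∏ i : ZMod a, (xb V N Ω (m, Sum.inl (i, 0)) / xb V N Ω k0) ∈ fixF Ω (H.Gam ζ) := by
  rw [mem_fixF]
  rintro (x | m') ρΩ hρ
  · have h2 := gad1_two L Ω
    have h1 : ∀ i : ZMod a, ρΩ (xb V N Ω (m, Sum.inl (i, 0)) / xb V N Ω k0) =
        ((2 : Ω) ^ x (0, Pi.single (m, i) 1) / (2 : Ω) ^ x (0, Pi.single (m, i + 1) 1)) *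
          (xb V N Ω (m, Sum.inl (i, 0)) / xb V N Ω k0) := by
      intro i
      have e : wt N a ι (m, Sum.inl (i, 0)) =
          (1, 0) + ((0, Pi.single (m, i) 1) - (0, Pi.single (m, i + 1) 1)) := by
        refine Prod.ext ?_ ?_
        · change (1 : ℤ) = 1 + (0 - 0)
          rfl
        · exact (zero_add _).symm
      rw [map_div₀, H.ext_inl ζ hρ, H.ext_inl ζ hρ, gad1_wt hk, e, map_add, map_sub, zpow_add₀ h2,
        zpow_sub₀ h2, mul_assoc, mul_div_mul_left _ _ (zpow_ne_zero _ h2), mul_div_assoc]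
    have h3 : ∏ i : ZMod a, (2 : Ω) ^ x (0, Pi.single (m, i + 1) 1) =
        ∏ i : ZMod a, (2 : Ω) ^ x (0, Pi.single (m, i) 1) :=
      Equiv.prod_comp (Equiv.addRight (1 : ZMod a)) fun i => (2 : Ω) ^ x (0, Pi.single (m, i) 1)
    rw [map_prod, Finset.prod_congr rfl fun i _ => h1 i, Finset.prod_mul_distrib,
      Finset.prod_div_distrib (fun i : ZMod a => (2 : Ω) ^ x (0, Pi.single (m, i) 1)), h3,
      div_self (Finset.prod_ne_zero_iff.2 fun i _ => zpow_ne_zero _ h2), one_mul]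
  · rw [map_prod, ← Equiv.prod_comp (Equiv.addRight (if m = m' then (1 : ZMod a) else 0))
      fun i => xb V N Ω (m, Sum.inl (i, 0)) / xb V N Ω k0]
    refine Finset.prod_congr rfl fun i _ => ?_
    rw [map_div₀, H.ext_inr ζ hρ, H.ext_inr ζ hρ, gad1_rot hk, rot_inl]
    rfl

theorem Hyp.bb_perm (m : Fin N) (γ : (YY N a →+ ℤ) ⊕ Fin N) (ρΩ : Ω →+* Ω)
    (hρ : Ext Ω (H.Gam ζ) γ ρΩ) : ∃ k : ZMod a, (∀ i, ρΩ (bb (xb V N Ω) m i) = bb (xb V N Ω) m (i + k)) ∧
      ∀ μ : Idx N a, ((H.Gam ζ γ).π μ) m = μ m + k := by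
  rcases γ with x | m'
  · refine ⟨0, fun i => ?_, fun μ => ?_⟩
    · have e : wt N a ι (m, Sum.inl (i, 1)) = wt N a ι (m, Sum.inl (i, 0)) := rfl
      rw [add_zero, bb, map_div₀, map_neg, H.ext_inl ζ hρ, H.ext_inl ζ hρ, e, ← mul_neg,
        mul_div_mul_left _ _ (zpow_ne_zero _ (gad1_two L Ω))]
    · rw [Hyp.Gam_inl_π, add_zero]
      rfl
  · refine ⟨if m = m' then 1 else 0, fun i => ?_, fun μ => ?_⟩
    · rw [bb, bb, map_div₀, map_neg, H.ext_inr ζ hρ, H.ext_inr ζ hρ, rot_inl, rot_inl]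
    · rw [Hyp.Gam_inr_π, Equiv.coe_addRight]
      simp only [Pi.add_apply, Pi.single_apply]

theorem Hyp.uM_mem (hζ : ζ ^ a = 1) {k0 : Var N a ι} (hk : ∃ q, k0.2 = Sum.inr q) (m : Fin N) :
    uM V N Ω ζ k0 m ∈ comm Ω (H.Gam ζ) := by
  rw [mem_comm]
  rintro (x | m') ρΩ hρ μ' μ
  · have h2 := gad1_two L Ω
    rw [Hyp.Gam_inl_π, Hyp.Gam_inl_c, Hyp.Gam_inl_c, Equiv.Perm.one_apply, Equiv.Perm.one_apply]
    simp only [uM, Matrix.of_apply]
    split_ifs with hμ
    · have e := congrArg (fun y => (2 : Ω) ^ x y) (off_add' μ m 0 k0 hk)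
      simp only [map_add, zpow_add₀ h2] at e
      rw [map_mul, hρ.alg, map_div₀, H.ext_inl ζ hρ, H.ext_inl ζ hρ, map_zpow₀, map_zpow₀, map_ofNat,
        hμ]
      have h3 : (2 : Ω) ^ x (off μ) = (2 : Ω) ^ x (off (μ + Pi.single m 1)) *
          (2 : Ω) ^ x (wt N a ι (m, Sum.inl (μ m, 0))) / (2 : Ω) ^ x (wt N a ι k0) := by
        rw [e, mul_div_cancel_right₀ _ (zpow_ne_zero _ h2)]
      rw [h3]
      ring
    · rw [map_zero, zero_mul, mul_zero]
  · rw [Hyp.Gam_inr_π, Hyp.Gam_inr_c, Hyp.Gam_inr_c, Equiv.coe_addRight]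
    simp only [uM, Matrix.of_apply]
    have hiff : μ' + Pi.single m' 1 = μ + Pi.single m' 1 + Pi.single m 1 ↔
        μ' = μ + Pi.single m 1 := by
      rw [add_right_comm, add_left_inj]
    by_cases hμ : μ' = μ + Pi.single m 1
    · have e : (μ + Pi.single m' 1 : Idx N a) m = μ m + if m = m' then 1 else 0 := by
        simp only [Pi.add_apply, Pi.single_apply]
      rw [if_pos hμ, if_pos (hiff.2 hμ), map_mul, hρ.alg, map_div₀, H.ext_inr ζ hρ, H.ext_inr ζ hρ,
        gad1_rot hk, rot_inl, hμ, gad1_sum, gad1_sum, gad1_pow hζ, gad1_pow hζ, e]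
      simp only [Finset.mem_filter, Finset.mem_univ, true_and, Units.val_mul, map_mul]
      ring
    · rw [if_neg hμ, if_neg fun h' => hμ (hiff.1 h'), map_zero, zero_mul, mul_zero]

theorem shift_mul {G R : Type} [AddCommGroup G] [Fintype G] [DecidableEq G] [Semiring R]
    (v w : G) (c d : G → R) :
    (Matrix.of fun μ' μ => if μ' = μ + v then c μ else 0) *
        (Matrix.of fun μ' μ => if μ' = μ + w then d μ else 0) =
      Matrix.of fun μ' μ => if μ' = μ + (w + v) then c (μ + w) * d μ else 0 := by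
  ext μ' μ
  rw [Matrix.mul_apply, Finset.sum_eq_single (μ + w)]
  · simp only [Matrix.of_apply, if_true, add_assoc]
    split_ifs <;> simp
  · intro ν _ hν
    simp only [Matrix.of_apply, if_neg hν, mul_zero]
  · intro h; exact absurd (Finset.mem_univ _) h

theorem shift_pow {G R : Type} [AddCommGroup G] [Fintype G] [DecidableEq G] [CommSemiring R]
    (v : G) (c : G → R) (k : ℕ) :
    (Matrix.of fun μ' μ => if μ' = μ + v then c μ else 0) ^ k =
      Matrix.of fun μ' μ => if μ' = μ + k • v then ∏ j ∈ Finset.range k, c (μ + j • v) else 0 := by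
  induction k with
  | zero =>
    ext μ' μ
    simp [Matrix.one_apply]
  | succ k ih =>
    rw [pow_succ, ih, shift_mul]
    ext μ' μ
    simp only [Matrix.of_apply, Finset.prod_range_succ', succ_nsmul', zero_nsmul, add_zero,
      add_assoc]

theorem prod_range_zmod {R : Type} [CommMonoid R] (f : ZMod a → R) (c : ZMod a) :
    ∏ j ∈ Finset.range a, f (c + (j : ZMod a)) = ∏ i, f i := by
  rw [← Equiv.prod_comp (Equiv.addLeft c) f]
  refine Finset.prod_bij' (fun j _ => (j : ZMod a)) (fun i _ => i.val) (fun _ _ => Finset.mem_univ _)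
    (fun i _ => Finset.mem_range.2 (ZMod.val_lt i)) (fun j hj => ?_) (fun i _ => ?_) fun j _ => rfl
  · exact ZMod.val_cast_of_lt (Finset.mem_range.1 hj)
  · exact ZMod.natCast_zmod_val i

omit [NeZero a] in
theorem sum_filter_single {m m' : Fin N} (μ : Idx N a) (c : ZMod a) :
    ∑ k ∈ Finset.univ.filter (· < m'), (μ k + (Pi.single m c : Idx N a) k) =
      ∑ k ∈ Finset.univ.filter (· < m'), μ k + if m < m' then c else 0 := by
  simp only [Finset.sum_add_distrib, Finset.sum_pi_single', Finset.mem_filter,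
    Finset.mem_univ, true_and]

omit [CharZero L] [IsScalarTower L (R0 V N) Ω] in
theorem uM_ne (k0 : Var N a ι) (m : Fin N) (μ' μ : Idx N a) (h0 : uM V N Ω ζ k0 m μ' μ ≠ 0) :
    μ' = μ + Pi.single m 1 := by
  by_contra hne
  exact h0 (by simp only [uM, Matrix.of_apply, if_neg hne])

omit [CharZero L] [IsScalarTower L (R0 V N) Ω] in
theorem uM_pow (hζ : ζ ^ a = 1) (k0 : Var N a ι) (m : Fin N) :
    uM V N Ω ζ k0 m ^ a = algebraMap Ω (Matrix (Idx N a) (Idx N a) Ω)
      (∏ i : ZMod a, (xb V N Ω (m, Sum.inl (i, 0)) / xb V N Ω k0)) := by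
  have hs : ∀ j : ℕ, j • (Pi.single m 1 : Idx N a) = Pi.single m (j : ZMod a) := by
    intro j
    rw [← Pi.single_smul, nsmul_one]
  unfold uM
  rw [shift_pow]
  ext μ' μ
  simp only [Matrix.of_apply, hs, ZMod.natCast_self, Pi.single_zero, add_zero,
    Matrix.algebraMap_matrix_apply, sum_filter_single, lt_irrefl, if_false, Pi.add_apply,
    Pi.single_eq_same, Algebra.algebraMap_self, RingHom.id_apply]
  split_ifs
  · rw [Finset.prod_mul_distrib, Finset.prod_const, Finset.card_range, ← map_pow,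
      ← Units.val_pow_eq_pow_val, ← pow_mul, mul_comm _ a, pow_mul, hζ, one_pow, Units.val_one,
      map_one, one_mul]
    exact prod_range_zmod (fun i => xb V N Ω (m, Sum.inl (i, 0)) / xb V N Ω k0) (μ m)
  · rfl

omit [CharZero L] [IsScalarTower L (R0 V N) Ω] in
theorem uM_mul (hζ : ζ ^ a = 1) (k0 : Var N a ι) {m m' : Fin N} (hm : m < m') :
    uM V N Ω ζ k0 m' * uM V N Ω ζ k0 m =
      algebraMap L Ω (ζ : L) • (uM V N Ω ζ k0 m * uM V N Ω ζ k0 m') := by
  have hz : ∀ b : ZMod a, ζ ^ (b + 1).val = ζ * ζ ^ b.val := by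
    intro b
    have : b + 1 = ((b.val + 1 : ℕ) : ZMod a) := by
      rw [Nat.cast_add, ZMod.natCast_zmod_val, Nat.cast_one]
    rw [this, ZMod.val_natCast, ← pow_eq_pow_mod _ hζ, pow_succ']
  unfold uM
  rw [shift_mul, shift_mul]
  ext μ' μ
  simp only [Matrix.of_apply, Matrix.smul_apply, sum_filter_single, if_pos hm, if_neg hm.not_gt,
    add_zero, Pi.add_apply, Pi.single_eq_of_ne hm.ne, Pi.single_eq_of_ne hm.ne', hz,
    Units.val_mul, map_mul, smul_eq_mul, add_comm (Pi.single m' 1 : Idx N a) (Pi.single m 1)]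
  split_ifs
  · ring
  · rw [mul_zero]

omit [CharZero L] [IsScalarTower L (R0 V N) Ω] in
theorem uM_diag (k0 : Var N a ι) {m m' : Fin N} (hm : m ≠ m') (f : ZMod a → Ω) :
    uM V N Ω ζ k0 m * Matrix.diagonal (fun μ : Idx N a => f (μ m')) =
      Matrix.diagonal (fun μ : Idx N a => f (μ m')) * uM V N Ω ζ k0 m := by
  ext μ' μ
  rw [Matrix.mul_diagonal, Matrix.diagonal_mul]
  by_cases h0 : uM V N Ω ζ k0 m μ' μ = 0
  · rw [h0, zero_mul, mul_zero]
  · have := congrFun (uM_ne ζ k0 m μ' μ h0) m'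
    rw [Pi.add_apply, Pi.single_eq_of_ne hm.symm, add_zero] at this
    rw [this, mul_comm]

omit V in
/-- One term of the generic form as a binary norm form. -/
theorem term_eq {K : Type} [Field K] (x : Var N a ι → K) (m : Fin N) (lam : K) (hl : lam ≠ 0)
    (hs : ∀ i, x (m, Sum.inl (i, 0)) ≠ 0) :
    C (∏ i : ZMod a, (x (m, Sum.inl (i, 0)) / lam)) *
        bform (∏ i : ZMod a, (Polynomial.X - Polynomial.C (bb x m i))) a
          (lf fun k => x (m, Sum.inr (k, 0)) / lam) (lf fun k => x (m, Sum.inr (k, 1)) / lam) =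
      C ((lam ^ (2 * a))⁻¹) * ∏ i, fac x m i := by
  have h1 : (∏ i : ZMod a, (Polynomial.X - Polynomial.C (bb x m i))).homogenize a =
      ∏ i : ZMod a, (X 0 - C (bb x m i) * X 1) := by
    have := Polynomial.homogenize_finsetProd (s := Finset.univ)
      (p := fun i : ZMod a => Polynomial.X - Polynomial.C (bb x m i)) (n := fun _ => 1)
      fun i _ => (Polynomial.natDegree_X_sub_C _).le
    simp only [Finset.sum_const, Finset.card_univ, ZMod.card, smul_eq_mul, mul_one] at this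
    rw [this]
    refine Finset.prod_congr rfl fun i _ => ?_
    simp
  have h2 : ∀ ε : Fin 2, (lf fun k => x (m, Sum.inr (k, ε)) / lam) = C lam⁻¹ * lin x m ε := by
    intro ε
    simp only [lin, lf, Finset.mul_sum, div_eq_inv_mul, map_mul, mul_assoc]
  have h3 : (C ((lam ^ (2 * a))⁻¹) : MvPolynomial ι K) = ∏ _i : ZMod a, C (lam⁻¹ * lam⁻¹) := by
    rw [Finset.prod_const, Finset.card_univ, ZMod.card, ← map_pow, ← sq, ← pow_mul, inv_pow]
  rw [bform, h1, h2, h2, h3, map_prod, map_prod, ← Finset.prod_mul_distrib,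
    ← Finset.prod_mul_distrib]
  refine Finset.prod_congr rfl fun i _ => ?_
  have h4 : x (m, Sum.inl (i, 0)) / lam * bb x m i = -(x (m, Sum.inl (i, 1)) * lam⁻¹) := by
    have := hs i
    unfold bb
    field_simp
  have h5 := congrArg (C : K → MvPolynomial ι K) h4
  simp only [map_sub, map_mul, aeval_X, aeval_C, algebraMap_eq, Matrix.cons_val_zero,
    Matrix.cons_val_one, fac, div_eq_mul_inv, map_neg] at h5 ⊢
  linear_combination (-(C lam⁻¹ * lin x m 1)) * h5

theorem map_bform {B B' : Type} [CommRing B] [CommRing B'] (ψ : B →+* B') (φ : Polynomial B) (a : ℕ)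
    (p q : MvPolynomial ι B) : MvPolynomial.map ψ (bform φ a p q) =
      bform (φ.map ψ) a (MvPolynomial.map ψ p) (MvPolynomial.map ψ q) := by
  unfold bform
  rw [Polynomial.homogenize_map]
  generalize φ.homogenize a = F
  induction F using MvPolynomial.induction_on with
  | C r => simp
  | add F G hF hG => simp only [map_add, hF, hG]
  | mul_X F i hF =>
    simp only [map_mul, hF, aeval_X, map_X]
    fin_cases i <;> rfl

theorem anchor_A1Gad : True := by
  have := @xb.eq_1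
  have := @uM.eq_1
  trivial

end Crest.Agent.R181.A1
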