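import Crest.Agent.R181.A1Tr
import Crest.Agent.R181.KGM

/-! Row 181, stage A1: the main component of a system of equations linear in some variables. -/

set_option autoImplicit false

namespace Crest.Agent.R181.A1

open MvPolynomial

variable {L : Type} [Field L] {σ : Type} [Fintype σ] [DecidableEq σ]

omit [Fintype σ] [DecidableEq σ] in
theorem cr1_sub {h : ℕ} {v : Fin h → σ} (hv : Function.Injective v) {R : Type} [CommRing R]
    [Algebra L R] (ι : MvPolynomial σ L →ₐ[L] R) (f : Fin h → R) :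
    ∃ Φ : MvPolynomial σ L →ₐ[L] R, (∀ i, Φ (X (v i)) = f i) ∧
      (∀ j, j ∉ Set.range v → Φ (X j) = ι (X j)) ∧
      ∀ g ∈ supported L (Set.range v)ᶜ, Φ g = ι g := by
  have h2 : ∀ j, j ∉ Set.range v →
      aeval (R := L) (Function.extend v f fun j => ι (X j)) (X j) = ι (X j) := fun j hj => by
    rw [aeval_X, Function.extend_apply' _ _ _ hj]
  refine ⟨aeval (Function.extend v f fun j => ι (X j)), fun i => ?_, h2, fun g hg => ?_⟩
  · rw [aeval_X, hv.extend_apply]
  · rw [supported_eq_adjoin_X] at hg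
    refine (Algebra.adjoin_le ?_ : _ ≤ AlgHom.equalizer _ ι) hg
    rintro _ ⟨j, hj, rfl⟩
    exact h2 j hj

omit [Fintype σ] [DecidableEq σ] in
theorem cr1_cong (I : Ideal (MvPolynomial σ L)) (f g : MvPolynomial σ L →ₐ[L] MvPolynomial σ L)
    (h : ∀ j, f (X j) - g (X j) ∈ I) (G : MvPolynomial σ L) : f G - g G ∈ I := by
  have e : (Ideal.Quotient.mkₐ L I).comp f = (Ideal.Quotient.mkₐ L I).comp g :=
    MvPolynomial.algHom_ext fun j => Ideal.Quotient.eq.2 (h j)
  exact Ideal.Quotient.eq.1 (AlgHom.congr_fun e G)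

omit [Fintype σ] [DecidableEq σ] in
theorem cr1_key {h : ℕ} (v : Fin h → σ) (hv : Function.Injective v)
    (M : Matrix (Fin h) (Fin h) (MvPolynomial σ L)) (b : Fin h → MvPolynomial σ L)
    (hM : ∀ k i, M k i ∈ supported L (Set.range v)ᶜ) (hb : ∀ k, b k ∈ supported L (Set.range v)ᶜ)
    (F : Fin h → MvPolynomial σ L) (hF : ∀ k, F k = ∑ i, M k i * X (v i) + b k) :
    ∃ Φ : MvPolynomial σ L →ₐ[L] MvPolynomial σ L, (∀ i, Φ (X (v i)) = F i) ∧
      (∀ j, j ∉ Set.range v → Φ (X j) = X j) ∧ ∀ g, ∃ (r : ℕ) (G : MvPolynomial σ L),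
        M.det ^ r * g = Φ G := by
  obtain ⟨Φ, h1, h2, h3⟩ := cr1_sub hv (AlgHom.id L (MvPolynomial σ L)) F
  have hΦM : Φ.mapMatrix M = M := Matrix.ext fun k i => h3 _ (hM k i)
  have hd : Φ M.det = M.det := by rw [AlgHom.map_det, hΦM]
  have ha : ∀ i k, Φ (M.adjugate i k) = M.adjugate i k := fun i k => by
    have e := AlgHom.map_adjugate Φ M
    rw [hΦM] at e
    exact congrFun (congrFun e i) k
  have hX : ∀ j, ∃ G, M.det * X j = Φ G := by
    intro j
    by_cases hj : j ∈ Set.range v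
    · obtain ⟨i, rfl⟩ := hj
      refine ⟨∑ k, M.adjugate i k * (X (v k) - b k), ?_⟩
      have e : ∀ k, Φ (M.adjugate i k * (X (v k) - b k)) =
          ∑ l, M.adjugate i k * M k l * X (v l) := fun k => by
        rw [map_mul, map_sub, ha, h1, h3 _ (hb k), hF, AlgHom.id_apply, add_sub_cancel_right,
          Finset.mul_sum]
        simp only [mul_assoc]
      rw [map_sum, Finset.sum_congr rfl fun k _ => e k, Finset.sum_comm]
      simp only [← Finset.sum_mul, ← Matrix.mul_apply, Matrix.adjugate_mul, Matrix.smul_apply,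
        Matrix.one_apply, smul_eq_mul, mul_ite, mul_one, mul_zero, ite_mul, zero_mul,
        Finset.sum_ite_eq, Finset.mem_univ, if_true]
    · exact ⟨M.det * X j, by rw [map_mul, hd, h2 j hj, AlgHom.id_apply]⟩
  refine ⟨Φ, h1, h2, fun g => ?_⟩
  induction g using MvPolynomial.induction_on with
  | C a => exact ⟨0, C a, by rw [pow_zero, one_mul, algHom_C, algebraMap_eq]⟩
  | add p q hp hq =>
    obtain ⟨r, G, hG⟩ := hp
    obtain ⟨r', G', hG'⟩ := hq
    refine ⟨r + r', M.det ^ r' * G + M.det ^ r * G', ?_⟩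
    rw [map_add, map_mul, map_mul, map_pow, map_pow, hd, ← hG, ← hG']
    ring
  | mul_X p j hp =>
    obtain ⟨r, G, hG⟩ := hp
    obtain ⟨G', hG'⟩ := hX j
    refine ⟨r + 1, G * G', ?_⟩
    rw [map_mul, ← hG, ← hG']
    ring

/-- Cramer's rule as a change of variables. -/
theorem cramer {h : ℕ} (v : Fin h → σ) (hv : Function.Injective v)
    (M : Matrix (Fin h) (Fin h) (MvPolynomial σ L)) (b : Fin h → MvPolynomial σ L)
    (hM : ∀ k i, M k i ∈ supported L (Set.range v)ᶜ) (hb : ∀ k, b k ∈ supported L (Set.range v)ᶜ)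
    (hΔ : M.det ≠ 0) (F : Fin h → MvPolynomial σ L) (hF : ∀ k, F k = ∑ i, M k i * X (v i) + b k)
    (k : ℕ) :
    ∃ Θ : MvPolynomial σ L →ₐ[L] FractionRing (MvPolynomial σ L),
      (∀ j, j ∉ Set.range v → Θ (X j) = algebraMap (MvPolynomial σ L) _ (X j)) ∧
      (∀ i : Fin h, Θ (F i) = if i.val < k then 0 else algebraMap (MvPolynomial σ L) _ (X (v i))) ∧
      ∀ g, Θ g = 0 → ∃ r : ℕ, M.det ^ r * g ∈ Ideal.span {g | ∃ i : Fin h, i.val < k ∧ g = F i} := by
  obtain ⟨Φ, h1, h2, h3⟩ := cr1_key v hv M b hM hb F hF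
  let ι := IsScalarTower.toAlgHom L (MvPolynomial σ L) (FractionRing (MvPolynomial σ L))
  have hι : Function.Injective ι := IsFractionRing.injective (MvPolynomial σ L) _
  have hΔ' : ι M.det ≠ 0 := fun e => hΔ (hι (e.trans (map_zero ι).symm))
  let y : Fin h → MvPolynomial σ L := fun i => if i.val < k then 0 else X (v i)
  obtain ⟨Θ, t1, t2, t3⟩ := cr1_sub hv ι
    fun i => (ι M.det)⁻¹ * ι (∑ l, M.adjugate i l * (y l - b l))
  obtain ⟨κ, k1, k2, -⟩ := cr1_sub hv (AlgHom.id L (MvPolynomial σ L)) y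
  have hΘF : ∀ i, Θ (F i) = ι (y i) := by
    intro i
    have e : ∑ j, M i j * ∑ l, M.adjugate j l * (y l - b l) = M.det * (y i - b i) := by
      simp only [Finset.mul_sum, ← mul_assoc]
      rw [Finset.sum_comm]
      simp only [← Finset.sum_mul, ← Matrix.mul_apply, Matrix.mul_adjugate, Matrix.smul_apply,
        Matrix.one_apply, smul_eq_mul, mul_ite, mul_one, mul_zero, ite_mul, zero_mul,
        Finset.sum_ite_eq, Finset.mem_univ, if_true]
    have e' : ∀ j, Θ (M i j * X (v j)) =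
        (ι M.det)⁻¹ * ι (M i j * ∑ l, M.adjugate j l * (y l - b l)) := fun j => by
      rw [map_mul, t1, t3 _ (hM i j), map_mul, mul_left_comm]
    rw [hF, map_add, map_sum, Finset.sum_congr rfl fun j _ => e' j, ← Finset.mul_sum, ← map_sum, e,
      map_mul, inv_mul_cancel_left₀ hΔ', t3 _ (hb i), ← map_add, sub_add_cancel]
  refine ⟨Θ, t2, fun i => ?_, fun g hg => ?_⟩
  · rw [hΘF]
    change ι (if i.val < k then 0 else X (v i)) = _
    split_ifs
    · exact map_zero ι
    · rfl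
  · obtain ⟨r, G, hG⟩ := h3 g
    have e : Θ.comp Φ = ι.comp κ := MvPolynomial.algHom_ext fun j => by
      by_cases hj : j ∈ Set.range v
      · obtain ⟨i, rfl⟩ := hj
        rw [AlgHom.comp_apply, AlgHom.comp_apply, h1, k1, hΘF]
      · rw [AlgHom.comp_apply, AlgHom.comp_apply, h2 j hj, k2 j hj, t2 j hj, AlgHom.id_apply]
    have e1 : κ G = 0 := by
      refine hι ?_
      rw [map_zero, ← AlgHom.comp_apply, ← e, AlgHom.comp_apply, ← hG, map_mul, hg, mul_zero]
    have e2 := cr1_cong (Ideal.span {g | ∃ i : Fin h, i.val < k ∧ g = F i}) Φ (Φ.comp κ)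
      (fun j => by
        by_cases hj : j ∈ Set.range v
        · obtain ⟨i, rfl⟩ := hj
          rw [AlgHom.comp_apply, h1, k1]
          change F i - Φ (if i.val < k then 0 else X (v i)) ∈ _
          split_ifs with hi
          · rw [map_zero, sub_zero]
            exact Ideal.subset_span ⟨i, hi, rfl⟩
          · rw [h1, sub_self]
            exact zero_mem _
        · rw [AlgHom.comp_apply, k2 j hj, AlgHom.id_apply, sub_self]
          exact zero_mem _) G
    rw [AlgHom.comp_apply, e1, map_zero, sub_zero, ← hG] at e2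
    exact ⟨r, e2⟩

/-- Eliminating the solved variables. -/
theorem cramer_elim {h : ℕ} (v : Fin h → σ) (hv : Function.Injective v)
    (M : Matrix (Fin h) (Fin h) (MvPolynomial σ L)) (b : Fin h → MvPolynomial σ L)
    (hM : ∀ k i, M k i ∈ supported L (Set.range v)ᶜ) (hb : ∀ k, b k ∈ supported L (Set.range v)ᶜ)
    (F : Fin h → MvPolynomial σ L) (hF : ∀ k, F k = ∑ i, M k i * X (v i) + b k)
    (g : MvPolynomial σ L) :
    ∃ (r : ℕ) (G : MvPolynomial σ L), G ∈ supported L (Set.range v)ᶜ ∧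
      M.det ^ r * g - G ∈ Ideal.span (Set.range F) := by
  obtain ⟨Φ, h1, h2, h3⟩ := cr1_key v hv M b hM hb F hF
  obtain ⟨κ, k1, k2, -⟩ := cr1_sub hv (AlgHom.id L (MvPolynomial σ L)) fun _ => 0
  obtain ⟨r, G, hG⟩ := h3 g
  refine ⟨r, κ G, ?_, ?_⟩
  · clear hG
    induction G using MvPolynomial.induction_on with
    | C a =>
      rw [algHom_C]
      exact algebraMap_mem _ a
    | add p q hp hq =>
      rw [map_add]
      exact add_mem hp hq
    | mul_X p j hp =>
      rw [map_mul]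
      refine mul_mem hp ?_
      by_cases hj : j ∈ Set.range v
      · obtain ⟨i, rfl⟩ := hj
        rw [k1]
        exact zero_mem _
      · rw [k2 j hj, AlgHom.id_apply]
        exact X_mem_supported.2 hj
  · rw [hG]
    refine cr1_cong _ Φ κ (fun j => ?_) G
    by_cases hj : j ∈ Set.range v
    · obtain ⟨i, rfl⟩ := hj
      rw [h1, k1, sub_zero]
      exact Ideal.subset_span ⟨i, rfl⟩
    · rw [h2 j hj, k2 j hj, AlgHom.id_apply, sub_self]
      exact zero_mem _

/-- `h` equations linear in the variables `u j`, with coefficients in the other variables. -/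
structure LinEq (L σ : Type) [Field L] (n h : ℕ) where
  u : Fin n → σ
  u_inj : Function.Injective u
  φ : Fin h → Fin n → MvPolynomial σ L
  φ_supp : ∀ k j, φ k j ∈ supported L (Set.range u)ᶜ

namespace LinEq

variable {n h : ℕ} (Q : LinEq L σ n h)

/-- The equations. -/
noncomputable def F (k : Fin h) : MvPolynomial σ L := ∑ j, Q.φ k j * X (Q.u j)

/-- The maximal minors. -/
noncomputable def minor (J : Fin h → Fin n) : MvPolynomial σ L :=
  (Matrix.of fun k i => Q.φ k (J i)).det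

/-- The other variables. -/
def T : Finset σ := Finset.univ \ Finset.univ.image Q.u

/-- The main component. -/
def p : Ideal (MvPolynomial σ L) where
  carrier := {g | ∃ δ, δ ≠ 0 ∧ δ ∈ supported L (Set.range Q.u)ᶜ ∧
    δ * g ∈ Ideal.span (Set.range Q.F)}
  add_mem' := by
    rintro g g' ⟨δ, h0, hs, hg⟩ ⟨δ', h0', hs', hg'⟩
    refine ⟨δ * δ', mul_ne_zero h0 h0', mul_mem hs hs', ?_⟩
    have : δ * δ' * (g + g') = δ' * (δ * g) + δ * (δ' * g') := by ring
    rw [this]
    exact add_mem (Ideal.mul_mem_left _ _ hg) (Ideal.mul_mem_left _ _ hg')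
  zero_mem' := ⟨1, one_ne_zero, one_mem _, by simp⟩
  smul_mem' := by
    rintro c g ⟨δ, h0, hs, hg⟩
    refine ⟨δ, h0, hs, ?_⟩
    have : δ * (c • g) = c * (δ * g) := by rw [smul_eq_mul]; ring
    rw [this]
    exact Ideal.mul_mem_left _ _ hg

theorem mem_p {g : MvPolynomial σ L} : g ∈ Q.p ↔ ∃ δ, δ ≠ 0 ∧ δ ∈ supported L (Set.range Q.u)ᶜ ∧
    δ * g ∈ Ideal.span (Set.range Q.F) := Iff.rfl

theorem coe_T : (Q.T : Set σ) = (Set.range Q.u)ᶜ := by
  ext j
  show j ∈ Finset.univ \ Finset.univ.image Q.u ↔ ¬ j ∈ Set.range Q.u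
  simp only [Finset.mem_sdiff, Finset.mem_univ, true_and, Finset.mem_image, Set.mem_range]

theorem F_mem (k : Fin h) : Q.F k ∈ Q.p :=   ⟨1, one_ne_zero, one_mem _, by rw [one_mul]; exact Ideal.subset_span ⟨k, rfl⟩⟩

theorem minor_supp (J : Fin h → Fin n) : Q.minor J ∈ supported L (Set.range Q.u)ᶜ := by
  show (Matrix.of fun k i => Q.φ k (J i)).det ∈ _
  rw [Matrix.det_apply']
  refine sum_mem fun s _ => mul_mem (intCast_mem _ _) (prod_mem fun i _ => ?_)
  exact Q.φ_supp _ _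

theorem inv (J : Fin h → Fin n) : ∃ ψ : Fin n → Fin h → MvPolynomial σ L,
    ∀ k k', ∑ j, Q.φ k j * ψ j k' = if k = k' then Q.minor J else 0 := by
  refine ⟨fun j k' => ∑ i ∈ Finset.univ.filter (fun i => J i = j),
    (Matrix.of fun k i => Q.φ k (J i)).adjugate i k', fun k k' => ?_⟩
  have h1 : ∑ j, Q.φ k j * ∑ i ∈ Finset.univ.filter (fun i => J i = j),
      (Matrix.of fun k i => Q.φ k (J i)).adjugate i k' =
      ∑ i, Q.φ k (J i) * (Matrix.of fun k i => Q.φ k (J i)).adjugate i k' := by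
    rw [← Finset.sum_fiberwise_of_maps_to (s := Finset.univ) (t := Finset.univ) (g := J)
      (fun _ _ => Finset.mem_univ _)]
    refine Finset.sum_congr rfl fun j _ => ?_
    rw [Finset.mul_sum]
    refine Finset.sum_congr rfl fun i hi => ?_
    rw [(Finset.mem_filter.1 hi).2]
  rw [h1]
  have h2 := congrFun (congrFun (Matrix.mul_adjugate (Matrix.of fun k i => Q.φ k (J i))) k) k'
  rw [Matrix.mul_apply, Matrix.smul_apply, Matrix.one_apply] at h2
  refine h2.trans ?_
  show Q.minor J • _ = _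
  split_ifs
  · rw [smul_eq_mul, mul_one]
  · rw [smul_zero]

theorem aux2_fix {A : Type} [CommRing A] [Algebra L A] {S : Set σ}
    (Θ Θ' : MvPolynomial σ L →ₐ[L] A) (hΘ : ∀ j ∈ S, Θ (X j) = Θ' (X j))
    {g : MvPolynomial σ L} (hg : g ∈ supported L S) : Θ g = Θ' g := by
  have h1 : supported L S ≤ AlgHom.equalizer Θ Θ' := by
    rw [supported_eq_adjoin_X]
    refine Algebra.adjoin_le ?_
    rintro _ ⟨j, hj, rfl⟩
    exact hΘ j hj
  exact h1 hg

theorem aux2_kill {A : Type} [CommRing A] [Algebra L A] (Θ : MvPolynomial σ L →ₐ[L] A)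
    {S : Set (MvPolynomial σ L)} (hS : ∀ g ∈ S, Θ g = 0) {g : MvPolynomial σ L}
    (hg : g ∈ Ideal.span S) : Θ g = 0 := by
  have h1 : Ideal.span S ≤ RingHom.ker Θ := Ideal.span_le.2 fun g hg => hS g hg
  exact h1 hg

theorem eq_zero_of_mem {g : MvPolynomial σ L} (hg : g ∈ Q.p)
    (hs : g ∈ supported L (Set.range Q.u)ᶜ) : g = 0 := by
  classical
  obtain ⟨δ, h0, hδ, hm⟩ := hg
  let Θ : MvPolynomial σ L →ₐ[L] MvPolynomial σ L :=
    aeval fun j => if j ∈ Set.range Q.u then 0 else X j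
  have h1 : ∀ j ∈ (Set.range Q.u)ᶜ, Θ (X j) = AlgHom.id L _ (X j) := fun j hj => by
    show aeval _ (X j) = X j
    rw [aeval_X, if_neg hj]
  have h2 : ∀ g ∈ Set.range Q.F, Θ g = 0 := by
    rintro _ ⟨k, rfl⟩
    show Θ (∑ j, Q.φ k j * X (Q.u j)) = 0
    rw [map_sum]
    refine Finset.sum_eq_zero fun j _ => ?_
    have h3 : Θ (X (Q.u j)) = 0 := by
      show aeval _ (X (Q.u j)) = 0
      rw [aeval_X, if_pos ⟨j, rfl⟩]
    rw [map_mul, h3, mul_zero]
  have h4 := aux2_kill Θ h2 hm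
  rw [aux2_fix Θ _ h1 (mul_mem hδ hs)] at h4
  exact (mul_eq_zero.1 h4).resolve_left h0

theorem aux2_inj {J : Fin h → Fin n} (hJ : Q.minor J ≠ 0) : Function.Injective J := by
  intro i i' hi
  by_contra hne
  exact hJ (Matrix.det_zero_of_column_eq hne fun k => by
    show Q.φ k (J i) = Q.φ k (J i')
    rw [hi])

theorem aux2_le (J : Fin h → Fin n) :
    supported L (Set.range Q.u)ᶜ ≤ supported L (Set.range (Q.u ∘ J))ᶜ :=
  supported_mono (Set.compl_subset_compl.2 (Set.range_comp_subset_range _ _))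

theorem aux2_setup {J : Fin h → Fin n} (hJ : Q.minor J ≠ 0) :
    ∃ b : Fin h → MvPolynomial σ L, (∀ k, b k ∈ supported L (Set.range (Q.u ∘ J))ᶜ) ∧
      ∀ k, Q.F k = ∑ i, (Matrix.of fun k i => Q.φ k (J i)) k i * X ((Q.u ∘ J) i) + b k := by
  classical
  refine ⟨fun k => ∑ j ∈ Finset.univ \ Finset.univ.image J, Q.φ k j * X (Q.u j), fun k => ?_,
    fun k => ?_⟩
  · refine sum_mem fun j hj => mul_mem (Q.aux2_le J (Q.φ_supp k j)) (X_mem_supported.2 ?_)
    rintro ⟨i, hi⟩
    exact (Finset.mem_sdiff.1 hj).2 (Finset.mem_image.2 ⟨i, Finset.mem_univ _, Q.u_inj hi⟩)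
  · show ∑ j, Q.φ k j * X (Q.u j) = ∑ i, Q.φ k (J i) * X (Q.u (J i)) + _
    rw [← Finset.sum_sdiff (Finset.subset_univ (Finset.univ.image J)), add_comm,
      Finset.sum_image fun i _ i' _ hi => Q.aux2_inj hJ hi]

theorem aux2_theta {J : Fin h → Fin n} (hJ : Q.minor J ≠ 0) (k : ℕ) :
    ∃ Θ : MvPolynomial σ L →ₐ[L] FractionRing (MvPolynomial σ L),
      (∀ j, j ∉ Set.range (Q.u ∘ J) → Θ (X j) = algebraMap (MvPolynomial σ L) _ (X j)) ∧
      (∀ i : Fin h, Θ (Q.F i) =
        if i.val < k then 0 else algebraMap (MvPolynomial σ L) _ (X ((Q.u ∘ J) i))) ∧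
      ∀ g, Θ g = 0 →
        ∃ r : ℕ, Q.minor J ^ r * g ∈ Ideal.span {g | ∃ i : Fin h, i.val < k ∧ g = Q.F i} := by
  obtain ⟨b, hb, hF⟩ := Q.aux2_setup hJ
  exact cramer (Q.u ∘ J) (Q.u_inj.comp (Q.aux2_inj hJ)) (Matrix.of fun k i => Q.φ k (J i)) b
    (fun k i => Q.aux2_le J (Q.φ_supp k (J i))) hb hJ Q.F hF k

theorem aux2_ker {J : Fin h → Fin n} (hJ : Q.minor J ≠ 0) :
    ∃ Θ : MvPolynomial σ L →ₐ[L] FractionRing (MvPolynomial σ L),
      (∀ g ∈ supported L (Set.range (Q.u ∘ J))ᶜ, Θ g = algebraMap (MvPolynomial σ L) _ g) ∧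
      (∀ g, g ∈ Q.p ↔ Θ g = 0) ∧
      ∀ g, Θ g = 0 → ∃ r : ℕ, Q.minor J ^ r * g ∈ Ideal.span (Set.range Q.F) := by
  obtain ⟨Θ, h1, h2, h3⟩ := Q.aux2_theta hJ h
  have h4 : {g | ∃ i : Fin h, i.val < h ∧ g = Q.F i} = Set.range Q.F := by
    ext g
    exact ⟨fun ⟨i, _, hi⟩ => ⟨i, hi.symm⟩, fun ⟨i, hi⟩ => ⟨i, i.2, hi.symm⟩⟩
  rw [h4] at h3
  have h5 : ∀ g ∈ supported L (Set.range (Q.u ∘ J))ᶜ,
      Θ g = algebraMap (MvPolynomial σ L) _ g := fun g hg =>
    aux2_fix Θ (IsScalarTower.toAlgHom L (MvPolynomial σ L) _) h1 hg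
  refine ⟨Θ, h5, fun g => ⟨?_, fun hg => ?_⟩, h3⟩
  · rintro ⟨δ, h0, hδ, hm⟩
    have h6 := aux2_kill Θ (S := Set.range Q.F) (by
      rintro _ ⟨i, rfl⟩
      rw [h2 i, if_pos i.2]) hm
    rw [map_mul, h5 δ (Q.aux2_le J hδ)] at h6
    refine (mul_eq_zero.1 h6).resolve_left fun h7 => h0 ?_
    exact (IsFractionRing.injective (MvPolynomial σ L) _) (h7.trans (map_zero _).symm)
  · obtain ⟨r, hr⟩ := h3 g hg
    exact ⟨_, pow_ne_zero r hJ, pow_mem (Q.minor_supp J) r, hr⟩

theorem reg (k : Fin h) (g : MvPolynomial σ L)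
    (hg : Q.F k * g ∈ Ideal.span {g | ∃ i : Fin h, i.val < k ∧ g = Q.F i}) (J : Fin h → Fin n) :
    ∃ r : ℕ, Q.minor J ^ r * g ∈ Ideal.span {g | ∃ i : Fin h, i.val < k ∧ g = Q.F i} := by
  by_cases hJ : Q.minor J = 0
  · exact ⟨1, by rw [hJ, pow_one, zero_mul]; exact zero_mem _⟩
  obtain ⟨Θ, -, h2, h3⟩ := Q.aux2_theta hJ k
  refine h3 g ?_
  have h4 := aux2_kill Θ (by
    rintro _ ⟨i, hi, rfl⟩
    rw [h2 i, if_pos hi]) hg
  rw [map_mul, h2 k, if_neg (lt_irrefl _)] at h4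
  refine (mul_eq_zero.1 h4).resolve_left fun h7 => X_ne_zero (R := L) ((Q.u ∘ J) k) ?_
  exact (IsFractionRing.injective (MvPolynomial σ L) _) (h7.trans (map_zero _).symm)

theorem sat {g : MvPolynomial σ L} (hg : g ∈ Q.p) (J : Fin h → Fin n) :
    ∃ r : ℕ, Q.minor J ^ r * g ∈ Ideal.span (Set.range Q.F) := by
  by_cases hJ : Q.minor J = 0
  · exact ⟨1, by rw [hJ, pow_one, zero_mul]; exact zero_mem _⟩
  obtain ⟨Θ, -, h2, h3⟩ := Q.aux2_ker hJ
  exact h3 g ((h2 g).1 hg)

theorem isPrime {J : Fin h → Fin n} (hJ : Q.minor J ≠ 0) : Q.p.IsPrime := by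
  obtain ⟨Θ, -, h2, -⟩ := Q.aux2_ker hJ
  have h1 : Q.p = RingHom.ker Θ := Ideal.ext fun g => h2 g
  rw [h1]
  exact RingHom.ker_isPrime _

/-- The main component is birational to an affine space. -/
theorem birat {J : Fin h → Fin n} (hJ : Q.minor J ≠ 0) :
    ∃ β : MvPolynomial {j : σ // j ∉ Set.range (Q.u ∘ J)} L →ₐ[L] (MvPolynomial σ L ⧸ Q.p),
      (∀ j, β (X j) = Ideal.Quotient.mk Q.p (X j.1)) ∧ Function.Injective β ∧
      ∀ r, ∃ b c, b ≠ 0 ∧ β b * r = β c := by
  obtain ⟨Θ, h1, h2, -⟩ := Q.aux2_ker hJ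
  have hsup : ∀ g, g ∈ supported L (Set.range (Q.u ∘ J))ᶜ ↔
      ∃ c : MvPolynomial {j : σ // j ∉ Set.range (Q.u ∘ J)} L, rename Subtype.val c = g := by
    intro g
    rw [supported_eq_range_rename]
    exact Iff.rfl
  refine ⟨(Ideal.Quotient.mkₐ L Q.p).comp (rename Subtype.val), fun j => ?_, ?_, fun r => ?_⟩
  · show Ideal.Quotient.mk Q.p (rename Subtype.val (X j)) = _
    rw [rename_X]
  · refine (injective_iff_map_eq_zero _).2 fun c hc => ?_
    have h3 : rename Subtype.val c ∈ Q.p := Ideal.Quotient.eq_zero_iff_mem.1 hc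
    have h4 := (h2 _).1 h3
    rw [h1 _ ((hsup _).2 ⟨c, rfl⟩)] at h4
    have h5 : rename Subtype.val c = 0 :=
      (IsFractionRing.injective (MvPolynomial σ L) _) (h4.trans (map_zero _).symm)
    exact rename_injective _ Subtype.val_injective (h5.trans (map_zero _).symm)
  · obtain ⟨g, rfl⟩ := Ideal.Quotient.mk_surjective r
    obtain ⟨b, hb, hF⟩ := Q.aux2_setup hJ
    obtain ⟨m, G, hG, hm⟩ := cramer_elim (Q.u ∘ J) (Q.u_inj.comp (Q.aux2_inj hJ))
      (Matrix.of fun k i => Q.φ k (J i)) b (fun k i => Q.aux2_le J (Q.φ_supp k (J i))) hb Q.F hF g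
    obtain ⟨b', hb'⟩ := (hsup _).1 (Q.aux2_le J (pow_mem (Q.minor_supp J) m))
    obtain ⟨c', hc'⟩ := (hsup _).1 hG
    refine ⟨b', c', fun h0 => pow_ne_zero m hJ ?_, ?_⟩
    · rw [← hb', h0, map_zero]
    · show Ideal.Quotient.mk Q.p (rename Subtype.val b') * Ideal.Quotient.mk Q.p g =
        Ideal.Quotient.mk Q.p (rename Subtype.val c')
      rw [hb', hc', ← map_mul, Ideal.Quotient.eq]
      exact ⟨1, one_ne_zero, one_mem _, by rw [one_mul]; exact hm⟩

/-- At a point where all minors vanish the rows are dependent. -/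
theorem exists_dep {K : Type} [Field K] [Algebra L K] (x : σ → K)
    (hx : ∀ J, aeval x (Q.minor J) = 0) :
    ∃ c : Fin h → K, c ≠ 0 ∧ ∀ j, ∑ k, c k * aeval x (Q.φ k j) = 0 := by
  by_contra hc
  push Not at hc
  set col : Fin n → Fin h → K := fun j k => aeval x (Q.φ k j) with hcol
  have htop : Submodule.span K (Set.range col) = ⊤ := by
    by_contra hne
    obtain ⟨f, hf0, hf⟩ := Submodule.exists_le_ker_of_lt_top _ (lt_top_iff_ne_top.2 hne)
    obtain ⟨j, hj⟩ := hc (fun k => f (Pi.single k 1)) fun h0 => hf0 (by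
      refine LinearMap.pi_ext' fun k => LinearMap.ext_ring ?_
      simpa using congrFun h0 k)
    have h1 : f (col j) = 0 := hf (Submodule.subset_span ⟨j, rfl⟩)
    rw [LinearMap.pi_apply_eq_sum_univ] at h1
    refine hj (h1 ▸ Finset.sum_congr rfl fun k _ => ?_)
    rw [smul_eq_mul, mul_comm]
    congr 2
    funext i
    simp [Pi.single_apply, eq_comm]
  obtain ⟨κ, a, ha, hsp, hli⟩ := exists_linearIndependent' K col
  have : Finite κ := Finite.of_injective a ha
  have := Fintype.ofFinite κ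
  have hcard : Fintype.card κ = h := by
    have := finrank_span_eq_card hli
    rw [hsp, htop] at this
    simpa using this.symm
  let E := (Fintype.equivFinOfCardEq hcard).symm
  have hli' : LinearIndependent K (Matrix.of fun k i => aeval x (Q.φ k (a (E i)))).col :=
    hli.comp E E.injective
  have hu := (Matrix.isUnit_iff_isUnit_det _).1 (Matrix.linearIndependent_cols_iff_isUnit.1 hli')
  have h0 := hx (a ∘ E)
  rw [minor, AlgHom.map_det] at h0
  exact hu.ne_zero h0

/-- If the rows are independent at some point, a minor is nonzero. -/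
theorem exists_minor {K : Type} [Field K] [Algebra L K] (x : σ → K)
    (hx : ∀ c : Fin h → K, (∀ j, ∑ k, c k * aeval x (Q.φ k j) = 0) → c = 0) :
    ∃ J, Q.minor J ≠ 0 := by
  by_contra hc
  push Not at hc
  obtain ⟨c, h0, h1⟩ := Q.exists_dep x fun J => by rw [hc J, map_zero]
  exact h0 (hx c h1)

theorem A1Lin3_det_mem {R K : Type} [CommRing R] [CommRing K] [Algebra R K] (S : Subalgebra R K)
    {m : ℕ} (B : Matrix (Fin m) (Fin m) K) (hB : ∀ i j, B i j ∈ S) : B.det ∈ S := by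
  rw [Matrix.det_apply']
  exact sum_mem fun _ _ => mul_mem (intCast_mem S _) (prod_mem fun _ _ => hB _ _)

omit [Fintype σ] [DecidableEq σ] in
theorem A1Lin3_aeval_mem {K : Type} [Field K] [Algebra L K] (x : σ → K) {s : Set σ}
    {g : MvPolynomial σ L} (hg : g ∈ supported L s) : aeval x g ∈ Algebra.adjoin L (x '' s) := by
  have : (supported L s).map (aeval x) = Algebra.adjoin L (x '' s) := by
    rw [supported_eq_adjoin_X, AlgHom.map_adjoin, Set.image_image]
    simp
  rw [← this]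
  exact ⟨g, hg, rfl⟩

/-- Linear relations between the `u j` at the generic point come from the equations. -/
theorem lin {J : Fin h → Fin n} (hJ : Q.minor J ≠ 0) {K : Type} [Field K] [Algebra L K] (x : σ → K)
    (hx : ∀ g, aeval x g = 0 ↔ g ∈ Q.p) (α : Fin n → K)
    (hα : ∀ j, IsAlgebraic (Algebra.adjoin L (x '' (Set.range Q.u)ᶜ)) (α j))
    (h0 : ∑ j, α j * x (Q.u j) = 0) :
    ∃ c : Fin h → K, ∀ j, α j = ∑ k, c k * aeval x (Q.φ k j) := by
  set R := Algebra.adjoin L (x '' (Set.range Q.u)ᶜ) with hR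
  set A := Subalgebra.algebraicClosure R K
  have hφ : ∀ k j, aeval x (Q.φ k j) ∈ A := fun k j =>
    isAlgebraic_algebraMap (R := R) (A := K) ⟨_, A1Lin3_aeval_mem x (Q.φ_supp k j)⟩
  set B : Matrix (Fin h) (Fin h) K := Matrix.of fun k i => aeval x (Q.φ k (J i)) with hB
  have hdet : B.det ≠ 0 := by
    intro h1
    refine hJ (Q.eq_zero_of_mem ((hx _).1 ?_) (Q.minor_supp J))
    rw [minor, AlgHom.map_det]
    exact h1
  have hinv : ∀ i k, B⁻¹ i k ∈ A := by
    intro i k
    rw [Matrix.inv_def, Ring.inverse_eq_inv', Matrix.smul_apply, smul_eq_mul,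
      Matrix.adjugate_apply]
    refine mul_mem (IsAlgebraic.inv (A1Lin3_det_mem A B fun _ _ => hφ _ _))
      (A1Lin3_det_mem A _ fun a b => ?_)
    rw [Matrix.updateRow_apply, Pi.single_apply]
    split_ifs
    exacts [one_mem _, zero_mem _, hφ _ _]
  set c : Fin h → K := Matrix.vecMul (α ∘ J) B⁻¹ with hc
  have hcA : ∀ k, c k ∈ A := fun k => by
    change ∑ i, α (J i) * B⁻¹ i k ∈ A
    exact sum_mem fun i _ => mul_mem (hα _) (hinv i k)
  have hcJ : ∀ i, α (J i) = ∑ k, c k * aeval x (Q.φ k (J i)) := by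
    intro i
    have : Matrix.vecMul c B = α ∘ J := by
      rw [hc, Matrix.vecMul_vecMul, Matrix.nonsing_inv_mul _ (Ne.isUnit hdet), Matrix.vecMul_one]
    exact (congrFun this i).symm
  obtain ⟨β, hβ, hinj, -⟩ := Q.birat hJ
  have hy : AlgebraicIndependent L fun j : {j : σ // j ∉ Set.range (Q.u ∘ J)} => x j.1 := by
    refine algebraicIndependent_iff.2 fun g hg => hinj ?_
    have e1 : β = (Ideal.Quotient.mkₐ L Q.p).comp (rename Subtype.val) :=
      algHom_ext fun j => by simp [hβ]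
    rw [map_zero, e1]
    refine Ideal.Quotient.eq_zero_iff_mem.2 ((hx _).1 ?_)
    exact (aeval_rename _ _ _).trans hg
  have hsum : ∑ j, (α j - ∑ k, c k * aeval x (Q.φ k j)) * x (Q.u j) = 0 := by
    have hF : ∀ k, ∑ j, aeval x (Q.φ k j) * x (Q.u j) = 0 := fun k => by
      simpa [F] using (hx _).2 (Q.F_mem k)
    simp only [sub_mul, Finset.sum_sub_distrib, h0, Finset.sum_mul, mul_assoc]
    rw [Finset.sum_comm]
    simp only [← Finset.mul_sum, hF, mul_zero, Finset.sum_const_zero, sub_zero]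
  have him : (fun j : {j : σ // j ∉ Set.range (Q.u ∘ J)} => x j.1) '' {t | t.1 ∉ Set.range Q.u}
      = x '' (Set.range Q.u)ᶜ := by
    ext z
    constructor
    · rintro ⟨t, ht, rfl⟩
      exact ⟨t.1, ht, rfl⟩
    · rintro ⟨t, ht, rfl⟩
      exact ⟨⟨t, fun ⟨i, hi⟩ => ht ⟨J i, hi⟩⟩, ht, rfl⟩
  have key := eq_zero_of_indep hy {t | t.1 ∉ Set.range Q.u}
    (κ := {j : Fin n // j ∉ Set.range J}) Finset.univ
    (fun j => ⟨Q.u j.1, fun ⟨i, hi⟩ => j.2 ⟨i, Q.u_inj hi⟩⟩)
    (fun a _ b _ hab => Subtype.ext (Q.u_inj (congrArg Subtype.val hab)))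
    (fun j _ hj => hj ⟨j.1, rfl⟩) (fun j => α j.1 - ∑ k, c k * aeval x (Q.φ k j.1))
    (fun j _ => by
      rw [him]
      exact (sub_mem (hα _) (sum_mem fun k _ => mul_mem (hcA k) (hφ k _)) : _ ∈ A))
    (by
      rw [← hsum, ← Fintype.sum_subtype_add_sum_subtype (fun j => j ∉ Set.range J),
        Finset.sum_eq_zero (s := Finset.univ) (f := fun j : {j : Fin n // ¬j ∉ Set.range J} =>
          (α j.1 - ∑ k, c k * aeval x (Q.φ k j.1)) * x (Q.u j.1)), add_zero]
      rintro ⟨j, hj⟩ -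
      obtain ⟨i, rfl⟩ := not_not.1 hj
      rw [← hcJ, sub_self, zero_mul])
  refine ⟨c, fun j => ?_⟩
  by_cases hj : j ∈ Set.range J
  · obtain ⟨i, rfl⟩ := hj
    exact hcJ i
  · exact sub_eq_zero.1 (key ⟨j, hj⟩ (Finset.mem_univ _))

/-- Permutations of the variables which keep the equations and move few variables out of `T` keep the
main component. -/
theorem rename_mem {J : Fin h → Fin n} (hJ : Q.minor J ≠ 0) {c : ℕ}
    (hc : K.Codim Q.T c (Set.range Q.minor)) (e : σ ≃ σ) (he : ∀ k, rename e (Q.F k) = Q.F k)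
    (hcard : (Q.T.filter fun j => e j ∉ Q.T).card < c) {g : MvPolynomial σ L} (hg : g ∈ Q.p) :
    rename e g ∈ Q.p := by
  have hp := Q.isPrime hJ
  have hp' : (Q.p.comap (rename e : MvPolynomial σ L →ₐ[L] _)).IsPrime := Ideal.comap_isPrime _ _
  have hF : Ideal.span (Set.range Q.F) ≤ Q.p.comap (rename e : MvPolynomial σ L →ₐ[L] _) := by
    rw [Ideal.span_le]
    rintro _ ⟨k, rfl⟩
    change rename e (Q.F k) ∈ Q.p
    rw [he]
    exact Q.F_mem k
  obtain ⟨g0, h0, hs, hm⟩ := hc (Q.T.filter fun j => e j ∈ Q.T) (Finset.filter_subset _ _) (by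
    have := Finset.card_filter_add_card_filter_not (s := Q.T) fun j => e j ∈ Q.T
    omega)
  have hn : ¬Ideal.span (Set.range Q.minor) ≤
      Q.p.comap (rename e : MvPolynomial σ L →ₐ[L] _) := by
    intro hle
    refine h0 (rename_injective e e.injective ?_)
    rw [map_zero]
    refine Q.eq_zero_of_mem (hle hm) ?_
    rw [mem_supported] at hs ⊢
    intro j hj
    obtain ⟨i, hi, rfl⟩ := Finset.mem_image.1 (vars_rename e g0 hj)
    rw [← coe_T]
    exact (Finset.mem_filter.1 (hs hi)).2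
  rw [Ideal.span_le, Set.range_subset_iff] at hn
  push Not at hn
  obtain ⟨J', hJ'⟩ := hn
  obtain ⟨r, hr⟩ := Q.sat hg J'
  exact (hp'.mem_or_mem (hF hr)).resolve_left fun h1 => hJ' (hp'.mem_of_pow_mem r h1)

/-- The main component is homogeneous. -/
theorem hom_mem {Y : Type} [AddCommGroup Y] (w : σ → Y) (w0 : Y)
    (hw : ∀ k j, IsWeightedHomogeneous w (Q.φ k j) (w0 - w (Q.u j)))
    {J : Fin h → Fin n} (hJ : Q.minor J ≠ 0) (y : Y) {g : MvPolynomial σ L} (hg : g ∈ Q.p) :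
    weightedHomogeneousComponent w y g ∈ Q.p := by
  classical
  let := weightedGradedAlgebra L w
  have hΔ : IsWeightedHomogeneous w (Q.minor J) (∑ i, (w0 - w (Q.u (J i)))) := by
    rw [minor, Matrix.det_apply']
    refine IsWeightedHomogeneous.sum _ _ _ fun s _ => ?_
    rw [← map_intCast (C : L →+* MvPolynomial σ L)]
    exact (IsWeightedHomogeneous.prod _ _ _ fun i _ => hw _ _).C_mul _
  have hI : (Ideal.span (Set.range Q.F)).IsHomogeneous (weightedHomogeneousSubmodule L w) := by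
    refine Ideal.homogeneous_span _ _ ?_
    rintro _ ⟨k, rfl⟩
    refine ⟨w0, IsWeightedHomogeneous.sum _ _ _ fun j _ => ?_⟩
    simpa using (hw k j).mul (isWeightedHomogeneous_X L w (Q.u j))
  obtain ⟨r, hr⟩ := Q.sat hg J
  refine ⟨Q.minor J ^ r, pow_ne_zero r hJ, pow_mem (Q.minor_supp J) r, ?_⟩
  have h1 := hI (r • ∑ i, (w0 - w (Q.u (J i))) + y) hr
  rw [DirectSum.coe_decompose_mul_add_of_left_mem (weightedHomogeneousSubmodule L w)
    (show _ ∈ weightedHomogeneousSubmodule L w _ from hΔ.pow r)] at h1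
  rw [← weightedDecomposition.decompose'_apply]
  exact h1

/-- The codimension of the minors from a bound at points. -/
theorem codim_of_trLe (c : ℕ)
    (H : ∀ (K : Type) [Field K] [Algebra L K] (x : σ → K), (∀ J, aeval x (Q.minor J) = 0) →
      ∃ d, d + c ≤ Q.T.card ∧ TrLe L (fun j : Q.T => x j.1) d) :
    K.Codim Q.T c (Set.range Q.minor) := by
  intro S hS hcard
  by_contra hne
  push Not at hne
  obtain ⟨q, hq, hle, hdis⟩ := Ideal.exists_le_prime_disjoint (Ideal.span (Set.range Q.minor))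
    ((supported L (S : Set σ)).toSubmonoid ⊓ nonZeroDivisors _)
    (Set.disjoint_left.2 fun g hg hg' => hne g (nonZeroDivisors.ne_zero hg'.2) hg'.1 hg)
  let K := FractionRing (MvPolynomial σ L ⧸ q)
  let x : σ → K := fun j => algebraMap (MvPolynomial σ L ⧸ q) K (Ideal.Quotient.mk q (X j))
  have hx : ∀ g, aeval x g = 0 ↔ g ∈ q := by
    intro g
    have : (aeval x : MvPolynomial σ L →ₐ[L] K) =
        (IsScalarTower.toAlgHom L (MvPolynomial σ L ⧸ q) K).comp (Ideal.Quotient.mkₐ L q) :=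
      algHom_ext fun j => by simp [x]
    rw [this]
    simp [Ideal.Quotient.eq_zero_iff_mem]
  obtain ⟨d, hd, ht⟩ := H K x fun J => (hx _).2 (hle (Ideal.subset_span ⟨J, rfl⟩))
  have h1 := (ht.of_range (y := fun j : S => x j.1) fun j => ⟨⟨j.1, hS j.2⟩, rfl⟩).card_le
    (algebraicIndependent_iff.2 fun g hg => by
      by_contra hg0
      have h2 : rename Subtype.val g ∈ q := (hx _).1 (by rw [aeval_rename]; exact hg)
      refine Set.disjoint_left.1 hdis h2 ⟨?_, mem_nonZeroDivisors_of_ne_zero fun h3 => hg0 ?_⟩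
      · change _ ∈ supported L (S : Set σ)
        rw [supported_eq_range_rename]
        exact ⟨g, rfl⟩
      · exact rename_injective _ Subtype.val_injective (by rw [h3, map_zero]))
  rw [Fintype.card_coe] at h1
  omega

end LinEq

theorem anchor_A1Lin : True := by
  have := @LinEq.F.eq_1
  have := @LinEq.minor.eq_1
  have := @LinEq.T.eq_1
  have := @LinEq.p.eq_1
  trivial

end Crest.Agent.R181.A1
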