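import Crest.Agent.R181.A1Gad

/-! Row 181, stage A1: the strong form over the base field. -/

set_option autoImplicit false

namespace Crest.Agent.R181.A1

open MvPolynomial
open scoped TensorProduct

theorem a1Strong {a : ℕ} {ζ : ℂ} (ha : 2 ≤ a) (hζ : IsPrimitiveRoot ζ a) : Mc.A1Strong a ζ := by
  intro L _ _ ι _ _ _ W hW hbp
  have : NeZero a := ⟨by omega⟩
  have : CharZero L := (algebraMap ℂ L).charZero_iff (algebraMap ℂ L).injective |>.1 inferInstance
  obtain ⟨h, ⟨V⟩⟩ := exists_wData W a hW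
  obtain ⟨N, hN⟩ : ∃ N, N = (mon ι a).card + h + 1 := ⟨_, rfl⟩
  have H : Hyp V N := ⟨inferInstance, ha, hW, hbp, hN.ge⟩
  have hpr := H.isPrime
  let Ω := FractionRing (R0 V N)
  have hζL : IsPrimitiveRoot (algebraMap ℂ L ζ) a := hζ.map_of_injective (algebraMap ℂ L).injective
  let ζu : Lˣ := Units.mk0 (algebraMap ℂ L ζ) (hζL.ne_zero (NeZero.ne a))
  have hζu : ζu ^ a = 1 := Units.ext (by simpa [ζu] using hζL.pow_eq_one)
  obtain ⟨β, -, hβ, hb⟩ := (lq V N).birat H.exists_minor.choose_spec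
  have hS' : ∀ (D : Type) [DivisionRing D] [Algebra L D] [IsDomain (D ⊗[L] R0 V N)],
      Simple (H.Gam ζu) D := fun D _ _ _ => H.simple ζu D
  have hS : Simple (H.Gam ζu) L :=
    have := Mc.domain_tensor L (R0 V N) β hβ hb
    hS' L
  have hx : ∀ g, aeval (xb V N Ω) g = 0 ↔ g ∈ (lq V N).p := aeval_xb_eq_zero V N Ω
  have hne := H.x_ne hx
  let k0 : Var N a ι := (⟨0, by omega⟩, Sum.inr (Classical.arbitrary ι, 0))
  have hk : ∃ q, k0.2 = Sum.inr q := ⟨_, rfl⟩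
  have hg : ∀ m : Fin N, ∃ g : Gad (cDA Ω (H.Gam ζu) hS) a ζ,
      toM Ω (H.Gam ζu) hS g.u = uM V N Ω ζu k0 m ∧
      toM Ω (H.Gam ζu) hS g.θ = Matrix.diagonal (fun μ : Idx N a =>
        th (algebraMap L Ω (algebraMap ℂ L ζ)) (bb (xb V N Ω) m) (μ m)) ∧
      toΩ Ω (H.Gam ζu) hS g.T = ∏ i : ZMod a, (xb V N Ω (m, Sum.inl (i, 0)) / xb V N Ω k0) ∧
      g.φ.map (toΩ Ω (H.Gam ζu) hS) = ∏ i, (Polynomial.X - Polynomial.C (bb (xb V N Ω) m i)) := by
    intro m
    refine exists_gad Ω (H.Gam ζu) hS hζ (fun μ => μ m) (bb (xb V N Ω) m) (H.bb_inj hx m) ?_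
      (fun γ ρΩ hρ => H.bb_perm ζu m γ ρΩ hρ) _ (H.uM_mem ζu hζu hk m) (fun μ' μ h0 => ?_) _
      (H.T_mem ζu hk m) (Finset.prod_ne_zero_iff.2 fun i _ => div_ne_zero (hne _) (hne _))
      (uM_pow ζu hζu k0 m)
    · have := H.sum_bb_ne hx m (fun k => algebraMap ℂ L ζ ^ k.val) (by simp)
      simpa only [th, zero_add, map_pow] using this
    · rw [uM_ne ζu k0 m μ' μ h0]
      simp
  choose g hgu hgθ hgT hgφ using hg
  have hl : ∀ (m : Fin N) (ε : Fin 2) (k : ι), ∃ r, toΩ Ω (H.Gam ζu) hS r =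
      xb V N Ω (m, Sum.inr (k, ε)) / xb V N Ω k0 := fun m ε k =>
    exists_toΩ Ω (H.Gam ζu) hS (H.l_mem ζu hk m (k, ε))
  choose l hl using hl
  have hF : MvPolynomial.map (toΩ Ω (H.Gam ζu) hS) (hubForm g (fun m => l m 0) (fun m => l m 1)) =
      C ((xb V N Ω k0 ^ (2 * a))⁻¹) * FF (xb V N Ω) := by
    rw [hubForm, map_sum, FF, Finset.mul_sum]
    refine Finset.sum_congr rfl fun m _ => ?_
    rw [map_mul, map_C, map_bform, map_lf, map_lf, hgT, hgφ]
    simp only [hl]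
    exact term_eq (xb V N Ω) m _ (hne _) fun i => hne _
  have hinj : Function.Injective (toΩ Ω (H.Gam ζu) hS) := RingHom.injective _
  have hhom : (hubForm g (fun m => l m 0) (fun m => l m 1)).IsHomogeneous a := by
    refine IsHomogeneous.of_map hinj ?_
    rw [hF]
    exact (FF_isHomogeneous _).C_mul _
  refine ⟨cDA Ω (H.Gam ζu) hS, cfl Ω (H.Gam ζu) hS, N, g, fun m => l m 0, fun m => l m 1,
    amalg Ω (H.Gam ζu) hS hS' β hβ hb, ⟨fun m m' hm => ?_, fun m m' hm => ?_, fun m m' => ?_⟩, ?_, ?_⟩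
  · apply toM_injective Ω (H.Gam ζu) hS
    rw [map_mul, toM_smul, map_mul, hgu, hgu, toΩ_algebraMap]
    exact uM_mul ζu hζu k0 hm
  · apply toM_injective Ω (H.Gam ζu) hS
    rw [map_mul, map_mul, hgu, hgθ]
    exact uM_diag ζu k0 hm _
  · apply toM_injective Ω (H.Gam ζu) hS
    rw [map_mul, map_mul, hgθ, hgθ, Matrix.diagonal_mul_diagonal, Matrix.diagonal_mul_diagonal]
    exact congrArg Matrix.diagonal (funext fun μ => mul_comm _ _)
  · refine V.mem_span _ hhom fun k => hinj ?_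
    rw [map_ap, hF, map_zero, ← smul_eq_C_mul, map_smul]
    have h1 := aeval_F V (xb V N Ω) k
    rw [(hx _).2 ((lq V N).F_mem k)] at h1
    have h2 : (fun μ => toΩ Ω (H.Gam ζu) hS ((cfl Ω (H.Gam ζu) hS : L →+* _) (V.φ k μ))) =
        fun μ => algebraMap L Ω (V.φ k μ) := rfl
    rw [h2, ← h1, smul_zero]
  · rintro π hπ ⟨f, hfW, hf⟩ h0
    apply hf
    let K := AlgebraicClosure Ω
    let _ : Algebra (cDA Ω (H.Gam ζu) hS).L K := ((algebraMap Ω K).comp (toΩ Ω (H.Gam ζu) hS)).toAlgebra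
    let j₀ : AlgebraicClosure (cDA Ω (H.Gam ζu) hS).L →ₐ[(cDA Ω (H.Gam ζu) hS).L] K := IsAlgClosed.lift
    let j : AlgebraicClosure (cDA Ω (H.Gam ζu) hS).L →+* K := j₀.toRingHom
    have hj : ∀ r, j (algebraMap (cDA Ω (H.Gam ζu) hS).L _ r) =
        algebraMap Ω K (toΩ Ω (H.Gam ζu) hS r) := fun r => j₀.commutes r
    have hjL : j.comp ((algebraMap (cDA Ω (H.Gam ζu) hS).L _).comp
        (cfl Ω (H.Gam ζu) hS : L →+* _)) = algebraMap L K := by
      ext c
      exact (hj _).trans (IsScalarTower.algebraMap_apply L Ω K c).symm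
    have hxK : ∀ g, aeval (fun v => algebraMap Ω K (xb V N Ω v)) g = 0 ↔ g ∈ (lq V N).p := by
      intro g
      rw [← hx]
      exact (aeval_algebraMap_apply K (xb V N Ω) g).symm ▸
        map_eq_zero_iff (algebraMap Ω K) (algebraMap Ω K).injective
    have hP : ∀ i, IsAlgebraic L (j (π i)) := by
      intro i
      obtain ⟨p, hp, h1⟩ := hπ i
      refine ⟨p, hp, ?_⟩
      rw [Polynomial.aeval_def, ← hjL]
      have := congrArg j h1
      rwa [Polynomial.hom_eval₂, map_zero] at this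
    have hev : eval (fun i => j (π i)) (FF fun v => algebraMap Ω K (xb V N Ω v)) = 0 := by
      have h1 := congrArg j h0
      rw [map_zero, aeval_def, eval₂_comp_left] at h1
      have h2 : j.comp (algebraMap (cDA Ω (H.Gam ζu) hS).L _) =
          (algebraMap Ω K).comp (toΩ Ω (H.Gam ζu) hS) := RingHom.ext hj
      rw [h2, ← eval₂_map, hF, eval₂_mul, eval₂_C, ← eval_map, map_FF] at h1
      refine (mul_eq_zero.1 h1).resolve_left ?_
      exact (map_ne_zero _).2 (inv_ne_zero (pow_ne_zero _ (hne _)))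
    have h3 := H.gen hxK _ hP hev f hfW
    apply j.injective
    rw [map_zero, eval₂_comp_left, hjL]
    exact h3

theorem a1Stmt {a : ℕ} {ζ : ℂ} (ha : 2 ≤ a) (hζ : IsPrimitiveRoot ζ a) :
    A1Stmt (fun _ => True) a ζ :=
  Mc.a1Stmt_of_strong (a1Strong ha hζ)

end Crest.Agent.R181.A1
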