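import Crest.Agent.R181.KPoly

/-! Row 181 (route 2): auxiliary lemmas for `good_pre`, `inv_pre` of `MaSimple`. -/

set_option autoImplicit false

namespace Crest.Agent.R181.Mc

open MvPolynomial
open scoped TensorProduct

section abstract

variable {D V Y : Type} [DivisionRing D] [AddCommGroup V] [Module D V]

/-- separation of homogeneous components by operators -/
theorem ms2_sep {Λ : Type} (π : Y → Module.End D V) (N : Submodule D V)
    (πs : ∀ y m, π y (π y m) = π y m) (πn : ∀ y y' m, y ≠ y' → π y (π y' m) = 0)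
    (h0 : ∀ x, (∀ y, π y x = 0) → x = 0) (hfin : ∀ x, ∃ s : Finset Y, ∀ y ∉ s, π y x = 0)
    (T : Λ → V → V) (c : Λ → Y → D) (hT : ∀ l y x, π y (T l x) = c l y • π y x)
    (hN : ∀ l, ∀ x ∈ N, T l x ∈ N) (hc : ∀ y y', y ≠ y' → ∃ l, c l y ≠ c l y') (y : Y) :
    ∀ x ∈ N, π y x ∈ N := by
  classical
  have key : ∀ s : Finset Y, ∀ x ∈ N, (∀ y' ∉ s, y' ≠ y → π y' x = 0) → π y x ∈ N := by
    intro s
    induction s using Finset.induction_on with
    | empty =>
      intro x hx h
      have : x - π y x = 0 := by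
        refine h0 _ fun y' => ?_
        rw [map_sub]
        by_cases hy : y' = y
        · rw [hy, πs, sub_self]
        · rw [h y' (by simp) hy, πn _ _ _ hy, sub_self]
      rw [← sub_eq_zero.1 this]
      exact hx
    | insert y0 s hy0 ih =>
      intro x hx h
      by_cases hy : y = y0
      · refine ih x hx fun y' h1 h2 => h y' ?_ h2
        rw [Finset.mem_insert, not_or]
        exact ⟨hy ▸ h2, h1⟩
      · obtain ⟨l, hl⟩ := hc y y0 hy
        have e : ∀ y', π y' (T l x - c l y0 • x) = (c l y' - c l y0) • π y' x := by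
          intro y'
          rw [map_sub, map_smul, hT, sub_smul]
        have h1 := ih (T l x - c l y0 • x) (N.sub_mem (hN l x hx) (N.smul_mem _ hx)) (by
          intro y' h1 h2
          rw [e]
          by_cases h3 : y' = y0
          · rw [h3, sub_self, zero_smul]
          · rw [h y' (by simp [h1, h3]) h2, smul_zero])
        rw [e] at h1
        exact (N.smul_mem_iff (sub_ne_zero.2 hl)).1 h1
  intro x hx
  obtain ⟨s, hs⟩ := hfin x
  exact key s x hx fun y' h _ => hs y' h

theorem ms2_cyc {s : Y → Y} {f : Y → ℤ} (hf : ∀ y, f y ≤ f (s y)) {k : ℕ} (hk : 0 < k) {y : Y}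
    (hy : s^[k] y = y) : f (s y) = f y := by
  refine le_antisymm ?_ (hf y)
  have key : ∀ i y, f y ≤ f (s^[i] y) := by
    intro i
    induction i with
    | zero => intro y; exact le_rfl
    | succ i ih => intro y; rw [Function.iterate_succ_apply]; exact (hf y).trans (ih _)
  obtain ⟨k, rfl⟩ := Nat.exists_eq_succ_of_ne_zero hk.ne'
  have := key k (s y)
  rwa [← Function.iterate_succ_apply, hy] at this

end abstract

variable {L : Type} [Field L] {σ Y : Type} [AddCommGroup Y] {D : Type} [DivisionRing D]
  [Algebra L D]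

theorem ms2_ind {P : D ⊗[L] MvPolynomial σ L → Prop} (h0 : P 0)
    (h1 : ∀ d u c, P (d ⊗ₜ[L] monomial u c)) (h2 : ∀ x y, P x → P y → P (x + y)) (z) : P z := by
  induction z using TensorProduct.induction_on with
  | zero => exact h0
  | tmul d r =>
    induction r using MvPolynomial.induction_on' with
    | monomial u c => exact h1 d u c
    | add p q hp hq => rw [TensorProduct.tmul_add]; exact h2 _ _ hp hq
  | add x y hx hy => exact h2 _ _ hx hy

open Classical in
theorem ms2_wHC (w : σ → Y) (y : Y) (u : σ →₀ ℕ) (c : L) :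
    weightedHomogeneousComponent w y (monomial u c) =
      if y = Finsupp.weight w u then monomial u c else 0 :=
  weightedHomogeneousComponent_of_mem (isWeightedHomogeneous_monomial w u c rfl)

theorem ms2_dec (w : σ → Y) (z : D ⊗[L] MvPolynomial σ L) :
    ∃ s : Finset Y, (∀ y ∉ s, (weightedHomogeneousComponent w y).baseChange D z = 0) ∧
      ∑ y ∈ s, (weightedHomogeneousComponent w y).baseChange D z = z := by
  classical
  induction z using ms2_ind with
  | h0 => exact ⟨∅, by simp, by simp⟩
  | h1 d u c =>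
    refine ⟨{Finsupp.weight w u}, fun y hy => ?_, ?_⟩
    · rw [LinearMap.baseChange_tmul, ms2_wHC, if_neg (by simpa using hy), TensorProduct.tmul_zero]
    · rw [Finset.sum_singleton, LinearMap.baseChange_tmul, ms2_wHC, if_pos rfl]
  | h2 x y hx hy =>
    obtain ⟨s, hs1, hs2⟩ := hx
    obtain ⟨t, ht1, ht2⟩ := hy
    refine ⟨s ∪ t, fun y' hy' => ?_, ?_⟩
    · rw [Finset.mem_union, not_or] at hy'
      rw [map_add, hs1 _ hy'.1, ht1 _ hy'.2, add_zero]
    · simp only [map_add, Finset.sum_add_distrib]
      rw [← Finset.sum_subset Finset.subset_union_left fun y' _ h => hs1 y' h,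
        ← Finset.sum_subset Finset.subset_union_right fun y' _ h => ht1 y' h, hs2, ht2]

theorem ms2_zero (w : σ → Y) {y : Y} (hy : ∀ u : σ →₀ ℕ, y ≠ Finsupp.weight w u)
    (z : D ⊗[L] MvPolynomial σ L) : (weightedHomogeneousComponent w y).baseChange D z = 0 := by
  induction z using ms2_ind with
  | h0 => simp
  | h1 d u c => rw [LinearMap.baseChange_tmul, ms2_wHC, if_neg (hy u), TensorProduct.tmul_zero]
  | h2 x y hx hy => rw [map_add, hx, hy, add_zero]

/-- the torus element on polynomials -/
noncomputable def ms2_tor (L : Type) [Field L] (w : σ → Y) (lam : Y →+ ℤ) :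
    MvPolynomial σ L →ₐ[L] MvPolynomial σ L :=
  aeval fun j => ((2 : L) ^ lam (w j)) • (X j : MvPolynomial σ L)

theorem ms2_tor_X (w : σ → Y) (lam : Y →+ ℤ) (j : σ) :
    ms2_tor L w lam (X j) = ((2 : L) ^ lam (w j)) • (X j : MvPolynomial σ L) := aeval_X _ _

theorem ms2_tor_monomial [CharZero L] (w : σ → Y) (lam : Y →+ ℤ) (u : σ →₀ ℕ) (c : L) :
    ms2_tor L w lam (monomial u c) = ((2 : L) ^ lam (Finsupp.weight w u)) • monomial u c := by
  induction u using Finsupp.induction with
  | zero =>
    rw [map_zero, map_zero, zpow_zero, one_smul]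
    exact (ms2_tor L w lam).commutes c
  | single_add j e u _ _ ih =>
    rw [monomial_single_add, map_mul, map_pow, ih, ms2_tor_X, smul_pow, smul_mul_smul_comm,
      map_add, map_add, Finsupp.weight_single, map_nsmul, zpow_add₀ two_ne_zero, ← zpow_natCast,
      ← zpow_mul, nsmul_eq_mul, mul_comm (e : ℤ)]

theorem ms2_tor_π [CharZero L] (w : σ → Y) (lam : Y →+ ℤ) (y : Y) (e : L)
    (z : D ⊗[L] MvPolynomial σ L) :
    (weightedHomogeneousComponent w y).baseChange D
        ((e • (ms2_tor L w lam).toLinearMap).baseChange D z) =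
      algebraMap L D (e * (2 : L) ^ lam y) • (weightedHomogeneousComponent w y).baseChange D z := by
  induction z using ms2_ind with
  | h0 => simp
  | h1 d u c =>
    rw [algebraMap_smul, LinearMap.baseChange_tmul, LinearMap.baseChange_tmul,
      LinearMap.baseChange_tmul, LinearMap.smul_apply, AlgHom.toLinearMap_apply, ms2_tor_monomial,
      map_smul, map_smul, ← TensorProduct.tmul_smul, ms2_wHC]
    split_ifs with h
    · rw [h, mul_smul]
    · simp
  | h2 x y hx hy => simp only [map_add, hx, hy, smul_add]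

theorem ms2_weight_map (w : σ → Y) (s : Y ≃+ Y) (τ : σ → σ) (hτ : ∀ j, w (τ j) = s (w j))
    (u : σ →₀ ℕ) : Finsupp.weight w (u.mapDomain τ) = s (Finsupp.weight w u) := by
  induction u using Finsupp.induction_linear with
  | zero => simp
  | add f g hf hg => rw [Finsupp.mapDomain_add, map_add, map_add, map_add, hf, hg]
  | single j e =>
    rw [Finsupp.mapDomain_single, Finsupp.weight_single, Finsupp.weight_single, map_nsmul, hτ]

theorem ms2_ren_π (w : σ → Y) (s : Y ≃+ Y) (τ : σ → σ) (hτ : ∀ j, w (τ j) = s (w j)) (y : Y)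
    (e : L) (z : D ⊗[L] MvPolynomial σ L) :
    (weightedHomogeneousComponent w (s y)).baseChange D
        ((e • (rename τ : MvPolynomial σ L →ₐ[L] _).toLinearMap).baseChange D z) =
      (e • (rename τ : MvPolynomial σ L →ₐ[L] _).toLinearMap).baseChange D
        ((weightedHomogeneousComponent w y).baseChange D z) := by
  induction z using ms2_ind with
  | h0 => simp
  | h1 d u c =>
    simp only [LinearMap.baseChange_tmul, LinearMap.smul_apply, AlgHom.toLinearMap_apply,
      rename_monomial, map_smul, ms2_wHC]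
    rw [ms2_weight_map w s τ hτ]
    by_cases h : y = Finsupp.weight w u
    · rw [if_pos h, if_pos (by rw [h]), rename_monomial]
    · rw [if_neg h, if_neg fun h' => h (s.injective h'), map_zero]
  | h2 x y hx hy => simp only [map_add, hx, hy]

theorem ms2_ren_inj (τ : σ ≃ σ) (e : Lˣ) (z : D ⊗[L] MvPolynomial σ L)
    (h : ((e : L) • (rename τ : MvPolynomial σ L →ₐ[L] _).toLinearMap).baseChange D z = 0) :
    z = 0 := by
  have h1 : (((e⁻¹ : Lˣ) : L) • (rename τ.symm : MvPolynomial σ L →ₐ[L] _).toLinearMap) ∘ₗ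
      ((e : L) • (rename τ : MvPolynomial σ L →ₐ[L] _).toLinearMap) = LinearMap.id := by
    refine LinearMap.ext fun r => ?_
    simp [smul_smul]
  have h2 := congrArg (fun f => LinearMap.baseChange D f z) h1
  simp only [LinearMap.baseChange_comp, LinearMap.comp_apply, h, map_zero,
    LinearMap.baseChange_id, LinearMap.id_apply] at h2
  exact h2.symm

theorem ms2_weight_ind (w : σ → Y) (Z : AddSubmonoid Y) (h : ∀ j, w j ∈ Z) (u : σ →₀ ℕ) :
    Finsupp.weight w u ∈ Z := by
  rw [Finsupp.weight_apply, Finsupp.sum]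
  exact Z.sum_mem fun j _ => Z.nsmul_mem (h j) _

end Crest.Agent.R181.Mc
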