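import Crest.Agent.R181.KPoly
import Crest.Agent.R181.MaSimpleAux2

/-! Row 181, stage A1: torus stable subspaces are graded; invariance of Hilbert functions. -/

set_option autoImplicit false

namespace Crest.Agent.R181.A1

open MvPolynomial K
open scoped TensorProduct

section general

variable {D L : Type} [DivisionRing D] [Field L] [Algebra L D] {σ Y : Type} [AddCommGroup Y]
  {w : σ → Y} {M : Type} [AddCommGroup M] [Module D M]

/-- Every element is the sum of its components. -/
def Dec (G : GM D L w M) : Prop := ∀ m, ∃ s : Finset Y, ∑ y ∈ s, G.π y m = m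

theorem van1_zero (G : GM D L w M) {m : M} {s : Finset Y} (h : ∑ y ∈ s, G.π y m = m) :
    ∀ y ∉ s, G.π y m = 0 := by
  intro y hy
  rw [← h, map_sum]
  exact Finset.sum_eq_zero fun y' hy' => G.π_ne _ _ _ fun e => hy (e ▸ hy')

theorem van1_sup (G : GM D L w M) {m : M} {s t : Finset Y} (h : ∑ y ∈ s, G.π y m = m)
    (hst : s ⊆ t) : ∑ y ∈ t, G.π y m = m := by
  rw [← Finset.sum_subset hst fun y _ hy => van1_zero G h y hy, h]

theorem van1_add (G : GM D L w M) {m m' : M} (h : ∃ s : Finset Y, ∑ y ∈ s, G.π y m = m)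
    (h' : ∃ s : Finset Y, ∑ y ∈ s, G.π y m' = m') :
    ∃ s : Finset Y, ∑ y ∈ s, G.π y (m + m') = m + m' := by
  classical
  obtain ⟨s, hs⟩ := h
  obtain ⟨t, ht⟩ := h'
  refine ⟨s ∪ t, ?_⟩
  simp only [map_add, Finset.sum_add_distrib]
  rw [van1_sup G hs Finset.subset_union_left, van1_sup G ht Finset.subset_union_right]

theorem Dec.pi {G : GM D L w M} (h : Dec G) (κ : Type) [Fintype κ] (o : κ → Y) : Dec (G.pi κ o) := by
  classical
  intro m
  choose s hs using fun k => h (m k)
  refine ⟨Finset.univ.biUnion fun k => (s k).image (· + o k), funext fun k => ?_⟩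
  rw [Finset.sum_apply]
  simp only [GM.pi_π]
  have h1 := van1_sup G (hs k) (t := (Finset.univ.biUnion fun k => (s k).image (· + o k)).image
    (· - o k)) fun y hy => Finset.mem_image.2 ⟨y + o k, Finset.mem_biUnion.2
      ⟨k, Finset.mem_univ _, Finset.mem_image.2 ⟨y, hy, rfl⟩⟩, add_sub_cancel_right _ _⟩
  rwa [Finset.sum_image fun y _ y' _ e => sub_left_injective e] at h1

theorem Dec.mem {G : GM D L w M} (h : Dec G) {N : Submodule D M} {m : M}
    (hm : ∀ y, G.π y m ∈ N) : m ∈ N := by
  obtain ⟨s, hs⟩ := h m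
  rw [← hs]
  exact N.sum_mem fun y _ => hm y

/-- A linear map which sends components to components intertwines the projections. -/
theorem Dec.map_π {G : GM D L w M} (h : Dec G) (f : M →ₗ[D] M) (s : Y → Y) (hs : Function.Injective s)
    (hf : ∀ y m, G.π (s y) (f (G.π y m)) = f (G.π y m)) (y : Y) (m : M) :
    f (G.π y m) = G.π (s y) (f m) := by
  classical
  obtain ⟨t, ht⟩ := h m
  have h1 := van1_sup G ht (Finset.subset_insert y t)
  conv_rhs => rw [← h1, map_sum, map_sum]
  rw [Finset.sum_eq_single y, hf]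
  · intro y' _ hy'
    rw [← hf]
    exact G.π_ne _ _ _ fun e => hy' (hs e).symm
  · intro hy
    exact absurd (Finset.mem_insert_self y t) hy

/-- Vandermonde. -/
theorem Dec.gr_of_torus [CharZero L] {G : GM D L w M} (h : Dec G)
    (hsep : ∀ y y' : Y, y ≠ y' → ∃ x : Y →+ ℤ, x y ≠ x y') (γ : (Y →+ ℤ) → Module.End D M)
    (hγ : ∀ x y m, γ x (G.π y m) = algebraMap L D (2 ^ x y) • G.π y m) {N : Submodule D M}
    (hN : ∀ x, ∀ m ∈ N, γ x m ∈ N) : ∀ y, ∀ m ∈ N, G.π y m ∈ N := by
  refine Mc.ms2_sep G.π N G.π_self G.π_ne (fun m hm => ?_) (fun m => ?_) (fun x m => γ x m)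
    (fun x y => algebraMap L D (2 ^ x y)) (fun x y m => ?_) hN ?_
  · exact (Submodule.mem_bot D).1 (h.mem fun y => (Submodule.mem_bot D).2 (hm y))
  · obtain ⟨s, hs⟩ := h m
    exact ⟨s, van1_zero G hs⟩
  · have := h.map_π (γ x) id Function.injective_id
      (fun y m => by rw [hγ, map_smul]; exact congrArg _ (G.π_self y m)) y m
    rw [← hγ, this]
    rfl
  · intro y y' hy
    obtain ⟨x, hx⟩ := hsep y y' hy
    refine ⟨x, fun e => hx ?_⟩
    have h1 := (algebraMap L D).injective e
    have h2 : ((2 : ℚ) ^ x y) = (2 : ℚ) ^ x y' := by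
      apply (algebraMap ℚ L).injective
      simpa using h1
    exact zpow_right_injective₀ (by norm_num) (by norm_num) h2

/-- An injective map of finite order on the degrees makes the Hilbert function invariant. -/
theorem hf_inv (G : GM D L w M) (f : M →ₗ[D] M) (hf : Function.Injective f) (s : Y → Y) {r : ℕ}
    (hr : 0 < r) (hs : ∀ y, s^[r] y = y) (hfs : ∀ y m, f (G.π y m) = G.π (s y) (f m))
    {N : Submodule D M} (hN : ∀ m ∈ N, f m ∈ N) (y : Y) : G.hf N (s y) = G.hf N y := by
  refine Mc.ms2_cyc (fun y => ?_) hr (hs y)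
  have := GM.KGM2_fin G N (s y)
  have e1 := (Submodule.equivMapOfInjective f hf (N.map (G.π y))).finrank_eq
  have e2 : (N.map (G.π y)).map f ≤ N.map (G.π (s y)) := by
    rintro _ ⟨_, ⟨x, hx, rfl⟩, rfl⟩
    exact ⟨f x, hN x hx, (hfs y x).symm⟩
  have e3 := Submodule.finrank_mono e2
  show ((Module.finrank D (N.map (G.π y)) : ℕ) : ℤ) ≤ (Module.finrank D (N.map (G.π (s y))) : ℕ)
  omega

theorem exists_π_ne (G : GM D L w M) {A B : Submodule D M} {y : Y} (h : G.H A B y ≠ 0) :
    ∃ m, G.π y m ≠ 0 := by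
  by_contra hne
  have h0 : ∀ N : Submodule D M, G.hf N y = 0 := by
    intro N
    have : N.map (G.π y) = ⊥ := by
      rw [eq_bot_iff]
      rintro _ ⟨x, -, rfl⟩
      rw [Submodule.mem_bot]
      by_contra hx
      exact hne ⟨x, hx⟩
    show ((Module.finrank D (N.map (G.π y)) : ℕ) : ℤ) = 0
    rw [this, finrank_bot]
    rfl
  exact h (by rw [GM.H_apply, h0, h0, sub_zero])

end general

variable {L : Type} [Field L] {σ Y : Type} [AddCommGroup Y] {w : σ → Y}

theorem Dec.bc {M : Type} [AddCommGroup M] [Module L M] {G : GM L L w M} (h : Dec G) (D : Type)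
    [DivisionRing D] [Algebra L D] : Dec (G.bc D) := by
  intro m
  induction m using TensorProduct.induction_on with
  | zero => exact ⟨∅, by simp⟩
  | tmul d x =>
    obtain ⟨s, hs⟩ := h x
    refine ⟨s, ?_⟩
    simp only [GM.bc_π, LinearMap.baseChange_tmul]
    rw [← TensorProduct.tmul_sum, hs]
  | add x y hx hy => exact van1_add _ hx hy

theorem dec_poly [Fintype σ] (x0 : Y →+ ℤ) (hw : ∀ j, x0 (w j) = 1) : Dec (poly L w x0 hw) := by
  intro m
  induction m using MvPolynomial.induction_on' with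
  | monomial u c =>
    refine ⟨{Finsupp.weight w u}, ?_⟩
    rw [Finset.sum_singleton, poly_π, Mc.ms2_wHC, if_pos rfl]
  | add x y hx hy => exact van1_add _ hx hy

theorem exists_weight [Fintype σ] (x0 : Y →+ ℤ) (hw : ∀ j, x0 (w j) = 1) (D : Type) [DivisionRing D]
    [Algebra L D] {y : Y} {m : D ⊗[L] MvPolynomial σ L} (h : ((poly L w x0 hw).bc D).π y m ≠ 0) :
    ∃ d : σ →₀ ℕ, Finsupp.weight w d = y := by
  by_contra hne
  exact h (Mc.ms2_zero w (fun u hu => hne ⟨u, hu.symm⟩) m)

/-- The one-parameter scaling `X j ↦ 2 ^ x (w j) * X j`. -/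
noncomputable def sc (L : Type) [Field L] [CharZero L] (w : σ → Y) (x : Y →+ ℤ) :
    MvPolynomial σ L ≃ₐ[L] MvPolynomial σ L :=
  AlgEquiv.ofAlgHom (aeval fun j => C ((2 : L) ^ x (w j)) * X j)
    (aeval fun j => C ((2 : L) ^ (-x (w j))) * X j)
    (by
      refine MvPolynomial.algHom_ext fun j => ?_
      simp only [AlgHom.comp_apply, aeval_X, map_mul, aeval_C, algebraMap_eq, AlgHom.id_apply]
      rw [← mul_assoc, ← C_mul, ← zpow_add₀ two_ne_zero, neg_add_cancel, zpow_zero, C_1, one_mul])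
    (by
      refine MvPolynomial.algHom_ext fun j => ?_
      simp only [AlgHom.comp_apply, aeval_X, map_mul, aeval_C, algebraMap_eq, AlgHom.id_apply]
      rw [← mul_assoc, ← C_mul, ← zpow_add₀ two_ne_zero, add_neg_cancel, zpow_zero, C_1, one_mul])

theorem sc_X [CharZero L] (x : Y →+ ℤ) (j : σ) : sc L w x (X j) = C ((2 : L) ^ x (w j)) * X j := by
  exact aeval_X _ j

theorem sc_symm [CharZero L] (x : Y →+ ℤ) (g : MvPolynomial σ L) :
    (sc L w x).symm g = sc L w (-x) g := by
  rfl

theorem sc_monomial [CharZero L] (x : Y →+ ℤ) (d : σ →₀ ℕ) (r : L) :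
    sc L w x (monomial d r) = ((2 : L) ^ x (Finsupp.weight w d)) • monomial d r := by
  induction d using Finsupp.induction with
  | zero =>
    rw [map_zero, map_zero, zpow_zero, one_smul]
    exact (sc L w x).commutes r
  | single_add j n d _ _ ih =>
    have h1 : (monomial (Finsupp.single j n + d) r : MvPolynomial σ L) =
        X j ^ n * monomial d r := by
      rw [X_pow_eq_monomial, monomial_mul, one_mul]
    rw [h1, map_mul, map_pow, sc_X, ih, map_add, map_add, Finsupp.weight_single, map_nsmul,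
      zpow_add₀ two_ne_zero, mul_pow, ← C_pow, ← smul_eq_C_mul, smul_mul_smul_comm, nsmul_eq_mul,
      mul_comm (n : ℤ), zpow_mul, zpow_natCast]

theorem sc_hom [CharZero L] (x : Y →+ ℤ) {g : MvPolynomial σ L} {y : Y}
    (hg : IsWeightedHomogeneous w g y) : sc L w x g = ((2 : L) ^ x y) • g := by
  induction hg using IsWeightedHomogeneous.induction_on with
  | zero => rw [map_zero, smul_zero]
  | add p q _ _ hp hq => rw [map_add, hp, hq, smul_add]
  | monomial d r hr => rw [sc_monomial, hr]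

theorem sc_mem [CharZero L] (x : Y →+ ℤ) {p : Ideal (MvPolynomial σ L)}
    (hp : ∀ y, ∀ g ∈ p, weightedHomogeneousComponent w y g ∈ p) {g : MvPolynomial σ L}
    (hg : g ∈ p) : sc L w x g ∈ p := by
  classical
  rw [← sum_weightedHomogeneousComponent w g,
    finsum_eq_sum _ (weightedHomogeneousComponent_finsupp g), map_sum]
  refine p.sum_mem fun y _ => ?_
  rw [sc_hom x (weightedHomogeneousComponent_isWeightedHomogeneous y g), smul_eq_C_mul]
  exact p.mul_mem_left _ (hp y g hg)

theorem rename_isWeightedHomogeneous (e : σ ≃ σ) (s : Y ≃+ Y) (he : ∀ j, w (e j) = s (w j))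
    {g : MvPolynomial σ L} {y : Y} (hg : IsWeightedHomogeneous w g y) :
    IsWeightedHomogeneous w (rename e g) (s y) := by
  induction hg using IsWeightedHomogeneous.induction_on with
  | zero => rw [map_zero]; exact isWeightedHomogeneous_zero L w _
  | add p q _ _ hp hq => rw [map_add]; exact hp.add hq
  | monomial d r hr =>
    rw [rename_monomial]
    refine isWeightedHomogeneous_monomial w _ r ?_
    rw [← hr, Finsupp.weight_apply, Finsupp.weight_apply,
      Finsupp.sum_mapDomain_index (h := fun i (c : ℕ) => c • w i) (fun _ => zero_nsmul _)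
        (fun _ _ _ => add_nsmul _ _ _),
      map_finsuppSum]
    simp only [he, map_nsmul]

/-- An automorphism preserving an ideal acts on the quotient. -/
noncomputable def quotAut {R : Type} [CommRing R] [Algebra L R] (p : Ideal R) (e : R ≃ₐ[L] R)
    (h1 : ∀ g ∈ p, e g ∈ p) (h2 : ∀ g ∈ p, e.symm g ∈ p) : (R ⧸ p) ≃ₐ[L] (R ⧸ p) :=
  Ideal.quotientEquivAlg p p e (by
    refine le_antisymm (fun g hg => ?_) (Ideal.map_le_iff_le_comap.2 fun g hg => h1 g hg)
    have := Ideal.mem_map_of_mem (e : R →+* R) (h2 g hg)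
    simpa using this)

theorem quotAut_mk {R : Type} [CommRing R] [Algebra L R] (p : Ideal R) (e : R ≃ₐ[L] R)
    (h1 : ∀ g ∈ p, e g ∈ p) (h2 : ∀ g ∈ p, e.symm g ∈ p) (g : R) :
    quotAut p e h1 h2 (Ideal.Quotient.mk p g) = Ideal.Quotient.mk p (e g) := rfl

/-- The kernel of `D ⊗ R → D ⊗ R / p`. -/
theorem map_mk_eq_zero_iff {R : Type} [CommRing R] [Algebra L R] (p : Ideal R) (D : Type)
    [DivisionRing D] [Algebra L D] (x : D ⊗[L] R) :
    Algebra.TensorProduct.map (AlgHom.id L D) (Ideal.Quotient.mkₐ L p) x = 0 ↔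
      x ∈ (p.restrictScalars L).baseChange D := by
  have hex : Function.Exact (p.restrictScalars L).subtype (Ideal.Quotient.mkₐ L p).toLinearMap := by
    intro g
    rw [AlgHom.toLinearMap_apply, Ideal.Quotient.mkₐ_eq_mk, Ideal.Quotient.eq_zero_iff_mem]
    exact ⟨fun h => ⟨⟨g, h⟩, rfl⟩, fun ⟨y, hy⟩ => hy ▸ y.2⟩
  have h := lTensor_exact D hex (Ideal.Quotient.mkₐ_surjective L p) x
  exact h

theorem anchor_A1Van : True := by
  have := @Dec.eq_1
  have := @sc.eq_1
  have := @quotAut.eq_1
  trivial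

end Crest.Agent.R181.A1
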