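import Crest.Agent.R181.A1Bad
import Crest.Agent.R181.A1Van
import Crest.Agent.R181.A1Comm

/-! Row 181, stage A1: the symmetries of the main component and the simplicity lemma. -/

set_option autoImplicit false

namespace Crest.Agent.R181.A1

open MvPolynomial K
open scoped TensorProduct

variable {N a : ℕ} {ι : Type} [NeZero a] [Fintype ι] [DecidableEq ι] {L : Type} [Field L] [CharZero L]
  {W : Submodule L (MvPolynomial ι L)} {h : ℕ}

/-- The coordinate ring of the main component. -/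
abbrev R0 (V : WData W a h) (N : ℕ) : Type := MvPolynomial (Var N a ι) L ⧸ (lq V N).p

variable {V : WData W a h}

/-- The symmetries: one-parameter scalings and twisted cyclic shifts. -/
noncomputable def Hyp.Gam (H : Hyp V N) (ζ : Lˣ) :
    (YY N a →+ ℤ) ⊕ Fin N → Mc.Sym L (R0 V N) (Idx N a)
  | Sum.inl x =>
    { ρ := quotAut (lq V N).p (sc L (wt N a ι) x) (fun _ hg => sc_mem x (fun y _ hg => H.hom_mem y hg) hg)
        (fun _ hg => by rw [sc_symm]; exact sc_mem _ (fun y _ hg => H.hom_mem y hg) hg)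
      π := 1
      c := fun μ => Units.mk0 (2 : L) two_ne_zero ^ x (off μ) }
  | Sum.inr m =>
    { ρ := quotAut (lq V N).p (renameEquiv L (rot ι m)) (fun _ hg => (H.rename_mem m hg).1)
        (fun _ hg => (H.rename_mem m hg).2)
      π := Equiv.addRight (Pi.single m 1)
      c := fun μ => ζ ^ (∑ m' ∈ Finset.univ.filter (m < ·), μ m').val }

theorem Hyp.Gam_inl_ρ (H : Hyp V N) (ζ : Lˣ) (x : YY N a →+ ℤ) (g : MvPolynomial (Var N a ι) L) :
    (H.Gam ζ (Sum.inl x)).ρ (Ideal.Quotient.mk _ g) = Ideal.Quotient.mk _ (sc L (wt N a ι) x g) := rfl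

theorem Hyp.Gam_inl_π (H : Hyp V N) (ζ : Lˣ) (x : YY N a →+ ℤ) : (H.Gam ζ (Sum.inl x)).π = 1 := rfl

theorem Hyp.Gam_inl_c (H : Hyp V N) (ζ : Lˣ) (x : YY N a →+ ℤ) (μ : Idx N a) :
    (((H.Gam ζ (Sum.inl x)).c μ : Lˣ) : L) = (2 : L) ^ x (off μ) :=
  Units.val_zpow_eq_zpow_val _ _

theorem Hyp.Gam_inr_ρ (H : Hyp V N) (ζ : Lˣ) (m : Fin N) (g : MvPolynomial (Var N a ι) L) :
    (H.Gam ζ (Sum.inr m)).ρ (Ideal.Quotient.mk _ g) = Ideal.Quotient.mk _ (rename (rot ι m) g) := rfl

theorem Hyp.Gam_inr_π (H : Hyp V N) (ζ : Lˣ) (m : Fin N) :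
    (H.Gam ζ (Sum.inr m)).π = Equiv.addRight (Pi.single m 1) := rfl

theorem Hyp.Gam_inr_c (H : Hyp V N) (ζ : Lˣ) (m : Fin N) (μ : Idx N a) :
    (H.Gam ζ (Sum.inr m)).c μ = ζ ^ (∑ m' ∈ Finset.univ.filter (m < ·), μ m').val := rfl

section ambient

variable (L N a ι) (D : Type) [DivisionRing D] [Algebra L D]

/-- The ambient graded module. -/
noncomputable def amb : GM D L (wt N a ι) (Idx N a → D ⊗[L] MvPolynomial (Var N a ι) L) :=
  ((poly L (wt N a ι) (sym N a).x0 x0_wt).bc D).pi (Idx N a) off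

variable {L N a ι}

/-- The kernel of the map to the main component. -/
noncomputable def ker0 (V : WData W a h) (N : ℕ) :
    Submodule D (Idx N a → D ⊗[L] MvPolynomial (Var N a ι) L) :=
  Submodule.pi Set.univ fun _ => ((lq V N).p.restrictScalars L).baseChange D

/-- The quotient map. -/
noncomputable def qq (V : WData W a h) (N : ℕ) :
    D ⊗[L] MvPolynomial (Var N a ι) L →ₐ[L] D ⊗[L] R0 V N :=
  Algebra.TensorProduct.map (AlgHom.id L D) (Ideal.Quotient.mkₐ L (lq V N).p)

/-- The preimage of a submodule. -/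
noncomputable def pre (M : Submodule (D ⊗[L] R0 V N) (Idx N a → D ⊗[L] R0 V N)) :
    Submodule D (Idx N a → D ⊗[L] MvPolynomial (Var N a ι) L) where
  carrier := {v | (fun μ => qq D V N (v μ)) ∈ M}
  add_mem' := by
    intro x y hx hy
    have h := M.add_mem hx hy
    show (fun μ => qq D V N (x μ + y μ)) ∈ M
    simp only [map_add]
    exact h
  zero_mem' := by
    show (fun _ => qq D V N 0) ∈ M
    simp only [map_zero]
    exact M.zero_mem
  smul_mem' := by
    intro d x hx
    have h := M.smul_mem (d ⊗ₜ[L] 1) hx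
    have e : ∀ z : D ⊗[L] MvPolynomial (Var N a ι) L,
        qq D V N (d • z) = (d ⊗ₜ[L] (1 : R0 V N)) * qq D V N z := by
      intro z
      have e1 : d • z = (d ⊗ₜ[L] (1 : MvPolynomial (Var N a ι) L)) * z := by
        induction z using TensorProduct.induction_on with
        | zero => simp
        | tmul x y => simp [TensorProduct.smul_tmul']
        | add x y h1 h2 => rw [smul_add, mul_add, h1, h2]
      rw [e1, map_mul]
      rfl
    show (fun μ => qq D V N (d • x μ)) ∈ M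
    simp only [e]
    exact h

theorem mem_pre (M : Submodule (D ⊗[L] R0 V N) (Idx N a → D ⊗[L] R0 V N))
    (v : Idx N a → D ⊗[L] MvPolynomial (Var N a ι) L) :
    v ∈ pre D M ↔ (fun μ => qq D V N (v μ)) ∈ M := Iff.rfl

theorem as1_ρ {σ Y : Type} [Fintype σ] [AddCommGroup Y] {w : σ → Y} (x0 : Y →+ ℤ)
    (hw : ∀ j, x0 (w j) = 1) (g : MvPolynomial σ L) (z : D ⊗[L] MvPolynomial σ L) :
    ((poly L w x0 hw).bc D).ρ g z = ((1 : D) ⊗ₜ[L] g) * z := by
  rw [GM.bc_ρ]
  induction z using TensorProduct.induction_on with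
  | zero => simp
  | tmul d r => rw [LinearMap.baseChange_tmul, poly_ρ]; simp
  | add x y h1 h2 => rw [map_add, mul_add, h1, h2]

theorem as1_π {σ Y : Type} [Fintype σ] [AddCommGroup Y] {w : σ → Y} (x0 : Y →+ ℤ)
    (hw : ∀ j, x0 (w j) = 1) (y : Y) (d : D) (r : MvPolynomial σ L) :
    ((poly L w x0 hw).bc D).π y (d ⊗ₜ[L] r) = d ⊗ₜ[L] weightedHomogeneousComponent w y r := by
  rw [GM.bc_π, LinearMap.baseChange_tmul, poly_π]

theorem as1_mul {σ Y : Type} [Fintype σ] [AddCommGroup Y] {w : σ → Y} (x0 : Y →+ ℤ)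
    (hw : ∀ j, x0 (w j) = 1) (y y' : Y) (r s : D ⊗[L] MvPolynomial σ L) :
    ((poly L w x0 hw).bc D).π y r * ((poly L w x0 hw).bc D).π y' s =
      ((poly L w x0 hw).bc D).π (y + y') (r * ((poly L w x0 hw).bc D).π y' s) := by
  induction r using TensorProduct.induction_on with
  | zero => simp
  | add a b h1 h2 => rw [map_add, add_mul, add_mul, map_add, h1, h2]
  | tmul d r =>
    induction s using TensorProduct.induction_on with
    | zero => simp
    | add a b h1 h2 => rw [map_add, mul_add, mul_add, map_add, h1, h2]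
    | tmul d' s =>
      have h1 := (poly L w x0 hw).hom_ρ
        (weightedHomogeneousComponent_isWeightedHomogeneous (w := w) y' s) y r
      rw [poly_ρ, poly_ρ, poly_π, poly_π] at h1
      rw [as1_π, as1_π, Algebra.TensorProduct.tmul_mul_tmul, Algebra.TensorProduct.tmul_mul_tmul,
        as1_π, mul_comm _ (weightedHomogeneousComponent w y' s), h1, mul_comm r]

theorem amb_ρ (g : MvPolynomial (Var N a ι) L) (v : Idx N a → D ⊗[L] MvPolynomial (Var N a ι) L)
    (μ : Idx N a) : (amb N a ι L D).ρ g v μ = ((1 : D) ⊗ₜ[L] g) * v μ := by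
  exact as1_ρ D _ _ g (v μ)

theorem dec_amb : Dec (amb N a ι L D) := ((dec_poly _ _).bc D).pi _ _

theorem mem_ker0 (v : Idx N a → D ⊗[L] MvPolynomial (Var N a ι) L) :
    v ∈ ker0 D V N ↔ ∀ μ, qq D V N (v μ) = 0 := by
  rw [ker0, Submodule.mem_pi]
  exact forall_congr' fun μ => by
    rw [qq, map_mk_eq_zero_iff]
    simp only [Set.mem_univ, true_imp_iff]

theorem Hyp.as1_good (H : Hyp V N) : ((poly L (wt N a ι) (sym N a).x0 x0_wt).bc D).Good
    (((lq V N).p.restrictScalars L).baseChange D) :=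
  GM.good_bc _ D (poly_good _ _ fun y _ hg => H.hom_mem y hg)

theorem Hyp.as1_hc (H : Hyp V N) : h ≤ 2 * N + 1 - h := by
  have := H.hN
  omega

theorem Hyp.as1_F (H : Hyp V N) (k : Fin h) (z : D ⊗[L] MvPolynomial (Var N a ι) L) :
    qq D V N (((1 : D) ⊗ₜ[L] H.eqs.F k) * z) = 0 := by
  have h1 : qq D V N ((1 : D) ⊗ₜ[L] H.eqs.F k) = 0 :=
    (map_mk_eq_zero_iff _ D _).2 (Submodule.tmul_mem_baseChange_of_mem _ ((lq V N).F_mem k))
  rw [map_mul, h1]
  exact zero_mul (qq D V N z)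

theorem Hyp.as1_e (H : Hyp V N) : ((poly L (wt N a ι) (sym N a).x0 x0_wt).bc D).e (sym N a).x0 h
    (((lq V N).p.restrictScalars L).baseChange D) ⊤ = (2 * (a : ℤ)) ^ h * h.factorial := by
  rw [← H.e_p]
  show lam _ (GM.Kp _ _ _) = lam _ (GM.Kp _ _ _)
  rw [← GM.Kp_bc _ D, Submodule.baseChange_top]

theorem Hyp.good_ker0 (H : Hyp V N) : (amb N a ι L D).Good (ker0 D V N) := by
  exact GM.good_pi _ _ _ (H.as1_good D)

theorem F_ker0 (H : Hyp V N) (k : Fin h) (v : Idx N a → D ⊗[L] MvPolynomial (Var N a ι) L) :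
    (amb N a ι L D).ρ (H.eqs.F k) v ∈ ker0 D V N := by
  rw [mem_ker0]
  intro μ
  rw [amb_ρ]
  exact H.as1_F D k _

theorem ker0_le_pre (M : Submodule (D ⊗[L] R0 V N) (Idx N a → D ⊗[L] R0 V N)) :
    ker0 D V N ≤ pre D M := by
  intro v hv
  rw [mem_pre]
  convert M.zero_mem using 1
  exact funext ((mem_ker0 D v).1 hv)

/-- The total multiplicity. -/
theorem Hyp.e_total (H : Hyp V N) :
    (amb N a ι L D).e (sym N a).x0 h (ker0 D V N) ⊤ = (2 * (a : ℤ)) ^ h * h.factorial * (a : ℤ) ^ N := by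
  have hmem := H.eqs.Kp_mem H.as1_hc (H.as1_good D) (GM.good_top _) le_top
    fun k m _ => (map_mk_eq_zero_iff _ D _).1 (by
      rw [as1_ρ]
      exact H.as1_F D k m)
  have h1 := GM.Kp_pi (Idx N a) off (H.as1_good D) (GM.good_top _) le_top
  rw [Submodule.pi_top] at h1
  have h2 : (amb N a ι L D).Kp (ker0 D V N) ⊤ = _ := h1
  have h3 := H.as1_e D
  rw [GM.e] at h3 ⊢
  rw [h2, Finset.sum_mul, map_sum,
    Finset.sum_congr rfl fun k _ => (lam_pw_z_mul _ _ _ hmem).trans h3]
  simp [mul_comm]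

/-- A homogeneous element whose annihilator modulo `A` is the main component. -/
theorem Hyp.e_pos (H : Hyp V N) {A B : Submodule D (Idx N a → D ⊗[L] MvPolynomial (Var N a ι) L)}
    (hA : (amb N a ι L D).Good A) (hB : (amb N a ι L D).Good B) (h0 : ker0 D V N ≤ A) (hAB : A ≤ B)
    (v : Idx N a → D ⊗[L] MvPolynomial (Var N a ι) L) (y : YY N a) (hy : (amb N a ι L D).π y v = v)
    (hv : ∀ r : D ⊗[L] MvPolynomial (Var N a ι) L, (fun μ => r * v μ) ∈ B)
    (hann : ∀ r : D ⊗[L] MvPolynomial (Var N a ι) L, (fun μ => r * v μ) ∈ A → qq D V N r = 0) :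
    0 < (amb N a ι L D).e (sym N a).x0 h A B := by
  let f : D ⊗[L] MvPolynomial (Var N a ι) L →ₗ[D] (Idx N a → D ⊗[L] MvPolynomial (Var N a ι) L) :=
    { toFun := fun r μ => r * v μ
      map_add' := fun r s => funext fun μ => add_mul _ _ _
      map_smul' := fun d r => funext fun μ => smul_mul_assoc _ _ _ }
  have hf : ∀ r μ, f r μ = r * v μ := fun _ _ => rfl
  have hpos : (0 : ℤ) < (2 * (a : ℤ)) ^ h * h.factorial := by
    have := NeZero.pos a
    have := h.factorial_pos
    positivity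
  refine hpos.trans_le ?_
  rw [← H.as1_e D]
  refine H.eqs.e_ge H.as1_hc (sym N a).x0 x0_wt (f := f) (v := y) (fun y' r => ?_) (fun g r => ?_)
    hA hB hAB (fun k m _ => h0 (F_ker0 D H k m)) hv ?_
  · funext μ
    have h1 : v μ = ((poly L (wt N a ι) (sym N a).x0 x0_wt).bc D).π (y - off μ) (v μ) :=
      (congrFun hy μ).symm
    show _ * v μ = ((poly L (wt N a ι) (sym N a).x0 x0_wt).bc D).π (y' + y - off μ) (r * v μ)
    rw [h1, as1_mul, add_sub_assoc]
  · funext μ
    rw [amb_ρ, hf, hf, as1_ρ, mul_assoc]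
  · ext r
    rw [Submodule.mem_comap, ← map_mk_eq_zero_iff]
    refine ⟨hann r, fun h1 => h0 ((mem_ker0 D _).2 fun μ => ?_)⟩
    have h2 : qq D V N r = 0 := h1
    rw [hf, map_mul, h2]
    exact zero_mul (qq D V N (v μ))

/-- The twisted shift on the ambient module. -/
noncomputable def shA (c : Idx N a → Lˣ) (m : Fin N) :
    Module.End D (Idx N a → D ⊗[L] MvPolynomial (Var N a ι) L) :=
  LinearMap.pi fun μ => ((c (μ - Pi.single m 1) : L) •
    (rename (rot ι m) : MvPolynomial (Var N a ι) L →ₐ[L] _).toLinearMap.baseChange D) ∘ₗ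
      LinearMap.proj (μ - Pi.single m 1)

omit [NeZero a] [Fintype ι] [DecidableEq ι] [CharZero L] in
theorem sa2_apply (c : Idx N a → Lˣ) (m : Fin N)
    (v : Idx N a → D ⊗[L] MvPolynomial (Var N a ι) L) (μ : Idx N a) :
    shA D c m v μ = (c (μ - Pi.single m 1) : L) •
      (rename (rot ι m) : MvPolynomial (Var N a ι) L →ₐ[L] _).toLinearMap.baseChange D
        (v (μ - Pi.single m 1)) := rfl

omit [DecidableEq ι] [CharZero L] in
theorem sa2_π (y : YY N a) (v : Idx N a → D ⊗[L] MvPolynomial (Var N a ι) L) (μ : Idx N a) :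
    (amb N a ι L D).π y v μ =
      (weightedHomogeneousComponent (wt N a ι) (y - off μ)).baseChange D (v μ) := rfl

theorem shA_injective (c : Idx N a → Lˣ) (m : Fin N) : Function.Injective (shA (ι := ι) D c m) := by
  rw [injective_iff_map_eq_zero]
  intro v hv
  funext μ
  have h1 := congrFun hv (μ + Pi.single m 1)
  rw [sa2_apply, add_sub_cancel_right, Pi.zero_apply, ← Units.smul_def, smul_eq_zero_iff_eq] at h1
  have h2 : ((rename (rot (N := N) (a := a) ι m).symm : _ →ₐ[L] _).toLinearMap ∘ₗ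
      (rename (rot ι m) : MvPolynomial (Var N a ι) L →ₐ[L] _).toLinearMap) = LinearMap.id :=
    LinearMap.ext fun g => (renameEquiv L (rot ι m)).symm_apply_apply g
  have h3 := congrArg ((rename (rot (N := N) (a := a) ι m).symm :
    MvPolynomial (Var N a ι) L →ₐ[L] _).toLinearMap.baseChange D) h1
  rwa [← LinearMap.comp_apply, ← LinearMap.baseChange_comp, h2, LinearMap.baseChange_id,
    map_zero] at h3

theorem shA_π (c : Idx N a → Lˣ) (m : Fin N) (y : YY N a)
    (v : Idx N a → D ⊗[L] MvPolynomial (Var N a ι) L) :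
    shA D c m ((amb N a ι L D).π y v) = (amb N a ι L D).π ((sym N a).s m y) (shA D c m v) := by
  funext μ
  have h1 : ∀ y, (rename (rot ι m) : MvPolynomial (Var N a ι) L →ₐ[L] _).toLinearMap ∘ₗ
      weightedHomogeneousComponent (wt N a ι) y =
      weightedHomogeneousComponent (wt N a ι) ((sym N a).s m y) ∘ₗ
        (rename (rot ι m) : MvPolynomial (Var N a ι) L →ₐ[L] _).toLinearMap := fun y =>
    LinearMap.ext fun g => (dec_poly (w := wt N a ι) (sym N a).x0 x0_wt).map_π
      (rename (rot ι m) : MvPolynomial (Var N a ι) L →ₐ[L] _).toLinearMap ((sym N a).s m)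
      ((sym N a).s m).injective (fun y g => (rename_isWeightedHomogeneous (rot ι m) ((sym N a).s m)
        (wt_rot m) (weightedHomogeneousComponent_isWeightedHomogeneous y g)
          ).weightedHomogeneousComponent_same) y g
  have h2 : (sym N a).s m y - off μ = (sym N a).s m (y - off (μ - Pi.single m 1)) := by
    rw [map_sub, ← off_add, sub_add_cancel]
  rw [sa2_apply, sa2_π, sa2_π, sa2_apply, LinearMap.map_smul_of_tower, h2, ← LinearMap.comp_apply,
    ← LinearMap.baseChange_comp, h1, LinearMap.baseChange_comp, LinearMap.comp_apply]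

omit [NeZero a] in
theorem sa2_iter (m : Fin N) (k : ℕ) (y : YY N a) : ((sym N a).s m)^[k] y =
    (y.1, fun q => y.2 (q.1, q.2 - if q.1 = m then (k : ZMod a) else 0)) := by
  induction k with
  | zero => simp
  | succ k ih =>
    rw [Function.iterate_succ_apply', ih]
    refine Prod.ext rfl (funext fun q => ?_)
    change y.2 (q.1, (q.2 - if q.1 = m then 1 else 0) - if q.1 = m then (k : ZMod a) else 0) = _
    by_cases h : q.1 = m <;> simp [h, sub_sub, add_comm]

/-- Pairs stable under twisted shifts have invariant Hilbert functions. -/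
theorem inv_H {A B : Submodule D (Idx N a → D ⊗[L] MvPolynomial (Var N a ι) L)}
    (c : Fin N → Idx N a → Lˣ) (hA : ∀ m, ∀ v ∈ A, shA D (c m) m v ∈ A)
    (hB : ∀ m, ∀ v ∈ B, shA D (c m) m v ∈ B) : (sym N a).Inv ((amb N a ι L D).H A B) := by
  have hs : ∀ m (y : YY N a), ((sym N a).s m)^[a] y = y := fun m y => by
    rw [sa2_iter, ZMod.natCast_self]
    simp
  refine ⟨fun m y => ?_, fun y hy m => ?_⟩
  · rw [GM.H_apply, GM.H_apply,
      hf_inv _ _ (shA_injective D (c m) m) _ (NeZero.pos a) (hs m) (shA_π D (c m) m) (hA m),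
      hf_inv _ _ (shA_injective D (c m) m) _ (NeZero.pos a) (hs m) (shA_π D (c m) m) (hB m)]
  · obtain ⟨v, hv⟩ := exists_π_ne _ hy
    obtain ⟨μ, hμ⟩ := Function.ne_iff.1 hv
    obtain ⟨d, hd⟩ := exists_weight (w := wt N a ι) (sym N a).x0 x0_wt D (y := y - off μ) hμ
    have h1 : (∑ i, (sym N a).x m i) (Finsupp.weight (wt N a ι) d) = 0 := by
      rw [Finsupp.weight_apply, map_finsuppSum]
      refine Finset.sum_eq_zero fun j _ => ?_
      simp only [map_nsmul, AddMonoidHom.finsetSum_apply, sum_x_wt, smul_zero]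
    rw [hd, map_sub, AddMonoidHom.finsetSum_apply, AddMonoidHom.finsetSum_apply, sum_x_off,
      sub_eq_zero] at h1
    exact h1

theorem Hyp.shA_ker0 (H : Hyp V N) (c : Idx N a → Lˣ) (m : Fin N) :
    ∀ v ∈ ker0 D V N, shA D c m v ∈ ker0 D V N := by
  intro v hv μ _
  rw [sa2_apply]
  exact Submodule.smul_of_tower_mem _ _
    (bc_mem D (fun _ hg => (H.rename_mem m hg).1) _ (hv _ (Set.mem_univ _)))

variable {D} {H : Hyp V N} {ζ : Lˣ} {M : Submodule (D ⊗[L] R0 V N) (Idx N a → D ⊗[L] R0 V N)}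

omit [CharZero L] in
theorem sa2_qq {e : MvPolynomial (Var N a ι) L →ₐ[L] MvPolynomial (Var N a ι) L}
    {ρ : R0 V N ≃ₐ[L] R0 V N} (he : ∀ g, ρ (Ideal.Quotient.mk _ g) = Ideal.Quotient.mk _ (e g))
    (t : D ⊗[L] MvPolynomial (Var N a ι) L) : qq D V N (e.toLinearMap.baseChange D t) =
      Algebra.TensorProduct.map (AlgHom.id L D) ρ.toAlgHom (qq D V N t) := by
  induction t using TensorProduct.induction_on with
  | zero => simp only [map_zero]
  | tmul d g => exact congrArg (fun r => d ⊗ₜ[L] r) (he g).symm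
  | add s t hs ht => simp only [map_add, hs, ht]

theorem shA_pre (hM : ∀ γ, ∀ x ∈ M, (fun m => (((H.Gam ζ γ).c ((H.Gam ζ γ).π.symm m) : Lˣ) : L) •
      Algebra.TensorProduct.map (AlgHom.id L D) (H.Gam ζ γ).ρ.toAlgHom (x ((H.Gam ζ γ).π.symm m))) ∈ M)
    (m : Fin N) : ∀ v ∈ pre D M, shA D (H.Gam ζ (Sum.inr m)).c m v ∈ pre D M := by
  intro v hv
  have h1 := hM (Sum.inr m) _ hv
  rw [mem_pre]
  convert h1 using 2 with μ
  have h2 : (H.Gam ζ (Sum.inr m)).π.symm μ = μ - Pi.single m 1 := (sub_eq_add_neg _ _).symm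
  rw [sa2_apply, map_smul, h2, sa2_qq (H.Gam_inr_ρ ζ m)]

theorem good_pre (hM : ∀ γ, ∀ x ∈ M, (fun m => (((H.Gam ζ γ).c ((H.Gam ζ γ).π.symm m) : Lˣ) : L) •
      Algebra.TensorProduct.map (AlgHom.id L D) (H.Gam ζ γ).ρ.toAlgHom (x ((H.Gam ζ γ).π.symm m))) ∈ M) :
    (amb N a ι L D).Good (pre D M) := by
  refine ⟨fun g v hv => ?_, (dec_amb D).gr_of_torus (fun y y' hy => ?_) (fun x => LinearMap.pi fun μ =>
    (((2 : L) ^ x (off μ)) • (sc L (wt N a ι) x).toAlgHom.toLinearMap.baseChange D) ∘ₗ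
      LinearMap.proj μ) (fun x y v => funext fun μ => ?_) fun x v hv => ?_⟩
  · have h1 := M.smul_mem (qq D V N ((1 : D) ⊗ₜ[L] g)) hv
    rw [mem_pre]
    convert h1 using 2 with μ
    rw [amb_ρ, map_mul, Pi.smul_apply, smul_eq_mul]
  · by_cases h1 : y.1 = y'.1
    · obtain ⟨q, hq⟩ := Function.ne_iff.1 fun e : y.2 = y'.2 => hy (Prod.ext h1 e)
      exact ⟨xc q.1 q.2, hq⟩
    · exact ⟨AddMonoidHom.fst _ _, h1⟩
  · have h1 : (sc L (wt N a ι) x).toAlgHom.toLinearMap ∘ₗ
        weightedHomogeneousComponent (wt N a ι) (y - off μ) =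
        ((2 : L) ^ x (y - off μ)) • weightedHomogeneousComponent (wt N a ι) (y - off μ) :=
      LinearMap.ext fun g => sc_hom x (weightedHomogeneousComponent_isWeightedHomogeneous _ g)
    change ((2 : L) ^ x (off μ)) • (sc L (wt N a ι) x).toAlgHom.toLinearMap.baseChange D
      ((amb N a ι L D).π y v μ) = algebraMap L D (2 ^ x y) • (amb N a ι L D).π y v μ
    rw [sa2_π, ← LinearMap.comp_apply, ← LinearMap.baseChange_comp, h1, LinearMap.baseChange_smul,
      LinearMap.smul_apply, smul_smul, ← zpow_add₀ two_ne_zero, ← map_add, add_sub_cancel,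
      algebraMap_smul]
  · have h1 := hM (Sum.inl x) _ hv
    rw [mem_pre]
    convert h1 using 2 with μ
    change qq D V N (((2 : L) ^ x (off μ)) •
      (sc L (wt N a ι) x).toAlgHom.toLinearMap.baseChange D (v μ)) = _
    rw [map_smul, H.Gam_inl_c, sa2_qq (H.Gam_inl_ρ ζ x)]
    rfl

end ambient

section simple3

theorem simple3_dom (R : Type) [Semiring R] [IsDomain R] {x y : R} (e : x * y = 0) (hy : ¬y = 0) :
    x = 0 := (mul_eq_zero.1 e).resolve_right hy

variable (D : Type) [DivisionRing D] [Algebra L D]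

omit [CharZero L] in
theorem simple3_surj : Function.Surjective (qq D V N) :=
  Algebra.TensorProduct.map_surjective _ _ Function.surjective_id (Ideal.Quotient.mkₐ_surjective L _)

omit [DecidableEq ι] [CharZero L] in
theorem simple3_π (μ : Idx N a) :
    (amb N a ι L D).π (off μ) (Pi.single μ 1) = Pi.single μ 1 := by
  funext ν
  rw [amb, GM.pi_π]
  by_cases hν : ν = μ
  · subst hν
    rw [sub_self, Pi.single_eq_same, GM.bc_π, Algebra.TensorProduct.one_def, LinearMap.baseChange_tmul,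
      poly_π, (isWeightedHomogeneous_one L (wt N a ι)).weightedHomogeneousComponent_same]
  · rw [Pi.single_eq_of_ne hν, map_zero]

theorem simple3_dvd (H : Hyp V N) {A B : Submodule D (Idx N a → D ⊗[L] MvPolynomial (Var N a ι) L)}
    (hA : (amb N a ι L D).Good A) (hB : (amb N a ι L D).Good B) (h0 : ker0 D V N ≤ A) (hAB : A ≤ B)
    (c : Fin N → Idx N a → Lˣ) (hsA : ∀ m, ∀ v ∈ A, shA D (c m) m v ∈ A)
    (hsB : ∀ m, ∀ v ∈ B, shA D (c m) m v ∈ B) :
    (2 * (a : ℤ)) ^ h * h.factorial * (a : ℤ) ^ N ∣ (amb N a ι L D).e (sym N a).x0 h A B := by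
  have hc : N + h + 1 ≤ 2 * N + 1 - h := by
    have h1 := H.hN
    have h2 := V.le
    omega
  exact H.eqs.dvd_e (sym N a) hc (rot ι) wt_rot sum_x_wt (fun _ _ => rfl) hA hB hAB
    (fun k v _ => h0 (F_ker0 D H k v)) (inv_H D c hsA hsB)

end simple3

/-- The simplicity lemma. -/
theorem Hyp.simple (H : Hyp V N) (ζ : Lˣ) (D : Type) [DivisionRing D] [Algebra L D]
    [IsDomain (D ⊗[L] R0 V N)] : Simple (H.Gam ζ) D := by
  intro M hM hsat
  by_contra hne
  obtain ⟨hb, ht⟩ := not_or.1 hne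
  have hA := H.good_ker0 D
  have hB := good_pre hM
  have hT := (amb N a ι L D).good_top
  have hAB := ker0_le_pre D M
  have hmul : ∀ (r : D ⊗[L] MvPolynomial (Var N a ι) L)
      (v : Idx N a → D ⊗[L] MvPolynomial (Var N a ι) L),
      (fun μ => qq D V N (r * v μ)) = qq D V N r • fun μ => qq D V N (v μ) := by
    intro r v
    funext μ
    rw [map_mul, Pi.smul_apply, smul_eq_mul]
  have d1 := simple3_dvd D H hA hB le_rfl hAB (fun m => (H.Gam ζ (Sum.inr m)).c)
    (fun m => H.shA_ker0 D _ m) (fun m => shA_pre hM m)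
  have d2 := simple3_dvd D H hB hT hAB le_top (fun m => (H.Gam ζ (Sum.inr m)).c)
    (fun m => shA_pre hM m) (fun _ _ _ => trivial)
  have p1 : 0 < (amb N a ι L D).e (sym N a).x0 h (ker0 D V N) (pre D M) := by
    obtain ⟨x, hx, hx0⟩ := (Submodule.ne_bot_iff M).1 hb
    choose v hv using fun μ => simple3_surj D (V := V) (x μ)
    have hvM : v ∈ pre D M := by
      rw [mem_pre, funext hv]
      exact hx
    have hv0 : v ∉ ker0 D V N := by
      rw [mem_ker0]
      exact fun e => hx0 (funext fun μ => (hv μ).symm.trans (e μ))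
    obtain ⟨y, hy⟩ := not_forall.1 fun e => hv0 ((dec_amb D).mem e)
    refine H.e_pos D hA hB le_rfl hAB _ y ((amb N a ι L D).π_self y v) (fun r => ?_) fun r hr => ?_
    · rw [mem_pre, hmul]
      exact M.smul_mem _ (hB.gr y v hvM)
    · rw [mem_ker0] at hy hr
      obtain ⟨μ, hμ⟩ := not_forall.1 hy
      have e := hr μ
      rw [map_mul] at e
      exact simple3_dom (D ⊗[L] R0 V N) e hμ
  have p2 : 0 < (amb N a ι L D).e (sym N a).x0 h (pre D M) ⊤ := by
    have hex : ∃ μ : Idx N a, (Pi.single μ 1 : Idx N a → D ⊗[L] R0 V N) ∉ M := by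
      by_contra hall
      refine ht (eq_top_iff.2 fun x _ => ?_)
      rw [← Finset.univ_sum_single x]
      refine M.sum_mem fun μ _ => ?_
      have e : (Pi.single μ (x μ) : Idx N a → D ⊗[L] R0 V N) =
          x μ • (Pi.single μ 1 : Idx N a → D ⊗[L] R0 V N) := by
        rw [← Pi.single_smul, smul_eq_mul, mul_one]
      rw [e]
      exact M.smul_mem _ (not_not.1 fun hμ => hall ⟨μ, hμ⟩)
    obtain ⟨μ, hμ⟩ := hex
    refine H.e_pos D hB hT hAB le_top _ (off μ) (simple3_π D μ) (fun _ => trivial) fun r hr => ?_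
    by_contra hr0
    rw [mem_pre, hmul] at hr
    refine hμ ?_
    have e : (fun ν => qq D V N ((Pi.single μ 1 : Idx N a → D ⊗[L] MvPolynomial (Var N a ι) L) ν)) =
        Pi.single μ 1 := by
      funext ν
      by_cases hν : ν = μ
      · subst hν
        rw [Pi.single_eq_same, Pi.single_eq_same]
        exact (qq D V N).map_one
      · rw [Pi.single_eq_of_ne hν, Pi.single_eq_of_ne hν, map_zero]
    rw [← e]
    exact hsat _ hr0 _ hr
  have hs := GM.e_add (sym N a).x0 h hA hB hT hAB le_top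
  rw [H.e_total D] at hs
  have l1 := Int.le_of_dvd p1 d1
  have l2 := Int.le_of_dvd p2 d2
  omega

theorem anchor_A1Simple : True := by
  have := @Hyp.Gam.eq_1
  have := @Hyp.Gam.eq_2
  have := @Hyp.Gam.eq_def
  have := @amb.eq_1
  have := @ker0.eq_1
  have := @qq.eq_1
  have := @pre.eq_1
  have := @shA.eq_1
  trivial

end Crest.Agent.R181.A1
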