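import Mathlib

/-! Row 181, stage A1: elementary bounds on transcendence degrees. -/

set_option autoImplicit false

namespace Crest.Agent.R181.A1

/-- All `x b` are algebraic over `F` adjoined with at most `d` elements. -/
def TrLe (F : Type) {K : Type} [Field F] [Field K] [Algebra F K] {β : Type} (x : β → K) (d : ℕ) :
    Prop :=
  ∃ B : Finset K, B.card ≤ d ∧ ∀ b, IsAlgebraic (Algebra.adjoin F (B : Set K)) (x b)

variable {F K : Type} [Field F] [Field K] [Algebra F K] {β β' : Type}

theorem A1Tr_mem {s : Set K} {a : K} (h : a ∈ s) : IsAlgebraic (Algebra.adjoin F s) a :=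
  isAlgebraic_algebraMap (⟨a, Algebra.subset_adjoin h⟩ : Algebra.adjoin F s)

theorem A1Tr_mono {s t : Set K} {a : K} (h : IsAlgebraic (Algebra.adjoin F s) a) (hst : s ⊆ t) :
    IsAlgebraic (Algebra.adjoin F t) a :=
  h.tower_top_of_subalgebra_le (Algebra.adjoin_mono hst)

theorem A1Tr_tower {s t : Set K} {a : K}
    (h : IsAlgebraic (Algebra.adjoin (IntermediateField.adjoin F s) t) a) :
    IsAlgebraic (Algebra.adjoin F (s ∪ t)) a := by
  have h2 : IsAlgebraic (IntermediateField.adjoin (IntermediateField.adjoin F s) t) a :=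
    IntermediateField.isAlgebraic_adjoin_iff.2 h
  have h3 : IsAlgebraic
      ((IntermediateField.adjoin (IntermediateField.adjoin F s) t).restrictScalars F) a := h2
  rw [IntermediateField.adjoin_adjoin_left] at h3
  exact IntermediateField.isAlgebraic_adjoin_iff.1 h3

theorem TrLe.mono {x : β → K} {d d' : ℕ} (h : TrLe F x d) (hd : d ≤ d') : TrLe F x d' := by
  obtain ⟨B, h1, h2⟩ := h
  exact ⟨B, h1.trans hd, h2⟩

theorem TrLe.of_range {x : β → K} {y : β' → K} {d : ℕ} (h : TrLe F x d)
    (hy : ∀ b', ∃ b, y b' = x b) : TrLe F y d := by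
  obtain ⟨B, h1, h2⟩ := h
  refine ⟨B, h1, fun b' => ?_⟩
  obtain ⟨b, hb⟩ := hy b'
  exact hb ▸ h2 b

theorem trLe_card [Fintype β] (x : β → K) : TrLe F x (Fintype.card β) := by
  classical
  exact ⟨Finset.univ.image x, Finset.card_image_le, fun b =>
    A1Tr_mem (Finset.mem_coe.2 (Finset.mem_image_of_mem x (Finset.mem_univ b)))⟩

/-- An algebraic relation lowers the bound by one. -/
theorem trLe_of_rel [Fintype β] (x : β → K) {P : MvPolynomial β F} (hP : P ≠ 0)
    (h : MvPolynomial.aeval x P = 0) : TrLe F x (Fintype.card β - 1) := by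
  classical
  obtain ⟨I, hI⟩ := (AlgebraicIndependent.matroid F K).exists_isBasis (Set.range x)
  obtain ⟨h1, h2, h3⟩ := AlgebraicIndependent.matroid_isBasis_iff.1 hI
  lift I to Finset K using (Set.finite_range x).subset h2
  refine ⟨I, not_lt.1 fun hlt => hP ?_, fun b => h3 _ ⟨b, rfl⟩⟩
  have h4 : I ⊆ Finset.univ.image x := by
    rwa [← Finset.coe_subset, Finset.coe_image, Finset.coe_univ, Set.image_univ]
  have h5 : (Finset.univ.image x).card ≤ Fintype.card β := Finset.card_image_le
  have h6 := Finset.card_le_card h4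
  have h7 : I = Finset.univ.image x := Finset.eq_of_subset_of_card_le h4 (by omega)
  have h8 : Function.Injective x := by
    rw [← Set.injOn_univ, ← Finset.coe_univ, ← Finset.card_image_iff, Finset.card_univ]
    omega
  rw [h7, Finset.coe_image, Finset.coe_univ, Set.image_univ] at h1
  exact algebraicIndependent_iff.1 ((algebraicIndependent_subtype_range h8).1 h1) P h

theorem TrLe.sum {x : β → K} {y : β' → K} {d d' : ℕ} (hx : TrLe F x d) (hy : TrLe F y d') :
    TrLe F (Sum.elim x y) (d + d') := by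
  classical
  obtain ⟨B, h1, h2⟩ := hx
  obtain ⟨B', h1', h2'⟩ := hy
  refine ⟨B ∪ B', (Finset.card_union_le _ _).trans (add_le_add h1 h1'), ?_⟩
  rintro (b | b)
  · exact A1Tr_mono (h2 b) (Finset.coe_subset.2 Finset.subset_union_left)
  · exact A1Tr_mono (h2' b) (Finset.coe_subset.2 Finset.subset_union_right)

theorem trLe_prod {κ : Type} [Fintype κ] {x : κ × β → K} {d : ℕ}
    (h : ∀ k, TrLe F (fun b => x (k, b)) d) : TrLe F x (Fintype.card κ * d) := by
  classical
  choose B h1 h2 using h
  exact ⟨Finset.univ.biUnion B, Finset.card_biUnion_le_card_mul _ _ _ fun k _ => h1 k, fun b =>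
    A1Tr_mono (h2 b.1 b.2)
      (Finset.coe_subset.2 (Finset.subset_biUnion_of_mem B (Finset.mem_univ b.1)))⟩

/-- Adding elements which are algebraic over the given ones. -/
theorem TrLe.alg {x : β → K} {d : ℕ} (hx : TrLe F x d) {y : β' → K}
    (hy : ∀ b', IsAlgebraic (Algebra.adjoin F (Set.range x)) (y b')) : TrLe F y d := by
  obtain ⟨B, h1, h2⟩ := hx
  refine ⟨B, h1, fun b' => (hy b').adjoin_of_forall_isAlgebraic ?_⟩
  rintro _ ⟨⟨b, rfl⟩, -⟩
  exact h2 b

/-- Towers. -/
theorem TrLe.tower {c : β' → K} {d d' : ℕ} (hc : TrLe F c d) {x : β → K}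
    (hx : TrLe (IntermediateField.adjoin F (Set.range c)) x d') : TrLe F x (d + d') := by
  classical
  obtain ⟨B, h1, h2⟩ := hc
  obtain ⟨B', h1', h2'⟩ := hx
  refine ⟨B ∪ B', (Finset.card_union_le _ _).trans (add_le_add h1 h1'), fun b => ?_⟩
  refine (A1Tr_tower (h2' b)).adjoin_of_forall_isAlgebraic ?_
  rintro a ⟨⟨b', rfl⟩ | ha, -⟩
  · exact A1Tr_mono (h2 b') (Finset.coe_subset.2 Finset.subset_union_left)
  · exact A1Tr_mem (Finset.coe_subset.2 Finset.subset_union_right ha)

theorem TrLe.card_le [Fintype β] {x : β → K} {d : ℕ} (h : TrLe F x d)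
    (hi : AlgebraicIndependent F x) : Fintype.card β ≤ d := by
  obtain ⟨B, h1, h2⟩ := h
  have h3 : (AlgebraicIndependent.matroid F K).Indep (Set.range x) := hi.to_subtype_range
  have h4 : Set.range x ⊆ (AlgebraicIndependent.matroid F K).closure B := by
    rw [AlgebraicIndependent.matroid_closure_eq]
    rintro _ ⟨b, rfl⟩
    exact h2 b
  have h5 := h3.encard_le_eRk_of_subset h4
  rw [Matroid.eRk_closure_eq] at h5
  have h6 := hi.injective.encard_range.trans (h5.trans (Matroid.eRk_le_encard _ _))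
  rw [Set.encard_coe_eq_coe_finsetCard, ENat.card_eq_coe_fintype_card, Nat.cast_le] at h6
  exact h6.trans h1

/-- Independent elements are linearly independent over what is algebraic over other independent elements. -/
theorem eq_zero_of_indep {τ : Type} {y : τ → K} (hy : AlgebraicIndependent F y) (T : Set τ)
    {κ : Type} (s : Finset κ) (v : κ → τ) (hv : Set.InjOn v s) (hT : ∀ j ∈ s, v j ∉ T) (α : κ → K)
    (hα : ∀ j ∈ s, IsAlgebraic (Algebra.adjoin F (y '' T)) (α j))
    (h : ∑ j ∈ s, α j * y (v j) = 0) : ∀ j ∈ s, α j = 0 := by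
  have h1 := (hy.adjoin_of_disjoint (s := T) disjoint_compl_right).subalgebraAlgebraicClosure
  have h2 := h1.linearIndependent.comp (fun j : s => (⟨v j, hT j j.2⟩ : (Tᶜ : Set τ)))
    fun j j' e => Subtype.ext (hv j.2 j'.2 (congrArg Subtype.val e))
  intro j hj
  have h3 := Fintype.linearIndependent_iff.1 h2 (fun j => ⟨α j, hα j j.2⟩)
    ((Finset.sum_coe_sort s fun j => α j * y (v j)).trans h) ⟨j, hj⟩
  exact congrArg Subtype.val h3

theorem anchor_A1Tr : True := by
  have := @TrLe.eq_1
  trivial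

end Crest.Agent.R181.A1
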