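import Crest.Agent.R181.CvDefs

/-! Row 181: automorphisms of algebraically closed fields (task CvAut). -/

set_option autoImplicit false

namespace Crest.Agent.R181

open Polynomial

section
variable {Ω : Type} [Field Ω] [IsAlgClosed Ω]

/-- an automorphism of the base and a bijection of transcendence bases extend to `Ω` -/
theorem CvAut_basis {k ι κ : Type} [Field k] [Algebra k Ω] (σ : k ≃+* k) {v : ι → Ω} {w : κ → Ω}
    (hv : IsTranscendenceBasis k v) (hw : IsTranscendenceBasis k w) (e : ι ≃ κ) :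
    ∃ ρ : Ω ≃+* Ω, (∀ z : k, ρ (algebraMap k Ω z) = algebraMap k Ω (σ z)) ∧ ∀ i, ρ (v i) = w (e i) := by
  have := IsAlgClosed.isAlgClosure_of_transcendence_basis v hv
  have := IsAlgClosed.isAlgClosure_of_transcendence_basis w hw
  let E : Algebra.adjoin k (Set.range v) ≃+* Algebra.adjoin k (Set.range w) :=
    hv.1.aevalEquiv.symm.toRingEquiv.trans ((MvPolynomial.mapEquiv ι σ).trans
      ((MvPolynomial.renameEquiv k e).toRingEquiv.trans hw.1.aevalEquiv.toRingEquiv))
  have key : ∀ p : MvPolynomial ι k, IsAlgClosure.equivOfEquiv Ω Ω E (MvPolynomial.aeval v p) =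
      MvPolynomial.aeval w (MvPolynomial.rename e (MvPolynomial.map (σ : k →+* k) p)) := by
    intro p
    rw [← hv.1.algebraMap_aevalEquiv, IsAlgClosure.equivOfEquiv_algebraMap,
      ← hw.1.algebraMap_aevalEquiv]
    congr 1
    simp [E]
  refine ⟨IsAlgClosure.equivOfEquiv Ω Ω E, fun z => ?_, fun i => ?_⟩
  · simpa using key (MvPolynomial.C z)
  · simpa using key (MvPolynomial.X i)

/-- two roots of an irreducible polynomial are conjugate under an automorphism of `Ω` -/
theorem CvAut_root {K : Type} [Field K] [Algebra K Ω] {p : K[X]} (hp : Irreducible p) (hm : p.Monic)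
    {y y' : Ω} (hy : aeval y p = 0) (hy' : aeval y' p = 0) :
    ∃ ρ : Ω ≃+* Ω, (∀ z : K, ρ (algebraMap K Ω z) = algebraMap K Ω z) ∧ ρ y = y' := by
  let F := algebraicClosure K Ω
  have a1 : y ∈ F := mem_algebraicClosure_iff.2 ⟨p, hm.ne_zero, hy⟩
  have a2 : y' ∈ F := mem_algebraicClosure_iff.2 ⟨p, hm.ne_zero, hy'⟩
  have b : ∀ (x : Ω) (hx : x ∈ F), aeval x p = 0 → aeval (⟨x, hx⟩ : F) p = 0 := by
    intro x hx h
    apply (algebraMap F Ω).injective
    rw [← aeval_algebraMap_apply, map_zero]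
    exact h
  obtain ⟨σ, hσ⟩ := minpoly.exists_algEquiv_of_root (K := K) (x := (⟨y, a1⟩ : F)) (y := (⟨y', a2⟩ : F))
    ⟨p, hm.ne_zero, b y' a2 hy'⟩ (by
      rw [← minpoly.eq_of_irreducible_of_monic hp (b y' a2 hy') hm]
      exact b y a1 hy)
  obtain ⟨B, hB⟩ := exists_isTranscendenceBasis F Ω
  obtain ⟨ρ, h1, -⟩ := CvAut_basis (σ : F ≃+* F) hB hB (Equiv.refl _)
  refine ⟨ρ, fun z => ?_, ?_⟩
  · rw [IsScalarTower.algebraMap_apply K F Ω, h1]
    exact congrArg _ (σ.commutes z)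
  · exact (h1 ⟨y, a1⟩).trans (congrArg _ hσ)

theorem CvAut_eisenstein {k : Type} [Field k] {a : ℕ} (ha : 0 < a) (φ : k[X]) (b : k)
    (hb₀ : φ.eval b = 0) (hb₁ : φ.derivative.eval b ≠ 0) :
    Irreducible (X ^ a - C φ : k[X][X]) := by
  have hm : (X ^ a - C φ : k[X][X]).Monic := monic_X_pow_sub_C _ ha.ne'
  have hP : (Ideal.span {X - C b} : Ideal k[X]).IsPrime :=
    (Ideal.span_singleton_prime (X_sub_C_ne_zero b)).2 (prime_X_sub_C b)
  refine irreducible_of_eisenstein_criterion hP ?_ ?_ ?_ ?_ hm.isPrimitive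
  · rw [hm.leadingCoeff]
    exact fun h => hP.ne_top ((Ideal.eq_top_iff_one _).2 h)
  · intro n hn
    rw [degree_X_pow_sub_C ha, Nat.cast_lt] at hn
    rw [coeff_sub, coeff_X_pow, if_neg hn.ne, coeff_C, zero_sub]
    refine neg_mem ?_
    split_ifs
    · exact Ideal.mem_span_singleton.2 (dvd_iff_isRoot.2 hb₀)
    · exact zero_mem _
  · rw [degree_X_pow_sub_C ha]
    exact_mod_cast ha
  · rw [coeff_sub, coeff_X_pow, if_neg ha.ne, coeff_C_zero, zero_sub, Ideal.span_singleton_pow,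
      Ideal.mem_span_singleton, dvd_neg]
    rintro ⟨q, rfl⟩
    apply hb₁
    simp [derivative_mul, sq]

omit [IsAlgClosed Ω] in
theorem CvAut_trans (k : Subfield Ω) {a : ℕ} (ha : 0 < a) (φ : Polynomial Ω)
    (hφ : ∀ n, φ.coeff n ∈ k) {τ : Type} (t y : τ → Ω) (ht : AlgebraicIndependent k t) (s : Set τ)
    (hy : ∀ j ∈ s, y j ^ a = φ.eval (t j)) {i : τ} (hi : i ∉ s) :
    Transcendental (IntermediateField.adjoin k (t '' s ∪ y '' s)) (t i) := by
  obtain ⟨φ₀, rfl⟩ := (mem_lifts φ).1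
    ((lifts_iff_coeff_lifts (f := algebraMap k Ω) φ).2 fun n => ⟨⟨_, hφ n⟩, rfl⟩)
  rw [IntermediateField.transcendental_adjoin_iff]
  intro h
  refine ht.transcendental_adjoin hi (h.adjoin_of_forall_isAlgebraic ?_)
  rintro x ⟨hx | ⟨j, hj, rfl⟩, hx'⟩
  · exact (hx' hx).elim
  · refine IsAlgebraic.of_pow ha ?_
    rw [hy j hj, eval_map_algebraMap]
    exact isAlgebraic_algebraMap (⟨aeval (t j) φ₀, Algebra.adjoin_mono
      (Set.singleton_subset_iff.2 (Set.mem_image_of_mem t hj)) (aeval_mem_adjoin_singleton k (t j))⟩ :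
        Algebra.adjoin k (t '' s))

theorem exists_aut_of_transcendental (k : Subfield Ω) {t t' : Ω} (ht : Transcendental k t)
    (ht' : Transcendental k t') : ∃ ρ : Ω ≃+* Ω, (∀ z ∈ k, ρ z = z) ∧ ρ t = t' := by
  classical
  have h : ∀ {x : Ω}, Transcendental k x →
      ∃ B : Set Ω, x ∈ B ∧ IsTranscendenceBasis k ((↑) : B → Ω) := by
    intro x hx
    obtain ⟨B, h1, h2⟩ := exists_isTranscendenceBasis_superset (R := k) (s := {x})
      ((algebraicIndependent_singleton_iff (⟨x, rfl⟩ : ({x} : Set Ω))).2 hx)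
    exact ⟨B, h1 rfl, h2⟩
  obtain ⟨B, h1, h2⟩ := h ht
  obtain ⟨B', h1', h2'⟩ := h ht'
  obtain ⟨e⟩ := Cardinal.eq.1 (h2.cardinalMk_eq h2')
  obtain ⟨ρ, h3, h4⟩ := CvAut_basis (RingEquiv.refl k) h2 h2'
    (e.trans (Equiv.swap (e ⟨t, h1⟩) ⟨t', h1'⟩))
  refine ⟨ρ, fun z hz => h3 ⟨z, hz⟩, ?_⟩
  simpa using h4 ⟨t, h1⟩

/-- two roots of a polynomial over `k` which stays irreducible over purely transcendental
extensions: here `Y ^ a - φ(t)` with `φ` having a simple root in `k`, `t` transcendental -/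
theorem exists_aut_point (k : Subfield Ω) {a : ℕ} (ha : 0 < a) (φ : Polynomial Ω)
    (hφ : ∀ n, φ.coeff n ∈ k) (b : Ω) (hb : b ∈ k) (hb₀ : φ.eval b = 0)
    (hb₁ : φ.derivative.eval b ≠ 0) {t t' y y' : Ω} (ht : Transcendental k t)
    (ht' : Transcendental k t') (hy : y ^ a = φ.eval t) (hy' : y' ^ a = φ.eval t') :
    ∃ ρ : Ω ≃+* Ω, (∀ z ∈ k, ρ z = z) ∧ ρ t = t' ∧ ρ y = y' := by
  obtain ⟨φ₀, rfl⟩ := (mem_lifts φ).1
    ((lifts_iff_coeff_lifts (f := algebraMap k Ω) φ).2 fun n => ⟨⟨_, hφ n⟩, rfl⟩)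
  obtain ⟨ρ₁, h1, h2⟩ := exists_aut_of_transcendental k ht ht'
  have e1 : ρ₁ y ^ a = aeval t' φ₀ := by
    let ρ' : Ω →ₐ[k] Ω := { (ρ₁ : Ω →+* Ω) with commutes' := fun z => h1 z z.2 }
    rw [← map_pow, hy, eval_map_algebraMap, ← h2]
    exact (aeval_algHom_apply ρ' t φ₀).symm
  rw [eval_map_algebraMap] at hy'
  have hirr := CvAut_eisenstein ha φ₀ ⟨b, hb⟩
    (by
      apply (algebraMap k Ω).injective
      rw [map_zero, ← hb₀, ← eval₂_at_apply, eval_map]
      rfl)
    (by
      intro h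
      apply hb₁
      rw [derivative_map, eval_map]
      have := congrArg (algebraMap k Ω) h
      rw [map_zero, ← eval₂_at_apply] at this
      exact this)
  have hm : (X ^ a - C φ₀ : k[X][X]).Monic := monic_X_pow_sub_C _ ha.ne'
  let K := FractionRing k[X]
  have hinj : Function.Injective ((aeval t' : k[X] →ₐ[k] Ω) : k[X] →+* Ω) :=
    transcendental_iff_injective.1 ht'
  let _ : Algebra K Ω := (IsFractionRing.lift (K := K) hinj).toAlgebra
  have e2 : ∀ q : k[X], algebraMap K Ω (algebraMap k[X] K q) = aeval t' q := fun q =>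
    IsFractionRing.lift_algebraMap hinj q
  have hirr' := (hm.irreducible_iff_irreducible_map_fraction_map (K := K)).1 hirr
  have e3 : ∀ x : Ω, x ^ a = aeval t' φ₀ →
      aeval x ((X ^ a - C φ₀ : k[X][X]).map (algebraMap k[X] K)) = 0 := by
    intro x hx
    simp only [Polynomial.map_sub, Polynomial.map_pow, map_X, map_C, map_sub, map_pow, aeval_X,
      aeval_C, e2, hx, sub_self]
  obtain ⟨ρ₂, h3, h4⟩ := CvAut_root hirr' (hm.map _) (e3 _ e1) (e3 _ hy')
  refine ⟨ρ₁.trans ρ₂, fun z hz => ?_, ?_, h4⟩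
  · have := h3 (algebraMap k[X] K (C ⟨z, hz⟩))
    rw [e2, aeval_C] at this
    rw [RingEquiv.trans_apply, h1 z hz]
    exact this
  · have := h3 (algebraMap k[X] K X)
    rw [e2, aeval_X] at this
    rw [RingEquiv.trans_apply, h2, this]

/-- independent generic points of the curve are conjugate -/
theorem exists_aut_tuple (k : Subfield Ω) {a : ℕ} (ha : 0 < a) (φ : Polynomial Ω)
    (hφ : ∀ n, φ.coeff n ∈ k) (b : Ω) (hb : b ∈ k) (hb₀ : φ.eval b = 0)
    (hb₁ : φ.derivative.eval b ≠ 0) {τ : Type} [Fintype τ] (t t' y y' : τ → Ω)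
    (ht : AlgebraicIndependent k t) (ht' : AlgebraicIndependent k t')
    (hy : ∀ j, y j ^ a = φ.eval (t j)) (hy' : ∀ j, y' j ^ a = φ.eval (t' j)) :
    ∃ ρ : Ω ≃+* Ω, (∀ z ∈ k, ρ z = z) ∧ ∀ j, ρ (t j) = t' j ∧ ρ (y j) = y' j := by
  classical
  have key : ∀ s : Finset τ, ∃ ρ : Ω ≃+* Ω, (∀ z ∈ k, ρ z = z) ∧
      ∀ j ∈ s, ρ (t j) = t' j ∧ ρ (y j) = y' j := by
    intro s
    induction s using Finset.induction_on with
    | empty => exact ⟨RingEquiv.refl Ω, fun _ _ => rfl, fun _ h => absurd h (Finset.notMem_empty _)⟩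
    | insert i s hi ih =>
      obtain ⟨ρ, h1, h2⟩ := ih
      let ρ' : Ω →ₐ[k] Ω := { (ρ : Ω →+* Ω) with commutes' := fun z => h1 z z.2 }
      have e1 : ∀ j, ρ (y j) ^ a = φ.eval (ρ (t j)) := by
        intro j
        have e2 : φ.map (ρ : Ω →+* Ω) = φ := by
          ext n
          rw [coeff_map]
          exact h1 _ (hφ n)
        rw [← map_pow, hy]
        conv_rhs => rw [← e2]
        rw [eval_map]
        exact (eval₂_at_apply (ρ : Ω →+* Ω) (t j)).symm
      let k' := IntermediateField.adjoin k (t' '' (s : Set τ) ∪ y' '' (s : Set τ))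
      have a1 : Transcendental k' (t' i) :=
        CvAut_trans k ha φ hφ t' y' ht' s (fun j _ => hy' j) (by simpa using hi)
      have a2 : Transcendental k' (ρ (t i)) := by
        have := CvAut_trans k ha φ hφ (ρ' ∘ t) (ρ ∘ y) (ht.map' (f := ρ') ρ.injective) s
          (fun j _ => e1 j) (i := i) (by simpa using hi)
        rwa [Set.image_congr (f := ρ' ∘ t) (g := t') (fun j hj => (h2 j hj).1),
          Set.image_congr (f := ρ ∘ y) (g := y') (fun j hj => (h2 j hj).2)] at this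
      have hk : ∀ z ∈ k, z ∈ k'.toSubfield := fun z hz => k'.algebraMap_mem ⟨z, hz⟩
      obtain ⟨ρ₂, h3, h4, h5⟩ := exists_aut_point k'.toSubfield ha φ (fun n => hk _ (hφ n)) b (hk _ hb)
        hb₀ hb₁ a2 a1 (e1 i) (hy' i)
      refine ⟨ρ.trans ρ₂, fun z hz => ?_, fun j hj => ?_⟩
      · rw [RingEquiv.trans_apply, h1 z hz, h3 z (hk z hz)]
      · rcases Finset.mem_insert.1 hj with rfl | hj
        · exact ⟨h4, h5⟩
        · rw [RingEquiv.trans_apply, RingEquiv.trans_apply, (h2 j hj).1, (h2 j hj).2]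
          exact ⟨h3 _ (IntermediateField.subset_adjoin _ _ (Or.inl ⟨j, hj, rfl⟩)),
            h3 _ (IntermediateField.subset_adjoin _ _ (Or.inr ⟨j, hj, rfl⟩))⟩
  obtain ⟨ρ, h1, h2⟩ := key Finset.univ
  exact ⟨ρ, h1, fun j => h2 j (Finset.mem_univ j)⟩

/-- a transcendental element has an infinite orbit -/
theorem isAlgebraic_of_finite_orbit (k : Subfield Ω) (t : Ω)
    (h : {t' | ∃ ρ : Ω ≃+* Ω, (∀ z ∈ k, ρ z = z) ∧ ρ t = t'}.Finite) : IsAlgebraic k t := by
  by_contra ht
  have ht' : Transcendental k t := ht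
  refine Set.infinite_of_injective_forall_mem (f := fun n : ℕ => t ^ (n + 1)) ?_
    (fun n => exists_aut_of_transcendental k ht' (ht'.pow n.succ_pos)) h
  intro m n hmn
  have h1 : (X : k[X]) ^ (m + 1) = X ^ (n + 1) :=
    transcendental_iff_injective.1 ht' (by simpa using hmn)
  have h2 := congrArg natDegree h1
  simpa using h2

end

theorem CvAut_card {k Ω τ σ : Type} [Field k] [Field Ω] [Algebra k Ω] [Fintype τ] [Fintype σ]
    (u : τ → Ω) (v : σ → Ω) (hu : AlgebraicIndependent k u)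
    (h : ∀ j, IsAlgebraic (Algebra.adjoin k (Set.range v)) (u j)) :
    Fintype.card τ ≤ Fintype.card σ ∧
      (Fintype.card σ ≤ Fintype.card τ → AlgebraicIndependent k v) := by
  let M := AlgebraicIndependent.matroid k Ω
  have h1 : M.Indep (Set.range u) := hu.to_subtype_range
  have h2 : Set.range u ⊆ M.closure (Set.range v) := by
    rintro _ ⟨j, rfl⟩
    rw [AlgebraicIndependent.matroid_closure_eq]
    exact h j
  have h3 : (Fintype.card τ : ℕ∞) ≤ M.eRk (Set.range v) := by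
    have := h1.encard_le_eRk_of_subset h2
    have h0 := hu.injective.encard_range
    rw [ENat.card_eq_coe_fintype_card] at h0
    rw [M.eRk_closure_eq] at this
    exact h0.trans this
  have h4 := M.eRk_le_encard (Set.range v)
  have h5 : (Set.range v).encard ≤ (Fintype.card σ : ℕ∞) := by
    rw [← Set.image_univ, ← ENat.card_eq_coe_fintype_card, ← Set.encard_univ]
    exact Set.encard_image_le _ _
  refine ⟨by exact_mod_cast h3.trans (h4.trans h5), fun h6 => ?_⟩
  have h7 : (Fintype.card σ : ℕ∞) ≤ M.eRk (Set.range v) := le_trans (by exact_mod_cast h6) h3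
  have h8 : M.Indep (Set.range v) :=
    (Matroid.indep_iff_eRk_eq_encard_of_finite (Set.finite_range v)).2 (h4.antisymm (h5.trans h7))
  have h9 : Function.Injective v := by
    rw [← Set.injOn_univ]
    refine Set.finite_univ.injOn_of_encard_image_eq ?_
    rw [Set.image_univ, Set.encard_univ, ENat.card_eq_coe_fintype_card]
    exact h5.antisymm (h7.trans h4)
  exact (algebraicIndependent_subtype_range h9).1 h8

/-- families which are algebraic over each other -/
theorem algebraicIndependent_of_alg {k Ω τ : Type} [Field k] [Field Ω] [Algebra k Ω] [Fintype τ]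
    (u v : τ → Ω) (hu : AlgebraicIndependent k u)
    (h : ∀ j, IsAlgebraic (Algebra.adjoin k (Set.range v)) (u j)) : AlgebraicIndependent k v :=
  (CvAut_card u v hu h).2 le_rfl

/-- `m` independent elements algebraic over `k(S)` force `m ≤ |S|`, and `S` is independent if
`|S| ≤ m` -/
theorem card_le_of_alg {k Ω τ σ : Type} [Field k] [Field Ω] [Algebra k Ω] [Fintype τ] [Fintype σ]
    (u : τ → Ω) (v : σ → Ω) (hu : AlgebraicIndependent k u)
    (h : ∀ j, IsAlgebraic (Algebra.adjoin k (Set.range v)) (u j)) :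
    Fintype.card τ ≤ Fintype.card σ ∧
      (Fintype.card σ ≤ Fintype.card τ → AlgebraicIndependent k v) :=
  CvAut_card u v hu h

theorem mem_range_of_fixed (K : Type) [Field K] [CharZero K] (ω : AlgebraicClosure K)
    (h : ∀ ρ : AlgebraicClosure K ≃ₐ[K] AlgebraicClosure K, ρ ω = ω) :
    ∃ k : K, algebraMap K (AlgebraicClosure K) k = ω :=
  (InfiniteGalois.mem_range_algebraMap_iff_fixed ω).2 h

theorem exists_extend_algebraicClosure (K : Type) [Field K] (σ : K ≃+* K) :
    ∃ ρ : AlgebraicClosure K ≃+* AlgebraicClosure K,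
      ∀ k, ρ (algebraMap K _ k) = algebraMap K _ (σ k) :=
  ⟨IsAlgClosure.equivOfEquiv _ _ σ, IsAlgClosure.equivOfEquiv_algebraMap _ _ σ⟩

end Crest.Agent.R181
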