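import Crest.Agent.R181.CvCoord

/-! Row 181: explicit bases (task CvBasis). -/

set_option autoImplicit false

namespace Crest.Agent.R181

open Polynomial

variable {Ω : Type} [Field Ω] {a : ℕ} [NeZero a] {c : CD Ω a}

namespace CvB

/-- product of powers of the branch factors -/
noncomputable def bp (c : CD Ω a) (u : ZMod a → ℕ) : Polynomial Ω := ∏ i, (X - C (c.b i)) ^ u i

theorem bp_ne (c : CD Ω a) (u : ZMod a → ℕ) : bp c u ≠ 0 :=
  Finset.prod_ne_zero_iff.2 fun i _ => pow_ne_zero _ (X_sub_C_ne_zero (c.b i))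

theorem bp_natDegree (c : CD Ω a) (u : ZMod a → ℕ) : (bp c u).natDegree = ∑ i, u i := by
  unfold bp
  rw [natDegree_prod _ _ fun i _ => pow_ne_zero _ (X_sub_C_ne_zero (c.b i))]
  simp [natDegree_pow]

theorem rootMult_prod {ι : Type} (s : Finset ι) (f : ι → Polynomial Ω) (hf : ∀ i ∈ s, f i ≠ 0)
    (x : Ω) : (∏ i ∈ s, f i).rootMultiplicity x = ∑ i ∈ s, (f i).rootMultiplicity x := by
  classical
  induction s using Finset.induction_on with
  | empty => simp
  | insert i s hi ih =>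
    rw [Finset.prod_insert hi, Finset.sum_insert hi, rootMultiplicity_mul,
      ih fun j hj => hf j (Finset.mem_insert_of_mem hj)]
    exact mul_ne_zero (hf i (Finset.mem_insert_self _ _))
      (Finset.prod_ne_zero_iff.2 fun j hj => hf j (Finset.mem_insert_of_mem hj))

theorem rootMult_pow_ne {x r : Ω} (h : x ≠ r) (n : ℕ) :
    ((X - C r) ^ n : Polynomial Ω).rootMultiplicity x = 0 := by
  apply rootMultiplicity_eq_zero
  simp only [IsRoot.def, eval_pow, eval_sub, eval_X, eval_C]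
  exact pow_ne_zero _ (sub_ne_zero.2 h)

theorem bp_mult_b (c : CD Ω a) (u : ZMod a → ℕ) (i : ZMod a) :
    (bp c u).rootMultiplicity (c.b i) = u i := by
  unfold bp
  rw [rootMult_prod _ _ fun i _ => pow_ne_zero _ (X_sub_C_ne_zero (c.b i)),
    Finset.sum_eq_single i]
  · exact rootMultiplicity_X_sub_C_pow _ _
  · intro j _ hj
    exact rootMult_pow_ne (fun h => hj (c.hb h).symm) _
  · intro h; exact absurd (Finset.mem_univ i) h

theorem bp_mult_ne (c : CD Ω a) (u : ZMod a → ℕ) {x : Ω} (hx : ∀ i, x ≠ c.b i) :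
    (bp c u).rootMultiplicity x = 0 := by
  unfold bp
  rw [rootMult_prod _ _ fun i _ => pow_ne_zero _ (X_sub_C_ne_zero (c.b i))]
  exact Finset.sum_eq_zero fun i _ => rootMult_pow_ne (hx i) _

theorem eval_Φ_ne (c : CD Ω a) {x : Ω} (hx : ∀ i, x ≠ c.b i) : c.Φ.eval x ≠ 0 := by
  simp only [CD.Φ, eval_mul, eval_C, eval_prod, eval_sub, eval_X]
  exact mul_ne_zero c.hT (Finset.prod_ne_zero_iff.2 fun i _ => sub_ne_zero.2 (hx i))

theorem aeval_bp (Φ : FF c) (u : ZMod a → ℕ) :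
    aeval Φ.t (bp c u) = ∏ i, (Φ.t - algebraMap Ω Φ.F (c.b i)) ^ u i := by
  simp [bp, map_prod]

/-- the rational factor of the basis elements -/
noncomputable def w (Φ : FF c) (e : ZMod a → ℤ) : Φ.F :=
  ∏ i, (Φ.t - algebraMap Ω Φ.F (c.b i)) ^ (-(e i))

theorem w_ne (Φ : FF c) (e : ZMod a → ℤ) : w Φ e ≠ 0 :=
  Finset.prod_ne_zero_iff.2 fun i _ => zpow_ne_zero _ (Φ.t_sub_ne_zero (c.b i))

theorem w_mul (Φ : FF c) (e : ZMod a → ℤ) (u v : ZMod a → ℕ) (h : ∀ i, (v i : ℤ) = u i - e i) :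
    w Φ e * aeval Φ.t (bp c u) = aeval Φ.t (bp c v) := by
  rw [aeval_bp, aeval_bp, w, ← Finset.prod_mul_distrib]
  refine Finset.prod_congr rfl fun i _ => ?_
  rw [← zpow_natCast, ← zpow_natCast, ← zpow_add₀ (Φ.t_sub_ne_zero (c.b i)), h i]
  congr 1
  ring

theorem bas_eq (Φ : FF c) (d : ZMod a → ℤ) (j : Fin a) (e : ℕ) :
    Φ.bas d j e = Φ.t ^ e * Φ.y ^ (j : ℕ) * w Φ fun i => (d i + (j : ℕ)) / (a : ℤ) := rfl

theorem ord_w (Φ : FF c) (e : ZMod a → ℤ) (P : Pt c) :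
    Φ.ord P (w Φ e) =
      ∑ i, -(e i) * (brD (c := c) (Pi.single i (a : ℤ)) P - infD (c := c) 1 P) := by
  unfold w
  rw [Φ.ord_prod P _ _ fun i _ => zpow_ne_zero _ (Φ.t_sub_ne_zero (c.b i))]
  refine Finset.sum_congr rfl fun i _ => ?_
  rw [Φ.ord_zpow]
  have := congrFun (Φ.div_t_sub_b i) P
  simp only [FF.div, Pi.sub_apply] at this
  rw [this]

theorem ord_y_pow (Φ : FF c) (j : ℕ) (P : Pt c) :
    Φ.ord P (Φ.y ^ j) = j * (brD (c := c) (fun _ => 1) P - infD (c := c) 1 P) := by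
  rw [← zpow_natCast, Φ.ord_zpow]
  have := congrFun Φ.div_y P
  simp only [FF.div, Pi.sub_apply] at this
  rw [this]

theorem bas_mem (Φ : FF c) (d : ZMod a → ℤ) (n : ℤ) (j : Fin a) (e : ℕ)
    (he : (e : ℤ) ≤ nj d n j) : Φ.bas d j e ∈ Φ.L (brD d + infD n) := by
  have ha : (0 : ℤ) < a := by exact_mod_cast Nat.pos_of_ne_zero (NeZero.ne a)
  have hX : (X ^ e : Polynomial Ω) ≠ 0 := pow_ne_zero _ X_ne_zero
  have ht : Φ.t ^ e = aeval Φ.t (X ^ e : Polynomial Ω) := by simp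
  have ht0 : Φ.t ^ e ≠ 0 := by rw [ht]; exact Φ.aeval_ne_zero hX
  have hy0 : Φ.y ^ (j : ℕ) ≠ 0 := pow_ne_zero _ Φ.y_ne_zero
  rw [Φ.mem_L_iff]
  right
  intro P
  rw [bas_eq, Φ.ord_mul P (mul_ne_zero ht0 hy0) (w_ne Φ _), Φ.ord_mul P ht0 hy0, ord_w,
    ord_y_pow, ht]
  cases P with
  | aff t₀ y₀ h hy =>
    rw [Φ.ord_aeval_aff t₀ y₀ h hy hX]
    simp [brD, infD]
  | br i =>
    rw [Φ.ord_aeval_br i hX]
    simp only [Pi.add_apply, brD, infD, add_zero, sub_zero, mul_one]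
    rw [Finset.sum_eq_single i]
    · have h1 := Int.ediv_mul_le (d i + (j : ℕ)) ha.ne'
      have h2 : (0 : ℤ) ≤ (a : ℤ) * ((X ^ e : Polynomial Ω).rootMultiplicity (c.b i) : ℕ) := by
        positivity
      rw [Pi.single_eq_same]
      linarith
    · intro k _ hk
      rw [Pi.single_eq_of_ne hk.symm, mul_zero]
    · intro h; exact absurd (Finset.mem_univ i) h
  | inf s h =>
    rw [Φ.ord_aeval_inf s h hX]
    simp only [Pi.add_apply, brD, infD, zero_add, zero_sub, mul_neg, mul_one, neg_neg,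
      natDegree_X_pow]
    unfold nj at he
    linarith

theorem coord_div [IsAlgClosed Ω] (c : CD Ω a) {p q : Polynomial Ω} (hp : p ≠ 0) (hq : q ≠ 0)
    (e : ZMod a → ℤ) (h1 : ∀ x, (∀ i, x ≠ c.b i) → q.rootMultiplicity x ≤ p.rootMultiplicity x)
    (h2 : ∀ i, (q.rootMultiplicity (c.b i) : ℤ) - p.rootMultiplicity (c.b i) ≤ e i) :
    ∃ G : Polynomial Ω, p * bp c (fun i => (e i).toNat) = q * bp c (fun i => (-e i).toNat) * G ∧
      (G.natDegree : ℤ) = p.natDegree - q.natDegree + ∑ i, e i := by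
  classical
  have hA : p * bp c (fun i => (e i).toNat) ≠ 0 := mul_ne_zero hp (bp_ne _ _)
  have hB : q * bp c (fun i => (-e i).toNat) ≠ 0 := mul_ne_zero hq (bp_ne _ _)
  have hd : q * bp c (fun i => (-e i).toNat) ∣ p * bp c (fun i => (e i).toNat) := by
    rw [IsAlgClosed.dvd_iff_roots_le_roots hB hA, Multiset.le_iff_count]
    intro x
    rw [count_roots, count_roots, rootMultiplicity_mul hA, rootMultiplicity_mul hB]
    by_cases hx : ∃ i, x = c.b i
    · obtain ⟨i, rfl⟩ := hx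
      rw [bp_mult_b, bp_mult_b]
      have := h2 i
      omega
    · push Not at hx
      rw [bp_mult_ne c _ hx, bp_mult_ne c _ hx]
      have := h1 x hx
      omega
  obtain ⟨G, hG⟩ := hd
  refine ⟨G, hG, ?_⟩
  have hG0 : G ≠ 0 := by
    rintro rfl
    rw [mul_zero] at hG
    exact hA hG
  have hdeg := congrArg natDegree hG
  rw [natDegree_mul hp (bp_ne _ _), natDegree_mul hB hG0, natDegree_mul hq (bp_ne _ _),
    bp_natDegree, bp_natDegree] at hdeg
  have hs : ∑ i, e i = ((∑ i, (e i).toNat : ℕ) : ℤ) - ((∑ i, (-e i).toNat : ℕ) : ℤ) := by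
    push_cast
    rw [← Finset.sum_sub_distrib]
    exact Finset.sum_congr rfl fun i _ => by omega
  omega

theorem herm_step (a : ℕ) (ha : 0 < a) (d : ℤ) :
    ∑ j ∈ Finset.range a, (d + 1 + (j : ℕ)) / (a : ℤ) =
      ∑ j ∈ Finset.range a, (d + (j : ℕ)) / (a : ℤ) + 1 := by
  have h1 := Finset.sum_range_succ (fun j : ℕ => (d + (j : ℕ)) / (a : ℤ)) a
  have h2 := Finset.sum_range_succ' (fun j : ℕ => (d + (j : ℕ)) / (a : ℤ)) a
  have h3 : (d + (a : ℤ)) / (a : ℤ) = d / a + 1 := by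
    have := Int.add_mul_ediv_right d 1 (c := (a : ℤ)) (by exact_mod_cast ha.ne')
    simpa using this
  have h4 : ∑ j ∈ Finset.range a, (d + 1 + (j : ℕ)) / (a : ℤ) =
      ∑ j ∈ Finset.range a, (d + ((j + 1 : ℕ) : ℤ)) / (a : ℤ) :=
    Finset.sum_congr rfl fun j _ => by push_cast; ring_nf
  simp only [Nat.cast_zero, add_zero] at h2
  rw [h4]
  linarith

theorem herm (a : ℕ) (ha : 0 < a) (d : ℤ) :
    ∑ j ∈ Finset.range a, (d + (j : ℕ)) / (a : ℤ) = d := by
  induction d using Int.induction_on with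
  | zero =>
    refine Finset.sum_eq_zero fun j hj => ?_
    rw [zero_add]
    exact Int.ediv_eq_zero_of_lt (by positivity) (by exact_mod_cast Finset.mem_range.1 hj)
  | succ k ih => rw [herm_step a ha, ih]
  | pred k ih =>
    have := herm_step a ha (-(k : ℤ) - 1)
    rw [sub_add_cancel, ih] at this
    linarith

end CvB

open CvB in
theorem FF.L_eq_span [CharZero Ω] [IsAlgClosed Ω] (Φ : FF c) (d : ZMod a → ℤ) (n : ℤ) :
    Φ.L (brD d + infD n) =
      Submodule.span Ω {f | ∃ (j : Fin a) (e : ℕ), (e : ℤ) ≤ nj d n j ∧ f = Φ.bas d j e} := by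
  have ha : (0 : ℤ) < a := by exact_mod_cast Nat.pos_of_ne_zero (NeZero.ne a)
  apply le_antisymm
  · intro f hf
    obtain ⟨p, q, hq, hfq⟩ := Φ.gen f
    have hq0 : aeval Φ.t q ≠ 0 := Φ.aeval_ne_zero hq
    have hg := Φ.mul_mem_L hf hq0
    rw [mul_comm, hfq] at hg
    have hg' : ∀ P m, m < -((brD d + infD n - Φ.div (aeval Φ.t q) : Pt c → ℤ) P) →
        (Φ.emb P (∑ j, aeval Φ.t (p j) * Φ.y ^ (j : ℕ))).coeff m = 0 := hg
    have haff : ∀ x, (∀ i, x ≠ c.b i) → ∀ j, p j = 0 ∨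
        (q.rootMultiplicity x : ℤ) ≤ (p j).rootMultiplicity x := by
      intro x hx
      refine (Φ.coord_aff x (eval_Φ_ne c hx) p _).1 fun y₀ h hy m hm => hg' _ m ?_
      simp only [Pi.sub_apply, Pi.add_apply, brD, infD, FF.div, Φ.ord_aeval_aff x y₀ h hy hq]
      linarith
    have hbr : ∀ i j, p j = 0 ∨ (a : ℤ) * q.rootMultiplicity (c.b i) - d i ≤
        a * (p j).rootMultiplicity (c.b i) + (j : ℕ) := by
      intro i
      refine (Φ.coord_br i p _).1 fun m hm => hg' _ m ?_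
      simp only [Pi.sub_apply, Pi.add_apply, brD, infD, FF.div, Φ.ord_aeval_br i hq]
      linarith
    have hinf : ∀ j, p j = 0 ∨ ((p j).natDegree : ℤ) + (j : ℕ) ≤ n + q.natDegree := by
      refine (Φ.coord_inf p _).1 fun s h m hm => hg' _ m ?_
      simp only [Pi.sub_apply, Pi.add_apply, brD, infD, FF.div, Φ.ord_aeval_inf s h hq]
      linarith
    have hf' : f = ∑ j, aeval Φ.t (p j) * Φ.y ^ (j : ℕ) / aeval Φ.t q := by
      rw [← Finset.sum_div, ← hfq, mul_div_cancel_right₀ _ hq0]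
    rw [hf']
    refine Submodule.sum_mem _ fun j _ => ?_
    by_cases hp : p j = 0
    · rw [hp, map_zero, zero_mul, zero_div]
      exact Submodule.zero_mem _
    obtain ⟨G, hG, hdeg⟩ := coord_div c hp hq (fun i => (d i + (j : ℕ)) / (a : ℤ))
      (fun x hx => by exact_mod_cast (haff x hx j).resolve_left hp)
      (fun i => by
        have := (hbr i j).resolve_left hp
        rw [Int.le_ediv_iff_mul_le ha]
        linarith)
    have hw := w_mul Φ (fun i => (d i + (j : ℕ)) / (a : ℤ))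
      (fun i => ((d i + (j : ℕ)) / (a : ℤ)).toNat) (fun i => (-((d i + (j : ℕ)) / (a : ℤ))).toNat)
      (fun i => by omega)
    have hG' := congrArg (aeval Φ.t) hG
    rw [map_mul, map_mul, map_mul, ← hw] at hG'
    have hb0 : aeval Φ.t (bp c fun i => ((d i + (j : ℕ)) / (a : ℤ)).toNat) ≠ 0 :=
      Φ.aeval_ne_zero (bp_ne _ _)
    have hpj : aeval Φ.t (p j) =
        aeval Φ.t q * w Φ (fun i => (d i + (j : ℕ)) / (a : ℤ)) * aeval Φ.t G := by
      apply mul_right_cancel₀ hb0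
      rw [hG']
      ring
    have hkey : aeval Φ.t (p j) * Φ.y ^ (j : ℕ) / aeval Φ.t q =
        ∑ e ∈ Finset.range (G.natDegree + 1), G.coeff e • Φ.bas d j e := by
      rw [hpj, div_eq_iff hq0, aeval_eq_sum_range (p := G), Finset.mul_sum, Finset.sum_mul,
        Finset.sum_mul]
      refine Finset.sum_congr rfl fun e _ => ?_
      rw [bas_eq, Algebra.smul_def, Algebra.smul_def]
      ring
    rw [hkey]
    refine Submodule.sum_mem _ fun e he => Submodule.smul_mem _ _ (Submodule.subset_span ?_)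
    refine ⟨j, e, ?_, rfl⟩
    have h1 := (hinf j).resolve_left hp
    have h2 : (e : ℤ) ≤ G.natDegree := by
      exact_mod_cast Nat.lt_succ_iff.1 (Finset.mem_range.1 he)
    unfold nj
    linarith
  · rw [Submodule.span_le]
    rintro f ⟨j, e, he, rfl⟩
    exact bas_mem Φ d n j e he

namespace CvB

theorem bas_li (Φ : FF c) (d : ZMod a → ℤ) (N : Fin a → ℕ) :
    LinearIndependent Ω fun x : (Σ j : Fin a, Fin (N j)) => Φ.bas d x.1 x.2 := by
  classical
  rw [Fintype.linearIndependent_iff]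
  intro g hg
  set E : Fin a → ZMod a → ℤ := fun j i => (d i + (j : ℕ)) / (a : ℤ) with hE
  set M : ZMod a → ℕ := fun i => ∑ j, (E j i).toNat with hM
  have hME : ∀ j i, E j i ≤ M i := by
    intro j i
    have : (E j i).toNat ≤ M i :=
      Finset.single_le_sum (f := fun j => (E j i).toNat) (fun _ _ => Nat.zero_le _)
        (Finset.mem_univ j)
    omega
  set G : Fin a → Polynomial Ω := fun j => ∑ e : Fin (N j), monomial (e : ℕ) (g ⟨j, e⟩) with hGd
  have hsum : ∑ j, aeval Φ.t (G j * bp c fun i => ((M i : ℤ) - E j i).toNat) *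
      Φ.y ^ (j : ℕ) = 0 := by
    have h0 := congrArg (· * aeval Φ.t (bp c M)) hg
    simp only [zero_mul] at h0
    rw [← h0, Fintype.sum_sigma, Finset.sum_mul]
    refine Finset.sum_congr rfl fun j _ => ?_
    rw [map_mul, ← w_mul Φ (E j) M _ fun i => by have := hME j i; omega]
    simp only [hGd, map_sum, aeval_monomial, Finset.sum_mul]
    refine Finset.sum_congr rfl fun e _ => ?_
    rw [bas_eq, Algebra.smul_def]
    ring
  have hz := Φ.ind _ hsum
  rintro ⟨j, e⟩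
  have hG0 : G j = 0 := (mul_eq_zero.1 (hz j)).resolve_right (bp_ne _ _)
  have := congrArg (fun p => p.coeff (e : ℕ)) hG0
  simp only [hGd, finsetSum_coeff, coeff_monomial, coeff_zero] at this
  rw [Finset.sum_eq_single e] at this
  · simpa using this
  · intro k _ hk
    rw [if_neg fun h => hk (Fin.ext h)]
  · intro h; exact absurd (Finset.mem_univ e) h

theorem L_eq_range [CharZero Ω] [IsAlgClosed Ω] (Φ : FF c) (d : ZMod a → ℤ) (n : ℤ) :
    Φ.L (brD d + infD n) = Submodule.span Ω (Set.range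
      fun x : (Σ j : Fin a, Fin (nj d n j + 1).toNat) => Φ.bas d x.1 x.2) := by
  rw [Φ.L_eq_span]
  congr 1
  ext f
  constructor
  · rintro ⟨j, e, he, rfl⟩
    exact ⟨⟨j, ⟨e, by omega⟩⟩, rfl⟩
  · rintro ⟨⟨j, e, he⟩, rfl⟩
    exact ⟨j, e, by omega, rfl⟩

end CvB

theorem FF.finiteDimensional_br_inf [CharZero Ω] [IsAlgClosed Ω] (Φ : FF c) (d : ZMod a → ℤ)
    (n : ℤ) : FiniteDimensional Ω (Φ.L (brD d + infD n)) := by
  rw [CvB.L_eq_range]
  exact FiniteDimensional.span_of_finite Ω (Set.finite_range _)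

theorem FF.finrank_br_inf [CharZero Ω] [IsAlgClosed Ω] (Φ : FF c) (d : ZMod a → ℤ) (n : ℤ) :
    Module.finrank Ω (Φ.L (brD d + infD n)) = ∑ j, (nj d n j + 1).toNat := by
  rw [CvB.L_eq_range, finrank_span_eq_card (CvB.bas_li Φ d _)]
  simp

theorem two_mul_sum_nj (d : ZMod a → ℤ) (n : ℤ) :
    2 * ∑ j, nj d n j = 2 * a * n - a * (a - 1) + 2 * ∑ i, d i := by
  have ha : 0 < a := Nat.pos_of_ne_zero (NeZero.ne a)
  have h1 : ∑ j : Fin a, ∑ i, (d i + (j : ℕ)) / (a : ℤ) = ∑ i, d i := by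
    rw [Finset.sum_comm]
    refine Finset.sum_congr rfl fun i _ => ?_
    rw [Fin.sum_univ_eq_sum_range (fun j : ℕ => (d i + (j : ℕ)) / (a : ℤ)) a]
    exact CvB.herm a ha (d i)
  have h2 : 2 * ∑ j : Fin a, ((j : ℕ) : ℤ) = a * (a - 1) := by
    rw [Fin.sum_univ_eq_sum_range (fun j : ℕ => (j : ℤ)) a]
    have := Finset.sum_range_id_mul_two a
    have h3 : ((∑ i ∈ Finset.range a, i : ℕ) : ℤ) * 2 = ((a * (a - 1) : ℕ) : ℤ) := by
      exact_mod_cast this
    push_cast [Nat.cast_sub (show 1 ≤ a from ha)] at h3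
    linarith
  unfold nj
  rw [Finset.sum_add_distrib, Finset.sum_sub_distrib, h1]
  simp only [Finset.sum_const, Finset.card_univ, Fintype.card_fin, nsmul_eq_mul]
  linarith

theorem nj_le (d : ZMod a → ℤ) (n : ℤ) (j j' : Fin a) : nj d n j ≤ nj d n j' + (a - 1) := by
  have ha : (0 : ℤ) < a := by exact_mod_cast Nat.pos_of_ne_zero (NeZero.ne a)
  have hj : ((j : ℕ) : ℤ) < a := by exact_mod_cast j.2
  have hj' : ((j' : ℕ) : ℤ) < a := by exact_mod_cast j'.2
  unfold nj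
  rcases le_or_gt (j : ℕ) j' with h | h
  · have h' : ((j : ℕ) : ℤ) ≤ (j' : ℕ) := by exact_mod_cast h
    have h1 : ∑ i, (d i + (j : ℕ)) / (a : ℤ) ≤ ∑ i, (d i + (j' : ℕ)) / (a : ℤ) :=
      Finset.sum_le_sum fun i _ => Int.ediv_le_ediv ha (by linarith)
    have : (0 : ℤ) ≤ (j : ℕ) := by positivity
    linarith
  · have h1 : ∑ i, (d i + (j : ℕ)) / (a : ℤ) ≤ ∑ i, ((d i + (j' : ℕ)) / (a : ℤ) + 1) := by
      refine Finset.sum_le_sum fun i _ => ?_
      rw [← Int.add_mul_ediv_right _ 1 ha.ne']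
      refine Int.ediv_le_ediv ha ?_
      have : (0 : ℤ) ≤ (j' : ℕ) := by positivity
      linarith
    rw [Finset.sum_add_distrib] at h1
    simp only [Finset.sum_const, Finset.card_univ, ZMod.card, nsmul_eq_mul, mul_one] at h1
    have : ((j' : ℕ) : ℤ) + 1 ≤ (j : ℕ) := by exact_mod_cast h
    linarith

theorem FF.const_of_mem_zero [CharZero Ω] [IsAlgClosed Ω] (Φ : FF c) {f : Φ.F}
    (hf : f ∈ Φ.L 0) : ∃ r, f = algebraMap Ω Φ.F r := by
  have h0 : (0 : Pt c → ℤ) = brD (fun _ => 0) + infD 0 := by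
    funext P
    cases P <;> simp [brD, infD]
  rw [h0, Φ.L_eq_span] at hf
  have hle : Submodule.span Ω {f | ∃ (j : Fin a) (e : ℕ), (e : ℤ) ≤ nj (fun _ => 0) 0 j ∧
      f = Φ.bas (fun _ => 0) j e} ≤ LinearMap.range (Algebra.linearMap Ω Φ.F) := by
    rw [Submodule.span_le]
    rintro g ⟨j, e, he, rfl⟩
    have hz : ((0 : ℤ) + (j : ℕ)) / (a : ℤ) = 0 := by
      rw [zero_add]
      exact Int.ediv_eq_zero_of_lt (by positivity) (by exact_mod_cast j.2)
    unfold nj at he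
    simp only [hz, Finset.sum_const_zero] at he
    have he0 : e = 0 := by omega
    have hj0 : (j : ℕ) = 0 := by omega
    refine ⟨1, ?_⟩
    simp only [FF.bas, he0, hj0]
    simp
  obtain ⟨r, hr⟩ := hle hf
  exact ⟨r, hr.symm⟩

end Crest.Agent.R181
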