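import Crest.Agent.R181.CvGen

/-! Row 181: generic effective divisors of degree at most the genus do not move (task CvRes). -/

set_option autoImplicit false

namespace Crest.Agent.R181

open Polynomial

variable {Ω : Type} [Field Ω] {a : ℕ} [NeZero a] {c : CD Ω a}

/-- `s` starts in degree `p` with coefficient `v` -/
def CvRes_St (s : LaurentSeries Ω) (p : ℤ) (v : Ω) : Prop :=
  (∀ m < p, s.coeff m = 0) ∧ s.coeff p = v

theorem CvRes_mul {s u : LaurentSeries Ω} {p q : ℤ} {v w : Ω} (hs : CvRes_St s p v)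
    (hu : CvRes_St u q w) : CvRes_St (s * u) (p + q) (v * w) := by
  constructor
  · intro m hm
    rw [HahnSeries.coeff_mul]
    refine Finset.sum_eq_zero fun ij hij => ?_
    have h3 := (Finset.mem_antidiagonal.1 hij).2.2
    by_cases h : ij.1 < p
    · rw [hs.1 _ h, zero_mul]
    · rw [hu.1 ij.2 (by omega), mul_zero]
  · rw [HahnSeries.coeff_mul, Finset.sum_eq_single (p, q), hs.2, hu.2]
    · intro ij hij hne
      have h3 := (Finset.mem_antidiagonal.1 hij).2.2
      by_cases h : ij.1 < p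
      · rw [hs.1 _ h, zero_mul]
      · rw [hu.1 ij.2 ?_, mul_zero]
        by_contra h'
        exact hne (Prod.ext (by simp only; omega) (by simp only; omega))
    · intro h
      by_contra h'
      exact h (Finset.mem_antidiagonal.2 ⟨left_ne_zero_of_mul h', right_ne_zero_of_mul h', rfl⟩)

theorem CvRes_single (p : ℤ) (v : Ω) : CvRes_St (HahnSeries.single p v) p v :=
  ⟨fun _ hm => HahnSeries.coeff_single_of_ne hm.ne, HahnSeries.coeff_single_same _ _⟩

theorem CvRes_add {s u : LaurentSeries Ω} {p : ℤ} {v w : Ω} (hs : CvRes_St s p v)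
    (hu : CvRes_St u p w) : CvRes_St (s + u) p (v + w) :=
  ⟨fun m hm => by rw [HahnSeries.coeff_add, hs.1 m hm, hu.1 m hm, add_zero],
    by rw [HahnSeries.coeff_add, hs.2, hu.2]⟩

theorem CvRes_pow {s : LaurentSeries Ω} {v : Ω} (hs : CvRes_St s 0 v) (n : ℕ) :
    CvRes_St (s ^ n) 0 (v ^ n) := by
  induction n with
  | zero => simpa using CvRes_single (0 : ℤ) (1 : Ω)
  | succ n ih => simpa [pow_succ] using CvRes_mul ih hs

theorem CvRes_C (Φ : FF c) (P : Pt c) (r : Ω) :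
    CvRes_St (Φ.emb P (algebraMap Ω Φ.F r)) 0 r := by
  rw [AlgHom.commutes, algebraMap_laurent]
  exact CvRes_single 0 r

theorem CvRes_t (Φ : FF c) (t₀ y₀ : Ω) (h hy) : CvRes_St (Φ.emb (.aff t₀ y₀ h hy) Φ.t) 0 t₀ := by
  rw [Φ.aff_t]
  have h1 : CvRes_St (HahnSeries.single (1 : ℤ) (1 : Ω)) 0 0 :=
    ⟨fun m hm => HahnSeries.coeff_single_of_ne (by omega),
      HahnSeries.coeff_single_of_ne (by omega)⟩
  simpa using CvRes_add (CvRes_single 0 t₀) h1

theorem CvRes_y (Φ : FF c) (t₀ y₀ : Ω) (h hy) : CvRes_St (Φ.emb (.aff t₀ y₀ h hy) Φ.y) 0 y₀ := by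
  obtain ⟨R, h1, h2⟩ := Φ.aff_y t₀ y₀ h hy
  rw [h2]
  constructor
  · intro m hm
    rw [HahnSeries.ofPowerSeries_apply, HahnSeries.embDomain_of_notMem_range]
    rintro ⟨n, hn⟩
    simp at hn
    omega
  · have := HahnSeries.ofPowerSeries_apply_coeff (Γ := ℤ) R 0
    rw [Nat.cast_zero] at this
    rw [this, PowerSeries.coeff_zero_eq_constantCoeff_apply, h1]

theorem CvRes_aeval (Φ : FF c) (t₀ y₀ : Ω) (h hy) (p : Polynomial Ω) :
    CvRes_St (Φ.emb (.aff t₀ y₀ h hy) (aeval Φ.t p)) 0 (p.eval t₀) := by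
  induction p using Polynomial.induction_on' with
  | add p q hp hq => rw [map_add, map_add, eval_add]; exact CvRes_add hp hq
  | monomial n r =>
    rw [aeval_monomial, map_mul, map_pow, eval_monomial]
    exact (zero_add (0 : ℤ)) ▸ CvRes_mul (CvRes_C Φ (.aff t₀ y₀ h hy) r)
      (CvRes_pow (CvRes_t Φ t₀ y₀ h hy) n)

theorem CvRes_tsub (Φ : FF c) (t₀ y₀ : Ω) (h hy) :
    CvRes_St (Φ.emb (.aff t₀ y₀ h hy) (aeval Φ.t (X - C t₀))) 1 1 := by
  rw [map_sub, aeval_X, aeval_C, map_sub, Φ.aff_t, AlgHom.commutes, algebraMap_laurent,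
    add_sub_cancel_left]
  exact CvRes_single 1 1

theorem CvRes_hz {t₀ y₀ : Ω} (h : y₀ ^ a = c.Φ.eval t₀) (r : ℕ) :
    (c.ζ ^ r * y₀) ^ a = c.Φ.eval t₀ := by
  rw [mul_pow, ← pow_mul, mul_comm r a, pow_mul, c.hζ.pow_eq_one, one_pow, one_mul, h]

theorem CvRes_hz' {y₀ : Ω} (hy : y₀ ≠ 0) (r : ℕ) : c.ζ ^ r * y₀ ≠ 0 :=
  mul_ne_zero (pow_ne_zero _ (c.hζ.ne_zero (NeZero.ne a))) hy

theorem CvRes_τ [CharZero Ω] (Φ : FF c) (t₀ : Ω) (r : ℕ) : ∀ (y₀ y₁ : Ω) (h hy h' hy') (f : Φ.F),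
    y₁ = c.ζ ^ r * y₀ →
      Φ.emb (.aff t₀ y₀ h hy) ((Φ.τ ^ r) f) = Φ.emb (.aff t₀ y₁ h' hy') f := by
  induction r with
  | zero =>
    intro y₀ y₁ h hy h' hy' f e
    rw [pow_zero, one_mul] at e
    subst e
    rfl
  | succ r ih =>
    intro y₀ y₁ h hy h' hy' f e
    rw [pow_succ, AlgEquiv.mul_apply,
      ih y₀ _ h hy (CvRes_hz h r) (CvRes_hz' hy r) _ rfl]
    have e' : y₁ = c.ζ * (c.ζ ^ r * y₀) := by rw [e]; ring
    subst e'
    exact Φ.emb_τ_aff _ _ _ _ _ _ f

theorem CvRes_poly [CharZero Ω] [IsAlgClosed Ω] (Φ : FF c) (n : ℤ) {g : Φ.F}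
    (hg : g ∈ Φ.L (brD 0 + infD n)) :
    ∃ p : Fin a → Polynomial Ω, g = ∑ j, aeval Φ.t (p j) * Φ.y ^ (j : ℕ) := by
  rw [Φ.L_eq_span] at hg
  induction hg using Submodule.span_induction with
  | mem f hf =>
    obtain ⟨j, e, -, rfl⟩ := hf
    refine ⟨Pi.single j (X ^ e), ?_⟩
    have h0 : ((0 : ℤ) + (j : ℕ)) / (a : ℤ) = 0 :=
      Int.ediv_eq_zero_of_lt (by omega) (by have := j.2; omega)
    rw [Finset.sum_eq_single j]
    · rw [zero_add] at h0
      simp [FF.bas, h0]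
    · intro i _ hi
      simp [Pi.single_eq_of_ne hi]
    · simp
  | zero => exact ⟨0, by simp⟩
  | add f g _ _ hf hg =>
    obtain ⟨p, rfl⟩ := hf
    obtain ⟨q, rfl⟩ := hg
    exact ⟨p + q, by simp [add_mul, Finset.sum_add_distrib]⟩
  | smul r f _ hf =>
    obtain ⟨p, rfl⟩ := hf
    exact ⟨r • p, by simp [Finset.smul_sum]⟩

theorem CvRes_sum (m : ℕ) : 2 * ∑ j ∈ Finset.range (m + 2), (m - j) = (m + 1) * m := by
  induction m with
  | zero => simp
  | succ m ih =>
    rw [Finset.sum_range_succ']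
    simp only [Nat.add_sub_add_right, Nat.sub_zero]
    rw [mul_add, ih]
    ring

theorem CvRes_finrank [CharZero Ω] [IsAlgClosed Ω] (Φ : FF c) (ha : 2 ≤ a) :
    2 * Module.finrank Ω (Φ.L (brD 0 + infD ((a : ℤ) - 3))) = (a - 1) * (a - 2) := by
  rw [Φ.finrank_br_inf]
  have h1 : ∀ j : Fin a, (nj 0 ((a : ℤ) - 3) j + 1).toNat = a - 2 - j := by
    intro j
    have h0 : ((0 : ℤ) + (j : ℕ)) / (a : ℤ) = 0 :=
      Int.ediv_eq_zero_of_lt (by omega) (by have := j.2; omega)
    simp only [nj, Pi.zero_apply, h0, Finset.sum_const_zero]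
    omega
  simp only [h1]
  rw [Fin.sum_univ_eq_sum_range (fun j => a - 2 - j) a]
  obtain ⟨m, rfl⟩ := Nat.exists_eq_add_of_le' ha
  simpa using CvRes_sum m

theorem CvRes_pts_ne {τ : Type} [Fintype τ] (x : τ → Pt c) {P : Pt c} (h : ∀ j, P ≠ x j) :
    ptsD x P = 0 := by
  simp [ptsD, pt, h]

theorem CvRes_pts_eq {τ : Type} [Fintype τ] {x : τ → Pt c} (hx : Function.Injective x) (l : τ) :
    ptsD x (x l) = 1 := by
  classical
  simp [ptsD, pt, hx.eq_iff]

/-- evaluation at the places -/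
noncomputable def CvRes_ev (Φ : FF c) {τ : Type} (x : τ → Pt c) : Φ.F →ₗ[Ω] (τ → Ω) where
  toFun ψ l := (Φ.emb (x l) ψ).coeff 0
  map_add' f g := by funext l; simp
  map_smul' r f := by
    funext l
    rw [Algebra.smul_def, map_mul, AlgHom.commutes, algebraMap_laurent,
      HahnSeries.C_mul_eq_smul, HahnSeries.coeff_smul]
    rfl

theorem CvRes_surj [CharZero Ω] [IsAlgClosed Ω] (Φ : FF c) (k : Subfield Ω)
    (hk : c.Over k) {τ : Type} [Fintype τ] (x : τ → Pt c) (hx : IsGen k x)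
    (hinj : Function.Injective x) (n : ℤ)
    (hτ : Fintype.card τ ≤ Module.finrank Ω (Φ.L (brD 0 + infD n))) (w : τ → Ω) :
    ∃ ψ ∈ Φ.L (brD 0 + infD n), ∀ l, (Φ.emb (x l) ψ).coeff 0 = w l := by
  have := Φ.finiteDimensional_br_inf 0 n
  set W := Φ.L (brD 0 + infD n) with hW
  set W' := Φ.L (brD 0 + infD n - ptsD x) with hW'
  have hE : ∀ l, (brD 0 + infD n : Pt c → ℤ) (x l) = 0 := by
    intro l
    have := hx.1 l
    cases h : x l with
    | aff => rfl
    | br => rw [h] at this; exact this.elim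
    | inf => rw [h] at this; exact this.elim
  have hle : W' ≤ W := Φ.L_mono fun P => by
    by_cases h : ∀ j, P ≠ x j
    · simp [CvRes_pts_ne x h]
    · push Not at h
      obtain ⟨j, rfl⟩ := h
      simp [CvRes_pts_eq hinj]
  let ev : W →ₗ[Ω] (τ → Ω) := (CvRes_ev Φ x).comp W.subtype
  have hker : LinearMap.ker ev ≤ W'.comap W.subtype := by
    intro ψ hψ P m hm
    by_cases h : ∀ j, P ≠ x j
    · refine ψ.2 P m ?_
      simpa [CvRes_pts_ne x h] using hm
    · push Not at h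
      obtain ⟨j, rfl⟩ := h
      rw [Pi.sub_apply, hE, CvRes_pts_eq hinj] at hm
      rcases (show m < 0 ∨ m = 0 by omega) with h0 | rfl
      · exact ψ.2 _ m (by rw [hE]; exact h0)
      · exact congrFun (LinearMap.mem_ker.1 hψ) j
  have h1 := Submodule.finrank_mono hker
  rw [(Submodule.comapSubtypeEquivOfLe hle).finrank_eq, hW', Φ.finrank_sub_gen k hk 0 n x hx,
    ← hW] at h1
  have h2 := LinearMap.finrank_range_add_finrank_ker ev
  have h3 : LinearMap.range ev = ⊤ := by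
    apply Submodule.eq_top_of_finrank_eq
    have h4 := Submodule.finrank_le (LinearMap.range ev)
    rw [Module.finrank_fintype_fun_eq_card] at h4 ⊢
    omega
  obtain ⟨ψ, hψ⟩ := LinearMap.range_eq_top.1 h3 w
  exact ⟨ψ, ψ.2, fun l => congrFun hψ l⟩

theorem CvRes_res [CharZero Ω] [IsAlgClosed Ω] (Φ : FF c) {τ : Type} [Fintype τ] (t y : τ → Ω)
    (h : ∀ l, y l ^ a = c.Φ.eval (t l)) (hy : ∀ l, y l ≠ 0) (ht : Function.Injective t)
    {f ψ : Φ.F} (hf : f ∈ Φ.L (ptsD fun l => .aff (t l) (y l) (h l) (hy l)))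
    (hψ : ψ ∈ Φ.L (brD 0 + infD ((a : ℤ) - 3))) :
    ∑ l, (Φ.emb (.aff (t l) (y l) (h l) (hy l)) f).coeff (-1) *
      (Φ.emb (.aff (t l) (y l) (h l) (hy l)) ψ).coeff 0 / y l ^ (a - 1) = 0 := by
  classical
  set x : τ → Pt c := fun l => .aff (t l) (y l) (h l) (hy l) with hx
  have hinj : Function.Injective x := fun i j e => ht (Pt.aff.inj e).1
  have ha := NeZero.pos a
  set Q : Polynomial Ω := ∏ l, (X - C (t l)) with hQ
  have hQm : Q.Monic := monic_prod_of_monic _ _ fun l _ => monic_X_sub_C _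
  have hQd : Q.natDegree = Fintype.card τ := by
    rw [hQ, natDegree_prod_of_monic _ _ fun l _ => monic_X_sub_C _]
    simp
  have hQL : aeval Φ.t Q ∈ Φ.L (infD (Fintype.card τ) - ptsD x) := by
    rw [Φ.mem_L_iff]
    refine Or.inr fun P => ?_
    cases P with
    | aff t₀ y₀ h₀ hy₀ =>
      rw [Φ.ord_aeval_aff _ _ _ _ hQm.ne_zero]
      by_cases e : ∀ j, Pt.aff t₀ y₀ h₀ hy₀ ≠ x j
      · simp [CvRes_pts_ne x e, infD]
      · push Not at e
        obtain ⟨j, e⟩ := e
        have h1 : 0 < Q.rootMultiplicity t₀ := by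
          rw [rootMultiplicity_pos hQm.ne_zero, IsRoot, hQ, eval_prod]
          exact Finset.prod_eq_zero (Finset.mem_univ j) (by simp [(Pt.aff.inj e).1])
        rw [Pi.sub_apply, e, CvRes_pts_eq hinj]
        simp only [hx, infD]
        omega
    | br i =>
      rw [Φ.ord_aeval_br _ hQm.ne_zero, Pi.sub_apply, CvRes_pts_ne x (fun j => by simp [hx])]
      simp only [infD]
      positivity
    | inf s hs =>
      rw [Φ.ord_aeval_inf _ _ hQm.ne_zero, Pi.sub_apply, CvRes_pts_ne x (fun j => by simp [hx]),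
        hQd]
      simp [infD]
  have hg : aeval Φ.t Q * f * ψ ∈ Φ.L (brD 0 + infD ((Fintype.card τ : ℤ) + a - 3)) := by
    convert Φ.mul_mem_L_add (Φ.mul_mem_L_add hQL hf) hψ using 2
    funext P
    cases P <;> simp [brD, infD]
    ring
  obtain ⟨p, hp⟩ := CvRes_poly Φ _ hg
  let j₀ : Fin a := ⟨a - 1, by omega⟩
  have hdeg : p j₀ = 0 ∨ ((p j₀).natDegree : ℤ) + (a - 1 : ℕ) ≤ (Fintype.card τ : ℤ) + a - 3 := by
    refine (Φ.coord_inf p _).1 (fun s hs m hm => ?_) j₀
    rw [← hp]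
    exact hg _ m (by simpa [brD, infD] using hm)
  have hlag : ∑ l, (p j₀).eval (t l) / ∏ j ∈ Finset.univ.erase l, (t l - t j) = 0 := by
    rcases hdeg with h0 | h0
    · simp [h0]
    · rw [← Lagrange.coeff_eq_sum ht.injOn]
      · exact coeff_eq_zero_of_natDegree_lt (by rw [Finset.card_univ]; omega)
      · refine degree_le_natDegree.trans_lt ?_
        rw [Finset.card_univ]
        exact_mod_cast (by omega : (p j₀).natDegree < Fintype.card τ)
  -- the coefficient of `g` at a place over `t l`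
  have hco : ∀ l y' h' hy', (Φ.emb (.aff (t l) y' h' hy') (aeval Φ.t Q * f * ψ)).coeff 0 =
      (∏ j ∈ Finset.univ.erase l, (t l - t j)) * (Φ.emb (.aff (t l) y' h' hy') f).coeff (-1) *
        (Φ.emb (.aff (t l) y' h' hy') ψ).coeff 0 := by
    intro l y' h' hy'
    have e : Q = (X - C (t l)) * ∏ j ∈ Finset.univ.erase l, (X - C (t j)) :=
      (Finset.mul_prod_erase _ (fun j => X - C (t j)) (Finset.mem_univ l)).symm
    have s1 : CvRes_St (Φ.emb (.aff (t l) y' h' hy') f) (-1) _ := ⟨fun m hm => hf _ m (by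
      by_cases e : ∀ j, Pt.aff (t l) y' h' hy' ≠ x j
      · rw [CvRes_pts_ne x e]; omega
      · push Not at e
        obtain ⟨j, e⟩ := e
        rw [e, CvRes_pts_eq hinj]; omega), rfl⟩
    have s2 : CvRes_St (Φ.emb (.aff (t l) y' h' hy') ψ) 0 _ :=
      ⟨fun m hm => hψ _ m (by simpa [brD, infD] using hm), rfl⟩
    have s3 := (CvRes_mul (CvRes_mul (CvRes_mul (CvRes_tsub Φ (t l) y' h' hy')
      (CvRes_aeval Φ (t l) y' h' hy' (∏ j ∈ Finset.univ.erase l, (X - C (t j))))) s1) s2).2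
    rw [e, map_mul, map_mul, map_mul, map_mul]
    simpa [eval_prod] using s3
  have hval : ∀ l, (∏ j ∈ Finset.univ.erase l, (t l - t j)) * (Φ.emb (x l) f).coeff (-1) *
      (Φ.emb (x l) ψ).coeff 0 = a * ((p j₀).eval (t l) * y l ^ (a - 1)) := by
    intro l
    have s := congrArg (fun z => (Φ.emb (x l) z).coeff 0) (Φ.sum_τ p j₀)
    simp only [← hp] at s
    rw [map_sum, HahnSeries.coeff_sum, Finset.sum_eq_single 0] at s
    · have s4 := (CvRes_mul (CvRes_C Φ (x l) (a : Ω)) (CvRes_mul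
        (CvRes_aeval Φ (t l) (y l) (h l) (hy l) (p j₀))
        (CvRes_pow (CvRes_y Φ (t l) (y l) (h l) (hy l)) (a - 1)))).2
      rw [← s4, ← hco]
      simpa using s
    · intro r hr hr0
      rw [map_mul, AlgHom.commutes, algebraMap_laurent, HahnSeries.C_mul_eq_smul,
        HahnSeries.coeff_smul, CvRes_τ Φ (t l) r (y l) _ (h l) (hy l) (CvRes_hz (h l) r)
          (CvRes_hz' (hy l) r) _ rfl, hco, hf _ (-1), mul_zero, zero_mul, smul_zero]
      rw [CvRes_pts_ne x]
      · omega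
      · intro j e
        obtain ⟨e1, e2⟩ := Pt.aff.inj e
        obtain rfl := ht e1
        have e3 : c.ζ ^ r = 1 := mul_right_cancel₀ (hy l) (by rw [one_mul]; exact e2)
        exact c.hζ.pow_ne_one_of_pos_of_lt hr0 (Finset.mem_range.1 hr) e3
    · intro h0
      exact absurd (Finset.mem_range.2 ha) h0
  rw [← mul_zero (a : Ω), ← hlag, Finset.mul_sum]
  refine Finset.sum_congr rfl fun l _ => ?_
  have h1 : ∏ j ∈ Finset.univ.erase l, (t l - t j) ≠ 0 :=
    Finset.prod_ne_zero_iff.2 fun j hj => sub_ne_zero.2 fun e => (Finset.mem_erase.1 hj).1 (ht e).symm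
  have h2 := pow_ne_zero (a - 1) (hy l)
  have h3 := hval l
  field_simp
  simp only [hx] at h3
  linear_combination h3

theorem FF.const_of_mem_gen [CharZero Ω] [IsAlgClosed Ω] (Φ : FF c) (k : Subfield Ω)
    (hk : c.Over k) {τ : Type} [Fintype τ] (x : τ → Pt c) (hx : IsGen k x)
    (hτ : 2 * Fintype.card τ ≤ (a - 1) * (a - 2)) {f : Φ.F} (hf : f ∈ Φ.L (ptsD x)) :
    ∃ r, f = algebraMap Ω Φ.F r := by
  classical
  have hex : ∀ l, ∃ (t y : Ω) (h : y ^ a = c.Φ.eval t) (hy : y ≠ 0), x l = .aff t y h hy := by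
    intro l
    have := hx.1 l
    cases h : x l with
    | aff t y h' hy => exact ⟨t, y, h', hy, rfl⟩
    | br => rw [h] at this; exact this.elim
    | inf => rw [h] at this; exact this.elim
  choose t y h hy hxe using hex
  obtain rfl : x = fun l => .aff (t l) (y l) (h l) (hy l) := funext hxe
  have ht : Function.Injective t := hx.2.injective
  set x : τ → Pt c := fun l => .aff (t l) (y l) (h l) (hy l) with hxd
  have hinj : Function.Injective x := fun i j e => ht (Pt.aff.inj e).1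
  have hr : ∀ l, (Φ.emb (x l) f).coeff (-1) = 0 := by
    intro l
    have hpos : 0 < Fintype.card τ := Fintype.card_pos_iff.2 ⟨l⟩
    have ha : 2 ≤ a := by
      by_contra h2
      rw [show a - 2 = 0 by omega] at hτ
      omega
    obtain ⟨ψ, hψ, hev⟩ := CvRes_surj Φ k hk x hx hinj ((a : ℤ) - 3)
      (by have := CvRes_finrank Φ ha; omega) (Pi.single l 1)
    have h1 := CvRes_res Φ t y h hy ht hf hψ
    rw [Finset.sum_eq_single l] at h1
    · rw [hev l, Pi.single_eq_same, mul_one, div_eq_zero_iff] at h1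
      exact h1.resolve_right (pow_ne_zero _ (hy l))
    · intro j _ hj
      rw [hev j, Pi.single_eq_of_ne hj, mul_zero, zero_div]
    · simp
  refine Φ.const_of_mem_zero fun P m hm => ?_
  by_cases e : ∀ j, P ≠ x j
  · exact hf P m (by rw [CvRes_pts_ne x e]; exact hm)
  · push Not at e
    obtain ⟨j, rfl⟩ := e
    have hm' : m < 0 := by simpa using hm
    rcases (show m < -1 ∨ m = -1 by omega) with h0 | rfl
    · exact hf _ m (by rw [CvRes_pts_eq hinj]; exact h0)
    · exact hr j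

end Crest.Agent.R181
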