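import Crest.Agent.R181.CvRR
import Crest.Agent.R181.CvRes

/-! Row 181: translates of a generic class are conjugate (task CvConj). -/

set_option autoImplicit false

namespace Crest.Agent.R181

open Polynomial

variable {Ω : Type} [Field Ω] {a : ℕ} [NeZero a] {c : CD Ω a}

namespace CvConj

/-- the elements algebraic over `k(S)` -/
noncomputable def acl (k : Subfield Ω) (S : Set Ω) : Subfield Ω :=
  (algebraicClosure (IntermediateField.adjoin k S) Ω).toSubfield

theorem mem_acl {k : Subfield Ω} {S : Set Ω} {z : Ω} :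
    z ∈ acl k S ↔ IsAlgebraic (IntermediateField.adjoin k S) z := mem_algebraicClosure_iff

theorem acl_of_mem {k : Subfield Ω} {S : Set Ω} {z : Ω} (h : z ∈ IntermediateField.adjoin k S) :
    z ∈ acl k S := mem_acl.2 (isAlgebraic_algebraMap (⟨z, h⟩ : IntermediateField.adjoin k S))

theorem le_acl {k : Subfield Ω} {S : Set Ω} {z : Ω} (h : z ∈ k) : z ∈ acl k S :=
  acl_of_mem ((IntermediateField.adjoin k S).algebraMap_mem ⟨z, h⟩)

theorem sub_acl {k : Subfield Ω} {S : Set Ω} {z : Ω} (h : z ∈ S) : z ∈ acl k S :=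
  acl_of_mem (IntermediateField.subset_adjoin k S h)

theorem acl_pow {k : Subfield Ω} {S : Set Ω} {z : Ω} {n : ℕ} (hn : 0 < n) (h : z ^ n ∈ acl k S) :
    z ∈ acl k S := mem_acl.2 ((mem_acl.1 h).of_pow hn)

theorem acl_alg {k : Subfield Ω} {S : Set Ω} {z : Ω} (h : IsAlgebraic (acl k S) z) :
    IsAlgebraic (Algebra.adjoin k S) z := by
  have h' : IsAlgebraic (algebraicClosure (IntermediateField.adjoin k S) Ω) z := h
  exact IntermediateField.isAlgebraic_adjoin_iff.1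
    (h'.restrictScalars (IntermediateField.adjoin k S))

theorem acl_indep {k : Subfield Ω} {S : Set Ω} {ι : Type} {v : ι → Ω}
    (h : AlgebraicIndependent (Algebra.adjoin k S) v) : AlgebraicIndependent (acl k S) v :=
  (IntermediateField.algebraicIndependent_adjoin_iff.2 h).algebraicClosure

theorem over_mono {k k' : Subfield Ω} (hk : c.Over k) (h : ∀ z ∈ k, z ∈ k') : c.Over k' :=
  ⟨fun i => h _ (hk.1 i), h _ hk.2.1, fun s hs => h _ (hk.2.2 s hs)⟩

theorem eval_mem {k : Subfield Ω} (hk : c.Over k) {t : Ω} (ht : t ∈ k) : c.Φ.eval t ∈ k := by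
  simp only [CD.Φ, eval_mul, eval_C, eval_prod, eval_sub, eval_X]
  exact mul_mem hk.2.1 (prod_mem fun i _ => sub_mem ht (hk.1 i))

theorem coeff_mem {k : Subfield Ω} (hk : c.Over k) (n : ℕ) : c.Φ.coeff n ∈ k := by
  have : c.Φ = (C (⟨c.T, hk.2.1⟩ : k) * ∏ i, (X - C (⟨c.b i, hk.1 i⟩ : k))).map k.subtype := by
    simp only [CD.Φ, Polynomial.map_mul, map_C, Polynomial.map_prod, Polynomial.map_sub, map_X]
    rfl
  rw [this, coeff_map]
  exact Subtype.property _

theorem eval_b : c.Φ.eval (c.b 0) = 0 := by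
  simp only [CD.Φ, eval_mul, eval_C, eval_prod, eval_sub, eval_X]
  rw [Finset.prod_eq_zero (Finset.mem_univ 0) (sub_self _), mul_zero]

theorem deriv_b : c.Φ.derivative.eval (c.b 0) ≠ 0 := by
  unfold CD.Φ
  rw [← Finset.mul_prod_erase _ _ (Finset.mem_univ (0 : ZMod a))]
  simp only [derivative_mul, derivative_C, zero_mul, zero_add, derivative_sub, derivative_X,
    sub_zero, one_mul, eval_mul, eval_C, eval_add, eval_sub, eval_X, sub_self, add_zero, eval_prod]
  refine mul_ne_zero c.hT (Finset.prod_ne_zero_iff.2 fun i hi => sub_ne_zero.2 fun h => ?_)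
  exact (Finset.mem_erase.1 hi).1 (c.hb h).symm

theorem aff_ex {P : Pt c} (h : P.IsAff) : ∃ y h hy, P = .aff P.tc y h hy := by
  cases P with
  | aff t y h' hy => exact ⟨y, h', hy, rfl⟩
  | br i => exact h.elim
  | inf s h' => exact h.elim

theorem act_aff (σ : Sym c) {t y t' y' : Ω} {h hy h' hy'} (e1 : σ.ρ t = t') (e2 : σ.ρ y = y') :
    σ.act (.aff t y h hy) = .aff t' y' h' hy' := by
  subst e1 e2
  rfl

theorem act_tc (σ : Sym c) {P : Pt c} (h : P.IsAff) : (σ.act P).tc = σ.ρ P.tc := by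
  cases P with
  | aff t y h hy => rfl
  | br i => exact h.elim
  | inf s h' => exact h.elim

theorem act_fix (σ : Sym c) {k : Subfield Ω} {S : Set Ω} (hk : c.Over k)
    (hσ : ∀ z ∈ acl k S, σ.ρ z = z) {P : Pt c} (h : P.IsAff) (hP : P.tc ∈ S) : σ.act P = P := by
  cases P with
  | aff t y h' hy =>
    have ht : t ∈ acl k S := sub_acl hP
    have hy' : y ∈ acl k S :=
      acl_pow (NeZero.pos a) (h' ▸ eval_mem (over_mono hk fun z => le_acl) ht)
    exact act_aff σ (hσ t ht) (hσ y hy')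
  | br i => exact h.elim
  | inf s h' => exact h.elim

theorem pt_act (σ : Sym c) {Q : Pt c} (hQ : σ.act Q = Q) (P : Pt c) :
    pt Q (σ.act P) = pt Q P := by
  unfold pt
  have : σ.act P = Q ↔ P = Q :=
    ⟨fun h => σ.act_bijective.1 (h.trans hQ.symm), fun h => h ▸ (h ▸ hQ)⟩
  by_cases h : P = Q
  · rw [if_pos h, if_pos (this.2 h)]
  · rw [if_neg h, if_neg fun h' => h (this.1 h')]

theorem pt_nonneg (Q P : Pt c) : 0 ≤ pt Q P := by
  unfold pt
  split_ifs <;> norm_num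

theorem ptsD_self {τ : Type} [Fintype τ] (x : τ → Pt c) (l : τ) : ptsD x (x l) ≠ 0 := by
  unfold ptsD
  rw [Finset.sum_apply]
  have h1 := Finset.single_le_sum (f := fun j => pt (x j) (x l)) (fun j _ => pt_nonneg _ _)
    (Finset.mem_univ l)
  have h2 : pt (x l) (x l) = 1 := if_pos rfl
  omega

theorem ptsD_nonneg {τ : Type} [Fintype τ] (x : τ → Pt c) (P : Pt c) : 0 ≤ ptsD x P := by
  unfold ptsD
  rw [Finset.sum_apply]
  exact Finset.sum_nonneg fun j _ => pt_nonneg _ _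

theorem ptsD_ne {τ : Type} [Fintype τ] {x : τ → Pt c} {P : Pt c} (h : ptsD x P ≠ 0) :
    ∃ l, P = x l := by
  by_contra hne
  apply h
  unfold ptsD
  rw [Finset.sum_apply]
  exact Finset.sum_eq_zero fun j _ => if_neg fun e => hne ⟨j, e⟩

theorem act_inv (σ : Sym c) {D : Pt c → ℤ} (h : ∀ P, D P ≠ 0 → σ.act P = P) (P : Pt c) :
    D (σ.act P) = D P := by
  by_cases h1 : D P = 0
  · by_contra h2
    have h3 := σ.act_bijective.1 (h _ (h1 ▸ h2))
    exact h2 (by rw [h3])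
  · rw [h P h1]

/-- an effective divisor moving `x` is rigid -/
theorem rigid [CharZero Ω] [IsAlgClosed Ω] (Φ : FF c) (k : Subfield Ω) (hk : c.Over k)
    {τ : Type} [Fintype τ] (x : τ → Pt c) (hx : IsGen k x)
    (hτ : 2 * Fintype.card τ ≤ (a - 1) * (a - 2)) {h : Φ.F} (h0 : h ≠ 0) (σ : Sym c)
    (hσ : ∀ P, Φ.div h (σ.act P) + ptsD x (σ.act P) = Φ.div h P + ptsD x P) (l : τ) :
    ∃ l', σ.act (x l) = x l' := by
  have h1 : Φ.aut σ h ≠ 0 := (_root_.map_ne_zero _).2 h0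
  have h2 : ∀ Q, Φ.ord Q (h * (Φ.aut σ h)⁻¹) = ptsD (fun j => σ.act (x j)) Q - ptsD x Q := by
    intro Q
    obtain ⟨P, rfl⟩ := σ.act_bijective.2 Q
    have := hσ P
    unfold FF.div at this
    rw [Φ.ord_mul _ h0 (inv_ne_zero h1), Φ.ord_inv, Φ.ord_aut, ptsD_act]
    omega
  obtain ⟨r, hr⟩ := Φ.const_of_mem_gen k hk x hx hτ (f := h * (Φ.aut σ h)⁻¹)
    ((Φ.mem_L_iff _ _).2 (Or.inr fun Q => by
      have := ptsD_nonneg (fun j => σ.act (x j)) Q
      rw [h2]
      omega))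
  have h3 := h2 (σ.act (x l))
  rw [hr, Φ.ord_C] at h3
  have h4 := ptsD_self (fun j => σ.act (x j)) l
  exact ptsD_ne (by omega)

theorem core [CharZero Ω] [IsAlgClosed Ω] (Φ : FF c) (k : Subfield Ω)
    (hk : c.Over k) {τ : Type} [Fintype τ] (x : τ → Pt c) (hx : IsGen k x)
    (hτ : 2 * Fintype.card τ = (a - 1) * (a - 2)) (i j : ZMod a) :
    ∃ σ : Sym c, σ.sh = 0 ∧ (∀ z ∈ k, σ.ρ z = z) ∧ ∃ h : Φ.F, h ≠ 0 ∧
      Φ.div h = ptsD x - ptsD (fun l => σ.act (x l)) - pt (.br i) + pt (.br j) := by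
  classical
  obtain ⟨h, h0, hL⟩ := Φ.exists_mem_L_move x hx.1 hx.2.injective hτ i j
  obtain ⟨D, hD⟩ : ∃ D : Pt c → ℤ, D = Φ.div h + ptsD x + pt (.br j) - pt (.br i) := ⟨_, rfl⟩
  have hDP : ∀ P, D P = Φ.div h P + ptsD x P + pt (.br j) P - pt (.br i) P := fun P => by
    rw [hD]; rfl
  have hD0 : ∀ P, 0 ≤ D P := by
    intro P
    have h1 := ((Φ.mem_L_iff _ _).1 hL).resolve_left h0 P
    have h2 : Φ.div h P = Φ.ord P h := rfl
    simp only [Pi.add_apply, Pi.sub_apply] at h1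
    rw [hDP]
    omega
  have f1 : Function.HasFiniteSupport (Φ.div h) := Φ.finite_support_div h
  have f2 : Function.HasFiniteSupport (ptsD x) := finite_support_ptsD x
  have f3 : Function.HasFiniteSupport (pt (.br j : Pt c)) := finite_support_pt _
  have f4 : Function.HasFiniteSupport (pt (.br i : Pt c)) := finite_support_pt _
  have hfin : (Function.support D).Finite := hD ▸ ((f1.add f2).add f3).sub f4
  have hsum : ∑ P ∈ hfin.toFinset, D P = Fintype.card τ := by
    rw [← finsum_eq_sum D hfin]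
    simp only [hDP]
    rw [finsum_sub_distrib (f := fun P => Φ.div h P + ptsD x P + pt (.br j) P)
        ((f1.add f2).add f3) f4,
      finsum_add_distrib (f := fun P => Φ.div h P + ptsD x P) (f1.add f2) f3,
      finsum_add_distrib f1 f2, Φ.finsum_div, finsum_ptsD, finsum_pt, finsum_pt]
    ring
  obtain ⟨A, hA⟩ : ∃ A : Finset (Pt c), A = hfin.toFinset.filter Pt.IsAff := ⟨_, rfl⟩
  have hmA : ∀ P, P ∈ A ↔ D P ≠ 0 ∧ P.IsAff := fun P => by
    rw [hA, Finset.mem_filter, Set.Finite.mem_toFinset, Function.mem_support]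
  have halg : ∀ l, IsAlgebraic (Algebra.adjoin k (Set.range fun P : A => P.1.tc)) (x l).tc := by
    intro l
    refine acl_alg (isAlgebraic_of_finite_orbit _ _
      ((Set.finite_range fun l => (x l).tc).subset ?_))
    rintro t' ⟨ρ, hρ, rfl⟩
    obtain ⟨σ, rfl, -, hσ⟩ := exists_sym_of_fix _ (over_mono hk fun z => le_acl) ρ hρ
    have hfix : ∀ P, D P ≠ 0 → σ.act P = P := fun P hP => by
      by_cases hPa : P.IsAff
      · exact act_fix σ hk hρ hPa ⟨⟨P, (hmA P).2 ⟨hP, hPa⟩⟩, rfl⟩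
      · exact hσ P hPa
    obtain ⟨l', hl'⟩ := rigid Φ k hk x hx hτ.le h0 σ (fun P => by
      have h1 := act_inv σ hfix P
      rw [hDP, hDP, pt_act σ (hσ (.br j) id), pt_act σ (hσ (.br i) id)] at h1
      omega) l
    exact ⟨l', by rw [← act_tc σ (hx.1 l), hl']⟩
  obtain ⟨c1, c2⟩ := card_le_of_alg _ _ hx.2 halg
  rw [Fintype.card_coe] at c1 c2
  have hind : ∀ P, ptsD (fun Q : A => Q.1) P = if P ∈ A then 1 else 0 := by
    intro P
    unfold ptsD pt
    rw [Finset.sum_apply, Finset.sum_coe_sort A (fun Q => if P = Q then (1 : ℤ) else 0),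
      Finset.sum_ite_eq]
  have hle : ∀ P, (if P ∈ A then (1 : ℤ) else 0) ≤ D P := by
    intro P
    have := hD0 P
    split_ifs with h1
    · have := ((hmA P).1 h1).1
      omega
    · exact this
  have hAs : ∑ P ∈ hfin.toFinset, (if P ∈ A then (1 : ℤ) else 0) = A.card := by
    rw [Finset.sum_boole, Finset.filter_mem_eq_inter,
      Finset.inter_eq_right.2 (hA ▸ Finset.filter_subset _ _)]
  have hs1 := Finset.sum_le_sum fun P (_ : P ∈ hfin.toFinset) => hle P
  have hcard : A.card = Fintype.card τ := by omega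
  have hDA : D = ptsD (fun Q : A => Q.1) := by
    funext P
    rw [hind]
    by_cases hP : P ∈ hfin.toFinset
    · exact ((Finset.sum_eq_sum_iff_of_le fun P _ => hle P).1 (by omega) P hP).symm
    · rw [Set.Finite.mem_toFinset, Function.mem_support, not_not] at hP
      rw [if_neg fun h1 => ((hmA P).1 h1).1 hP, hP]
  let e : τ ≃ A := Fintype.equivOfCardEq (by rw [Fintype.card_coe, hcard])
  choose y hy1 hy2 hy using fun l => aff_ex (hx.1 l)
  choose y' hy1' hy2' hy' using fun l => aff_ex ((hmA _).1 (e l).2).2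
  obtain ⟨ρ, hρ, hρ'⟩ := exists_aut_tuple k (NeZero.pos a) c.Φ (coeff_mem hk) (c.b 0) (hk.1 0)
    eval_b deriv_b (fun l => (x l).tc) (fun l => (e l).1.tc) y y' hx.2
    ((c2 hcard.le).comp e e.injective) hy1 hy1'
  obtain ⟨σ, rfl, hsh, -⟩ := exists_sym_of_fix k hk ρ hρ
  refine ⟨σ, hsh, hρ, h⁻¹, inv_ne_zero h0, ?_⟩
  have hact : ∀ l, σ.act (x l) = (e l).1 := fun l => by
    rw [hy l, hy' l]
    exact act_aff σ (hρ' l).1 (hρ' l).2
  have he : ptsD (fun l => σ.act (x l)) = D := by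
    rw [hDA]
    unfold ptsD
    simp only [hact]
    exact Equiv.sum_comp e (fun Q : A => pt Q.1)
  rw [he]
  funext P
  have h1 : Φ.div h⁻¹ P = -Φ.div h P := Φ.ord_inv P h
  simp only [Pi.add_apply, Pi.sub_apply]
  rw [h1, hDP]
  ring

end CvConj

theorem FF.exists_conj [CharZero Ω] [IsAlgClosed Ω] (Φ : FF c) (k : Subfield Ω)
    (hk : c.Over k) {τ : Type} [Fintype τ] (x : τ → Pt c) (hx : IsGen k x)
    (hτ : (a - 1) * (a - 2) ≤ 2 * Fintype.card τ) (i j : ZMod a) :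
    ∃ σ : Sym c, σ.sh = 0 ∧ (∀ z ∈ k, σ.ρ z = z) ∧ ∃ h : Φ.F, h ≠ 0 ∧
      Φ.div h = ptsD x - ptsD (fun l => σ.act (x l)) - pt (.br i) + pt (.br j) := by
  classical
  obtain ⟨m, hm⟩ : ∃ m, (a - 1) * (a - 2) = m + m := by
    rcases Nat.lt_or_ge a 2 with h | h
    · exact ⟨0, by rw [show a - 1 = 0 by omega, zero_mul, add_zero]⟩
    · obtain ⟨m, hm⟩ := Nat.even_mul_succ_self (a - 2)
      exact ⟨m, by rw [← hm, mul_comm, show a - 2 + 1 = a - 1 by omega]⟩
  obtain ⟨s, -, hs⟩ := Finset.exists_subset_card_eq (s := (Finset.univ : Finset τ)) (n := m)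
    (by rw [Finset.card_univ]; omega)
  have hg : IsGen (CvConj.acl k ((fun l => (x l).tc) '' (sᶜ : Set τ))) (fun l : s => x l) :=
    ⟨fun l => hx.1 l, CvConj.acl_indep (hx.2.adjoin_of_disjoint (t := (s : Set τ))
      disjoint_compl_left)⟩
  obtain ⟨σ, hsh, hσ, h, h0, hh⟩ := CvConj.core Φ _ (CvConj.over_mono hk fun z => CvConj.le_acl)
    _ hg (by rw [Fintype.card_coe]; omega) i j
  refine ⟨σ, hsh, fun z hz => hσ z (CvConj.le_acl hz), h, h0, ?_⟩
  rw [hh]
  congr 2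
  unfold ptsD
  rw [← Finset.sum_sub_distrib, ← Finset.sum_sub_distrib,
    Finset.sum_coe_sort s (fun l => pt (x l) - pt (σ.act (x l)))]
  refine Finset.sum_subset (Finset.subset_univ s) fun l _ hl => ?_
  rw [CvConj.act_fix σ hk hσ (hx.1 l) ⟨l, hl, rfl⟩, sub_self]

end Crest.Agent.R181
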