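import Crest.Agent.R181.CvVal

/-! Row 181: orders in terms of the coordinates in the basis of powers of y (task CvCoord). -/

set_option autoImplicit false

namespace Crest.Agent.R181

open Polynomial

variable {Ω : Type} [Field Ω] {a : ℕ} [NeZero a] {c : CD Ω a}

namespace FF

variable (Φ : FF c)

theorem CvCoord_van (P : Pt c) (f : Φ.F) (n : ℤ) :
    (∀ m < n, (Φ.emb P f).coeff m = 0) ↔ f = 0 ∨ n ≤ Φ.ord P f := by
  constructor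
  · intro h
    by_cases hf : f = 0
    · exact Or.inl hf
    refine Or.inr (not_lt.1 fun hlt => ?_)
    have h1 : Φ.emb P f ≠ 0 := (map_ne_zero (Φ.emb P)).2 hf
    exact h1 (HahnSeries.coeff_order_eq_zero.1 (h _ hlt))
  · rintro (rfl | h) m hm
    · rw [map_zero, HahnSeries.coeff_zero]
    · exact HahnSeries.coeff_eq_zero_of_lt_order (hm.trans_le h)

theorem CvCoord_sum (P : Pt c) {ι : Type} (s : Finset ι) (g : ι → Φ.F) (n : ℤ)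
    (h : ∀ j ∈ s, ∀ m < n, (Φ.emb P (g j)).coeff m = 0) :
    ∀ m < n, (Φ.emb P (∑ j ∈ s, g j)).coeff m = 0 := by
  intro m hm
  rw [map_sum, HahnSeries.coeff_sum]
  exact Finset.sum_eq_zero fun j hj => h j hj m hm

theorem CvCoord_C (P : Pt c) (r : Ω) (g : Φ.F) (m : ℤ) :
    (Φ.emb P (algebraMap Ω Φ.F r * g)).coeff m = r * (Φ.emb P g).coeff m := by
  rw [map_mul, AlgHom.commutes, algebraMap_laurent, HahnSeries.C_mul_eq_smul,
    HahnSeries.coeff_smul, smul_eq_mul]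

theorem CvCoord_distinct (P : Pt c) {ι : Type} [Fintype ι] (g : ι → Φ.F) (n : ℤ)
    (hd : ∀ i j, g i ≠ 0 → g j ≠ 0 → Φ.ord P (g i) = Φ.ord P (g j) → i = j)
    (h : ∀ m < n, (Φ.emb P (∑ j, g j)).coeff m = 0) (j : ι) : g j = 0 ∨ n ≤ Φ.ord P (g j) := by
  classical
  by_contra hc
  push Not at hc
  obtain ⟨k, hk, hmin⟩ := (Finset.univ.filter fun i => g i ≠ 0).exists_min_image
    (fun i => Φ.ord P (g i)) ⟨j, by simp [hc.1]⟩
  have hk0 : g k ≠ 0 := by simpa using hk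
  have h1 := h (Φ.ord P (g k)) ((hmin j (by simp [hc.1])).trans_lt hc.2)
  rw [map_sum, HahnSeries.coeff_sum, Finset.sum_eq_single k] at h1
  · exact (map_ne_zero (Φ.emb P)).2 hk0 (HahnSeries.coeff_order_eq_zero.1 h1)
  · intro i _ hik
    by_cases hi : g i = 0
    · rw [hi, map_zero, HahnSeries.coeff_zero]
    · exact HahnSeries.coeff_eq_zero_of_lt_order (lt_of_le_of_ne (hmin i (by simp [hi]))
        fun e => hik (hd i k hi hk0 e.symm))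
  · simp

theorem CvCoord_term (P : Pt c) {p : Polynomial Ω} (hp : p ≠ 0) (j : ℕ) :
    aeval Φ.t p * Φ.y ^ j ≠ 0 ∧
      Φ.ord P (aeval Φ.t p * Φ.y ^ j) = Φ.ord P (aeval Φ.t p) + j * Φ.ord P Φ.y := by
  have h1 := Φ.aeval_ne_zero hp
  have h2 := pow_ne_zero j Φ.y_ne_zero
  refine ⟨mul_ne_zero h1 h2, ?_⟩
  rw [Φ.ord_mul P h1 h2, ← zpow_natCast, Φ.ord_zpow]

theorem CvCoord_term_iff (P : Pt c) (p : Polynomial Ω) (j : ℕ) (n : ℤ) :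
    (aeval Φ.t p * Φ.y ^ j = 0 ∨ n ≤ Φ.ord P (aeval Φ.t p * Φ.y ^ j)) ↔
      p = 0 ∨ (p ≠ 0 ∧ n ≤ Φ.ord P (aeval Φ.t p) + j * Φ.ord P Φ.y) := by
  by_cases hp : p = 0
  · simp [hp]
  · obtain ⟨h1, h2⟩ := Φ.CvCoord_term P hp j
    rw [h2]
    tauto

theorem CvCoord_y_br (i : ZMod a) : Φ.ord (.br i) Φ.y = 1 :=
  (congrFun Φ.div_y (.br i)).trans (sub_zero (1 : ℤ))

theorem CvCoord_y_aff (t₀ y₀ : Ω) (h hy) : Φ.ord (.aff t₀ y₀ h hy) Φ.y = 0 :=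
  (congrFun Φ.div_y (.aff t₀ y₀ h hy)).trans (sub_zero (0 : ℤ))

theorem CvCoord_y_inf (s : Ω) (h) : Φ.ord (.inf s h) Φ.y = -1 :=
  (congrFun Φ.div_y (.inf s h)).trans (zero_sub (1 : ℤ))

theorem coord_br (i : ZMod a) (p : Fin a → Polynomial Ω) (n : ℤ) :
    (∀ m < n, (Φ.emb (.br i) (∑ j, aeval Φ.t (p j) * Φ.y ^ (j : ℕ))).coeff m = 0) ↔
      ∀ j, p j = 0 ∨ n ≤ a * (p j).rootMultiplicity (c.b i) + (j : ℕ) := by
  have key : ∀ j : Fin a, (aeval Φ.t (p j) * Φ.y ^ (j : ℕ) = 0 ∨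
      n ≤ Φ.ord (.br i) (aeval Φ.t (p j) * Φ.y ^ (j : ℕ))) ↔
      p j = 0 ∨ n ≤ a * (p j).rootMultiplicity (c.b i) + (j : ℕ) := by
    intro j
    rw [CvCoord_term_iff]
    by_cases hp : p j = 0
    · simp [hp]
    · rw [Φ.ord_aeval_br i hp, CvCoord_y_br, mul_one]
      tauto
  constructor
  · intro h j
    refine (key j).1 (Φ.CvCoord_distinct _ (fun j : Fin a => aeval Φ.t (p j) * Φ.y ^ (j : ℕ)) n
      (fun k l hk hl e => ?_) h j)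
    have hk0 : p k ≠ 0 := fun e => hk (by simp [e])
    have hl0 : p l ≠ 0 := fun e => hl (by simp [e])
    rw [(Φ.CvCoord_term _ hk0 _).2, (Φ.CvCoord_term _ hl0 _).2, Φ.ord_aeval_br i hk0,
      Φ.ord_aeval_br i hl0, CvCoord_y_br, mul_one, mul_one] at e
    have e1 : a * (p k).rootMultiplicity (c.b i) + (k : ℕ) =
        a * (p l).rootMultiplicity (c.b i) + (l : ℕ) := by exact_mod_cast e
    have e2 := congrArg (· % a) e1
    simp only [Nat.mul_add_mod, Nat.mod_eq_of_lt k.2, Nat.mod_eq_of_lt l.2] at e2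
    exact Fin.ext e2
  · intro h
    exact Φ.CvCoord_sum _ _ _ n fun j _ => (Φ.CvCoord_van _ _ n).2 ((key j).2 (h j))

theorem CvCoord_τ_pow (r : ℕ) :
    (Φ.τ ^ r) Φ.t = Φ.t ∧ (Φ.τ ^ r) Φ.y = algebraMap Ω Φ.F (c.ζ ^ r) * Φ.y := by
  induction r with
  | zero => simp
  | succ r ih =>
    rw [pow_succ', AlgEquiv.mul_apply, AlgEquiv.mul_apply, ih.1, ih.2, map_mul, AlgEquiv.commutes,
      Φ.τ_t, Φ.τ_y, pow_succ, map_mul, mul_assoc]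
    exact ⟨rfl, rfl⟩

theorem CvCoord_τ_term (r : ℕ) (p : Polynomial Ω) (j : ℕ) :
    (Φ.τ ^ r) (aeval Φ.t p * Φ.y ^ j) =
      algebraMap Ω Φ.F ((c.ζ ^ j) ^ r) * (aeval Φ.t p * Φ.y ^ j) := by
  obtain ⟨h1, h2⟩ := Φ.CvCoord_τ_pow r
  rw [map_mul, map_pow, h2, ← aeval_algHom_apply, h1, mul_pow, ← map_pow, ← pow_mul, ← pow_mul,
    mul_comm r j]
  ring

/-- extraction of one coordinate by averaging over `τ` -/
theorem sum_τ (p : Fin a → Polynomial Ω) (j₀ : Fin a) :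
    ∑ r ∈ Finset.range a, algebraMap Ω Φ.F ((c.ζ⁻¹) ^ (r * (j₀ : ℕ))) *
        (Φ.τ ^ r) (∑ j, aeval Φ.t (p j) * Φ.y ^ (j : ℕ)) =
      (a : Φ.F) * (aeval Φ.t (p j₀) * Φ.y ^ (j₀ : ℕ)) := by
  have hz : c.ζ ≠ 0 := c.hζ.ne_zero (NeZero.ne a)
  have h1 : ∀ r ∈ Finset.range a, algebraMap Ω Φ.F ((c.ζ⁻¹) ^ (r * (j₀ : ℕ))) *
      (Φ.τ ^ r) (∑ j, aeval Φ.t (p j) * Φ.y ^ (j : ℕ)) =
      ∑ j : Fin a, algebraMap Ω Φ.F ((c.ζ ^ (j : ℕ) * c.ζ⁻¹ ^ (j₀ : ℕ)) ^ r) *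
        (aeval Φ.t (p j) * Φ.y ^ (j : ℕ)) := by
    intro r _
    rw [map_sum, Finset.mul_sum]
    refine Finset.sum_congr rfl fun j _ => ?_
    rw [CvCoord_τ_term, ← mul_assoc, ← map_mul, mul_pow, mul_comm r, pow_mul, mul_comm (_ ^ r)]
  rw [Finset.sum_congr rfl h1, Finset.sum_comm, Finset.sum_eq_single j₀]
  · rw [← mul_pow, mul_inv_cancel₀ hz]
    simp
  · intro j _ hj
    rw [← Finset.sum_mul, ← map_sum]
    have h2 : c.ζ ^ (j : ℕ) * c.ζ⁻¹ ^ (j₀ : ℕ) ≠ 1 := fun e => hj (Fin.ext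
      (c.hζ.pow_inj j.2 j₀.2 (by
        rwa [inv_pow, mul_inv_eq_one₀ (pow_ne_zero _ hz)] at e)))
    have h3 : (c.ζ ^ (j : ℕ) * c.ζ⁻¹ ^ (j₀ : ℕ)) ^ a = 1 := by
      rw [mul_pow, pow_right_comm, pow_right_comm c.ζ⁻¹, inv_pow, c.hζ.pow_eq_one]
      simp
    have h4 := geom_sum_mul (c.ζ ^ (j : ℕ) * c.ζ⁻¹ ^ (j₀ : ℕ)) a
    rw [h3, sub_self, mul_eq_zero] at h4
    rw [h4.resolve_right (sub_ne_zero.2 h2), map_zero, zero_mul]
  · simp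

theorem CvCoord_extract [CharZero Ω] (P : Pt c) (p : Fin a → Polynomial Ω) (n : ℤ)
    (h : ∀ r : ℕ, ∀ m < n,
      (Φ.emb P ((Φ.τ ^ r) (∑ j, aeval Φ.t (p j) * Φ.y ^ (j : ℕ)))).coeff m = 0) (j : Fin a) :
    p j = 0 ∨ (p j ≠ 0 ∧ n ≤ Φ.ord P (aeval Φ.t (p j)) + (j : ℕ) * Φ.ord P Φ.y) := by
  rw [← CvCoord_term_iff, ← CvCoord_van]
  intro m hm
  have h1 := Φ.CvCoord_sum P (Finset.range a) (fun r => algebraMap Ω Φ.F ((c.ζ⁻¹) ^ (r * (j : ℕ))) *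
    (Φ.τ ^ r) (∑ j, aeval Φ.t (p j) * Φ.y ^ (j : ℕ))) n
    (fun r _ m hm => by rw [CvCoord_C, h r m hm, mul_zero]) m hm
  rw [sum_τ, ← map_natCast (algebraMap Ω Φ.F), CvCoord_C, mul_eq_zero] at h1
  exact h1.resolve_left (Nat.cast_ne_zero.2 (NeZero.ne a))

theorem coord_aff [CharZero Ω] [IsAlgClosed Ω] (t₀ : Ω) (ht : c.Φ.eval t₀ ≠ 0)
    (p : Fin a → Polynomial Ω) (n : ℤ) :
    (∀ y₀ h hy, ∀ m < n,
      (Φ.emb (.aff t₀ y₀ h hy) (∑ j, aeval Φ.t (p j) * Φ.y ^ (j : ℕ))).coeff m = 0) ↔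
      ∀ j, p j = 0 ∨ n ≤ (p j).rootMultiplicity t₀ := by
  have hz : c.ζ ≠ 0 := c.hζ.ne_zero (NeZero.ne a)
  constructor
  · intro h j
    obtain ⟨y₀, hy₀⟩ := IsAlgClosed.exists_pow_nat_eq (c.Φ.eval t₀) (NeZero.pos a)
    have hy : y₀ ≠ 0 := fun e => ht (by rw [← hy₀, e, zero_pow (NeZero.ne a)])
    have key : ∀ r : ℕ, ∀ y₀ h hy, ∀ m < n, (Φ.emb (.aff t₀ y₀ h hy)
        ((Φ.τ ^ r) (∑ j, aeval Φ.t (p j) * Φ.y ^ (j : ℕ)))).coeff m = 0 := by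
      intro r
      induction r with
      | zero => exact h
      | succ r ih =>
        intro y₁ h₁ hy₁ m hm
        rw [pow_succ', AlgEquiv.mul_apply, Φ.emb_τ_aff t₀ y₁ h₁ hy₁
          (by rw [mul_pow, c.hζ.pow_eq_one, one_mul, h₁]) (mul_ne_zero hz hy₁)]
        exact ih _ _ _ m hm
    rcases Φ.CvCoord_extract (.aff t₀ y₀ hy₀ hy) p n (fun r => key r _ _ _) j with h1 | ⟨h1, h2⟩
    · exact Or.inl h1
    · rw [Φ.ord_aeval_aff _ _ _ _ h1, CvCoord_y_aff, mul_zero, add_zero] at h2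
      exact Or.inr h2
  · intro h y₀ h₀ hy
    refine Φ.CvCoord_sum _ _ _ n fun j _ => (Φ.CvCoord_van _ _ n).2
      ((Φ.CvCoord_term_iff _ _ _ n).2 ?_)
    by_cases hp : p j = 0
    · exact Or.inl hp
    · rw [Φ.ord_aeval_aff _ _ _ _ hp, CvCoord_y_aff, mul_zero, add_zero]
      exact Or.inr ⟨hp, (h j).resolve_left hp⟩

theorem coord_inf [CharZero Ω] [IsAlgClosed Ω] (p : Fin a → Polynomial Ω) (n : ℤ) :
    (∀ s h, ∀ m < -n,
      (Φ.emb (.inf s h) (∑ j, aeval Φ.t (p j) * Φ.y ^ (j : ℕ))).coeff m = 0) ↔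
      ∀ j, p j = 0 ∨ ((p j).natDegree : ℤ) + (j : ℕ) ≤ n := by
  constructor
  · intro h j
    obtain ⟨s₀, hs₀⟩ := IsAlgClosed.exists_pow_nat_eq c.T (NeZero.pos a)
    have key : ∀ r : ℕ, ∀ s h, ∀ m < -n, (Φ.emb (.inf s h)
        ((Φ.τ ^ r) (∑ j, aeval Φ.t (p j) * Φ.y ^ (j : ℕ)))).coeff m = 0 := by
      intro r
      induction r with
      | zero => exact h
      | succ r ih =>
        intro s₁ h₁ m hm
        rw [pow_succ', AlgEquiv.mul_apply, Φ.emb_τ_inf s₁ h₁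
          (by rw [mul_pow, c.hζ.pow_eq_one, one_mul, h₁])]
        exact ih _ _ m hm
    rcases Φ.CvCoord_extract (.inf s₀ hs₀) p (-n) (fun r => key r _ _) j with h1 | ⟨h1, h2⟩
    · exact Or.inl h1
    · rw [Φ.ord_aeval_inf _ _ h1, CvCoord_y_inf] at h2
      exact Or.inr (by linarith)
  · intro h s₀ h₀
    refine Φ.CvCoord_sum _ _ _ (-n) fun j _ => (Φ.CvCoord_van _ _ (-n)).2
      ((Φ.CvCoord_term_iff _ _ _ (-n)).2 ?_)
    by_cases hp : p j = 0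
    · exact Or.inl hp
    · rw [Φ.ord_aeval_inf _ _ hp, CvCoord_y_inf]
      exact Or.inr ⟨hp, by linarith [(h j).resolve_left hp]⟩

theorem ord_br_τ (i : ZMod a) (f : Φ.F) : Φ.ord (.br i) (Φ.τ f) = Φ.ord (.br i) f := by
  by_cases hf : f = 0
  · rw [hf, map_zero]
  have hz : c.ζ ≠ 0 := c.hζ.ne_zero (NeZero.ne a)
  obtain ⟨p, q, hq, e⟩ := Φ.gen f
  have hq' := Φ.aeval_ne_zero hq
  have hf' : Φ.τ f ≠ 0 := (map_ne_zero Φ.τ).2 hf
  have e' : Φ.τ f * aeval Φ.t q = ∑ j : Fin a, aeval Φ.t (C (c.ζ ^ (j : ℕ)) * p j) * Φ.y ^ (j : ℕ) := by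
    have := congrArg Φ.τ e
    rw [map_mul, ← aeval_algHom_apply, Φ.τ_t, map_sum] at this
    rw [this]
    refine Finset.sum_congr rfl fun j _ => ?_
    have h1 := Φ.CvCoord_τ_term 1 (p j) j
    rw [pow_one, pow_one] at h1
    rw [h1, map_mul, aeval_C, mul_assoc]
  have key : ∀ n : ℤ, n ≤ Φ.ord (.br i) (Φ.τ f * aeval Φ.t q) ↔
      n ≤ Φ.ord (.br i) (f * aeval Φ.t q) := by
    intro n
    have h1 := Φ.CvCoord_van (.br i) (Φ.τ f * aeval Φ.t q) n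
    have h2 := Φ.CvCoord_van (.br i) (f * aeval Φ.t q) n
    rw [or_iff_right (mul_ne_zero hf' hq')] at h1
    rw [or_iff_right (mul_ne_zero hf hq')] at h2
    rw [← h1, ← h2, e, e', coord_br, coord_br]
    refine forall_congr' fun j => ?_
    have hC : C (c.ζ ^ (j : ℕ)) ≠ 0 := C_ne_zero.2 (pow_ne_zero _ hz)
    by_cases hp : p j = 0
    · simp [hp]
    · rw [rootMultiplicity_mul (mul_ne_zero hC hp), rootMultiplicity_C, zero_add,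
        or_iff_right hp, or_iff_right (mul_ne_zero hC hp)]
  have h3 := eq_of_forall_le_iff key
  rw [Φ.ord_mul _ hf' hq', Φ.ord_mul _ hf hq'] at h3
  exact add_right_cancel h3

end FF

end Crest.Agent.R181
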