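import Mathlib

/-! Row 181: the curve `y ^ a = T ∏ (t - b i)`, its places as embeddings into Laurent series,
and the spaces `L(E)`. -/

set_option autoImplicit false

namespace Crest.Agent.R181

open Polynomial

/-- Data of the curve. -/
structure CD (Ω : Type) [Field Ω] (a : ℕ) [NeZero a] where
  ζ : Ω
  hζ : IsPrimitiveRoot ζ a
  b : ZMod a → Ω
  hb : Function.Injective b
  T : Ω
  hT : T ≠ 0

variable {Ω : Type} [Field Ω] {a : ℕ} [NeZero a]

/-- The right-hand side `T ∏ (X - b i)`. -/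
noncomputable def CD.Φ (c : CD Ω a) : Polynomial Ω := C c.T * ∏ i, (X - C (c.b i))

/-- Places: unramified affine points, branch points, points at infinity. -/
inductive Pt (c : CD Ω a) where
  | aff (t y : Ω) (h : y ^ a = c.Φ.eval t) (hy : y ≠ 0) : Pt c
  | br (i : ZMod a) : Pt c
  | inf (s : Ω) (h : s ^ a = c.T) : Pt c

/-- A field automorphism preserving the equation of the curve. -/
structure Sym (c : CD Ω a) where
  ρ : Ω ≃+* Ω
  sh : ZMod a
  hb : ∀ i, ρ (c.b i) = c.b (i + sh)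
  hT : ρ c.T = c.T

theorem Sym.eval_Φ {c : CD Ω a} (σ : Sym c) (t : Ω) : c.Φ.eval (σ.ρ t) = σ.ρ (c.Φ.eval t) := by
  simp only [CD.Φ, eval_mul, eval_C, eval_prod, eval_sub, eval_X, map_mul, map_prod, map_sub,
    σ.hT, σ.hb]
  congr 1
  exact (Equiv.prod_comp (Equiv.addRight σ.sh) fun i => σ.ρ t - c.b i).symm

/-- The action of a symmetry on places. -/
def Sym.act {c : CD Ω a} (σ : Sym c) : Pt c → Pt c
  | .aff t y h hy => .aff (σ.ρ t) (σ.ρ y) (by rw [← map_pow, h, σ.eval_Φ])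
      ((map_ne_zero σ.ρ).2 hy)
  | .br i => .br (i + σ.sh)
  | .inf s h => .inf (σ.ρ s) (by rw [← map_pow, h, σ.hT])

/-- The `t`-coordinate of a place (junk at infinity). -/
def Pt.tc {c : CD Ω a} : Pt c → Ω
  | .aff t _ _ _ => t
  | .br i => c.b i
  | .inf _ _ => 0

/-- Unramified affine places. -/
def Pt.IsAff {c : CD Ω a} : Pt c → Prop
  | .aff _ _ _ _ => True
  | .br _ => False
  | .inf _ _ => False

/-- The curve with its branch points and points at infinity is defined over `k`. -/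
def CD.Over (c : CD Ω a) (k : Subfield Ω) : Prop :=
  (∀ i, c.b i ∈ k) ∧ c.T ∈ k ∧ ∀ s, s ^ a = c.T → s ∈ k

/-- Independent generic points over `k`. -/
def IsGen {c : CD Ω a} (k : Subfield Ω) {τ : Type} (x : τ → Pt c) : Prop :=
  (∀ j, (x j).IsAff) ∧ AlgebraicIndependent k fun j => (x j).tc

open Classical in
/-- The divisor of one place. -/
noncomputable def pt {c : CD Ω a} (P : Pt c) : Pt c → ℤ := fun Q => if Q = P then 1 else 0

/-- The divisor `∑ d i P i` on the branch points. -/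
def brD {c : CD Ω a} (d : ZMod a → ℤ) : Pt c → ℤ
  | .aff _ _ _ _ => 0
  | .br i => d i
  | .inf _ _ => 0

/-- `n` times the divisor at infinity. -/
def infD {c : CD Ω a} (n : ℤ) : Pt c → ℤ
  | .aff _ _ _ _ => 0
  | .br _ => 0
  | .inf _ _ => n

/-- The divisor of a finite family of places. -/
noncomputable def ptsD {c : CD Ω a} {τ : Type} [Fintype τ] (x : τ → Pt c) : Pt c → ℤ :=
  ∑ j, pt (x j)

/-- The function field with its expansions and automorphisms. -/
structure FF (c : CD Ω a) where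
  F : Type
  [fF : Field F]
  [aF : Algebra Ω F]
  t : F
  y : F
  hy : y ^ a = aeval t c.Φ
  gen : ∀ f : F, ∃ (p : Fin a → Polynomial Ω) (q : Polynomial Ω), q ≠ 0 ∧
    f * aeval t q = ∑ j, aeval t (p j) * y ^ (j : ℕ)
  ind : ∀ p : Fin a → Polynomial Ω, ∑ j, aeval t (p j) * y ^ (j : ℕ) = 0 → ∀ j, p j = 0
  emb : Pt c → F →ₐ[Ω] LaurentSeries Ω
  aff_t : ∀ t₀ y₀ h hy, emb (.aff t₀ y₀ h hy) t = HahnSeries.C t₀ + HahnSeries.single 1 1
  aff_y : ∀ t₀ y₀ h hy, ∃ R : PowerSeries Ω, PowerSeries.constantCoeff R = y₀ ∧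
    emb (.aff t₀ y₀ h hy) y = HahnSeries.ofPowerSeries ℤ Ω R
  br_y : ∀ i, emb (.br i) y = HahnSeries.single 1 1
  br_t : ∀ i, ∃ R : PowerSeries Ω, PowerSeries.constantCoeff R = c.b i ∧
    emb (.br i) t = HahnSeries.ofPowerSeries ℤ Ω R
  inf_t : ∀ s h, emb (.inf s h) t = HahnSeries.single (-1) 1
  inf_y : ∀ s h, ∃ R : PowerSeries Ω, PowerSeries.constantCoeff R = s ∧
    emb (.inf s h) y = HahnSeries.single (-1) 1 * HahnSeries.ofPowerSeries ℤ Ω R
  τ : F ≃ₐ[Ω] F
  τ_t : τ t = t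
  τ_y : τ y = algebraMap Ω F c.ζ * y
  aut : Sym c → F ≃+* F
  aut_C : ∀ σ r, aut σ (algebraMap Ω F r) = algebraMap Ω F (σ.ρ r)
  aut_t : ∀ σ, aut σ t = t
  aut_y : ∀ σ, aut σ y = y

attribute [instance] FF.fF FF.aF

theorem algebraMap_laurent (r : Ω) : algebraMap Ω (LaurentSeries Ω) r = HahnSeries.C r := by
  rw [HahnSeries.algebraMap_apply']
  simp

namespace FF

variable {c : CD Ω a} (Φ : FF c)

/-- Order of vanishing (junk value `0` at `f = 0`). -/
noncomputable def ord (P : Pt c) (f : Φ.F) : ℤ := (Φ.emb P f).order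

/-- The principal divisor. -/
noncomputable def div (f : Φ.F) : Pt c → ℤ := fun P => Φ.ord P f

/-- The space `L(E)`. -/
noncomputable def L (E : Pt c → ℤ) : Submodule Ω Φ.F where
  carrier := {f | ∀ P m, m < -E P → (Φ.emb P f).coeff m = 0}
  add_mem' := by
    intro f g hf hg P m hm
    rw [map_add, HahnSeries.coeff_add, hf P m hm, hg P m hm, add_zero]
  zero_mem' := by
    intro P m _
    rw [map_zero, HahnSeries.coeff_zero]
  smul_mem' := by
    intro r f hf P m hm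
    rw [Algebra.smul_def, map_mul, AlgHom.commutes, algebraMap_laurent,
      HahnSeries.C_mul_eq_smul, HahnSeries.coeff_smul, hf P m hm, smul_zero]

/-- The standard basis elements of `L(∑ d i P i + n ∞)`. -/
noncomputable def bas (d : ZMod a → ℤ) (j : Fin a) (e : ℕ) : Φ.F :=
  Φ.t ^ e * Φ.y ^ (j : ℕ) * ∏ i, (Φ.t - algebraMap Ω Φ.F (c.b i)) ^ (-((d i + (j : ℕ)) / (a : ℤ)))

end FF

/-- The degree bound of the `j`-th coordinate in `L(∑ d i P i + n ∞)`. -/
def nj (d : ZMod a → ℤ) (n : ℤ) (j : Fin a) : ℤ := n - (j : ℕ) + ∑ i, (d i + (j : ℕ)) / (a : ℤ)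

/-- The divisor `ξ + c`. -/
noncomputable def xiD {c : CD Ω a} {k : ℕ} (x : ZMod a × Fin k → Pt c) (d : ZMod a → ℤ) :
    Pt c → ℤ :=
  brD (fun i => (i.val : ℤ) + d i) + infD ((k : ℤ) - (∑ i, d i) / (a : ℤ)) - ptsD x

theorem anchor_CvDefs : True := by
  have := @CD.Φ.eq_1
  have := @Sym.act.eq_1
  have := @Sym.act.eq_2
  have := @Sym.act.eq_3
  have := @Sym.act.eq_def
  have := @Pt.tc.eq_1
  have := @Pt.tc.eq_2
  have := @Pt.tc.eq_3
  have := @Pt.tc.eq_def
  have := @Pt.IsAff.eq_1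
  have := @Pt.IsAff.eq_2
  have := @Pt.IsAff.eq_3
  have := @Pt.IsAff.eq_def
  have := @CD.Over.eq_1
  have := @IsGen.eq_1
  have := @pt.eq_1
  have := @brD.eq_1
  have := @brD.eq_2
  have := @brD.eq_3
  have := @brD.eq_def
  have := @infD.eq_1
  have := @infD.eq_2
  have := @infD.eq_3
  have := @infD.eq_def
  have := @ptsD.eq_1
  have := @FF.ord.eq_1
  have := @FF.div.eq_1
  have := @FF.L.eq_1
  have := @FF.bas.eq_1
  have := @nj.eq_1
  have := @xiD.eq_1
  trivial

/-- realise the case-splitting lemmas once -/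
theorem anchor_CvDefs' {c : CD Ω a} (σ : Sym c) (P : Pt c) (d : ZMod a → ℤ) (n : ℤ) :
    σ.act P = σ.act P ∧ P.tc = P.tc ∧ (P.IsAff ↔ P.IsAff) ∧ brD d P = brD d P ∧
      infD n P = infD n P := by
  refine ⟨?_, ?_, ?_, ?_, ?_⟩
  · conv_lhs => unfold Sym.act
    split <;> rfl
  · conv_lhs => unfold Pt.tc
    split <;> rfl
  · conv_lhs => unfold Pt.IsAff
    split <;> rfl
  · conv_lhs => unfold brD
    split <;> rfl
  · conv_lhs => unfold infD
    split <;> rfl

end Crest.Agent.R181
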