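import Crest.Agent.R181.CvCoord

/-! Row 181: principal divisors have finite support and degree zero (task CvDeg). -/

set_option autoImplicit false

namespace Crest.Agent.R181

open Polynomial

variable {Ω : Type} [Field Ω] {a : ℕ} [NeZero a] {c : CD Ω a}

namespace CvDeg

theorem fs_brD (d : ZMod a → ℤ) : (Function.support (brD d : Pt c → ℤ)).Finite := by
  refine (Set.finite_range (Pt.br : ZMod a → Pt c)).subset ?_
  rintro (_ | i | _) h
  · exact absurd rfl h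
  · exact ⟨i, rfl⟩
  · exact absurd rfl h

theorem fs_inf : {P : Pt c | ∃ s h, P = .inf s h}.Finite := by
  have h1 : {s : Ω | s ^ a = c.T}.Finite := by
    classical
    refine (Polynomial.nthRoots a c.T).toFinset.finite_toSet.subset fun s hs => ?_
    exact Multiset.mem_toFinset.2 ((Polynomial.mem_nthRoots (NeZero.pos a)).2 hs)
  have := h1.to_subtype
  refine (Set.finite_range fun s : {s : Ω | s ^ a = c.T} => (Pt.inf s.1 s.2 : Pt c)).subset ?_
  rintro _ ⟨s, h, rfl⟩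
  exact ⟨⟨s, h⟩, rfl⟩

theorem fs_infD (n : ℤ) : (Function.support (infD n : Pt c → ℤ)).Finite := by
  refine fs_inf.subset ?_
  rintro (_ | _ | ⟨s, h⟩) h
  · exact absurd rfl h
  · exact absurd rfl h
  · exact ⟨s, _, rfl⟩

theorem fs_pt (P : Pt c) : (Function.support (pt P)).Finite := by
  refine (Set.finite_singleton P).subset fun Q hQ => ?_
  by_contra h
  exact hQ (if_neg h)

theorem pt_ne {P Q : Pt c} (h : Q ≠ P) : pt P Q = 0 := if_neg h

theorem pt_self (P : Pt c) : pt P P = 1 := if_pos rfl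

theorem ptsD_apply {τ : Type} [Fintype τ] (x : τ → Pt c) (Q : Pt c) :
    ptsD x Q = ∑ j, pt (x j) Q := Finset.sum_apply _ _ _

theorem ptsD_notMem {τ : Type} [Fintype τ] (x : τ → Pt c) {Q : Pt c} (h : ∀ j, Q ≠ x j) :
    ptsD x Q = 0 := by
  rw [ptsD_apply]
  exact Finset.sum_eq_zero fun j _ => if_neg (h j)

theorem ptsD_mem {τ : Type} [Fintype τ] {x : τ → Pt c} (hx : Function.Injective x) (j : τ) :
    ptsD x (x j) = 1 := by
  rw [ptsD_apply, Finset.sum_eq_single j (fun i _ hi => pt_ne fun h => hi (hx h).symm)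
    (fun h => absurd (Finset.mem_univ j) h), pt_self]

theorem fs_ptsD {τ : Type} [Fintype τ] (x : τ → Pt c) : (Function.support (ptsD x)).Finite := by
  refine (Set.finite_range x).subset fun Q hQ => ?_
  by_contra h
  exact hQ (ptsD_notMem x fun j hj => h ⟨j, hj.symm⟩)

theorem sum_pt (P : Pt c) : ∑ᶠ Q, pt P Q = 1 := by
  rw [finsum_eq_single _ P fun Q hQ => pt_ne hQ, pt_self]

theorem sum_ptsD {τ : Type} [Fintype τ] (x : τ → Pt c) : ∑ᶠ Q, ptsD x Q = Fintype.card τ := by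
  simp only [ptsD_apply]
  rw [finsum_sum_comm _ _ fun j _ => fs_pt (x j)]
  simp [sum_pt]

theorem exists_enum [IsAlgClosed Ω] (c : CD Ω a) {w : Ω} (hw : w ≠ 0) :
    ∃ e : Fin a → Ω, Function.Injective e ∧ (∀ j, e j ^ a = w) ∧ (∀ j, e j ≠ 0) ∧
      ∀ s, s ^ a = w → ∃ j, s = e j := by
  obtain ⟨s₀, hs₀⟩ := IsAlgClosed.exists_pow_nat_eq w (NeZero.pos a)
  have h0 : s₀ ≠ 0 := by
    rintro rfl
    exact hw (by rw [← hs₀, zero_pow (NeZero.ne a)])
  refine ⟨fun j => c.ζ ^ (j : ℕ) * s₀, fun i j h => ?_, fun j => ?_, fun j => ?_, fun s hs => ?_⟩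
  · exact Fin.ext (c.hζ.pow_inj i.2 j.2 (mul_right_cancel₀ h0 h))
  · rw [mul_pow, ← pow_mul, mul_comm (j : ℕ), pow_mul, c.hζ.pow_eq_one, one_pow, one_mul, hs₀]
  · exact mul_ne_zero (pow_ne_zero _ (c.hζ.ne_zero (NeZero.ne a))) h0
  · have h1 : (s / s₀) ^ a = 1 := by rw [div_pow, hs, hs₀, div_self hw]
    obtain ⟨j, hj, e⟩ := c.hζ.eq_pow_of_pow_eq_one h1
    exact ⟨⟨j, hj⟩, by simp only [e, div_mul_cancel₀ _ h0]⟩

theorem inf_pts [IsAlgClosed Ω] : ∃ x : Fin a → Pt c, (infD 1 : Pt c → ℤ) = ptsD x := by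
  obtain ⟨e, h1, h2, -, h4⟩ := exists_enum c c.hT
  refine ⟨fun j => .inf (e j) (h2 j), funext ?_⟩
  rintro (_ | _ | ⟨s, h⟩)
  · exact (ptsD_notMem _ fun j hj => by cases hj).symm
  · exact (ptsD_notMem _ fun j hj => by cases hj).symm
  · obtain ⟨j, rfl⟩ := h4 s h
    exact (ptsD_mem (x := fun j => (.inf (e j) (h2 j) : Pt c))
      (fun i j h => h1 (Pt.inf.inj h)) j).symm

theorem sum_infD [IsAlgClosed Ω] : ∑ᶠ Q, (infD 1 : Pt c → ℤ) Q = a := by
  obtain ⟨x, hx⟩ := inf_pts (c := c)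
  rw [hx, sum_ptsD, Fintype.card_fin]

/-- the rotation of the places -/
def rot : Pt c → Pt c
  | .aff t y h hy => .aff t (c.ζ * y) (by rw [mul_pow, c.hζ.pow_eq_one, one_mul, h])
      (mul_ne_zero (c.hζ.ne_zero (NeZero.ne a)) hy)
  | .br i => .br i
  | .inf s h => .inf (c.ζ * s) (by rw [mul_pow, c.hζ.pow_eq_one, one_mul, h])

theorem rot_bij : Function.Bijective (rot : Pt c → Pt c) := by
  have hζ : c.ζ ≠ 0 := c.hζ.ne_zero (NeZero.ne a)
  have hi : c.ζ⁻¹ ^ a = 1 := by rw [inv_pow, c.hζ.pow_eq_one, inv_one]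
  constructor
  · rintro (⟨t, y, h, hy⟩ | i | ⟨s, h⟩) (⟨t', y', h', hy'⟩ | i' | ⟨s', h'⟩) e
    · obtain ⟨e1, e2⟩ := Pt.aff.inj e
      obtain rfl := mul_left_cancel₀ hζ e2
      subst e1
      rfl
    · cases e
    · cases e
    · cases e
    · exact e
    · cases e
    · cases e
    · cases e
    · obtain rfl := mul_left_cancel₀ hζ (Pt.inf.inj e)
      rfl
  · rintro (⟨t, y, h, hy⟩ | i | ⟨s, h⟩)
    · refine ⟨.aff t (c.ζ⁻¹ * y) (by rw [mul_pow, hi, one_mul, h])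
        (mul_ne_zero (inv_ne_zero hζ) hy), ?_⟩
      change Pt.aff t (c.ζ * (c.ζ⁻¹ * y)) _ _ = _
      simp only [mul_inv_cancel_left₀ hζ]
    · exact ⟨.br i, rfl⟩
    · refine ⟨.inf (c.ζ⁻¹ * s) (by rw [mul_pow, hi, one_mul, h]), ?_⟩
      change Pt.inf (c.ζ * (c.ζ⁻¹ * s)) _ = _
      simp only [mul_inv_cancel_left₀ hζ]

theorem rot_isAff {P : Pt c} (h : P.IsAff) (r : ℕ) : (rot^[r] P).IsAff := by
  induction r with
  | zero => exact h
  | succ r ih =>
    rw [Function.iterate_succ_apply']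
    generalize rot^[r] P = Q at ih
    rcases Q with _ | _ | _
    · trivial
    · exact ih
    · exact ih

variable (Φ : FF c)

theorem ord_τ [CharZero Ω] (P : Pt c) (f : Φ.F) : Φ.ord P (Φ.τ f) = Φ.ord (rot P) f := by
  rcases P with ⟨t, y, h, hy⟩ | i | ⟨s, h⟩
  · exact congrArg HahnSeries.order (Φ.emb_τ_aff t y h hy _ _ f)
  · exact Φ.ord_br_τ i f
  · exact congrArg HahnSeries.order (Φ.emb_τ_inf s h _ f)

theorem ord_τ_pow [CharZero Ω] (r : ℕ) (P : Pt c) (f : Φ.F) :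
    Φ.ord P ((Φ.τ ^ r) f) = Φ.ord (rot^[r] P) f := by
  induction r generalizing P with
  | zero => rfl
  | succ r ih => rw [pow_succ', AlgEquiv.mul_apply, ord_τ, ih, Function.iterate_succ_apply]

theorem τ_pow_t (r : ℕ) : (Φ.τ ^ r) Φ.t = Φ.t := by
  induction r with
  | zero => rfl
  | succ r ih => rw [pow_succ', AlgEquiv.mul_apply, ih, Φ.τ_t]

theorem τ_pow_y (r : ℕ) : (Φ.τ ^ r) Φ.y = algebraMap Ω Φ.F (c.ζ ^ r) * Φ.y := by
  induction r with
  | zero => simp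
  | succ r ih =>
    rw [pow_succ', AlgEquiv.mul_apply, ih, map_mul, AlgEquiv.commutes, Φ.τ_y, pow_succ, map_mul,
      mul_assoc]

theorem τ_pow_a (f : Φ.F) : (Φ.τ ^ a) f = f := by
  have := Φ.ringHom_ext ((Φ.τ ^ a : Φ.F ≃ₐ[Ω] Φ.F) : Φ.F →+* Φ.F) (RingHom.id _)
    (fun r => (Φ.τ ^ a).commutes r) (τ_pow_t Φ a)
    ((τ_pow_y Φ a).trans (by rw [c.hζ.pow_eq_one, map_one, one_mul]; rfl))
  exact RingHom.congr_fun this f

/-- the norm -/
noncomputable def nm (f : Φ.F) : Φ.F := ∏ r ∈ Finset.range a, (Φ.τ ^ r) f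

theorem nm_ne_zero {f : Φ.F} (hf : f ≠ 0) : nm Φ f ≠ 0 :=
  Finset.prod_ne_zero_iff.2 fun r _ => (map_ne_zero (Φ.τ ^ r)).2 hf

theorem τ_nm {f : Φ.F} (hf : f ≠ 0) : Φ.τ (nm Φ f) = nm Φ f := by
  have h1 := Finset.prod_range_succ (fun r => (Φ.τ ^ r) f) a
  have h2 := Finset.prod_range_succ' (fun r => (Φ.τ ^ r) f) a
  rw [h1, τ_pow_a, pow_zero, AlgEquiv.one_apply] at h2
  rw [nm, map_prod, mul_right_cancel₀ hf h2]
  exact Finset.prod_congr rfl fun r _ => by rw [pow_succ', AlgEquiv.mul_apply]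

theorem ord_nm [CharZero Ω] {f : Φ.F} (hf : f ≠ 0) (P : Pt c) :
    Φ.ord P (nm Φ f) = ∑ r ∈ Finset.range a, Φ.ord (rot^[r] P) f := by
  rw [nm, Φ.ord_prod P _ _ fun r _ => (map_ne_zero (Φ.τ ^ r)).2 hf]
  exact Finset.sum_congr rfl fun r _ => ord_τ_pow Φ r P f

theorem fixed [CharZero Ω] {f : Φ.F} (hf : Φ.τ f = f) :
    ∃ p q : Polynomial Ω, q ≠ 0 ∧ f * aeval Φ.t q = aeval Φ.t p := by
  obtain ⟨p, q, hq, e⟩ := Φ.gen f
  refine ⟨p 0, q, hq, ?_⟩
  have h1 := Φ.sum_τ p 0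
  have h2 : ∀ r : ℕ, (Φ.τ ^ r) f = f := fun r => by
    induction r with
    | zero => rfl
    | succ r ih => rw [pow_succ', AlgEquiv.mul_apply, ih, hf]
  have h3 : ∀ r : ℕ, (Φ.τ ^ r) (f * aeval Φ.t q) = f * aeval Φ.t q := fun r => by
    rw [map_mul, h2, ← Polynomial.aeval_algHom_apply, τ_pow_t]
  have hc : CharZero Φ.F := charZero_of_injective_algebraMap (algebraMap Ω Φ.F).injective
  simp only [← e, h3, Fin.val_zero, mul_zero, pow_zero, map_one, one_mul, mul_one, Finset.sum_const,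
    Finset.card_range, nsmul_eq_mul] at h1
  exact mul_left_cancel₀ (Nat.cast_ne_zero.2 (NeZero.ne a)) h1

/-- finite support and degree zero -/
def Good (f : Φ.F) : Prop :=
  f ≠ 0 ∧ (Function.support (Φ.div f)).Finite ∧ ∑ᶠ P, Φ.div f P = 0

theorem div_mul {f g : Φ.F} (hf : f ≠ 0) (hg : g ≠ 0) :
    Φ.div (f * g) = fun P => Φ.div f P + Φ.div g P := funext fun P => Φ.ord_mul P hf hg

theorem Good.mul {f g : Φ.F} (hf : Good Φ f) (hg : Good Φ g) : Good Φ (f * g) := by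
  refine ⟨mul_ne_zero hf.1 hg.1, ?_, ?_⟩
  · rw [div_mul Φ hf.1 hg.1]
    exact (hf.2.1.union hg.2.1).subset (Function.support_add _ _)
  · rw [div_mul Φ hf.1 hg.1, finsum_add_distrib hf.2.1 hg.2.1, hf.2.2, hg.2.2, add_zero]

theorem fs_of_mul {f g : Φ.F} (hf : f ≠ 0) (hg : Good Φ g)
    (h : (Function.support (Φ.div (f * g))).Finite) : (Function.support (Φ.div f)).Finite := by
  have : Φ.div f = fun P => Φ.div (f * g) P - Φ.div g P := by
    rw [div_mul Φ hf hg.1]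
    funext P
    rw [add_sub_cancel_right]
  rw [this]
  exact (h.union hg.2.1).subset (Function.support_sub _ _)

theorem Good.of_mul {f g : Φ.F} (hf : f ≠ 0) (hg : Good Φ g) (h : Good Φ (f * g)) : Good Φ f := by
  have h1 := fs_of_mul Φ hf hg h.2.1
  refine ⟨hf, h1, ?_⟩
  have h2 := h.2.2
  rwa [div_mul Φ hf hg.1, finsum_add_distrib h1 hg.2.1, hg.2.2, add_zero] at h2

theorem good_C {r : Ω} (hr : r ≠ 0) : Good Φ (algebraMap Ω Φ.F r) := by
  have : Φ.div (algebraMap Ω Φ.F r) = fun _ => 0 := funext fun P => Φ.ord_C P r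
  refine ⟨(_root_.map_ne_zero _).2 hr, ?_, ?_⟩
  · rw [this]
    simp
  · rw [this, finsum_zero]

theorem good_of_eq [IsAlgClosed Ω] {f : Φ.F} (hf : f ≠ 0) {E : Pt c → ℤ}
    (h1 : (Function.support E).Finite) (h2 : ∑ᶠ P, E P = a)
    (h : Φ.div f = fun P => E P - infD 1 P) : Good Φ f := by
  refine ⟨hf, ?_, ?_⟩
  · rw [h]
    exact (h1.union (fs_infD 1)).subset (Function.support_sub _ _)
  · rw [h, finsum_sub_distrib h1 (fs_infD 1), h2, sum_infD, sub_self]

theorem good_lin [IsAlgClosed Ω] (r : Ω) : Good Φ (aeval Φ.t (X - C r)) := by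
  have hne : aeval Φ.t (X - C r) ≠ 0 := Φ.aeval_ne_zero (X_sub_C_ne_zero r)
  by_cases hb : ∃ i, r = c.b i
  · obtain ⟨i, rfl⟩ := hb
    refine good_of_eq Φ hne (fs_brD (Pi.single i (a : ℤ))) ?_ ?_
    · rw [finsum_eq_single _ (Pt.br i)]
      · exact Pi.single_eq_same _ _
      · rintro (_ | j | _) h
        · rfl
        · exact Pi.single_eq_of_ne (fun e => h (congrArg _ e)) _
        · rfl
    · rw [map_sub, aeval_X, aeval_C]
      exact Φ.div_t_sub_b i
  · have hw : c.Φ.eval r ≠ 0 := by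
      simp only [CD.Φ, eval_mul, eval_C, eval_prod, eval_sub, eval_X]
      exact mul_ne_zero c.hT
        (Finset.prod_ne_zero_iff.2 fun i _ => sub_ne_zero.2 fun e => hb ⟨i, e⟩)
    obtain ⟨e, h1, h2, h3, h4⟩ := exists_enum c hw
    refine good_of_eq Φ hne (fs_ptsD fun j => .aff r (e j) (h2 j) (h3 j))
      (by rw [sum_ptsD, Fintype.card_fin]) (funext ?_)
    classical
    rintro (⟨t, y, h, hy⟩ | i | ⟨s, h⟩)
    · refine (Φ.ord_aeval_aff t y h hy (X_sub_C_ne_zero r)).trans ?_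
      rw [rootMultiplicity_X_sub_C]
      change _ = _ - (0 : ℤ)
      split_ifs with ht
      · subst ht
        obtain ⟨j, rfl⟩ := h4 y h
        rw [ptsD_mem (x := fun j => (.aff t (e j) (h2 j) (h3 j) : Pt c))
          (fun i j h => h1 (Pt.aff.inj h).2) j]
        rfl
      · rw [ptsD_notMem _ fun j hj => ht (Pt.aff.inj hj).1]
        rfl
    · refine (Φ.ord_aeval_br i (X_sub_C_ne_zero r)).trans ?_
      rw [rootMultiplicity_X_sub_C, if_neg fun e => hb ⟨i, e.symm⟩,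
        ptsD_notMem _ fun j hj => by cases hj]
      change _ = (0 : ℤ) - 0
      simp
    · refine (Φ.ord_aeval_inf s h (X_sub_C_ne_zero r)).trans ?_
      rw [natDegree_X_sub_C, ptsD_notMem _ fun j hj => by cases hj]
      change _ = (0 : ℤ) - 1
      simp

theorem good_poly [IsAlgClosed Ω] {p : Polynomial Ω} (hp : p ≠ 0) : Good Φ (aeval Φ.t p) := by
  have h1 : ∀ s : Multiset Ω, Good Φ (aeval Φ.t (s.map fun r => X - C r).prod) := by
    intro s
    induction s using Multiset.induction_on with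
    | empty => simpa using good_C Φ (one_ne_zero (α := Ω))
    | cons r s ih =>
      rw [Multiset.map_cons, Multiset.prod_cons, map_mul]
      exact Good.mul Φ (good_lin Φ r) ih
  rw [(IsAlgClosed.splits p).eq_prod_roots, map_mul, aeval_C]
  exact Good.mul Φ (good_C Φ (leadingCoeff_ne_zero.2 hp)) (h1 _)

theorem good_nm [CharZero Ω] [IsAlgClosed Ω] {f : Φ.F} (hf : f ≠ 0) : Good Φ (nm Φ f) := by
  obtain ⟨p, q, hq, e⟩ := fixed Φ (τ_nm Φ hf)
  have hp : p ≠ 0 := by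
    rintro rfl
    rw [map_zero] at e
    exact mul_ne_zero (nm_ne_zero Φ hf) (Φ.aeval_ne_zero hq) e
  exact Good.of_mul Φ (nm_ne_zero Φ hf) (good_poly Φ hq) (e ▸ good_poly Φ hp)

theorem ord_nonneg [CharZero Ω] [IsAlgClosed Ω] (p : Fin a → Polynomial Ω) {P : Pt c}
    (hP : P.IsAff) : 0 ≤ Φ.ord P (∑ j, aeval Φ.t (p j) * Φ.y ^ (j : ℕ)) := by
  rcases P with ⟨t, y, h, hy⟩ | _ | _
  · have h1 := (Φ.coord_aff t (h ▸ pow_ne_zero _ hy) p 0).2
      (fun j => Or.inr (Int.natCast_nonneg _)) y h hy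
    by_contra hc
    have h2 := h1 _ (not_le.1 hc)
    have h3 := HahnSeries.coeff_order_eq_zero.1 h2
    exact hc (by rw [FF.ord, h3, HahnSeries.order_zero])
  · exact hP.elim
  · exact hP.elim

theorem good [CharZero Ω] [IsAlgClosed Ω] {f : Φ.F} (hf : f ≠ 0) : Good Φ f := by
  have hfs : (Function.support (Φ.div f)).Finite := by
    obtain ⟨p, q, hq, e⟩ := Φ.gen f
    refine fs_of_mul Φ hf (good_poly Φ hq) ?_
    have hg := mul_ne_zero hf (Φ.aeval_ne_zero hq)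
    rw [e] at hg ⊢
    refine (((good_nm Φ hg).2.1.union (Set.finite_range (Pt.br : ZMod a → Pt c))).union
      fs_inf).subset fun P hP => ?_
    rcases P with ⟨t, y, h, hy⟩ | i | ⟨s, h⟩
    · refine Or.inl (Or.inl fun h0 => hP ?_)
      have h1 : Φ.ord (.aff t y h hy) (nm Φ _) = 0 := h0
      rw [ord_nm Φ hg] at h1
      exact (Finset.sum_eq_zero_iff_of_nonneg fun r _ =>
        ord_nonneg Φ p (rot_isAff (P := .aff t y h hy) trivial r)).1 h1 0
        (Finset.mem_range.2 (NeZero.pos a))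
    · exact Or.inl (Or.inr ⟨i, rfl⟩)
    · exact Or.inr ⟨s, h, rfl⟩
  refine ⟨hf, hfs, ?_⟩
  have h1 := (good_nm Φ hf).2.2
  have h2 : ∀ r : ℕ, Function.Bijective (rot^[r] : Pt c → Pt c) := fun r => rot_bij.iterate r
  simp only [FF.div, ord_nm Φ hf] at h1
  rw [finsum_sum_comm (Finset.range a) (fun P r => Φ.ord (rot^[r] P) f)
    fun r _ => hfs.preimage (h2 r).1.injOn] at h1
  have h3 : ∀ r : ℕ, ∑ᶠ P, Φ.ord (rot^[r] P) f = ∑ᶠ P, Φ.div f P := fun r =>
    finsum_comp (g := Φ.div f) (rot^[r]) (h2 r)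
  simp only [h3, Finset.sum_const, Finset.card_range, nsmul_eq_mul] at h1
  exact (mul_eq_zero.1 h1).resolve_left (Nat.cast_ne_zero.2 (NeZero.ne a))

theorem div_zero : Φ.div 0 = fun _ => 0 :=
  funext fun P => by rw [FF.div, FF.ord, map_zero, HahnSeries.order_zero]

end CvDeg

theorem FF.finite_support_div [CharZero Ω] [IsAlgClosed Ω] (Φ : FF c) (f : Φ.F) :
    (Function.support (Φ.div f)).Finite := by
  by_cases hf : f = 0
  · rw [hf, CvDeg.div_zero]
    simp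
  · exact (CvDeg.good Φ hf).2.1

theorem FF.finsum_div [CharZero Ω] [IsAlgClosed Ω] (Φ : FF c) (f : Φ.F) :
    ∑ᶠ P, Φ.div f P = 0 := by
  by_cases hf : f = 0
  · rw [hf, CvDeg.div_zero, finsum_zero]
  · exact (CvDeg.good Φ hf).2.2

theorem finite_support_brD (d : ZMod a → ℤ) : (Function.support (brD d : Pt c → ℤ)).Finite :=
  CvDeg.fs_brD d

theorem finite_support_infD (n : ℤ) : (Function.support (infD n : Pt c → ℤ)).Finite :=
  CvDeg.fs_infD n

theorem finite_support_pt (P : Pt c) : (Function.support (pt P)).Finite := CvDeg.fs_pt P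

theorem finite_support_ptsD {τ : Type} [Fintype τ] (x : τ → Pt c) :
    (Function.support (ptsD x)).Finite := CvDeg.fs_ptsD x

theorem finsum_pt (P : Pt c) : ∑ᶠ Q, pt P Q = 1 := CvDeg.sum_pt P

theorem finsum_ptsD {τ : Type} [Fintype τ] (x : τ → Pt c) :
    ∑ᶠ Q, ptsD x Q = Fintype.card τ := CvDeg.sum_ptsD x

/-- the divisor at infinity is a sum of `a` places -/
theorem exists_inf_pts [IsAlgClosed Ω] :
    ∃ x : Fin a → Pt c, (infD 1 : Pt c → ℤ) = ptsD x := CvDeg.inf_pts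

end Crest.Agent.R181
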