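import Crest.Agent.R181.CvDeg
import Crest.Agent.R181.CvBasis

/-! Row 181: adding a point changes the dimension by at most one (task CvDrop). -/

set_option autoImplicit false

namespace Crest.Agent.R181

open Polynomial

variable {Ω : Type} [Field Ω] {a : ℕ} [NeZero a] {c : CD Ω a}

theorem CvDrop_aux {V : Type} [AddCommGroup V] [Module Ω V] (φ : V →ₗ[Ω] Ω) (W U : Submodule Ω V)
    [FiniteDimensional Ω U] (h : ∀ f ∈ W, φ f = 0 → f ∈ U) :
    FiniteDimensional Ω W ∧ Module.finrank Ω W ≤ Module.finrank Ω U + 1 := by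
  obtain ⟨w, hw⟩ : ∃ w : V, W ≤ U ⊔ Submodule.span Ω {w} := by
    by_cases h0 : ∀ f ∈ W, φ f = 0
    · exact ⟨0, fun f hf => Submodule.mem_sup_left (h f hf (h0 f hf))⟩
    · push Not at h0
      obtain ⟨w, hw, hφ⟩ := h0
      refine ⟨w, fun f hf => ?_⟩
      have e : f = (f - (φ f / φ w) • w) + (φ f / φ w) • w := by abel
      rw [e]
      refine Submodule.add_mem_sup (h _ (W.sub_mem hf (W.smul_mem _ hw)) ?_)
        (Submodule.smul_mem _ _ (Submodule.mem_span_singleton_self w))
      rw [map_sub, map_smul, smul_eq_mul, div_mul_cancel₀ _ hφ, sub_self]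
  refine ⟨Submodule.finiteDimensional_of_le hw, (Submodule.finrank_mono hw).trans ?_⟩
  refine (Submodule.finrank_add_le_finrank_add_finrank _ _).trans (Nat.add_le_add_left ?_ _)
  simpa using finrank_span_le_card (R := Ω) ({w} : Set V)

/-- one coefficient of the expansion -/
noncomputable def CvDrop_coeff (Φ : FF c) (P : Pt c) (m : ℤ) : Φ.F →ₗ[Ω] Ω where
  toFun f := (Φ.emb P f).coeff m
  map_add' f g := by rw [map_add, HahnSeries.coeff_add]
  map_smul' r f := by
    rw [Algebra.smul_def, map_mul, AlgHom.commutes, algebraMap_laurent,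
      HahnSeries.C_mul_eq_smul, HahnSeries.coeff_smul, RingHom.id_apply]

theorem FF.drop (Φ : FF c) (E : Pt c → ℤ) (P : Pt c) [FiniteDimensional Ω (Φ.L (E - pt P))] :
    FiniteDimensional Ω (Φ.L E) ∧
      Module.finrank Ω (Φ.L E) ≤ Module.finrank Ω (Φ.L (E - pt P)) + 1 := by
  refine CvDrop_aux (CvDrop_coeff Φ P (-E P)) _ _ fun f hf h0 Q m hm => ?_
  by_cases hQ : Q = P
  · subst hQ
    have e : (E - pt Q) Q = E Q - 1 := by simp [pt]
    rw [e] at hm
    rcases (show m < -E Q ∨ m = -E Q by omega) with h | h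
    · exact hf Q m h
    · rw [h]; exact h0
  · have e : (E - pt P) Q = E Q := by simp [pt, hQ]
    rw [e] at hm
    exact hf Q m hm

theorem CvDrop_sum (Φ : FF c) {τ : Type} (x : τ → Pt c) (s : Finset τ) : ∀ E : Pt c → ℤ,
    FiniteDimensional Ω (Φ.L (E - ∑ j ∈ s, pt (x j))) → FiniteDimensional Ω (Φ.L E) ∧
      Module.finrank Ω (Φ.L E) ≤ Module.finrank Ω (Φ.L (E - ∑ j ∈ s, pt (x j))) + s.card := by
  classical
  induction s using Finset.induction_on with
  | empty =>
    intro E h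
    rw [Finset.sum_empty, sub_zero] at h ⊢
    exact ⟨h, le_rfl⟩
  | insert j s hj ih =>
    intro E h
    rw [Finset.sum_insert hj, ← sub_sub] at h ⊢
    obtain ⟨h1, h2⟩ := ih _ h
    obtain ⟨h3, h4⟩ := Φ.drop E (x j)
    refine ⟨h3, ?_⟩
    rw [Finset.card_insert_of_notMem hj]
    omega

theorem FF.drop_pts (Φ : FF c) (E : Pt c → ℤ) {τ : Type} [Fintype τ] (x : τ → Pt c)
    [FiniteDimensional Ω (Φ.L (E - ptsD x))] :
    FiniteDimensional Ω (Φ.L E) ∧
      Module.finrank Ω (Φ.L E) ≤ Module.finrank Ω (Φ.L (E - ptsD x)) + Fintype.card τ := by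
  exact CvDrop_sum Φ x Finset.univ E ‹_›

theorem FF.finiteDimensional_L [CharZero Ω] [IsAlgClosed Ω] (Φ : FF c) (E : Pt c → ℤ)
    (hE : (Function.support E).Finite) : FiniteDimensional Ω (Φ.L E) := by
  classical
  let x : (Σ P : hE.toFinset, Fin (E P).toNat) → Pt c := fun p => p.1
  have h0 := Φ.finiteDimensional_br_inf 0 0
  have hle : ∀ P, (E - ptsD x) P ≤ (brD 0 + infD 0 : Pt c → ℤ) P := fun P => by
    have e0 : (brD 0 + infD 0 : Pt c → ℤ) P = 0 := by cases P <;> rfl
    have e1 : ptsD x P = ∑ Q ∈ hE.toFinset, ((E Q).toNat : ℤ) * pt Q P := by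
      rw [ptsD, Finset.sum_apply, Fintype.sum_sigma, ← Finset.sum_coe_sort hE.toFinset]
      simp [x]
    rw [e0, Pi.sub_apply, e1, Finset.sum_eq_single P]
    · simp only [pt, if_true]
      omega
    · intro Q _ hQ
      simp [pt, hQ.symm]
    · intro hP
      have : E P = 0 := by simpa using hP
      simp [this]
  have : FiniteDimensional Ω (Φ.L (E - ptsD x)) := Submodule.finiteDimensional_of_le (Φ.L_mono hle)
  exact (Φ.drop_pts E x).1

/-- multiplication by a function identifies `L(E)` and `L(E - div h)` -/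
theorem FF.finrank_L_sub_div (Φ : FF c) (E : Pt c → ℤ) {h : Φ.F} (hh : h ≠ 0) :
    Module.finrank Ω (Φ.L (E - Φ.div h)) = Module.finrank Ω (Φ.L E) := by
  have e : (Φ.L E).map (LinearMap.mulLeft Ω h) = Φ.L (E - Φ.div h) := by
    apply le_antisymm
    · rintro _ ⟨f, hf, rfl⟩
      exact Φ.mul_mem_L hf hh
    · intro g hg
      refine ⟨h⁻¹ * g, ?_, by simp [hh]⟩
      have := Φ.mul_mem_L hg (inv_ne_zero hh)
      have e2 : E - Φ.div h - Φ.div h⁻¹ = E := by
        funext P
        simp [FF.div, Φ.ord_inv]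
      rwa [e2] at this
  rw [← e]
  exact (Submodule.equivMapOfInjective _ (fun f g hfg => mul_left_cancel₀ hh hfg) _).finrank_eq.symm

end Crest.Agent.R181
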