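import Crest.Agent.R181.CvHensel

/-! Row 181: construction of the function field (task CvFF). -/

set_option autoImplicit false

namespace Crest.Agent.R181

open Polynomial

variable {Ω : Type} [Field Ω] {a : ℕ} [NeZero a] {c : CD Ω a}

/-- the defining polynomial over `Ω[X]` -/
theorem CvFF_irr0 (c : CD Ω a) : Irreducible (X ^ a - C c.Φ : Polynomial (Polynomial Ω)) := by
  have ha : a ≠ 0 := NeZero.ne a
  have hm : (X ^ a - C c.Φ : Polynomial (Polynomial Ω)).Monic := monic_X_pow_sub_C _ ha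
  have hd : (X ^ a - C c.Φ : Polynomial (Polynomial Ω)).degree = a :=
    degree_X_pow_sub_C (Nat.pos_of_ne_zero ha) _
  have hp : Prime (X - C (c.b 0)) := prime_X_sub_C _
  have hP : (Ideal.span {X - C (c.b 0)}).IsPrime :=
    (Ideal.span_singleton_prime hp.ne_zero).2 hp
  have e : c.Φ = (X - C (c.b 0)) * (C c.T * ∏ i ∈ Finset.univ.erase 0, (X - C (c.b i))) := by
    rw [CD.Φ, ← Finset.mul_prod_erase Finset.univ _ (Finset.mem_univ (0 : ZMod a))]
    ring
  refine irreducible_of_eisenstein_criterion hP ?_ ?_ ?_ ?_ hm.isPrimitive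
  · rw [hm.leadingCoeff]
    exact fun h => hP.ne_top ((Ideal.eq_top_iff_one _).2 h)
  · intro n hn
    rw [hd] at hn
    have hn' : n ≠ a := fun h => by simp [h] at hn
    rw [coeff_sub, coeff_X_pow, if_neg hn', zero_sub, neg_mem_iff, coeff_C]
    split_ifs
    · exact Ideal.mem_span_singleton.2 ⟨_, e⟩
    · exact zero_mem _
  · rw [hd]
    exact_mod_cast Nat.pos_of_ne_zero ha
  · rw [coeff_sub, coeff_X_pow, if_neg ha.symm, zero_sub, neg_mem_iff, coeff_C_zero,
      Ideal.span_singleton_pow, Ideal.mem_span_singleton, e, pow_two,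
      mul_dvd_mul_iff_left hp.ne_zero, dvd_iff_isRoot, IsRoot, eval_mul, eval_C, eval_prod]
    refine mul_ne_zero c.hT (Finset.prod_ne_zero_iff.2 fun i hi => ?_)
    rw [eval_sub, eval_X, eval_C, sub_ne_zero]
    exact fun h => (Finset.mem_erase.1 hi).1 (c.hb h).symm

/-- the defining polynomial over `Ω(X)` -/
noncomputable def CvFF_g (c : CD Ω a) : Polynomial (RatFunc Ω) :=
  X ^ a - C (algebraMap (Polynomial Ω) (RatFunc Ω) c.Φ)

theorem CvFF_monic (c : CD Ω a) : (CvFF_g c).Monic := monic_X_pow_sub_C _ (NeZero.ne a)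

theorem CvFF_natDegree (c : CD Ω a) : (CvFF_g c).natDegree = a := natDegree_X_pow_sub_C

theorem CvFF_irr (c : CD Ω a) : Irreducible (CvFF_g c) := by
  have := (Monic.irreducible_iff_irreducible_map_fraction_map (K := RatFunc Ω)
    (monic_X_pow_sub_C c.Φ (NeZero.ne a))).1 (CvFF_irr0 c)
  simpa only [CvFF_g, Polynomial.map_sub, Polynomial.map_pow, map_X, map_C] using this

/-- the coordinate `t` -/
noncomputable def CvFF_t (c : CD Ω a) : AdjoinRoot (CvFF_g c) :=
  algebraMap (RatFunc Ω) _ RatFunc.X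

theorem CvFF_aeval (c : CD Ω a) (p : Polynomial Ω) : aeval (CvFF_t c) p =
    algebraMap (RatFunc Ω) _ (algebraMap (Polynomial Ω) (RatFunc Ω) p) := by
  rw [CvFF_t, aeval_algebraMap_apply, RatFunc.aeval_X_left_eq_algebraMap]

theorem CvFF_hy (c : CD Ω a) : AdjoinRoot.root (CvFF_g c) ^ a = aeval (CvFF_t c) c.Φ := by
  have := AdjoinRoot.aeval_eq (f := CvFF_g c) (CvFF_g c)
  rw [AdjoinRoot.mk_self] at this
  conv_lhs at this => arg 2; unfold CvFF_g
  rw [map_sub, map_pow, aeval_X, aeval_C, sub_eq_zero] at this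
  rw [this, CvFF_aeval]

theorem CvFF_gen (c : CD Ω a) (f : AdjoinRoot (CvFF_g c)) :
    ∃ (p : Fin a → Polynomial Ω) (q : Polynomial Ω), q ≠ 0 ∧
      f * aeval (CvFF_t c) q =
        ∑ j, aeval (CvFF_t c) (p j) * AdjoinRoot.root (CvFF_g c) ^ (j : ℕ) := by
  obtain ⟨P, rfl⟩ := AdjoinRoot.mk_surjective f
  have h1 : (P %ₘ CvFF_g c).natDegree < a := by
    have hne : CvFF_g c ≠ 1 := fun h => by
      have := CvFF_natDegree c
      rw [h, natDegree_one] at this
      exact NeZero.ne a this.symm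
    simpa only [CvFF_natDegree] using natDegree_modByMonic_lt P (CvFF_monic c) hne
  have h2 : AdjoinRoot.mk (CvFF_g c) P = ∑ j : Fin a,
      (P %ₘ CvFF_g c).coeff j • AdjoinRoot.root (CvFF_g c) ^ (j : ℕ) := by
    rw [Fin.sum_univ_eq_sum_range fun j =>
      (P %ₘ CvFF_g c).coeff j • AdjoinRoot.root (CvFF_g c) ^ j, ← aeval_eq_sum_range' h1,
      AdjoinRoot.aeval_eq, AdjoinRoot.mk_eq_mk]
    exact ⟨P /ₘ CvFF_g c, by rw [sub_eq_iff_eq_add', modByMonic_add_div]⟩
  obtain ⟨q, hq⟩ := IsLocalization.exist_integer_multiples_of_finite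
    (nonZeroDivisors (Polynomial Ω)) fun j : Fin a => (P %ₘ CvFF_g c).coeff j
  choose p hp using hq
  refine ⟨p, q, nonZeroDivisors.ne_zero q.2, ?_⟩
  rw [h2, Finset.sum_mul]
  refine Finset.sum_congr rfl fun j _ => ?_
  rw [CvFF_aeval, CvFF_aeval, hp, Algebra.smul_def, Algebra.smul_def, map_mul]
  ring

theorem CvFF_ind (c : CD Ω a) (p : Fin a → Polynomial Ω)
    (h : ∑ j, aeval (CvFF_t c) (p j) * AdjoinRoot.root (CvFF_g c) ^ (j : ℕ) = 0) (j : Fin a) :
    p j = 0 := by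
  have key : ∀ n, (minpoly (RatFunc Ω) (AdjoinRoot.root (CvFF_g c))).natDegree = n →
      LinearIndependent (RatFunc Ω) fun i : Fin n => AdjoinRoot.root (CvFF_g c) ^ (i : ℕ) := by
    rintro n rfl
    exact linearIndependent_pow _
  have h1 := key a (by
    rw [AdjoinRoot.minpoly_root (CvFF_monic c).ne_zero, (CvFF_monic c).leadingCoeff, inv_one,
      C_1, mul_one, CvFF_natDegree])
  have h2 := Fintype.linearIndependent_iff.1 h1
    (fun j => algebraMap (Polynomial Ω) (RatFunc Ω) (p j))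
    (by simpa only [CvFF_aeval, Algebra.smul_def] using h) j
  exact (map_eq_zero_iff _ (IsFractionRing.injective (Polynomial Ω) (RatFunc Ω))).1 h2

theorem CvFF_algebraMap (c : CD Ω a) (r : Ω) : algebraMap Ω (AdjoinRoot (CvFF_g c)) r =
    AdjoinRoot.of (CvFF_g c) (algebraMap (Polynomial Ω) (RatFunc Ω) (C r)) := by
  rw [← aeval_C (CvFF_t c), CvFF_aeval, AdjoinRoot.algebraMap_eq]

theorem CvFF_t_eq (c : CD Ω a) :
    CvFF_t c = AdjoinRoot.of (CvFF_g c) (algebraMap (Polynomial Ω) (RatFunc Ω) X) := by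
  rw [← aeval_X (R := Ω) (CvFF_t c), CvFF_aeval, AdjoinRoot.algebraMap_eq]

/-- the universal property of the function field -/
theorem CvFF_lift (c : CD Ω a) {R : Type} [Field R] (j : Ω →+* R) (τ η : R)
    (hτ : ∀ p : Polynomial Ω, eval₂ j τ p = 0 → p = 0) (hη : η ^ a = eval₂ j τ c.Φ) :
    ∃ φ : AdjoinRoot (CvFF_g c) →+* R, (∀ r, φ (algebraMap Ω _ r) = j r) ∧
      φ (CvFF_t c) = τ ∧ φ (AdjoinRoot.root (CvFF_g c)) = η := by
  have hi : Function.Injective (eval₂RingHom j τ) := (injective_iff_map_eq_zero _).2 hτ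
  have h0 : (CvFF_g c).eval₂ (IsFractionRing.lift (K := RatFunc Ω) hi) η = 0 := by
    rw [CvFF_g, eval₂_sub, eval₂_X_pow, eval₂_C, IsFractionRing.lift_algebraMap, hη,
      coe_eval₂RingHom, sub_self]
  refine ⟨AdjoinRoot.lift _ η h0, fun r => ?_, ?_, AdjoinRoot.lift_root h0⟩
  · rw [CvFF_algebraMap, AdjoinRoot.lift_of, IsFractionRing.lift_algebraMap, coe_eval₂RingHom,
      eval₂_C]
  · rw [CvFF_t_eq, AdjoinRoot.lift_of, IsFractionRing.lift_algebraMap, coe_eval₂RingHom, eval₂_X]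

theorem CvFF_ext (c : CD Ω a) {R : Type} [Field R] {φ ψ : AdjoinRoot (CvFF_g c) →+* R}
    (h1 : ∀ r, φ (algebraMap Ω _ r) = ψ (algebraMap Ω _ r)) (h2 : φ (CvFF_t c) = ψ (CvFF_t c))
    (h3 : φ (AdjoinRoot.root (CvFF_g c)) = ψ (AdjoinRoot.root (CvFF_g c))) : φ = ψ := by
  refine AdjoinRoot.ringHom_ext (IsFractionRing.ringHom_ext (A := Polynomial Ω) fun p => ?_) h3
  have : ((φ.comp (AdjoinRoot.of (CvFF_g c))).comp (algebraMap (Polynomial Ω) (RatFunc Ω))) =
      (ψ.comp (AdjoinRoot.of (CvFF_g c))).comp (algebraMap (Polynomial Ω) (RatFunc Ω)) := by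
    refine Polynomial.ringHom_ext (fun r => ?_) ?_
    · simpa only [CvFF_algebraMap, RingHom.comp_apply] using h1 r
    · simpa only [CvFF_t_eq, RingHom.comp_apply] using h2
  exact RingHom.congr_fun this p

theorem CvFF_lift_alg (c : CD Ω a) {R : Type} [Field R] [Algebra Ω R] (τ η : R)
    (hτ : Transcendental Ω τ) (hη : η ^ a = aeval τ c.Φ) :
    ∃ φ : AdjoinRoot (CvFF_g c) →ₐ[Ω] R,
      φ (CvFF_t c) = τ ∧ φ (AdjoinRoot.root (CvFF_g c)) = η := by
  obtain ⟨φ, h1, h2, h3⟩ := CvFF_lift c (algebraMap Ω R) τ η (transcendental_iff.1 hτ) hη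
  exact ⟨⟨φ, h1⟩, h2, h3⟩

instance CvFF_fact (c : CD Ω a) : Fact (Irreducible (CvFF_g c)) := ⟨CvFF_irr c⟩

theorem CvFF_end (c : CD Ω a) (ρ : Ω ≃+* Ω) (hρ : c.Φ.map (ρ : Ω →+* Ω) = c.Φ) (u : Ω)
    (hu : u ^ a = 1) : ∃ φ : AdjoinRoot (CvFF_g c) →+* AdjoinRoot (CvFF_g c),
      (∀ r, φ (algebraMap Ω _ r) = algebraMap Ω _ (ρ r)) ∧ φ (CvFF_t c) = CvFF_t c ∧
        φ (AdjoinRoot.root (CvFF_g c)) = algebraMap Ω _ u * AdjoinRoot.root (CvFF_g c) := by
  refine CvFF_lift c ((algebraMap Ω _).comp (ρ : Ω →+* Ω)) _ _ (fun p hp => ?_) ?_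
  · rw [← eval₂_map, ← aeval_def, CvFF_aeval, map_eq_zero,
      map_eq_zero_iff _ (IsFractionRing.injective (Polynomial Ω) (RatFunc Ω))] at hp
    exact (Polynomial.map_eq_zero_iff ρ.injective).1 hp
  · rw [← eval₂_map, hρ, ← aeval_def, mul_pow, ← map_pow, hu, map_one, one_mul, CvFF_hy]

theorem CvFF_aut (c : CD Ω a) (ρ : Ω ≃+* Ω) (hρ : c.Φ.map (ρ : Ω →+* Ω) = c.Φ) (u : Ω)
    (hu : u ^ a = 1) : ∃ φ : AdjoinRoot (CvFF_g c) ≃+* AdjoinRoot (CvFF_g c),
      (∀ r, φ (algebraMap Ω _ r) = algebraMap Ω _ (ρ r)) ∧ φ (CvFF_t c) = CvFF_t c ∧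
        φ (AdjoinRoot.root (CvFF_g c)) = algebraMap Ω _ u * AdjoinRoot.root (CvFF_g c) := by
  have hu0 : u ≠ 0 := fun h => by simp [h, NeZero.ne a] at hu
  have hρ' : c.Φ.map (ρ.symm : Ω →+* Ω) = c.Φ := by
    conv_lhs => rw [← hρ]
    rw [Polynomial.map_map]
    simp
  obtain ⟨φ, a1, a2, a3⟩ := CvFF_end c ρ hρ u hu
  obtain ⟨ψ, b1, b2, b3⟩ := CvFF_end c ρ.symm hρ' (ρ.symm u⁻¹)
    (by rw [← map_pow, inv_pow, hu, inv_one, map_one])
  refine ⟨RingEquiv.ofRingHom φ ψ (CvFF_ext c (fun r => ?_) ?_ ?_)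
    (CvFF_ext c (fun r => ?_) ?_ ?_), a1, a2, a3⟩
  · simp [a1, b1]
  · simp [a2, b2]
  · rw [RingHom.comp_apply, b3, map_mul, a1, a3, ← mul_assoc, ← map_mul]
    simp [hu0]
  · simp [a1, b1]
  · simp [a2, b2]
  · rw [RingHom.comp_apply, a3, map_mul, b1, b3, ← mul_assoc, ← map_mul, ← map_mul]
    simp [hu0]

theorem CvFF_sym_map (σ : Sym c) : c.Φ.map (σ.ρ : Ω →+* Ω) = c.Φ := by
  simp only [CD.Φ, Polynomial.map_mul, Polynomial.map_prod, Polynomial.map_sub, map_C, map_X,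
    RingHom.coe_coe, σ.hT, σ.hb]
  congr 1
  exact Equiv.prod_comp (Equiv.addRight σ.sh) fun i => X - C (c.b i)

theorem CvFF_aeval_ser (R : PowerSeries Ω) (p : Polynomial Ω) :
    aeval (HahnSeries.ofPowerSeries ℤ Ω R : LaurentSeries Ω) p =
      HahnSeries.ofPowerSeries ℤ Ω (aeval R p) := by
  induction p using Polynomial.induction_on' with
  | add p q hp hq => simp only [map_add, hp, hq]
  | monomial n r =>
    rw [aeval_monomial, aeval_monomial, map_mul, map_pow, algebraMap_laurent,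
      ← HahnSeries.ofPowerSeries_C]
    rfl

theorem CvFF_tr_z : Transcendental Ω (HahnSeries.single 1 1 : LaurentSeries Ω) := by
  refine transcendental_iff.2 fun p hp => ?_
  rw [← HahnSeries.ofPowerSeries_X, CvFF_aeval_ser,
    map_eq_zero_iff _ HahnSeries.ofPowerSeries_injective] at hp
  have : aeval (PowerSeries.X : PowerSeries Ω) p = (p : PowerSeries Ω) := by
    clear hp
    induction p using Polynomial.induction_on' with
    | add p q hp hq => rw [map_add, hp, hq, Polynomial.coe_add]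
    | monomial n r =>
      rw [aeval_monomial, ← C_mul_X_pow_eq_monomial, Polynomial.coe_mul, Polynomial.coe_pow,
        Polynomial.coe_X, Polynomial.coe_C]
      rfl
  rw [this] at hp
  exact Polynomial.coe_eq_zero_iff.1 hp

theorem CvFF_tr_of {A : Type} [Field A] [Algebra Ω A] {r : A} (f : Polynomial Ω)
    (h : Transcendental Ω (aeval r f)) : Transcendental Ω r := fun h0 =>
  h (IsIntegral.isAlgebraic (IsIntegral.of_mem_of_fg _ h0.isIntegral.fg_adjoin_singleton _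
    (aeval_mem_adjoin_singleton Ω r)))

theorem CvFF_const (R : PowerSeries Ω) (p : Polynomial Ω) :
    PowerSeries.constantCoeff (aeval R p) = p.eval (PowerSeries.constantCoeff R) := by
  induction p using Polynomial.induction_on' with
  | add p q hp hq => simp only [map_add, hp, hq, eval_add]
  | monomial n r =>
    rw [aeval_monomial, eval_monomial, map_mul, map_pow]
    rfl

theorem CvFF_aff [CharZero Ω] (c : CD Ω a) (t₀ y₀ : Ω) (h : y₀ ^ a = c.Φ.eval t₀) (hy : y₀ ≠ 0) :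
    ∃ φ : AdjoinRoot (CvFF_g c) →ₐ[Ω] LaurentSeries Ω,
      φ (CvFF_t c) = HahnSeries.C t₀ + HahnSeries.single 1 1 ∧
      ∃ R : PowerSeries Ω, PowerSeries.constantCoeff R = y₀ ∧
        φ (AdjoinRoot.root (CvFF_g c)) = HahnSeries.ofPowerSeries ℤ Ω R := by
  obtain ⟨R, h1, h2⟩ := exists_pow_eq_powerSeries (Nat.pos_of_ne_zero (NeZero.ne a))
    (aeval (PowerSeries.C t₀ + PowerSeries.X) c.Φ) y₀ hy (by simp [CvFF_const, h])
  have ht : Transcendental Ω (HahnSeries.C t₀ + HahnSeries.single 1 1 : LaurentSeries Ω) := by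
    refine CvFF_tr_of (X - C t₀) ?_
    rw [map_sub, aeval_X, aeval_C, algebraMap_laurent, add_sub_cancel_left]
    exact CvFF_tr_z
  obtain ⟨φ, a1, a2⟩ := CvFF_lift_alg c _ (HahnSeries.ofPowerSeries ℤ Ω R : LaurentSeries Ω) ht
    (by rw [← map_pow, h2, ← CvFF_aeval_ser, map_add, HahnSeries.ofPowerSeries_C,
      HahnSeries.ofPowerSeries_X])
  exact ⟨φ, a1, R, h1, a2⟩

theorem CvFF_br (c : CD Ω a) (i : ZMod a) :
    ∃ φ : AdjoinRoot (CvFF_g c) →ₐ[Ω] LaurentSeries Ω,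
      φ (AdjoinRoot.root (CvFF_g c)) = HahnSeries.single 1 1 ∧
      ∃ R : PowerSeries Ω, PowerSeries.constantCoeff R = c.b i ∧
        φ (CvFF_t c) = HahnSeries.ofPowerSeries ℤ Ω R := by
  have e : c.Φ = (X - C (c.b i)) * (C c.T * ∏ k ∈ Finset.univ.erase i, (X - C (c.b k))) := by
    rw [CD.Φ, ← Finset.mul_prod_erase Finset.univ _ (Finset.mem_univ i)]
    ring
  have e1 : c.Φ.eval (c.b i) = 0 := by rw [e, eval_mul, eval_sub, eval_X, eval_C, sub_self, zero_mul]
  have e2 : c.Φ.derivative.eval (c.b i) ≠ 0 := by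
    rw [e, derivative_mul, derivative_X_sub_C, one_mul, eval_add, eval_mul (p := X - C _), eval_sub,
      eval_X, eval_C, sub_self, zero_mul, add_zero, eval_mul, eval_C, eval_prod]
    refine mul_ne_zero c.hT (Finset.prod_ne_zero_iff.2 fun k hk => ?_)
    rw [eval_sub, eval_X, eval_C, sub_ne_zero]
    exact fun h => (Finset.mem_erase.1 hk).1 (c.hb h).symm
  obtain ⟨R, h1, h2⟩ := exists_aeval_eq_powerSeries c.Φ (c.b i) e1 e2 (PowerSeries.X ^ a)
    (by simp [NeZero.ne a])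
  have h3 : (HahnSeries.single 1 1 : LaurentSeries Ω) ^ a =
      aeval (HahnSeries.ofPowerSeries ℤ Ω R : LaurentSeries Ω) c.Φ := by
    rw [CvFF_aeval_ser, h2, map_pow, HahnSeries.ofPowerSeries_X]
  have ht : Transcendental Ω (HahnSeries.ofPowerSeries ℤ Ω R : LaurentSeries Ω) := by
    refine CvFF_tr_of c.Φ ?_
    rw [← h3]
    exact CvFF_tr_z.pow (Nat.pos_of_ne_zero (NeZero.ne a))
  obtain ⟨φ, a1, a2⟩ := CvFF_lift_alg c _ _ ht h3
  exact ⟨φ, a2, R, h1, a1⟩

theorem CvFF_inf [CharZero Ω] (c : CD Ω a) (s : Ω) (h : s ^ a = c.T) :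
    ∃ φ : AdjoinRoot (CvFF_g c) →ₐ[Ω] LaurentSeries Ω,
      φ (CvFF_t c) = HahnSeries.single (-1) 1 ∧
      ∃ R : PowerSeries Ω, PowerSeries.constantCoeff R = s ∧
        φ (AdjoinRoot.root (CvFF_g c)) =
          HahnSeries.single (-1) 1 * HahnSeries.ofPowerSeries ℤ Ω R := by
  have hs : s ≠ 0 := fun h0 => c.hT (by rw [← h, h0, zero_pow (NeZero.ne a)])
  obtain ⟨R, h1, h2⟩ := exists_pow_eq_powerSeries (Nat.pos_of_ne_zero (NeZero.ne a))
    (PowerSeries.C c.T * ∏ i, (1 - PowerSeries.C (c.b i) * PowerSeries.X)) s hs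
    (by simp [h, map_prod])
  have ht : Transcendental Ω (HahnSeries.single (-1) 1 : LaurentSeries Ω) := by
    intro h0
    have := h0.inv
    rw [HahnSeries.inv_single, neg_neg, inv_one] at this
    exact CvFF_tr_z this
  have hz : (HahnSeries.single (-1) 1 : LaurentSeries Ω) * HahnSeries.single 1 1 = 1 := by
    rw [HahnSeries.single_mul_single, neg_add_cancel, one_mul, HahnSeries.single_zero_one]
  obtain ⟨φ, a1, a2⟩ := CvFF_lift_alg c _
    (HahnSeries.single (-1) 1 * HahnSeries.ofPowerSeries ℤ Ω R : LaurentSeries Ω) ht (by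
      rw [mul_pow, ← map_pow (HahnSeries.ofPowerSeries ℤ Ω), h2, CD.Φ, map_mul, map_mul, map_prod, map_prod, aeval_C,
        algebraMap_laurent, HahnSeries.ofPowerSeries_C, mul_left_comm]
      congr 1
      have e : (HahnSeries.single (-1) 1 : LaurentSeries Ω) ^ a =
          ∏ _i : ZMod a, (HahnSeries.single (-1) 1 : LaurentSeries Ω) := by
        rw [Finset.prod_const, Finset.card_univ, ZMod.card]
      rw [e, ← Finset.prod_mul_distrib]
      refine Finset.prod_congr rfl fun i _ => ?_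
      rw [map_sub, map_sub, map_one (HahnSeries.ofPowerSeries ℤ Ω), map_mul, aeval_X, aeval_C,
        algebraMap_laurent, HahnSeries.ofPowerSeries_C, HahnSeries.ofPowerSeries_X, mul_sub, mul_one, mul_left_comm,
        hz, mul_one])
  exact ⟨φ, a1, R, h1, a2⟩

theorem exists_ff [CharZero Ω] (c : CD Ω a) : Nonempty (FF c) := by
  choose e1 e1t e1y using CvFF_aff c
  choose e2 e2y e2t using CvFF_br c
  choose e3 e3t e3y using CvFF_inf c
  obtain ⟨τ, τ1, τ2, τ3⟩ := CvFF_aut c (RingEquiv.refl Ω) (by simp) c.ζ c.hζ.pow_eq_one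
  choose au a1 a2 a3 using fun σ : Sym c => CvFF_aut c σ.ρ (CvFF_sym_map σ) 1 (one_pow a)
  exact ⟨{
    F := AdjoinRoot (CvFF_g c)
    t := CvFF_t c
    y := AdjoinRoot.root (CvFF_g c)
    hy := CvFF_hy c
    gen := CvFF_gen c
    ind := CvFF_ind c
    emb := fun P => Pt.rec (motive := fun _ => AdjoinRoot (CvFF_g c) →ₐ[Ω] LaurentSeries Ω)
      e1 e2 e3 P
    aff_t := e1t
    aff_y := e1y
    br_y := e2y
    br_t := e2t
    inf_t := e3t
    inf_y := e3y
    τ := AlgEquiv.ofRingEquiv (f := τ) τ1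
    τ_t := τ2
    τ_y := τ3
    aut := au
    aut_C := a1
    aut_t := a2
    aut_y := fun σ => by rw [a3, map_one, one_mul] }⟩

end Crest.Agent.R181
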