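import Crest.Agent.R181.CvAut
import Crest.Agent.R181.CvDrop

/-! Row 181: generic points impose independent conditions (task CvGen). -/

set_option autoImplicit false

namespace Crest.Agent.R181

open Polynomial

variable {Ω : Type} [Field Ω] {a : ℕ} [NeZero a] {c : CD Ω a}

/-- an automorphism fixing `k` pointwise is a symmetry fixing branch points and infinity -/
theorem exists_sym_of_fix (k : Subfield Ω) (hk : c.Over k) (ρ : Ω ≃+* Ω)
    (hρ : ∀ z ∈ k, ρ z = z) :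
    ∃ σ : Sym c, σ.ρ = ρ ∧ σ.sh = 0 ∧ ∀ P : Pt c, ¬ P.IsAff → σ.act P = P := by
  refine ⟨⟨ρ, 0, fun i => by rw [add_zero, hρ _ (hk.1 i)], hρ _ hk.2.1⟩, rfl, rfl, ?_⟩
  rintro (⟨t, y, h, hy⟩ | i | ⟨s, h⟩) hP
  · exact absurd trivial hP
  · exact congrArg Pt.br (add_zero i)
  · have e : ρ s = s := hρ _ (hk.2.2 s h)
    show Pt.inf (ρ s) _ = Pt.inf s h
    congr 1

/-- a field containing `k` and the elements algebraic over `k(t_j, j ∈ s)`, missing `t_m` -/
theorem gen_exists_field (k : Subfield Ω) {τ : Type} (t : τ → Ω) (ht : AlgebraicIndependent k t)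
    (s : Set τ) {m : τ} (hm : m ∉ s) :
    ∃ k₁ : Subfield Ω, k ≤ k₁ ∧ (∀ j ∈ s, t j ∈ k₁) ∧
      (∀ (y : Ω) (n : ℕ), 0 < n → y ^ n ∈ k₁ → y ∈ k₁) ∧ Transcendental k₁ (t m) := by
  let K₀ : IntermediateField k Ω := IntermediateField.adjoin k (t '' s)
  have h0 : Transcendental K₀ (t m) :=
    IntermediateField.transcendental_adjoin_iff.2 (ht.transcendental_adjoin hm)
  have h1 : ∀ z ∈ K₀, z ∈ algebraicClosure K₀ Ω := fun z hz =>
    (algebraicClosure K₀ Ω).algebraMap_mem ⟨z, hz⟩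
  refine ⟨(algebraicClosure K₀ Ω).toSubfield, fun z hz => h1 z (K₀.algebraMap_mem ⟨z, hz⟩),
    fun j hj => h1 _ (IntermediateField.subset_adjoin _ _ ⟨j, hj, rfl⟩), fun y n hn hy => ?_,
    fun h => h0 ?_⟩
  · exact mem_algebraicClosure_iff.2 ((mem_algebraicClosure_iff.1 hy).of_pow hn)
  · have h' : IsAlgebraic (algebraicClosure K₀ Ω) (t m) := h
    exact h'.restrictScalars K₀

theorem gen_act_eq {k : Subfield Ω} (hk : c.Over k)
    (hr : ∀ (y : Ω) (n : ℕ), 0 < n → y ^ n ∈ k → y ∈ k) (σ : Sym c) (hρ : ∀ z ∈ k, σ.ρ z = z)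
    {P : Pt c} (hP : P.IsAff) (ht : P.tc ∈ k) : σ.act P = P := by
  rcases P with ⟨t, y, h, hy⟩ | i | ⟨s, h⟩
  · have ht' : t ∈ k := ht
    have hy' : y ∈ k := by
      refine hr y a (Nat.pos_of_ne_zero (NeZero.ne a)) ?_
      rw [h]
      simp only [CD.Φ, eval_mul, eval_C, eval_prod, eval_sub, eval_X]
      exact mul_mem hk.2.1 (prod_mem fun i _ => sub_mem ht' (hk.1 i))
    have e1 := hρ _ ht'
    have e2 := hρ _ hy'
    show Pt.aff (σ.ρ t) (σ.ρ y) _ _ = Pt.aff t y h hy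
    congr 1
  · exact hP.elim
  · exact hP.elim

theorem gen_pt_nonneg (P Q : Pt c) : 0 ≤ pt P Q := by
  unfold pt
  split_ifs <;> norm_num

theorem gen_pt_act (σ : Sym c) {P : Pt c} (h : σ.act P = P) (Q : Pt c) :
    pt P (σ.act Q) = pt P Q := by
  have e : σ.act Q = P ↔ Q = P :=
    ⟨fun h' => σ.act_bijective.1 (h'.trans h.symm), fun h' => by rw [h', h]⟩
  unfold pt
  by_cases hQ : Q = P
  · rw [if_pos hQ, if_pos (e.2 hQ)]
  · rw [if_neg hQ, if_neg fun h' => hQ (e.1 h')]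

theorem gen_E_aff (d : ZMod a → ℤ) (n : ℤ) {P : Pt c} (hP : P.IsAff) :
    (brD d + infD n : Pt c → ℤ) P = 0 := by
  rcases P with ⟨t, y, h, hy⟩ | i | ⟨s, h⟩
  · rfl
  · exact hP.elim
  · exact hP.elim

theorem gen_act_aff (σ : Sym c) {P : Pt c} (hP : P.IsAff) :
    (σ.act P).IsAff ∧ (σ.act P).tc = σ.ρ P.tc := by
  rcases P with ⟨t, y, h, hy⟩ | i | ⟨s, h⟩
  · exact ⟨trivial, rfl⟩
  · exact hP.elim
  · exact hP.elim

/-- a new generic point is not a base point -/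
theorem FF.gen_step [CharZero Ω] [IsAlgClosed Ω] (Φ : FF c) (k : Subfield Ω)
    (hk : c.Over k) (d : ZMod a → ℤ) (n : ℤ) {τ : Type} (x : τ → Pt c)
    (hx : IsGen k x) (s : Finset τ) {m : τ} (hm : m ∉ s)
    (h : Φ.L (brD d + infD n - ∑ j ∈ s, pt (x j) - pt (x m)) =
      Φ.L (brD d + infD n - ∑ j ∈ s, pt (x j))) :
    Φ.L (brD d + infD n - ∑ j ∈ s, pt (x j)) = ⊥ := by
  obtain ⟨k₁, h1, h2, h3, h4⟩ := gen_exists_field k _ hx.2 (s : Set τ) (m := m) (by simpa using hm)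
  have hk₁ : c.Over k₁ := ⟨fun i => h1 (hk.1 i), h1 hk.2.1, fun s hs => h1 (hk.2.2 s hs)⟩
  rw [eq_bot_iff]
  intro f hf
  by_contra hf0
  have hf0 : f ≠ 0 := hf0
  have hf1 := ((Φ.mem_L_iff _ f).1 hf).resolve_left hf0
  refine h4 (isAlgebraic_of_finite_orbit k₁ _
    (((Φ.finite_support_div f).image Pt.tc).subset ?_))
  rintro _ ⟨ρ, hρ, rfl⟩
  obtain ⟨σ, rfl, -, hσ⟩ := exists_sym_of_fix k₁ hk₁ ρ hρ
  refine ⟨σ.act (x m), ?_, (gen_act_aff σ (hx.1 m)).2⟩
  obtain ⟨g, rfl⟩ := (Φ.aut σ).surjective f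
  have hg0 : g ≠ 0 := fun e => hf0 (by rw [e, map_zero])
  have hE : ∀ P, (brD d + infD n - ∑ j ∈ s, pt (x j) : Pt c → ℤ) (σ.act P)
      = (brD d + infD n - ∑ j ∈ s, pt (x j) : Pt c → ℤ) P := by
    intro P
    rw [Pi.sub_apply, Pi.sub_apply, Finset.sum_apply, Finset.sum_apply]
    congr 1
    · by_cases hP : P.IsAff
      · rw [gen_E_aff d n hP, gen_E_aff d n (gen_act_aff σ hP).1]
      · rw [hσ P hP]
    · exact Finset.sum_congr rfl fun j hj =>
        gen_pt_act σ (gen_act_eq hk₁ h3 σ hρ (hx.1 j) (h2 j hj)) P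
  have hg : g ∈ Φ.L (brD d + infD n - ∑ j ∈ s, pt (x j)) := by
    refine (Φ.mem_L_iff _ g).2 (Or.inr fun P => ?_)
    rw [← hE P, ← Φ.ord_aut σ P g]
    exact hf1 _
  rw [← h] at hg
  have h5 := ((Φ.mem_L_iff _ g).1 hg).resolve_left hg0 (x m)
  rw [Pi.sub_apply, Pi.sub_apply, gen_E_aff d n (hx.1 m), Finset.sum_apply] at h5
  have h6 : 0 ≤ ∑ j ∈ s, pt (x j) (x m) := Finset.sum_nonneg fun j _ => gen_pt_nonneg _ _
  have h7 : pt (x m) (x m) = 1 := if_pos rfl
  show Φ.ord (σ.act (x m)) (Φ.aut σ g) ≠ 0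
  rw [Φ.ord_aut]
  omega

theorem FF.finrank_sub_gen [CharZero Ω] [IsAlgClosed Ω] (Φ : FF c) (k : Subfield Ω)
    (hk : c.Over k) (d : ZMod a → ℤ) (n : ℤ) {τ : Type} [Fintype τ] (x : τ → Pt c)
    (hx : IsGen k x) :
    Module.finrank Ω (Φ.L (brD d + infD n - ptsD x)) =
      Module.finrank Ω (Φ.L (brD d + infD n)) - Fintype.card τ := by
  classical
  have hfd := Φ.finiteDimensional_br_inf d n
  have key : ∀ s : Finset τ, Module.finrank Ω (Φ.L (brD d + infD n - ∑ j ∈ s, pt (x j))) =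
      Module.finrank Ω (Φ.L (brD d + infD n)) - s.card := by
    intro s
    induction s using Finset.induction_on with
    | empty => rw [Finset.sum_empty, sub_zero, Finset.card_empty, Nat.sub_zero]
    | insert m s hm ih =>
      rw [Finset.sum_insert hm, Finset.card_insert_of_notMem hm, add_comm (pt (x m)), ← sub_sub]
      have hle0 : Φ.L (brD d + infD n - ∑ j ∈ s, pt (x j)) ≤ Φ.L (brD d + infD n) := by
        refine Φ.L_mono fun P => ?_
        rw [Pi.sub_apply, Finset.sum_apply]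
        exact sub_le_self _ (Finset.sum_nonneg fun j _ => gen_pt_nonneg _ _)
      have hle : Φ.L (brD d + infD n - ∑ j ∈ s, pt (x j) - pt (x m)) ≤
          Φ.L (brD d + infD n - ∑ j ∈ s, pt (x j)) :=
        Φ.L_mono fun P => sub_le_self _ (gen_pt_nonneg _ _)
      have hf1 := Submodule.finiteDimensional_of_le hle0
      have hf2 := Submodule.finiteDimensional_of_le hle
      have h1 := (Φ.drop (brD d + infD n - ∑ j ∈ s, pt (x j)) (x m)).2
      rcases hle.eq_or_lt with h | h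
      · have h2 := Φ.gen_step k hk d n x hx s hm h
        rw [h, h2, finrank_bot]
        rw [h2, finrank_bot] at ih
        omega
      · have h2 := Submodule.finrank_lt_finrank_of_lt h
        omega
  exact key Finset.univ

end Crest.Agent.R181
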