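import Crest.Agent.R181.CvDefs

/-! Row 181: Hensel's lemma for power series (task CvHensel). -/

set_option autoImplicit false

namespace Crest.Agent.R181

open Polynomial

namespace CvHenselAux

theorem cc_eval {K : Type} [Field K] (P : Polynomial (PowerSeries K)) (τ : PowerSeries K) :
    PowerSeries.constantCoeff (P.eval τ) =
      (P.map PowerSeries.constantCoeff).eval (PowerSeries.constantCoeff τ) := by
  rw [eval_map, eval₂_hom]

theorem map_map_C {K : Type} [Field K] (φ : Polynomial K) :
    (φ.map (PowerSeries.C : K →+* PowerSeries K)).map PowerSeries.constantCoeff = φ := by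
  rw [Polynomial.map_map]
  have : (PowerSeries.constantCoeff : PowerSeries K →+* K).comp PowerSeries.C = RingHom.id K := by
    ext x; simp
  rw [this, Polynomial.map_id]

theorem eval_map_C {K : Type} [Field K] (φ : Polynomial K) (τ : PowerSeries K) :
    (φ.map (PowerSeries.C : K →+* PowerSeries K)).eval τ = aeval τ φ := by
  rw [eval_map, aeval_def]; rfl

end CvHenselAux

open CvHenselAux

theorem exists_root_powerSeries {K : Type} [Field K] (P : Polynomial (PowerSeries K))
    (hP : P.Monic) (a₀ : K) (h₀ : (P.map PowerSeries.constantCoeff).eval a₀ = 0)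
    (h₁ : (P.map PowerSeries.constantCoeff).derivative.eval a₀ ≠ 0) :
    ∃ τ : PowerSeries K, PowerSeries.constantCoeff τ = a₀ ∧ P.eval τ = 0 := by
  have H : HenselianRing (PowerSeries K) (Ideal.span {PowerSeries.X}) := inferInstance
  obtain ⟨τ, h1, h2⟩ := H.is_henselian P hP (PowerSeries.C a₀)
    (by rw [Ideal.mem_span_singleton, PowerSeries.X_dvd_iff, cc_eval]; simpa using h₀)
    (by
      refine IsUnit.map _ ?_
      rw [PowerSeries.isUnit_iff_constantCoeff, cc_eval, ← derivative_map]
      simpa using h₁)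
  refine ⟨τ, ?_, h1⟩
  rw [Ideal.mem_span_singleton, PowerSeries.X_dvd_iff] at h2
  simpa [sub_eq_zero] using h2

theorem root_powerSeries_unique {K : Type} [Field K] (P : Polynomial (PowerSeries K)) (a₀ : K)
    (h₁ : (P.map PowerSeries.constantCoeff).derivative.eval a₀ ≠ 0) (τ τ' : PowerSeries K)
    (h : PowerSeries.constantCoeff τ = a₀) (h' : PowerSeries.constantCoeff τ' = a₀)
    (hτ : P.eval τ = 0) (hτ' : P.eval τ' = 0) : τ = τ' := by
  obtain ⟨k, hk⟩ := binomExpansion P τ' (τ - τ')
  rw [add_sub_cancel, hτ, hτ', zero_add] at hk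
  have h2 : (P.derivative.eval τ' + k * (τ - τ')) * (τ - τ') = 0 := by
    rw [hk]; ring
  rcases mul_eq_zero.1 h2 with h3 | h3
  · exfalso
    have h4 := congrArg PowerSeries.constantCoeff h3
    rw [map_add, map_mul, map_sub, h, h', sub_self, mul_zero, add_zero, cc_eval, h',
      ← derivative_map, map_zero] at h4
    exact h₁ h4
  · exact sub_eq_zero.1 h3

/-- `a`-th roots of a unit power series with prescribed constant term -/
theorem exists_pow_eq_powerSeries {K : Type} [Field K] [CharZero K] {a : ℕ} (ha : 0 < a)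
    (w : PowerSeries K) (y₀ : K) (hy : y₀ ≠ 0) (h : y₀ ^ a = PowerSeries.constantCoeff w) :
    ∃ R : PowerSeries K, PowerSeries.constantCoeff R = y₀ ∧ R ^ a = w := by
  obtain ⟨τ, h1, h2⟩ := exists_root_powerSeries (X ^ a - C w) (monic_X_pow_sub_C w ha.ne') y₀
    (by simp [h]) (by simp [derivative_X_pow, hy, ha.ne'])
  exact ⟨τ, h1, by simpa [sub_eq_zero] using h2⟩

theorem pow_eq_powerSeries_unique {K : Type} [Field K] [CharZero K] {a : ℕ} (ha : 0 < a)
    (R R' : PowerSeries K) (h₀ : PowerSeries.constantCoeff R ≠ 0)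
    (h : PowerSeries.constantCoeff R = PowerSeries.constantCoeff R') (hp : R ^ a = R' ^ a) :
    R = R' :=
  root_powerSeries_unique (X ^ a - C (R ^ a)) (PowerSeries.constantCoeff R)
    (by
      rw [Polynomial.map_sub, map_C, derivative_sub, derivative_C]
      simp [derivative_X_pow, h₀, ha.ne']) R R' rfl h.symm (by simp) (by simp [hp])

/-- solving `φ(τ) = w` near a simple root `b` of `φ` -/
theorem exists_aeval_eq_powerSeries {K : Type} [Field K] (φ : Polynomial K) (b : K)
    (hb : φ.eval b = 0) (hb' : φ.derivative.eval b ≠ 0) (w : PowerSeries K)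
    (hw : PowerSeries.constantCoeff w = 0) :
    ∃ τ : PowerSeries K, PowerSeries.constantCoeff τ = b ∧ aeval τ φ = w := by
  have hφ : φ ≠ 0 := by rintro rfl; simp at hb'
  have hl : φ.leadingCoeff ≠ 0 := leadingCoeff_ne_zero.2 hφ
  have hdeg : 0 < φ.degree := by
    by_contra hd
    rw [eq_C_of_degree_le_zero (not_lt.1 hd)] at hb'
    simp at hb'
  have hm : (φ * C φ.leadingCoeff⁻¹).Monic := monic_mul_leadingCoeff_inv hφ
  have hm2 : ((φ * C φ.leadingCoeff⁻¹).map (PowerSeries.C : K →+* PowerSeries K)).Monic :=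
    hm.map _
  have hm3 : ((φ * C φ.leadingCoeff⁻¹).map (PowerSeries.C : K →+* PowerSeries K) -
      C (PowerSeries.C φ.leadingCoeff⁻¹ * w)).Monic := by
    refine hm2.sub_of_left (degree_C_le.trans_lt ?_)
    rw [hm.degree_map, degree_mul_leadingCoeff_inv _ hφ]
    exact hdeg
  obtain ⟨τ, h1, h2⟩ := exists_root_powerSeries _ hm3 b
    (by rw [Polynomial.map_sub, map_map_C]; simp [hb, hw])
    (by rw [Polynomial.map_sub, map_map_C]; simp [hb', hl])
  refine ⟨τ, h1, ?_⟩
  rw [eval_sub, eval_map_C, eval_C, map_mul, aeval_C, sub_eq_zero, mul_comm] at h2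
  have h3 : (PowerSeries.C φ.leadingCoeff⁻¹ : PowerSeries K) ≠ 0 := by
    intro h4
    have := congrArg PowerSeries.constantCoeff h4
    simp [hl] at this
  exact mul_left_cancel₀ h3 h2

theorem aeval_eq_powerSeries_unique {K : Type} [Field K] (φ : Polynomial K) (b : K)
    (hb' : φ.derivative.eval b ≠ 0) (τ τ' : PowerSeries K)
    (h : PowerSeries.constantCoeff τ = b) (h' : PowerSeries.constantCoeff τ' = b)
    (hτ : aeval τ φ = aeval τ' φ) : τ = τ' :=
  root_powerSeries_unique (φ.map (PowerSeries.C : K →+* PowerSeries K) - C (aeval τ φ)) b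
    (by rw [Polynomial.map_sub, map_map_C]; simpa using hb') τ τ' h h'
    (by rw [eval_sub, eval_map_C, eval_C, sub_self])
    (by rw [eval_sub, eval_map_C, eval_C, hτ, sub_self])

/-- a field automorphism acts coefficientwise on Laurent series -/
theorem exists_laurent_map {K : Type} [Field K] (σ : K ≃+* K) :
    ∃ σ₁ : LaurentSeries K ≃+* LaurentSeries K,
      ∀ (x : LaurentSeries K) (n : ℤ), (σ₁ x).coeff n = σ (x.coeff n) :=
  ⟨{ toFun := fun x => x.map (σ : K →ₙ+* K)
     invFun := fun x => x.map (σ.symm : K →ₙ+* K)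
     left_inv := fun x => by ext n; simp
     right_inv := fun x => by ext n; simp
     map_mul' := fun x y => HahnSeries.map_mul _
     map_add' := fun x y => by ext n; simp }, fun x n => by simp⟩

end Crest.Agent.R181
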