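import Crest.Agent.R181.CvDrop

/-! Row 181: Riemann's inequality in the one case needed (task CvRR). -/

set_option autoImplicit false

namespace Crest.Agent.R181

open Polynomial

variable {Ω : Type} [Field Ω] {a : ℕ} [NeZero a] {c : CD Ω a}

theorem CvRR_pt_nonneg (P Q : Pt c) : 0 ≤ pt P Q := by
  unfold pt
  split_ifs <;> norm_num

theorem CvRR_ptsD_nonneg {τ : Type} [Fintype τ] (x : τ → Pt c) (Q : Pt c) : 0 ≤ ptsD x Q := by
  rw [ptsD, Finset.sum_apply]
  exact Finset.sum_nonneg fun j _ => CvRR_pt_nonneg _ _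

theorem CvRR_one_le {τ : Type} [Fintype τ] (x : τ → Pt c) (j : τ) : 1 ≤ ptsD x (x j) := by
  rw [ptsD, Finset.sum_apply]
  have h := Finset.single_le_sum (f := fun l => pt (x l) (x j))
    (fun l _ => CvRR_pt_nonneg (x l) (x j)) (Finset.mem_univ j)
  simpa [pt] using h

theorem CvRR_root {y y₀ : Ω} (hy : y ≠ 0) (h : y₀ ^ a = y ^ a) : ∃ r < a, y₀ = c.ζ ^ r * y := by
  have h1 : (y₀ / y) ^ a = 1 := by rw [div_pow, h, div_self (pow_ne_zero _ hy)]
  obtain ⟨r, hr, e⟩ := c.hζ.eq_pow_of_pow_eq_one h1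
  exact ⟨r, hr, by rw [e, div_mul_cancel₀ _ hy]⟩

theorem CvRR_dim [CharZero Ω] [IsAlgClosed Ω] (Φ : FF c) (d : ZMod a → ℤ) (hd : ∑ i, d i = 0)
    (γ : ℕ) (hγ : 2 * γ = (a - 1) * (a - 2)) :
    γ * (a - 1) + 1 ≤ Module.finrank Ω (Φ.L (brD d + infD γ)) := by
  have h1 := two_mul_sum_nj d γ
  have h2 : ∑ j, (nj d γ j + 1) ≤ ((∑ j, (nj d γ j + 1).toNat : ℕ) : ℤ) := by
    push_cast
    exact Finset.sum_le_sum fun j _ => Int.self_le_toNat _
  rw [← Φ.finrank_br_inf, Finset.sum_add_distrib] at h2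
  simp only [Finset.sum_const, Finset.card_univ, Fintype.card_fin, nsmul_eq_mul, mul_one] at h2
  rw [hd] at h1
  have ha : 1 ≤ a := Nat.one_le_iff_ne_zero.2 (NeZero.ne a)
  have h3 : 2 * (γ : ℤ) = (a - 1) * (a - 2) := by
    rcases Nat.lt_or_ge a 2 with h | h
    · have : a = 1 := by omega
      subst this
      have : γ = 0 := by omega
      simp [this]
    · have := congrArg (Nat.cast : ℕ → ℤ) hγ
      push_cast [Nat.cast_sub ha, Nat.cast_sub h] at this
      exact this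
  have h4 : ((γ * (a - 1) + 1 : ℕ) : ℤ) ≤ Module.finrank Ω (Φ.L (brD d + infD γ)) := by
    push_cast [Nat.cast_sub ha]
    nlinarith
  exact_mod_cast h4

theorem FF.exists_mem_L_move [CharZero Ω] [IsAlgClosed Ω] (Φ : FF c) {τ : Type} [Fintype τ]
    (x : τ → Pt c) (hx : ∀ j, (x j).IsAff) (hinj : Function.Injective fun j => (x j).tc)
    (hτ : 2 * Fintype.card τ = (a - 1) * (a - 2)) (i j : ZMod a) :
    ∃ h : Φ.F, h ≠ 0 ∧ h ∈ Φ.L (ptsD x + pt (.br j) - pt (.br i)) := by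
  classical
  have hx' : ∀ l, ∃ t y h hy, x l = Pt.aff t y h hy := fun l => by
    have := hx l
    cases hl : x l with
    | aff t y h hy => exact ⟨t, y, h, hy, rfl⟩
    | br i => rw [hl] at this; exact this.elim
    | inf s h => rw [hl] at this; exact this.elim
  choose t y h hy e using hx'
  have ht : Function.Injective t := fun l l' hl => hinj (by simp only [e, Pt.tc, hl])
  have hζ0 : c.ζ ≠ 0 := c.hζ.ne_zero (NeZero.ne a)
  have hz : ∀ (l : τ) (r : ℕ), (c.ζ ^ r * y l) ^ a = c.Φ.eval (t l) := fun l r => by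
    rw [mul_pow, ← pow_mul, mul_comm r, pow_mul, c.hζ.pow_eq_one, one_pow, one_mul, h]
  let z : τ × Fin (a - 1) → Pt c := fun p =>
    .aff (t p.1) (c.ζ ^ ((p.2 : ℕ) + 1) * y p.1) (hz _ _) (mul_ne_zero (pow_ne_zero _ hζ0) (hy _))
  let d : ZMod a → ℤ := fun k => pt (c := c) (.br j) (.br k) - pt (c := c) (.br i) (.br k)
  have hd : ∑ k, d k = 0 := by
    simp [d, pt, Finset.sum_sub_distrib]
  set E : Pt c → ℤ := brD d + infD (Fintype.card τ : ℕ) with hE
  have hdim := CvRR_dim Φ d hd _ hτ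
  have : FiniteDimensional Ω (Φ.L E) := Φ.finiteDimensional_br_inf _ _
  have : FiniteDimensional Ω (Φ.L (E - ptsD z)) :=
    Submodule.finiteDimensional_of_le (Φ.L_mono (E' := E) fun P => by
      have := CvRR_ptsD_nonneg z P
      rw [Pi.sub_apply]
      linarith)
  have hdrop := (Φ.drop_pts E z).2
  rw [Fintype.card_prod, Fintype.card_fin] at hdrop
  have hne : Φ.L (E - ptsD z) ≠ ⊥ := fun h0 => by
    rw [h0, finrank_bot] at hdrop
    rw [← hE] at hdim
    omega
  obtain ⟨g, hg, hg0⟩ := Submodule.exists_mem_ne_zero_of_ne_bot hne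
  set Q : Polynomial Ω := ∏ l, (X - C (t l)) with hQ
  have hQm : Q.Monic := monic_prod_of_monic _ _ fun l _ => monic_X_sub_C _
  have hQ0 : Q ≠ 0 := hQm.ne_zero
  have hQs : Q.Separable := separable_prod_X_sub_C_iff.2 ht
  have hQd : Q.natDegree = Fintype.card τ := by
    rw [hQ, natDegree_prod_of_monic _ _ fun l _ => monic_X_sub_C _]
    simp
  have hQr : ∀ s, (∀ l, t l ≠ s) → Q.rootMultiplicity s = 0 := fun s hs => by
    refine rootMultiplicity_eq_zero ?_
    rw [IsRoot, hQ, eval_prod, Finset.prod_eq_zero_iff]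
    rintro ⟨l, -, hl⟩
    rw [eval_sub, eval_X, eval_C, sub_eq_zero] at hl
    exact hs l hl.symm
  have hq : (aeval Φ.t Q)⁻¹ ≠ 0 := inv_ne_zero (Φ.aeval_ne_zero hQ0)
  refine ⟨_, mul_ne_zero hq hg0, Φ.L_mono (fun P => ?_) (Φ.mul_mem_L hg hq)⟩
  have p1 := CvRR_ptsD_nonneg x P
  have p2 := CvRR_ptsD_nonneg z P
  simp only [Pi.sub_apply, Pi.add_apply, hE, FF.div, Φ.ord_inv]
  cases P with
  | aff t₀ y₀ h₀ hy₀ =>
    rw [Φ.ord_aeval_aff t₀ y₀ h₀ hy₀ hQ0]
    simp only [brD, infD, pt, reduceCtorEq, if_false]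
    by_cases hs : ∀ l, t l ≠ t₀
    · rw [hQr t₀ hs]
      push_cast
      linarith
    · push Not at hs
      obtain ⟨l, rfl⟩ := hs
      have h1 : (Q.rootMultiplicity (t l) : ℤ) ≤ 1 := by
        exact_mod_cast rootMultiplicity_le_one_of_separable hQs _
      obtain ⟨r, hr, rfl⟩ := CvRR_root (c := c) (hy l) (h₀.trans (h l).symm)
      rcases r with _ | r
      · have h2 := CvRR_one_le x l
        have e2 : x l = Pt.aff (t l) (c.ζ ^ 0 * y l) h₀ hy₀ := by
          rw [e l]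
          simp
        rw [e2] at h2
        linarith
      · have h2 : 1 ≤ ptsD z (Pt.aff (t l) (c.ζ ^ (r + 1) * y l) h₀ hy₀) :=
          CvRR_one_le z (l, ⟨r, by omega⟩)
        linarith
  | br k =>
    have hs : ∀ l, t l ≠ c.b k := fun l hl => by
      have h1 := h l
      have h2 : c.Φ.eval (c.b k) = 0 := by
        rw [CD.Φ, eval_mul, eval_prod, Finset.prod_eq_zero (Finset.mem_univ k) (by simp), mul_zero]
      rw [hl, h2] at h1
      exact hy l (pow_eq_zero_iff (NeZero.ne a) |>.1 h1)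
    rw [Φ.ord_aeval_br k hQ0, hQr _ hs]
    simp only [brD, infD, d]
    push_cast
    linarith
  | inf s hs =>
    rw [Φ.ord_aeval_inf s hs hQ0, hQd]
    simp only [brD, infD, pt, reduceCtorEq, if_false]
    linarith

end Crest.Agent.R181
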