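import Crest.Agent.R181.CvGen

/-! Row 181: the generic classes are Ulrich (task CvUlrich). -/

set_option autoImplicit false

namespace Crest.Agent.R181

open Polynomial

variable {Ω : Type} [Field Ω] {a : ℕ} [NeZero a] {c : CD Ω a}

theorem cvU_sum_val (a : ℕ) [NeZero a] : 2 * ∑ i : ZMod a, (i.val : ℤ) = a * (a - 1) := by
  obtain ⟨b, rfl⟩ : ∃ b, a = b + 1 := ⟨a - 1, by have := NeZero.pos a; omega⟩
  have h1 : ∑ i : ZMod (b + 1), (i.val : ℤ) = ∑ i ∈ Finset.range (b + 1), (i : ℤ) :=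
    Fin.sum_univ_eq_sum_range (fun i => (i : ℤ)) (b + 1)
  have h2 := Finset.sum_range_id_mul_two (b + 1)
  rw [h1, ← Nat.cast_sum, mul_comm]
  have h3 : ((∑ i ∈ Finset.range (b + 1), i : ℕ) : ℤ) * 2 = (((b + 1) * (b + 1 - 1) : ℕ) : ℤ) := by
    exact_mod_cast h2
  rw [h3, Nat.add_sub_cancel]
  push_cast
  ring

theorem cvU_xi_add {k : ℕ} (x : ZMod a × Fin k → Pt c) (d : ZMod a → ℤ) (m : ℤ) :
    xiD x d + infD m =
      brD (fun i => (i.val : ℤ) + d i) + infD ((k : ℤ) - (∑ i, d i) / (a : ℤ) + m) - ptsD x := by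
  funext P
  change brD (fun i => (i.val : ℤ) + d i) P + infD ((k : ℤ) - (∑ i, d i) / (a : ℤ)) P - ptsD x P +
      infD m P =
    brD (fun i => (i.val : ℤ) + d i) P + infD ((k : ℤ) - (∑ i, d i) / (a : ℤ) + m) P - ptsD x P
  have h : ∀ n : ℤ, infD (n + m) P = infD n P + infD m P := by
    intro n
    cases P with
    | aff => exact (add_zero 0).symm
    | br => exact (add_zero 0).symm
    | inf => rfl
  rw [h]
  ring

theorem cvU_ptsD_nonneg {τ : Type} [Fintype τ] (x : τ → Pt c) (P : Pt c) : 0 ≤ ptsD x P := by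
  classical
  change 0 ≤ (∑ j, pt (x j)) P
  rw [Finset.sum_apply]
  refine Finset.sum_nonneg fun j _ => ?_
  change (0 : ℤ) ≤ @ite _ (P = x j) (Classical.propDecidable _) 1 0
  split_ifs <;> norm_num

theorem cvU_infD_nonneg (P : Pt c) : 0 ≤ infD 1 P := by
  cases P with
  | aff => exact le_rfl
  | br => exact le_rfl
  | inf => exact zero_le_one

theorem cvU_t_mem (Φ : FF c) : Φ.t ∈ Φ.L (infD 1) := by
  refine (Φ.mem_L_iff _ _).2 (Or.inr fun P => ?_)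
  have e : Φ.t = aeval Φ.t (X : Polynomial Ω) := (aeval_X _).symm
  cases P with
  | aff t₀ y₀ h hy =>
    rw [e, Φ.ord_aeval_aff t₀ y₀ h hy X_ne_zero]
    exact Int.natCast_nonneg _
  | br i =>
    rw [e, Φ.ord_aeval_br i X_ne_zero]
    exact mul_nonneg (Int.natCast_nonneg _) (Int.natCast_nonneg _)
  | inf s h =>
    rw [e, Φ.ord_aeval_inf s h X_ne_zero, natDegree_X]
    exact le_rfl

theorem cvU_t_mul (Φ : FF c) {E : Pt c → ℤ} {f : Φ.F} (hf : f ∈ Φ.L E) :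
    Φ.t * f ∈ Φ.L (E + infD 1) := by
  rw [mul_comm]
  exact Φ.mul_mem_L_add hf (cvU_t_mem Φ)

theorem cvU_mono (Φ : FF c) {E : Pt c → ℤ} {f : Φ.F} (hf : f ∈ Φ.L E) : f ∈ Φ.L (E + infD 1) :=
  Φ.L_mono (E := E) (fun P => le_add_of_nonneg_right (cvU_infD_nonneg P)) hf

theorem cvU_cancel (Φ : FF c) {E : Pt c → ℤ} {f : Φ.F} (hf : f ∈ Φ.L E) (h : Φ.t * f ∈ Φ.L E) :
    f ∈ Φ.L (E - infD 1) := by
  intro P m hm
  cases P with
  | aff t₀ y₀ h hy => exact hf _ m (by rw [← sub_zero (E _)]; exact hm)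
  | br i => exact hf _ m (by rw [← sub_zero (E _)]; exact hm)
  | inf s hs =>
    have h1 : m < -(E (.inf s hs) - 1) := hm
    have h2 := h (.inf s hs) (m + -1) (by omega)
    rw [map_mul, Φ.inf_t, HahnSeries.coeff_single_mul_add, one_mul] at h2
    exact h2

section
variable [CharZero Ω] [IsAlgClosed Ω] (Φ : FF c) (k₀ : Subfield Ω) (hk₀ : c.Over k₀) {k : ℕ}
  (hk : a ≤ k + 1) (x : ZMod a × Fin k → Pt c) (hx : IsGen k₀ x) (d : ZMod a → ℤ)
  (hd : (a : ℤ) ∣ ∑ i, d i)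
include hk₀ hk hx hd

theorem cvU_finrank (m : ℤ) (hm : -1 ≤ m) :
    FiniteDimensional Ω (Φ.L (xiD x d + infD m)) ∧
      (Module.finrank Ω (Φ.L (xiD x d + infD m)) : ℤ) = a * (m + 1) := by
  rw [cvU_xi_add]
  obtain ⟨e, he⟩ := hd
  have ha0 : (0 : ℤ) < a := Int.natCast_pos.2 (NeZero.pos a)
  have he' : (∑ i, d i) / (a : ℤ) = e := by rw [he, Int.mul_ediv_cancel_left _ ha0.ne']
  rw [he']
  have hfin := Φ.finiteDimensional_br_inf (fun i => (i.val : ℤ) + d i) ((k : ℤ) - e + m)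
  refine ⟨Submodule.finiteDimensional_of_le (S₂ := Φ.L (brD (fun i => (i.val : ℤ) + d i) +
    infD ((k : ℤ) - e + m))) (Φ.L_mono fun P => sub_le_self _ (cvU_ptsD_nonneg x P)), ?_⟩
  have h1 := two_mul_sum_nj (fun i : ZMod a => (i.val : ℤ) + d i) ((k : ℤ) - e + m)
  rw [Finset.sum_add_distrib, mul_add 2, cvU_sum_val, he] at h1
  have h2 : ∑ j, nj (fun i : ZMod a => (i.val : ℤ) + d i) ((k : ℤ) - e + m) j = a * (k + m) := by
    linarith
  have h3 : ∀ j, 0 ≤ nj (fun i : ZMod a => (i.val : ℤ) + d i) ((k : ℤ) - e + m) j + 1 := by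
    intro j
    have h4 := Finset.sum_le_sum (s := Finset.univ) fun j' _ =>
      nj_le (fun i : ZMod a => (i.val : ℤ) + d i) ((k : ℤ) - e + m) j' j
    rw [h2, Finset.sum_const, Finset.card_univ, Fintype.card_fin, nsmul_eq_mul] at h4
    have h5 := le_of_mul_le_mul_left h4 ha0
    have h6 : (a : ℤ) ≤ k + 1 := by exact_mod_cast hk
    linarith
  have h7 : (Module.finrank Ω (Φ.L (brD (fun i => (i.val : ℤ) + d i) + infD ((k : ℤ) - e + m))) : ℤ) =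
      a * (k + m) + a := by
    rw [Φ.finrank_br_inf, Nat.cast_sum, Finset.sum_congr rfl fun j _ => Int.toNat_of_nonneg (h3 j),
      Finset.sum_add_distrib, h2, Finset.sum_const, Finset.card_univ, Fintype.card_fin,
      nsmul_eq_mul, mul_one]
  have h8 : 0 ≤ (a : ℤ) * (m + 1) := mul_nonneg ha0.le (by omega)
  rw [Φ.finrank_sub_gen k₀ hk₀ _ _ x hx, Fintype.card_prod, ZMod.card, Fintype.card_fin,
    Nat.cast_sub, h7]
  · push_cast
    ring
  · have h9 : ((a * k : ℕ) : ℤ) ≤ a * (k + m) + a := by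
      push_cast
      linarith
    rw [← h7] at h9
    exact_mod_cast h9

theorem FF.L_xi_sub : Φ.L (xiD x d - infD 1) = ⊥ := by
  have e : xiD x d - infD 1 = xiD x d + infD (-1) := by
    funext P
    change xiD x d P - infD 1 P = xiD x d P + infD (-1) P
    rw [sub_eq_add_neg]
    cases P <;> rfl
  obtain ⟨h1, h2⟩ := cvU_finrank Φ k₀ hk₀ hk x hx d hd (-1) le_rfl
  rw [e, ← Submodule.finrank_eq_zero]
  rw [neg_add_cancel, mul_zero] at h2
  exact_mod_cast h2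

theorem FF.finrank_xi :
    FiniteDimensional Ω (Φ.L (xiD x d)) ∧ Module.finrank Ω (Φ.L (xiD x d)) = a := by
  have e : xiD x d + infD 0 = xiD x d := by
    funext P
    change xiD x d P + infD 0 P = xiD x d P
    cases P <;> exact add_zero _
  obtain ⟨h1, h2⟩ := cvU_finrank Φ k₀ hk₀ hk x hx d hd 0 (by norm_num)
  rw [e] at h1 h2
  rw [zero_add, mul_one] at h2
  exact ⟨h1, by exact_mod_cast h2⟩

theorem FF.xi_indep {f₀ f₁ f₂ : Φ.F} (h₀ : f₀ ∈ Φ.L (xiD x d)) (h₁ : f₁ ∈ Φ.L (xiD x d))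
    (h₂ : f₂ ∈ Φ.L (xiD x d)) (h : Φ.t ^ 2 * f₂ + Φ.t * f₁ + f₀ = 0) :
    f₀ = 0 ∧ f₁ = 0 ∧ f₂ = 0 := by
  have hb := Φ.L_xi_sub k₀ hk₀ hk x hx d hd
  have key : ∀ g ∈ Φ.L (xiD x d), Φ.t * g ∈ Φ.L (xiD x d) → g = 0 := by
    intro g hg hg'
    have := cvU_cancel Φ hg hg'
    rwa [hb, Submodule.mem_bot] at this
  have e1 : Φ.t * (Φ.t * f₂ + f₁) = -f₀ := by linear_combination h
  have m1 : Φ.t * (Φ.t * f₂ + f₁) ∈ Φ.L (xiD x d) := e1 ▸ (Φ.L _).neg_mem h₀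
  have m2 : Φ.t * f₂ + f₁ ∈ Φ.L (xiD x d) := by
    have := cvU_cancel Φ ((Φ.L _).add_mem (cvU_t_mul Φ h₂) (cvU_mono Φ h₁)) (cvU_mono Φ m1)
    rwa [add_sub_cancel_right] at this
  have e2 := key _ m2 m1
  have e3 : Φ.t * f₂ = -f₁ := by linear_combination e2
  have e4 := key _ h₂ (e3 ▸ (Φ.L _).neg_mem h₁)
  rw [e2, mul_zero] at e1
  rw [e4, mul_zero] at e3
  exact ⟨neg_eq_zero.1 e1.symm, neg_eq_zero.1 e3.symm, e4⟩

theorem FF.xi_split {f : Φ.F} (hf : f ∈ Φ.L (xiD x d + infD 1)) :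
    ∃ f₁ ∈ Φ.L (xiD x d), ∃ f₀ ∈ Φ.L (xiD x d), f = Φ.t * f₁ + f₀ := by
  obtain ⟨i1, h1⟩ := Φ.finrank_xi k₀ hk₀ hk x hx d hd
  obtain ⟨i2, h2⟩ := cvU_finrank Φ k₀ hk₀ hk x hx d hd 1 (by norm_num)
  let ψ : (Φ.L (xiD x d) × Φ.L (xiD x d)) →ₗ[Ω] Φ.L (xiD x d + infD 1) :=
    { toFun := fun p => ⟨Φ.t * p.1 + p.2, (Φ.L _).add_mem (cvU_t_mul Φ p.1.2) (cvU_mono Φ p.2.2)⟩
      map_add' := fun p q => Subtype.ext (by
        change Φ.t * (p.1 + q.1 : Φ.F) + (p.2 + q.2 : Φ.F) =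
          (Φ.t * p.1 + p.2 : Φ.F) + (Φ.t * q.1 + q.2 : Φ.F)
        ring)
      map_smul' := fun r p => Subtype.ext (by
        change Φ.t * (r • (p.1 : Φ.F)) + r • (p.2 : Φ.F) = r • (Φ.t * p.1 + p.2 : Φ.F)
        rw [smul_add, mul_smul_comm]) }
  have hinj : Function.Injective ψ := by
    refine (injective_iff_map_eq_zero ψ).2 fun p hp => ?_
    have h3 : Φ.t * (p.1 : Φ.F) + p.2 = 0 := congrArg Subtype.val hp
    obtain ⟨e0, e1, -⟩ := Φ.xi_indep k₀ hk₀ hk x hx d hd p.2.2 p.1.2 (Φ.L _).zero_mem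
      (by rw [mul_zero, zero_add]; exact h3)
    exact Prod.ext (Subtype.ext e1) (Subtype.ext e0)
  have hrk : Module.finrank Ω (Φ.L (xiD x d) × Φ.L (xiD x d)) =
      Module.finrank Ω (Φ.L (xiD x d + infD 1)) := by
    rw [Module.finrank_prod, h1]
    have h3 : ((a + a : ℕ) : ℤ) = (Module.finrank Ω (Φ.L (xiD x d + infD 1)) : ℤ) := by
      rw [h2]
      push_cast
      ring
    exact_mod_cast h3
  obtain ⟨p, hp⟩ := (LinearMap.injective_iff_surjective_of_finrank_eq_finrank hrk).1 hinj ⟨f, hf⟩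
  exact ⟨p.1, p.1.2, p.2, p.2.2, (congrArg Subtype.val hp).symm⟩

end

end Crest.Agent.R181
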