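import Crest.Agent.R181.CvHensel

/-! Row 181: Laurent series lemmas for `CvVal`. -/

set_option autoImplicit false

namespace Crest.Agent.R181

open Polynomial

variable {Ω : Type} [Field Ω]

theorem CvV_order_ps {R : PowerSeries Ω} (h : PowerSeries.constantCoeff R ≠ 0) :
    (HahnSeries.ofPowerSeries ℤ Ω R).order = 0 := by
  have h0 : (HahnSeries.ofPowerSeries ℤ Ω R).coeff 0 ≠ 0 := by
    rw [PowerSeries.coeff_coe]
    simpa using h
  refine le_antisymm (HahnSeries.order_le_of_coeff_ne_zero h0) (not_lt.1 fun h1 => ?_)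
  refine HahnSeries.ne_zero_of_coeff_ne_zero h0 (HahnSeries.coeff_order_eq_zero.1 ?_)
  rw [PowerSeries.coeff_coe, if_pos h1]

theorem CvV_aeval_ps (R : PowerSeries Ω) (p : Polynomial Ω) :
    aeval (HahnSeries.ofPowerSeries ℤ Ω R : LaurentSeries Ω) p =
      HahnSeries.ofPowerSeries ℤ Ω (aeval R p) := by
  rw [map_aeval_eq_aeval_map (φ := RingHom.id Ω) (ψ := HahnSeries.ofPowerSeries ℤ Ω)
    (U := LaurentSeries Ω), Polynomial.map_id]
  ext1 r
  simp [algebraMap_laurent]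

theorem CvV_cc_aeval (R : PowerSeries Ω) (p : Polynomial Ω) :
    PowerSeries.constantCoeff (aeval R p) = p.eval (PowerSeries.constantCoeff R) := by
  rw [map_aeval_eq_aeval_map (φ := RingHom.id Ω) (ψ := PowerSeries.constantCoeff (R := Ω)),
    Polynomial.map_id, coe_aeval_eq_eval]
  ext1 r
  simp

theorem CvV_map_aeval (ρ : Ω →+* Ω) (R : PowerSeries Ω) (p : Polynomial Ω) :
    PowerSeries.map ρ (aeval R p) = aeval (PowerSeries.map ρ R) (p.map ρ) := by
  refine map_aeval_eq_aeval_map ?_ p R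
  ext1 r
  simp

theorem CvV_order_congr {x y : LaurentSeries Ω} (h : ∀ m, x.coeff m = 0 ↔ y.coeff m = 0) :
    x.order = y.order := by
  by_cases hx : x = 0
  · have hy : y = 0 := by
      ext m
      exact (h m).1 (by rw [hx]; rfl)
    rw [hx, hy]
  · have hy : y ≠ 0 := fun hy => hx (by
      ext m
      exact (h m).2 (by rw [hy]; rfl))
    exact le_antisymm
      (HahnSeries.order_le_of_coeff_ne_zero fun h1 => hy (HahnSeries.coeff_order_eq_zero.1 ((h _).1 h1)))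
      (HahnSeries.order_le_of_coeff_ne_zero fun h1 => hx (HahnSeries.coeff_order_eq_zero.1 ((h _).2 h1)))

section map

variable {ρ : Ω ≃+* Ω} {σ₁ : LaurentSeries Ω ≃+* LaurentSeries Ω}
  (h : ∀ (x : LaurentSeries Ω) (n : ℤ), (σ₁ x).coeff n = ρ (x.coeff n))

include h

theorem CvV_map_single (n : ℤ) (r : Ω) : σ₁ (HahnSeries.single n r) = HahnSeries.single n (ρ r) := by
  ext m
  rw [h, HahnSeries.coeff_single, HahnSeries.coeff_single, apply_ite ρ, map_zero]

theorem CvV_map_C (r : Ω) : σ₁ (HahnSeries.C r) = HahnSeries.C (ρ r) := CvV_map_single h 0 r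

theorem CvV_map_ps (R : PowerSeries Ω) : σ₁ (HahnSeries.ofPowerSeries ℤ Ω R) =
    HahnSeries.ofPowerSeries ℤ Ω (PowerSeries.map (ρ : Ω →+* Ω) R) := by
  ext m
  rw [h, PowerSeries.coeff_coe, PowerSeries.coeff_coe, apply_ite ρ, map_zero, PowerSeries.coeff_map]
  rfl

end map

variable {a : ℕ} [NeZero a] (c : CD Ω a)

theorem CvV_Φ_ne : c.Φ ≠ 0 :=
  mul_ne_zero (C_ne_zero.2 c.hT) (Finset.prod_ne_zero_iff.2 fun _ _ => X_sub_C_ne_zero _)

theorem CvV_Φ_fac (i : ZMod a) : ∃ q : Polynomial Ω, c.Φ = (X - C (c.b i)) * q ∧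
    q.eval (c.b i) ≠ 0 := by
  refine ⟨C c.T * ∏ l ∈ Finset.univ.erase i, (X - C (c.b l)), ?_, ?_⟩
  · rw [CD.Φ, ← Finset.mul_prod_erase _ _ (Finset.mem_univ i)]
    ring
  · rw [eval_mul, eval_C, eval_prod]
    refine mul_ne_zero c.hT (Finset.prod_ne_zero_iff.2 fun l hl => ?_)
    rw [eval_sub, eval_X, eval_C]
    exact sub_ne_zero.2 fun h => (Finset.mem_erase.1 hl).1 (c.hb h).symm

theorem CvV_Φ_der (i : ZMod a) : c.Φ.derivative.eval (c.b i) ≠ 0 := by
  obtain ⟨q, h1, h2⟩ := CvV_Φ_fac c i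
  rw [h1]
  simpa using h2

theorem CvV_Φ_map (σ : Sym c) : c.Φ.map (σ.ρ : Ω →+* Ω) = c.Φ := by
  simp only [CD.Φ, Polynomial.map_mul, Polynomial.map_prod, Polynomial.map_sub, map_C, map_X,
    RingHom.coe_coe, σ.hT, σ.hb]
  congr 1
  exact Equiv.prod_comp (Equiv.addRight σ.sh) fun i => X - C (c.b i)

end Crest.Agent.R181
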