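import Crest.Agent.R181.CvHensel
import Crest.Agent.R181.CvValAux

/-! Row 181: orders of vanishing (task CvVal). -/

set_option autoImplicit false

namespace Crest.Agent.R181

open Polynomial

variable {Ω : Type} [Field Ω] {a : ℕ} [NeZero a] {c : CD Ω a}

namespace FF

variable (Φ : FF c)

theorem CvV_aeval_ne {p : Polynomial Ω} (hp : p ≠ 0) : aeval Φ.t p ≠ 0 := by
  intro h
  refine hp ?_
  have h1 := Φ.ind (Pi.single 0 p) (by
    rw [Finset.sum_eq_single 0]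
    · rw [Pi.single_eq_same, h, zero_mul]
    · intro j _ hj
      rw [Pi.single_eq_of_ne hj, map_zero, zero_mul]
    · exact fun h => absurd (Finset.mem_univ _) h) 0
  rwa [Pi.single_eq_same] at h1

theorem CvV_hom_aeval {R : Type} [Field R] (φ ψ : Φ.F →+* R)
    (hC : ∀ r, φ (algebraMap Ω Φ.F r) = ψ (algebraMap Ω Φ.F r)) (ht : φ Φ.t = ψ Φ.t)
    (p : Polynomial Ω) : φ (aeval Φ.t p) = ψ (aeval Φ.t p) := by
  rw [aeval_def, hom_eval₂, hom_eval₂, ht,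
    show φ.comp (algebraMap Ω Φ.F) = ψ.comp (algebraMap Ω Φ.F) from RingHom.ext hC]

theorem ringHom_ext {R : Type} [Field R] (φ ψ : Φ.F →+* R)
    (hC : ∀ r, φ (algebraMap Ω Φ.F r) = ψ (algebraMap Ω Φ.F r)) (ht : φ Φ.t = ψ Φ.t)
    (hy : φ Φ.y = ψ Φ.y) : φ = ψ := by
  refine RingHom.ext fun f => ?_
  obtain ⟨p, q, hq, h⟩ := Φ.gen f
  have h1 := Φ.CvV_hom_aeval φ ψ hC ht
  refine mul_right_cancel₀ ((map_ne_zero φ).2 (Φ.CvV_aeval_ne hq)) ?_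
  rw [← map_mul, h1, ← map_mul, h]
  simp only [map_sum, map_mul, map_pow, h1, hy]

theorem aeval_ne_zero {p : Polynomial Ω} (hp : p ≠ 0) : aeval Φ.t p ≠ 0 :=
  Φ.CvV_aeval_ne hp

theorem t_sub_ne_zero (r : Ω) : Φ.t - algebraMap Ω Φ.F r ≠ 0 := by
  simpa only [map_sub, aeval_X, aeval_C] using Φ.aeval_ne_zero (X_sub_C_ne_zero r)

theorem y_ne_zero : Φ.y ≠ 0 := fun h =>
  Φ.aeval_ne_zero (CvV_Φ_ne c) (by rw [← Φ.hy, h, zero_pow (NeZero.ne a)])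

theorem ord_mul (P : Pt c) {f g : Φ.F} (hf : f ≠ 0) (hg : g ≠ 0) :
    Φ.ord P (f * g) = Φ.ord P f + Φ.ord P g := by
  change (Φ.emb P (f * g)).order = _
  rw [map_mul]
  exact HahnSeries.order_mul ((map_ne_zero (Φ.emb P)).2 hf) ((map_ne_zero (Φ.emb P)).2 hg)

theorem CvV_ord_one (P : Pt c) : Φ.ord P 1 = 0 := by
  change (Φ.emb P 1).order = _
  rw [map_one, HahnSeries.order_one]

theorem CvV_ord_pow (P : Pt c) (f : Φ.F) (n : ℕ) : Φ.ord P (f ^ n) = n * Φ.ord P f := by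
  change (Φ.emb P (f ^ n)).order = _
  rw [map_pow, HahnSeries.order_pow, nsmul_eq_mul]
  rfl

theorem CvV_ord_inv (P : Pt c) (f : Φ.F) : Φ.ord P f⁻¹ = -Φ.ord P f := by
  by_cases hf : f = 0
  · have h : Φ.ord P 0 = 0 := by
      change (Φ.emb P 0).order = _
      rw [map_zero, HahnSeries.order_zero]
    rw [hf, inv_zero, h, neg_zero]
  · have h := Φ.ord_mul P hf (inv_ne_zero hf)
    rw [mul_inv_cancel₀ hf, CvV_ord_one] at h
    omega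

theorem ord_zpow (P : Pt c) (f : Φ.F) (n : ℤ) : Φ.ord P (f ^ n) = n * Φ.ord P f := by
  obtain ⟨m, rfl | rfl⟩ := n.eq_nat_or_neg
  · rw [zpow_natCast, CvV_ord_pow]
  · rw [zpow_neg, zpow_natCast, CvV_ord_inv, CvV_ord_pow, neg_mul]

theorem ord_inv (P : Pt c) (f : Φ.F) : Φ.ord P f⁻¹ = -Φ.ord P f :=
  Φ.CvV_ord_inv P f

theorem ord_prod (P : Pt c) {ι : Type} (s : Finset ι) (f : ι → Φ.F) (hf : ∀ i ∈ s, f i ≠ 0) :
    Φ.ord P (∏ i ∈ s, f i) = ∑ i ∈ s, Φ.ord P (f i) := by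
  classical
  induction s using Finset.induction_on with
  | empty => exact Φ.CvV_ord_one P
  | insert i s hi ih =>
    have h := fun j hj => hf j (Finset.mem_insert_of_mem hj)
    rw [Finset.prod_insert hi, Finset.sum_insert hi,
      Φ.ord_mul P (hf i (Finset.mem_insert_self _ _)) (Finset.prod_ne_zero_iff.2 h), ih h]

theorem ord_C (P : Pt c) (r : Ω) : Φ.ord P (algebraMap Ω Φ.F r) = 0 := by
  change (Φ.emb P _).order = _
  rw [AlgHom.commutes, algebraMap_laurent, HahnSeries.order_C]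

theorem mem_L_iff (E : Pt c → ℤ) (f : Φ.F) :
    f ∈ Φ.L E ↔ f = 0 ∨ ∀ P, -E P ≤ Φ.ord P f := by
  constructor
  · intro h
    refine or_iff_not_imp_left.2 fun hf P => not_lt.1 fun h1 => ?_
    exact (map_ne_zero (Φ.emb P)).2 hf (HahnSeries.coeff_order_eq_zero.1 (h P _ h1))
  · rintro (rfl | h)
    · exact zero_mem _
    · exact fun P m hm => HahnSeries.coeff_eq_zero_of_lt_order (hm.trans_le (h P))

theorem L_mono {E E' : Pt c → ℤ} (h : ∀ P, E P ≤ E' P) : Φ.L E ≤ Φ.L E' :=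
  fun _ hf P m hm => hf P m (hm.trans_le (neg_le_neg (h P)))

theorem mul_mem_L {E : Pt c → ℤ} {f : Φ.F} (hf : f ∈ Φ.L E) {h : Φ.F} (hh : h ≠ 0) :
    h * f ∈ Φ.L (E - Φ.div h) := by
  by_cases h0 : f = 0
  · rw [h0, mul_zero]
    exact zero_mem _
  · refine (Φ.mem_L_iff _ _).2 (Or.inr fun P => ?_)
    have h1 := ((Φ.mem_L_iff _ _).1 hf).resolve_left h0 P
    rw [Φ.ord_mul P hh h0]
    change -(E P - Φ.ord P h) ≤ _
    omega

theorem mul_mem_L_add {E E' : Pt c → ℤ} {f g : Φ.F} (hf : f ∈ Φ.L E) (hg : g ∈ Φ.L E') :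
    f * g ∈ Φ.L (E + E') := by
  by_cases h0 : f = 0
  · rw [h0, zero_mul]
    exact zero_mem _
  by_cases h0' : g = 0
  · rw [h0', mul_zero]
    exact zero_mem _
  refine (Φ.mem_L_iff _ _).2 (Or.inr fun P => ?_)
  have h1 := ((Φ.mem_L_iff _ _).1 hf).resolve_left h0 P
  have h2 := ((Φ.mem_L_iff _ _).1 hg).resolve_left h0' P
  rw [Φ.ord_mul P h0 h0', Pi.add_apply]
  omega

theorem CvV_ord_unit (P : Pt c) {u : Φ.F} {R : PowerSeries Ω}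
    (hu : Φ.emb P u = HahnSeries.ofPowerSeries ℤ Ω R) {q : Polynomial Ω}
    (hq : q.eval (PowerSeries.constantCoeff R) ≠ 0) : Φ.ord P (aeval u q) = 0 := by
  change (Φ.emb P _).order = _
  rw [← aeval_algHom_apply, hu, CvV_aeval_ps]
  exact CvV_order_ps (by rwa [CvV_cc_aeval])

theorem CvV_ord_root (P : Pt c) {R : PowerSeries Ω} {r : Ω} (hr : PowerSeries.constantCoeff R = r)
    (hu : Φ.emb P Φ.t = HahnSeries.ofPowerSeries ℤ Ω R) {p : Polynomial Ω} (hp : p ≠ 0) :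
    Φ.ord P (aeval Φ.t p) = p.rootMultiplicity r * Φ.ord P (Φ.t - algebraMap Ω Φ.F r) := by
  obtain ⟨q, h1, h2⟩ := exists_eq_pow_rootMultiplicity_mul_and_not_dvd p hp r
  have hq : q ≠ 0 := fun h => h2 (h ▸ dvd_zero _)
  conv_lhs => rw [h1]
  rw [map_mul, map_pow, map_sub, aeval_X, aeval_C,
    Φ.ord_mul P (pow_ne_zero _ (Φ.t_sub_ne_zero r)) (Φ.aeval_ne_zero hq), CvV_ord_pow,
    Φ.CvV_ord_unit P hu (fun h => h2 (dvd_iff_isRoot.2 (hr ▸ h))), add_zero]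

theorem CvV_ord_y_br (i : ZMod a) : Φ.ord (.br i) Φ.y = 1 := by
  change (Φ.emb _ _).order = _
  rw [Φ.br_y, HahnSeries.order_single one_ne_zero]

theorem ord_aeval_aff (t₀ y₀ : Ω) (h hy) {p : Polynomial Ω} (hp : p ≠ 0) :
    Φ.ord (.aff t₀ y₀ h hy) (aeval Φ.t p) = p.rootMultiplicity t₀ := by
  have h1 : Φ.ord (.aff t₀ y₀ h hy) (Φ.t - algebraMap Ω Φ.F t₀) = 1 := by
    change (Φ.emb _ _).order = _
    rw [map_sub, Φ.aff_t, AlgHom.commutes, algebraMap_laurent, add_sub_cancel_left,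
      HahnSeries.order_single one_ne_zero]
  rw [Φ.CvV_ord_root _ (R := PowerSeries.C t₀ + PowerSeries.X) (r := t₀) (by simp)
    (by rw [Φ.aff_t, map_add, HahnSeries.ofPowerSeries_C, HahnSeries.ofPowerSeries_X]) hp, h1, mul_one]

theorem ord_aeval_br (i : ZMod a) {p : Polynomial Ω} (hp : p ≠ 0) :
    Φ.ord (.br i) (aeval Φ.t p) = a * p.rootMultiplicity (c.b i) := by
  obtain ⟨R, h1, h2⟩ := Φ.br_t i
  obtain ⟨q, h3, h4⟩ := CvV_Φ_fac c i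
  have hq : q ≠ 0 := fun h => h4 (by rw [h, eval_zero])
  have h5 := Φ.CvV_ord_pow (.br i) Φ.y a
  rw [Φ.hy, h3, map_mul, map_sub, aeval_X, aeval_C,
    Φ.ord_mul _ (Φ.t_sub_ne_zero _) (Φ.aeval_ne_zero hq), Φ.CvV_ord_unit _ h2 (by rwa [h1]),
    CvV_ord_y_br, add_zero, mul_one] at h5
  rw [Φ.CvV_ord_root _ h1 h2 hp, h5, mul_comm]

theorem ord_aeval_inf (s : Ω) (h) {p : Polynomial Ω} (hp : p ≠ 0) :
    Φ.ord (.inf s h) (aeval Φ.t p) = -(p.natDegree : ℤ) := by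
  have ht : Φ.t ≠ 0 := by simpa only [map_zero, sub_zero] using Φ.t_sub_ne_zero 0
  let _ := invertibleOfNonzero ht
  have h1 := eval₂_reverse_mul_pow (algebraMap Ω Φ.F) Φ.t p
  rw [invOf_eq_inv, ← aeval_def, ← aeval_def] at h1
  have h2 : Φ.emb (.inf s h) Φ.t⁻¹ = HahnSeries.ofPowerSeries ℤ Ω PowerSeries.X := by
    rw [map_inv₀, Φ.inf_t, HahnSeries.inv_single, HahnSeries.ofPowerSeries_X, neg_neg, inv_one]
  have h3 : Φ.ord (.inf s h) Φ.t = -1 := by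
    change (Φ.emb _ _).order = _
    rw [Φ.inf_t, HahnSeries.order_single one_ne_zero]
  have h4 := Φ.aeval_ne_zero hp
  rw [← h1] at h4 ⊢
  rw [Φ.ord_mul _ (left_ne_zero_of_mul h4) (right_ne_zero_of_mul h4), CvV_ord_pow, h3,
    Φ.CvV_ord_unit _ h2 (by
      rw [PowerSeries.constantCoeff_X, ← coeff_zero_eq_eval_zero, coeff_zero_reverse]
      exact leadingCoeff_ne_zero.2 hp)]
  omega

theorem CvV_s_ne {s : Ω} (h : s ^ a = c.T) : s ≠ 0 := fun h0 =>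
  c.hT (by rw [← h, h0, zero_pow (NeZero.ne a)])

theorem div_y : Φ.div Φ.y = brD (fun _ => 1) - infD 1 := by
  funext P
  rcases P with ⟨t₀, y₀, h, hy⟩ | i | ⟨s, h⟩
  · obtain ⟨R, h1, h2⟩ := Φ.aff_y t₀ y₀ h hy
    change (Φ.emb _ _).order = 0 - 0
    rw [h2, CvV_order_ps (by rwa [h1]), sub_zero]
  · exact Φ.CvV_ord_y_br i
  · obtain ⟨R, h1, h2⟩ := Φ.inf_y s h
    have h3 : PowerSeries.constantCoeff R ≠ 0 := h1 ▸ CvV_s_ne h
    have h4 : HahnSeries.ofPowerSeries ℤ Ω R ≠ 0 :=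
      (map_ne_zero_iff _ HahnSeries.ofPowerSeries_injective).2 fun h0 => h3 (by rw [h0, map_zero])
    change (Φ.emb _ _).order = 0 - 1
    rw [h2, HahnSeries.order_mul (HahnSeries.single_ne_zero one_ne_zero) h4,
      HahnSeries.order_single one_ne_zero, CvV_order_ps h3]
    rfl

theorem div_t_sub_b (i : ZMod a) :
    Φ.div (Φ.t - algebraMap Ω Φ.F (c.b i)) = brD (Pi.single i (a : ℤ)) - infD 1 := by
  classical
  have e : Φ.t - algebraMap Ω Φ.F (c.b i) = aeval Φ.t (X - C (c.b i)) := by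
    rw [map_sub, aeval_X, aeval_C]
  have hp := X_sub_C_ne_zero (c.b i)
  funext P
  rw [e]
  rcases P with ⟨t₀, y₀, h, hy⟩ | l | ⟨s, h⟩
  · refine (Φ.ord_aeval_aff t₀ y₀ h hy hp).trans ?_
    have h1 : t₀ ≠ c.b i := by
      rintro rfl
      obtain ⟨q, h3, -⟩ := CvV_Φ_fac c i
      rw [h3] at h
      exact pow_ne_zero a hy (by simpa using h)
    rw [rootMultiplicity_X_sub_C, if_neg h1]
    rfl
  · refine (Φ.ord_aeval_br l hp).trans ?_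
    change _ = (Pi.single i (a : ℤ) : ZMod a → ℤ) l - 0
    rw [rootMultiplicity_X_sub_C, Pi.single_apply]
    by_cases h1 : l = i
    · simp [h1]
    · simp [h1, c.hb.ne h1]
  · refine (Φ.ord_aeval_inf s h hp).trans ?_
    rw [natDegree_X_sub_C]
    rfl

theorem CvV_ext_y [CharZero Ω] (φ ψ : Φ.F →+* LaurentSeries Ω)
    (hC : ∀ r, φ (algebraMap Ω Φ.F r) = ψ (algebraMap Ω Φ.F r)) (ht : φ Φ.t = ψ Φ.t)
    {u : LaurentSeries Ω} (hu : u ≠ 0) {R R' : PowerSeries Ω}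
    (h1 : φ Φ.y = u * HahnSeries.ofPowerSeries ℤ Ω R)
    (h2 : ψ Φ.y = u * HahnSeries.ofPowerSeries ℤ Ω R') (h0 : PowerSeries.constantCoeff R ≠ 0)
    (h : PowerSeries.constantCoeff R = PowerSeries.constantCoeff R') : φ = ψ := by
  refine Φ.ringHom_ext φ ψ hC ht ?_
  have h3 := Φ.CvV_hom_aeval φ ψ hC ht c.Φ
  rw [← Φ.hy, map_pow, map_pow, h1, h2, mul_pow, mul_pow, ← map_pow, ← map_pow] at h3
  rw [h1, h2, pow_eq_powerSeries_unique (Nat.pos_of_ne_zero (NeZero.ne a)) R R' h0 h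
    (HahnSeries.ofPowerSeries_injective (mul_left_cancel₀ (pow_ne_zero a hu) h3))]

theorem emb_τ_aff [CharZero Ω] (t₀ y₀ : Ω) (h hy h' hy') (f : Φ.F) :
    Φ.emb (.aff t₀ y₀ h hy) (Φ.τ f) = Φ.emb (.aff t₀ (c.ζ * y₀) h' hy') f := by
  obtain ⟨R, h1, h2⟩ := Φ.aff_y t₀ y₀ h hy
  obtain ⟨R', h1', h2'⟩ := Φ.aff_y t₀ _ h' hy'
  refine RingHom.congr_fun (Φ.CvV_ext_y
    (((Φ.emb (.aff t₀ y₀ h hy)).comp (Φ.τ : Φ.F →ₐ[Ω] Φ.F) : Φ.F →ₐ[Ω] LaurentSeries Ω) :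
      Φ.F →+* LaurentSeries Ω) (Φ.emb (.aff t₀ (c.ζ * y₀) h' hy'))
    (fun r => by simp only [RingHom.coe_coe, AlgHom.commutes]) ?_ one_ne_zero
    (R := PowerSeries.C c.ζ * R) (R' := R') ?_ ?_ ?_ ?_) f
  · change Φ.emb _ (Φ.τ Φ.t) = Φ.emb _ Φ.t
    rw [Φ.τ_t, Φ.aff_t, Φ.aff_t]
  · change Φ.emb _ (Φ.τ Φ.y) = _
    rw [Φ.τ_y, map_mul, AlgHom.commutes, algebraMap_laurent, h2, one_mul, map_mul,
      HahnSeries.ofPowerSeries_C]
  · rw [one_mul]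
    exact h2'
  · rwa [map_mul, PowerSeries.constantCoeff_C, h1]
  · rw [map_mul, PowerSeries.constantCoeff_C, h1, h1']

theorem emb_τ_inf [CharZero Ω] (s : Ω) (h h') (f : Φ.F) :
    Φ.emb (.inf s h) (Φ.τ f) = Φ.emb (.inf (c.ζ * s) h') f := by
  obtain ⟨R, h1, h2⟩ := Φ.inf_y s h
  obtain ⟨R', h1', h2'⟩ := Φ.inf_y _ h'
  refine RingHom.congr_fun (Φ.CvV_ext_y
    (((Φ.emb (.inf s h)).comp (Φ.τ : Φ.F →ₐ[Ω] Φ.F) : Φ.F →ₐ[Ω] LaurentSeries Ω) :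
      Φ.F →+* LaurentSeries Ω) (Φ.emb (.inf (c.ζ * s) h'))
    (fun r => by simp only [RingHom.coe_coe, AlgHom.commutes]) ?_
    (HahnSeries.single_ne_zero (a := -1) one_ne_zero)
    (R := PowerSeries.C c.ζ * R) (R' := R') ?_ h2' ?_ ?_) f
  · change Φ.emb _ (Φ.τ Φ.t) = Φ.emb _ Φ.t
    rw [Φ.τ_t, Φ.inf_t, Φ.inf_t]
  · change Φ.emb _ (Φ.τ Φ.y) = _
    rw [Φ.τ_y, map_mul, AlgHom.commutes, algebraMap_laurent, h2, map_mul,
      HahnSeries.ofPowerSeries_C, mul_left_comm]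
  · rw [map_mul, PowerSeries.constantCoeff_C, h1]
    exact CvV_s_ne h'
  · rw [map_mul, PowerSeries.constantCoeff_C, h1, h1']

theorem coeff_emb_aut [CharZero Ω] (σ : Sym c) (P : Pt c) (f : Φ.F) (m : ℤ) :
    (Φ.emb (σ.act P) (Φ.aut σ f)).coeff m = σ.ρ ((Φ.emb P f).coeff m) := by
  obtain ⟨σ₁, hσ⟩ := exists_laurent_map σ.ρ
  rw [← hσ]
  let φ : Φ.F →+* LaurentSeries Ω :=
    (Φ.emb (σ.act P) : Φ.F →+* LaurentSeries Ω).comp (Φ.aut σ : Φ.F →+* Φ.F)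
  let ψ : Φ.F →+* LaurentSeries Ω :=
    (σ₁ : LaurentSeries Ω →+* LaurentSeries Ω).comp (Φ.emb P : Φ.F →+* LaurentSeries Ω)
  suffices h : φ = ψ from congrArg (fun x : LaurentSeries Ω => x.coeff m) (RingHom.congr_fun h f)
  have hC : ∀ r, φ (algebraMap Ω Φ.F r) = ψ (algebraMap Ω Φ.F r) := by
    intro r
    change Φ.emb _ (Φ.aut σ _) = σ₁ (Φ.emb _ _)
    rw [Φ.aut_C, AlgHom.commutes, AlgHom.commutes, algebraMap_laurent, algebraMap_laurent,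
      CvV_map_C hσ]
  have e1 : φ Φ.t = Φ.emb (σ.act P) Φ.t := congrArg (Φ.emb (σ.act P)) (Φ.aut_t σ)
  have e2 : φ Φ.y = Φ.emb (σ.act P) Φ.y := congrArg (Φ.emb (σ.act P)) (Φ.aut_y σ)
  have e3 : ∀ x, ψ x = σ₁ (Φ.emb P x) := fun _ => rfl
  have cc : ∀ R : PowerSeries Ω, PowerSeries.constantCoeff (PowerSeries.map (σ.ρ : Ω →+* Ω) R) =
      σ.ρ (PowerSeries.constantCoeff R) := fun _ => rfl
  rcases P with ⟨t₀, y₀, h, hy⟩ | i | ⟨s, h⟩
  · obtain ⟨R, h1, h2⟩ := Φ.aff_y t₀ y₀ h hy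
    obtain ⟨R', h1', h2'⟩ := Φ.aff_y (σ.ρ t₀) (σ.ρ y₀) (by rw [← map_pow, h, σ.eval_Φ])
      ((map_ne_zero σ.ρ).2 hy)
    refine Φ.CvV_ext_y φ ψ hC ?_ one_ne_zero (R := R') (R' := PowerSeries.map (σ.ρ : Ω →+* Ω) R)
      ?_ ?_ ?_ ?_
    · rw [e1, e3, Φ.aff_t, map_add, CvV_map_C hσ, CvV_map_single hσ, map_one]
      exact Φ.aff_t _ _ _ _
    · rw [e2, one_mul]
      exact h2'
    · rw [e3, h2, CvV_map_ps hσ, one_mul]
    · rw [h1']
      exact (map_ne_zero σ.ρ).2 hy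
    · rw [h1', cc, h1]
  · obtain ⟨R, h1, h2⟩ := Φ.br_t i
    obtain ⟨R', h1', h2'⟩ := Φ.br_t (i + σ.sh)
    have hy : φ Φ.y = ψ Φ.y := by
      rw [e2, e3, Φ.br_y, CvV_map_single hσ, map_one]
      exact Φ.br_y _
    refine Φ.ringHom_ext φ ψ hC ?_ hy
    have h3 : Φ.emb (.br (i + σ.sh)) (Φ.y ^ a) = σ₁ (Φ.emb (.br i) (Φ.y ^ a)) := by
      rw [← e3, map_pow, map_pow, ← hy, e2]
      rfl
    rw [Φ.hy, ← aeval_algHom_apply, ← aeval_algHom_apply, h2, h2', CvV_aeval_ps, CvV_aeval_ps,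
      CvV_map_ps hσ, CvV_map_aeval, CvV_Φ_map] at h3
    rw [e1, e3, h2, CvV_map_ps hσ, ← aeval_eq_powerSeries_unique c.Φ _ (CvV_Φ_der c (i + σ.sh)) R' _
      h1' (by rw [cc, h1, σ.hb]) (HahnSeries.ofPowerSeries_injective h3)]
    exact h2'
  · obtain ⟨R, h1, h2⟩ := Φ.inf_y s h
    obtain ⟨R', h1', h2'⟩ := Φ.inf_y (σ.ρ s) (by rw [← map_pow, h, σ.hT])
    refine Φ.CvV_ext_y φ ψ hC ?_ (HahnSeries.single_ne_zero (a := -1) one_ne_zero) (R := R')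
      (R' := PowerSeries.map (σ.ρ : Ω →+* Ω) R) ?_ ?_ ?_ ?_
    · rw [e1, e3, Φ.inf_t, CvV_map_single hσ, map_one]
      exact Φ.inf_t _ _
    · rw [e2]
      exact h2'
    · rw [e3, h2, map_mul, CvV_map_ps hσ, CvV_map_single hσ, map_one]
    · rw [h1']
      exact (map_ne_zero σ.ρ).2 (CvV_s_ne h)
    · rw [h1', cc, h1]

theorem ord_aut [CharZero Ω] (σ : Sym c) (P : Pt c) (f : Φ.F) :
    Φ.ord (σ.act P) (Φ.aut σ f) = Φ.ord P f :=
  CvV_order_congr fun m => by rw [coeff_emb_aut, map_eq_zero]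

end FF

theorem Sym.act_bijective (σ : Sym c) : Function.Bijective σ.act := by
  let σ' : Sym c := ⟨σ.ρ.symm, -σ.sh, fun i => by
    rw [RingEquiv.symm_apply_eq, σ.hb, neg_add_cancel_right], by
    rw [RingEquiv.symm_apply_eq, σ.hT]⟩
  refine Function.bijective_iff_has_inverse.2 ⟨σ'.act, fun P => ?_, fun P => ?_⟩ <;>
    rcases P with ⟨t₀, y₀, h, hy⟩ | i | ⟨s, h⟩ <;> simp [Sym.act, σ']

theorem FF.aut_mem_L [CharZero Ω] (Φ : FF c) (σ : Sym c) {E E' : Pt c → ℤ}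
    (h : ∀ P, E' (σ.act P) = E P) {f : Φ.F} (hf : f ∈ Φ.L E) : Φ.aut σ f ∈ Φ.L E' := by
  intro P' m hm
  obtain ⟨P, rfl⟩ := σ.act_bijective.2 P'
  rw [Φ.coeff_emb_aut, hf P m (h P ▸ hm), map_zero]

theorem brD_act (σ : Sym c) (d : ZMod a → ℤ) (P : Pt c) :
    brD (fun i => d (i - σ.sh)) (σ.act P) = brD d P := by
  rcases P with ⟨t₀, y₀, h, hy⟩ | i | ⟨s, h⟩
  · rfl
  · exact congrArg d (add_sub_cancel_right i σ.sh)
  · rfl

theorem infD_act (σ : Sym c) (n : ℤ) (P : Pt c) : infD n (σ.act P) = infD n P := by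
  cases P <;> rfl

theorem ptsD_act (σ : Sym c) {τ : Type} [Fintype τ] (x : τ → Pt c) (P : Pt c) :
    ptsD (fun j => σ.act (x j)) (σ.act P) = ptsD x P := by
  classical
  change (∑ j, pt (σ.act (x j))) (σ.act P) = (∑ j, pt (x j)) P
  rw [Finset.sum_apply, Finset.sum_apply]
  refine Finset.sum_congr rfl fun j _ => ?_
  simp only [pt, σ.act_bijective.1.eq_iff]

end Crest.Agent.R181
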