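import Mathlib

/-!
Row 181, module K (numerical K-lemma), part 1: the group ring `ℤ[Y]` acting on functions `Y → ℤ`,
the augmentation filtration, Stanley forms and the divisibility lemma.
-/

set_option autoImplicit false

namespace Crest.Agent.R181.K

/-- The group ring. -/
abbrev ZY (Y : Type) [AddCommGroup Y] : Type := AddMonoidAlgebra ℤ Y

variable {Y : Type} [AddCommGroup Y]

/-- The monomial `z ^ v`. -/
noncomputable def z (v : Y) : ZY Y := AddMonoidAlgebra.single v 1

/-- Shifts of functions. -/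
def shHom (Y : Type) [AddCommGroup Y] : Multiplicative Y →* Module.End ℤ (Y → ℤ) where
  toFun v := LinearMap.funLeft ℤ ℤ (fun y => y - v.toAdd)
  map_one' := by
    ext f y
    simp [LinearMap.funLeft_apply]
  map_mul' v v' := by
    ext f y
    simp [LinearMap.funLeft_apply, sub_sub]

/-- The action of the group ring on functions. -/
noncomputable def act : ZY Y →ₐ[ℤ] Module.End ℤ (Y → ℤ) :=
  AddMonoidAlgebra.lift ℤ (Module.End ℤ (Y → ℤ)) Y (shHom Y)

/-- The coefficient function. -/
def tf : ZY Y →ₗ[ℤ] (Y → ℤ) where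
  toFun p := ⇑p.coeff
  map_add' p q := by simp
  map_smul' c p := by
    rw [RingHom.id_apply, AddMonoidAlgebra.coeff_smul, Finsupp.coe_smul]

open Classical in
/-- A finitely supported function as an element of the group ring (`0` otherwise). -/
noncomputable def ofF (f : Y → ℤ) : ZY Y := if h : ∃ p : ZY Y, tf p = f then h.choose else 0

/-- The augmentation ideal. -/
noncomputable def aug (Y : Type) [AddCommGroup Y] : Ideal (ZY Y) :=
  Ideal.span (Set.range fun v : Y => 1 - z v)

/-- The pairing `p ↦ ∑ v, p v * f (-v)`. -/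
noncomputable def lam (f : Y → ℤ) : ZY Y →ₗ[ℤ] ℤ where
  toFun p := act p f 0
  map_add' p q := by simp
  map_smul' c p := by simp

/-- The product `∏ j ∈ T, (1 - z ^ w j)`. -/
noncomputable def dP {σ : Type} (w : σ → Y) (T : Finset σ) : ZY Y := ∏ j ∈ T, (1 - z (w j))

/-- Stanley forms: sums of terms `z ^ y * ∏ j ∈ S, (1 - z ^ w j)`, `S ⊆ T`, `c ≤ #S`. -/
noncomputable def stan {σ : Type} (w : σ → Y) (T : Finset σ) (c : ℕ) : AddSubmonoid (ZY Y) :=
  AddSubmonoid.closure {p | ∃ (y : Y) (S : Finset σ), S ⊆ T ∧ c ≤ S.card ∧ p = z y * dP w S}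

/-- The `h`-th power of an additive function. -/
def pw (x : Y →+ ℤ) (h : ℕ) : Y → ℤ := fun y => x y ^ h

theorem z_zero : z (0 : Y) = 1 := rfl

theorem z_add (v v' : Y) : z (v + v') = z v * z v' := by
  simp [z, AddMonoidAlgebra.single_mul_single]

theorem act_z (v : Y) (f : Y → ℤ) (y : Y) : act (z v) f y = f (y - v) := by
  simp [act, z, shHom, LinearMap.funLeft_apply]

theorem tf_apply (p : ZY Y) (y : Y) : tf p y = p.coeff y := rfl

theorem lam_apply (f : Y → ℤ) (p : ZY Y) : lam f p = act p f 0 := rfl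

theorem tf_injective : Function.Injective (tf : ZY Y → Y → ℤ) := by
  intro p q h
  exact AddMonoidAlgebra.coeff_injective (DFunLike.coe_injective h)

theorem ofF_tf (p : ZY Y) : ofF (tf p) = p := by
  have h : ∃ q : ZY Y, tf q = tf p := ⟨p, rfl⟩
  unfold ofF
  rw [dif_pos h]
  exact tf_injective h.choose_spec

theorem exists_tf {f : Y → ℤ} (hf : (Function.support f).Finite) : ∃ p : ZY Y, tf p = f := by
  exact ⟨AddMonoidAlgebra.ofCoeff (Finsupp.ofSupportFinite f hf),
    Finsupp.ofSupportFinite_coe (f := f) (hf := hf)⟩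

theorem tf_z [DecidableEq Y] (v y : Y) : tf (z v) y = if y = v then 1 else 0 := by
  rw [tf_apply, z, AddMonoidAlgebra.coeff_single, Finsupp.single_apply]
  simp only [eq_comm]

theorem kf1_single (v : Y) (k : ℤ) : (AddMonoidAlgebra.single v k : ZY Y) = k • z v := by
  rw [z, AddMonoidAlgebra.smul_single, smul_eq_mul, mul_one]

theorem act_tf (p q : ZY Y) : act p (tf q) = tf (p * q) := by
  induction p using AddMonoidAlgebra.induction_linear with
  | zero => simp
  | add p p' hp hp' => rw [map_add, LinearMap.add_apply, hp, hp', add_mul, map_add]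
  | single v k =>
    rw [kf1_single, map_smul, LinearMap.smul_apply, smul_mul_assoc, map_smul]
    congr 1
    funext y
    rw [act_z, tf_apply, tf_apply, z, AddMonoidAlgebra.coeff_single_mul_apply, one_mul,
      neg_add_eq_sub]

theorem lam_eq_sum (f : Y → ℤ) (p : ZY Y) : lam f p = p.coeff.sum fun v k => k * f (-v) := by
  induction p using AddMonoidAlgebra.induction_linear with
  | zero => simp
  | add p p' hp hp' =>
    rw [map_add, hp, hp', AddMonoidAlgebra.coeff_add, Finsupp.sum_add_index']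
    · intro v
      exact zero_mul _
    · intro v k k'
      exact add_mul _ _ _
  | single v k =>
    rw [AddMonoidAlgebra.coeff_single, Finsupp.sum_single_index (zero_mul _), kf1_single, map_smul,
      lam_apply, act_z, zero_sub, smul_eq_mul]

theorem lam_mul (f : Y → ℤ) (p q : ZY Y) : lam f (p * q) = lam (act q f) p := by
  rw [lam_apply, lam_apply, map_mul, Module.End.mul_apply]

theorem dP_mem_aug_pow {σ : Type} (w : σ → Y) (S : Finset σ) {c : ℕ} (hc : c ≤ S.card) :
    dP w S ∈ aug Y ^ c := by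
  refine Ideal.pow_le_pow_right hc ?_
  rw [← Finset.prod_const]
  exact Ideal.prod_mem_prod fun j _ => Ideal.subset_span ⟨w j, rfl⟩

theorem stan_le_aug_pow {σ : Type} (w : σ → Y) (T : Finset σ) (c : ℕ) {p : ZY Y}
    (hp : p ∈ stan w T c) : p ∈ aug Y ^ c := by
  induction hp using AddSubmonoid.closure_induction with
  | mem p hp =>
    obtain ⟨y, S, -, hc, rfl⟩ := hp
    exact Ideal.mul_mem_left _ _ (dP_mem_aug_pow w S hc)
  | zero => exact zero_mem _
  | add p q _ _ hp hq => exact add_mem hp hq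

theorem stan_mono {σ : Type} (w : σ → Y) {T T' : Finset σ} (hT : T ⊆ T') {c c' : ℕ} (hc : c' ≤ c) :
    stan w T c ≤ stan w T' c' := by
  refine AddSubmonoid.closure_mono ?_
  rintro p ⟨y, S, hS, hcS, rfl⟩
  exact ⟨y, S, hS.trans hT, hc.trans hcS, rfl⟩

theorem mul_mem_stan {σ : Type} [DecidableEq σ] (w : σ → Y) {T : Finset σ} {x : σ} (hx : x ∉ T)
    {c : ℕ} {p : ZY Y} (hp : p ∈ stan w T (c - 1)) :
    (1 - z (w x)) * p ∈ stan w (insert x T) c := by
  induction hp using AddSubmonoid.closure_induction with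
  | mem p hp =>
    obtain ⟨y, S, hS, hc, rfl⟩ := hp
    have hxS : x ∉ S := fun h => hx (hS h)
    refine AddSubmonoid.subset_closure ⟨y, insert x S, Finset.insert_subset_insert x hS, ?_, ?_⟩
    · rw [Finset.card_insert_of_notMem hxS]
      omega
    · rw [dP, dP, Finset.prod_insert hxS]
      ring
  | zero =>
    rw [mul_zero]
    exact zero_mem _
  | add p q _ _ hp hq =>
    rw [mul_add]
    exact add_mem hp hq

/-- A function with finite support and nonnegative values is a Stanley form without variables. -/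
theorem exists_stan_empty {σ : Type} (w : σ → Y) {f : Y → ℤ} (hf : (Function.support f).Finite)
    (h0 : ∀ y, 0 ≤ f y) : ∃ p ∈ stan w (∅ : Finset σ) 0, tf p = f := by
  obtain ⟨p, rfl⟩ := exists_tf hf
  refine ⟨p, ?_, rfl⟩
  rw [← p.sum_coeff_single, Finsupp.sum]
  refine AddSubmonoid.sum_mem _ fun v _ => ?_
  have h1 : z v ∈ stan w (∅ : Finset σ) 0 :=
    AddSubmonoid.subset_closure ⟨v, ∅, subset_rfl, le_rfl, by rw [dP, Finset.prod_empty, mul_one]⟩
  have h2 : p.coeff v = ((p.coeff v).toNat : ℤ) := (Int.toNat_of_nonneg (h0 v)).symm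
  rw [kf1_single, h2, natCast_zsmul]
  exact nsmul_mem h1 _

/-- `f` is killed by `aug ^ r` -/
def Kill (r : ℕ) (f : Y → ℤ) : Prop := ∀ p ∈ aug Y ^ r, act p f = 0

theorem one_sub_z_mem_aug (v : Y) : 1 - z v ∈ aug Y := Ideal.subset_span ⟨v, rfl⟩

theorem act_mul_apply (p q : ZY Y) (f : Y → ℤ) : act (p * q) f = act p (act q f) := by
  rw [map_mul]; rfl

theorem act_one_sub_z (v : Y) (f : Y → ℤ) (y : Y) : act (1 - z v) f y = f y - f (y - v) := by
  rw [map_sub, map_one, LinearMap.sub_apply, Pi.sub_apply, act_z]; rfl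

theorem Kill.zero_iff {f : Y → ℤ} : Kill 0 f ↔ f = 0 := by
  constructor
  · intro h
    simpa using h 1 (by simp)
  · rintro rfl p _
    simp

theorem Kill.add {r : ℕ} {f g : Y → ℤ} (hf : Kill r f) (hg : Kill r g) : Kill r (f + g) :=
  fun p hp => by rw [map_add, hf p hp, hg p hp, add_zero]

theorem Kill.smul {r : ℕ} {f : Y → ℤ} (hf : Kill r f) (c : ℤ) : Kill r (c • f) :=
  fun p hp => by rw [map_smul, hf p hp, smul_zero]

theorem Kill.act {r : ℕ} {f : Y → ℤ} (hf : Kill r f) (q : ZY Y) : Kill r (act q f) :=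
  fun p hp => by rw [← act_mul_apply, hf _ (Ideal.mul_mem_right _ _ hp)]

theorem Kill.succ_iff {r : ℕ} {f : Y → ℤ} :
    Kill (r + 1) f ↔ ∀ v, Kill r (K.act (1 - z v) f) := by
  constructor
  · intro h v p hp
    rw [← act_mul_apply]
    exact h _ (by rw [pow_succ]; exact Ideal.mul_mem_mul hp (one_sub_z_mem_aug v))
  · intro h p hp
    rw [pow_succ] at hp
    refine Submodule.mul_induction_on hp (fun m hm n hn => ?_) (fun a b ha hb => ?_)
    · induction hn using Submodule.span_induction with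
      | mem n hn =>
        obtain ⟨v, rfl⟩ := hn
        rw [act_mul_apply]
        exact h v m hm
      | zero => simp
      | add a b _ _ ha hb => rw [mul_add, map_add, LinearMap.add_apply, ha, hb, add_zero]
      | smul a b _ hb => rw [smul_eq_mul, mul_left_comm, act_mul_apply, hb, map_zero]
    · rw [map_add, LinearMap.add_apply, ha, hb, add_zero]

theorem act_one_sub_z_mul (x : Y →+ ℤ) (v : Y) (U : Y → ℤ) :
    act (1 - z v) (fun y => x y * U y) =
      (fun y => x y * act (1 - z v) U y) + x v • act (z v) U := by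
  funext y
  simp only [act_one_sub_z, Pi.add_apply, Pi.smul_apply, act_z, map_sub x, smul_eq_mul]
  ring

theorem Kill.mul (x : Y →+ ℤ) {r : ℕ} : ∀ {U : Y → ℤ}, Kill r U →
    Kill (r + 1) fun y => x y * U y := by
  induction r with
  | zero =>
    intro U hU p _
    rw [Kill.zero_iff.1 hU]
    simp only [Pi.zero_apply, mul_zero]
    exact map_zero _
  | succ r ih =>
    intro U hU
    rw [Kill.succ_iff]
    intro v
    rw [act_one_sub_z_mul]
    exact (ih (Kill.succ_iff.1 hU v)).add ((hU.act _).smul _)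

theorem Kill.one : Kill 1 fun _ : Y => (1 : ℤ) := by
  rw [Kill.succ_iff]
  intro v
  rw [Kill.zero_iff]
  funext y
  rw [act_one_sub_z]
  simp

theorem Kill.pw (x : Y →+ ℤ) (h : ℕ) : Kill (h + 1) (pw x h) := by
  induction h with
  | zero =>
    have : K.pw x 0 = fun _ => 1 := by
      funext y; simp [K.pw]
    rw [this]
    exact Kill.one
  | succ h ih =>
    have : K.pw x (h + 1) = fun y => x y * K.pw x h y := by
      funext y; simp [K.pw, pow_succ']
    rw [this]
    exact ih.mul x

theorem Kill.lower (x : Y →+ ℤ) (v : Y) (n : ℕ) :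
    Kill n (K.act (1 - z v) (K.pw x (n + 1)) - ((n + 1 : ℤ) * x v) • K.pw x n) := by
  induction n with
  | zero =>
    rw [Kill.zero_iff]
    funext y
    rw [Pi.sub_apply, act_one_sub_z]
    simp [K.pw]
  | succ n ih =>
    have h1 := (ih.mul x).add ((Kill.succ_iff.1 (Kill.pw x (n + 1)) v).smul (-x v))
    convert h1 using 1
    funext y
    simp only [act_one_sub_z, Pi.add_apply, Pi.sub_apply, Pi.smul_apply, K.pw, map_sub x,
      smul_eq_mul]
    push_cast
    ring

theorem act_dP_pw {σ : Type} (w : σ → Y) (x : Y →+ ℤ) (S : Finset σ) :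
    act (dP w S) (pw x S.card) = fun _ => (S.card.factorial : ℤ) * ∏ j ∈ S, x (w j) := by
  classical
  induction S using Finset.induction_on with
  | empty =>
    funext y
    simp [dP, pw]
  | insert j S hj ih =>
    have h1 : dP w (insert j S) = dP w S * (1 - z (w j)) := by
      rw [dP, Finset.prod_insert hj, mul_comm]; rfl
    have h2 := Kill.lower x (w j) S.card _ (dP_mem_aug_pow w S le_rfl)
    rw [map_sub, map_smul, ih, sub_eq_zero] at h2
    rw [h1, act_mul_apply, Finset.card_insert_of_notMem hj, h2, Finset.prod_insert hj]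
    funext y
    simp only [Pi.smul_apply, smul_eq_mul, Nat.factorial_succ]
    push_cast
    ring

theorem act_pow_periodic (v : Y) (U : Y → ℤ) (hU : ∀ y, U (y - v) = U y) (h : ℕ) :
    ∀ f : Y → ℤ, act ((1 - z v) ^ h) (fun y => U y * f y) =
      fun y => U y * act ((1 - z v) ^ h) f y := by
  induction h with
  | zero => intro f; simp
  | succ h ih =>
    intro f
    rw [pow_succ, act_mul_apply, act_mul_apply, ← ih]
    congr 1
    funext y
    simp only [act_one_sub_z, hU]
    ring

/-- A product of `r` additive functions is killed by the `(r + 1)`-st power of the augmentation ideal. -/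
theorem act_prod_eq_zero {κ : Type} (x : κ → Y →+ ℤ) (s : Finset κ) {p : ZY Y}
    (hp : p ∈ aug Y ^ (s.card + 1)) : act p (fun y => ∏ i ∈ s, x i y) = 0 := by
  classical
  have : Kill (s.card + 1) fun y => ∏ i ∈ s, x i y := by
    clear hp
    induction s using Finset.induction_on with
    | empty => simpa using Kill.one
    | insert j S hj ih =>
      simp only [Finset.prod_insert hj, Finset.card_insert_of_notMem hj]
      exact ih.mul (x j)
  exact this p hp

theorem lam_pw_eq_zero (x : Y →+ ℤ) (h : ℕ) {p : ZY Y} (hp : p ∈ aug Y ^ (h + 1)) :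
    lam (pw x h) p = 0 := by
  rw [lam_apply, Kill.pw x h p hp]
  rfl

/-- Shifts do not change the leading value. -/
theorem lam_pw_z_mul (x : Y →+ ℤ) (h : ℕ) (v : Y) {p : ZY Y} (hp : p ∈ aug Y ^ h) :
    lam (pw x h) (z v * p) = lam (pw x h) p := by
  have h1 : z v * p = p - p * (1 - z v) := by ring
  have h2 : p * (1 - z v) ∈ aug Y ^ (h + 1) := by
    rw [pow_succ]; exact Ideal.mul_mem_mul hp (one_sub_z_mem_aug v)
  rw [h1, map_sub, lam_pw_eq_zero x h h2, sub_zero]

/-- The `h`-th difference of `U * x ^ h` for a `v`-periodic `U`. -/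
theorem act_pow_mul (x : Y →+ ℤ) (h : ℕ) (v : Y) (U : Y → ℤ) (hU : ∀ y, U (y - v) = U y) :
    act ((1 - z v) ^ h) (fun y => U y * x y ^ h) = fun y => (x v ^ h * h.factorial) * U y := by
  have h1 := act_dP_pw (fun _ : Fin h => v) x Finset.univ
  simp only [dP, Finset.prod_const, Finset.card_univ, Fintype.card_fin] at h1
  have h2 := act_pow_periodic v U hU h (pw x h)
  rw [h1] at h2
  refine h2.trans ?_
  funext y
  ring

theorem lam_pw_term {σ : Type} (w : σ → Y) (x : Y →+ ℤ) (hw : ∀ j, x (w j) = 1) (y : Y)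
    (S : Finset σ) : lam (pw x S.card) (z y * dP w S) = S.card.factorial := by
  rw [lam_pw_z_mul x _ y (dP_mem_aug_pow w S le_rfl), lam_apply, act_dP_pw]
  simp [hw]

theorem lam_pw_stan {σ : Type} (w : σ → Y) (x : Y →+ ℤ) (hw : ∀ j, x (w j) = 1) (T : Finset σ)
    (r : ℕ) {p : ZY Y} (hp : p ∈ stan w T r) :
    0 ≤ lam (pw x r) p ∧ (lam (pw x r) p = 0 → p ∈ stan w T (r + 1)) := by
  induction hp using AddSubmonoid.closure_induction with
  | mem p hp =>
    obtain ⟨y, S, hS, hc, rfl⟩ := hp
    rcases hc.eq_or_lt with rfl | hlt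
    · rw [lam_pw_term w x hw]
      refine ⟨by positivity, fun h => absurd h ?_⟩
      exact_mod_cast Nat.factorial_ne_zero _
    · rw [lam_pw_eq_zero x r (Ideal.mul_mem_left _ _ (dP_mem_aug_pow w S hlt))]
      exact ⟨le_rfl, fun _ => AddSubmonoid.subset_closure ⟨y, S, hS, hlt, rfl⟩⟩
  | zero => exact ⟨by simp, fun _ => zero_mem _⟩
  | add a b _ _ ha hb =>
    rw [map_add]
    refine ⟨add_nonneg ha.1 hb.1, fun h => add_mem (ha.2 ?_) (hb.2 ?_)⟩
    · linarith [ha.1, hb.1]
    · linarith [ha.1, hb.1]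

/-- Positivity of the leading value of a Stanley form. -/
theorem lam_pw_nonneg {σ : Type} (w : σ → Y) (x : Y →+ ℤ) (hw : ∀ j, x (w j) = 1) (T : Finset σ)
    (h : ℕ) {p : ZY Y} (hp : p ∈ stan w T 0) (hp' : p ∈ aug Y ^ h) : 0 ≤ lam (pw x h) p := by
  have : ∀ r ≤ h, p ∈ stan w T r := by
    intro r
    induction r with
    | zero => exact fun _ => hp
    | succ r ih =>
      intro hr
      exact (lam_pw_stan w x hw T r (ih (by omega))).2
        (lam_pw_eq_zero x r (Ideal.pow_le_pow_right hr hp'))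
  exact (lam_pw_stan w x hw T h (this h le_rfl)).1

/-- The symmetry data of the grading: `N` commuting cyclic symmetries. -/
structure Sym (Y : Type) [AddCommGroup Y] (N a : ℕ) where
  x0 : Y →+ ℤ
  x : Fin N → ZMod a → Y →+ ℤ
  s : Fin N → Y ≃+ Y
  x0_s : ∀ m y, x0 (s m y) = x0 y
  x_s : ∀ m i y, x m (i + 1) (s m y) = x m i y
  x_s_ne : ∀ m m' i y, m' ≠ m → x m' i (s m y) = x m' i y

/-- Invariant functions supported on the coset `∑ i, x m i = 1`. -/
structure Sym.Inv {N a : ℕ} [NeZero a] (S : Sym Y N a) (f : Y → ℤ) : Prop where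
  inv : ∀ m y, f (S.s m y) = f y
  supp : ∀ y, f y ≠ 0 → ∀ m, ∑ i, S.x m i y = 1

theorem kf3_act_insert {σ : Type} [DecidableEq σ] (w : σ → Y) {T : Finset σ} {j : σ} (hj : j ∉ T)
    (f : Y → ℤ) (y : Y) :
    act (dP w (insert j T)) f y = act (dP w T) f y - act (dP w T) f (y - w j) := by
  rw [dP, Finset.prod_insert hj, map_mul, Module.End.mul_apply, map_sub, map_one,
    LinearMap.sub_apply, Pi.sub_apply, act_z]
  rfl

theorem kf3_act_empty {σ : Type} (w : σ → Y) (f : Y → ℤ) : act (dP w ∅) f = f := by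
  rw [dP, Finset.prod_empty, map_one]
  rfl

theorem kf3_act_equiv {σ : Type} (e : Y ≃+ Y) (w : σ → Y) (T : Finset σ) (f : Y → ℤ) (y : Y) :
    act (dP (fun j => e (w j)) T) f (e y) = act (dP w T) (fun y => f (e y)) y := by
  classical
  induction T using Finset.induction_on generalizing y with
  | empty => rw [kf3_act_empty, kf3_act_empty]
  | insert j T hj ih => rw [kf3_act_insert _ hj, kf3_act_insert _ hj, ← map_sub, ih, ih]

/-- Invariance passes to the numerator. -/
theorem Sym.Inv.act_dP {N a : ℕ} [NeZero a] {S : Sym Y N a} {f : Y → ℤ} (hf : S.Inv f)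
    {σ : Type} [Fintype σ] (w : σ → Y) (τ : Fin N → σ ≃ σ) (hτ : ∀ m j, w (τ m j) = S.s m (w j))
    (hw : ∀ j m, ∑ i, S.x m i (w j) = 0) : S.Inv (act (dP w Finset.univ) f) := by
  classical
  refine ⟨fun m y => ?_, ?_⟩
  · have h1 : dP w Finset.univ = dP (fun j => S.s m (w j)) Finset.univ := by
      rw [dP, dP, ← Equiv.prod_comp (τ m)]
      exact Finset.prod_congr rfl fun j _ => by rw [hτ]
    have h2 : (fun y => f (S.s m y)) = f := funext (hf.inv m)
    conv_lhs => rw [h1]
    rw [kf3_act_equiv, h2]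
  · generalize (Finset.univ : Finset σ) = T
    induction T using Finset.induction_on with
    | empty => rw [kf3_act_empty]; exact hf.supp
    | insert j T hj ih =>
      intro y hy m
      rw [kf3_act_insert _ hj] at hy
      by_cases h1 : act (dP w T) f y = 0
      · rw [h1, zero_sub, neg_ne_zero] at hy
        have h2 := ih _ hy m
        simp only [map_sub, Finset.sum_sub_distrib, hw j m, sub_zero] at h2
        exact h2
      · exact ih y h1 m

theorem kf3_lam_equiv (e : Y ≃+ Y) {p : ZY Y} (hp : ∀ y, tf p (e y) = tf p y) (f : Y → ℤ) :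
    lam f p = lam (fun y => f (e y)) p := by
  rw [lam_eq_sum, lam_eq_sum, Finsupp.sum, Finsupp.sum]
  symm
  refine Finset.sum_equiv e.toEquiv (fun v => ?_) (fun v _ => ?_)
  · have := hp v
    rw [tf_apply, tf_apply] at this
    rw [Finsupp.mem_support_iff, Finsupp.mem_support_iff, ← this]
    rfl
  · have := hp v
    rw [tf_apply, tf_apply] at this
    rw [← this, map_neg]
    rfl

/-- The divisibility lemma. -/
theorem Sym.dvd_lam {N a : ℕ} [NeZero a] (S : Sym Y N a) (h : ℕ) (w0 : Y)
    (hw0 : ∀ m i, S.x m i w0 = 0) (p r q : ZY Y) (hp : p = (1 - z w0) ^ h * r + q)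
    (hq : q ∈ aug Y ^ (N + h + 1)) (hinv : S.Inv (tf p)) :
    (S.x0 w0 ^ h * h.factorial * (a : ℤ) ^ N) ∣ lam (pw S.x0 h) p := by
  classical
  obtain ⟨L, hL⟩ : ∃ L : (Fin N → ZMod a) → ℤ,
      ∀ μ, L μ = lam (fun y => (∏ m, S.x m (μ m) y) * S.x0 y ^ h) p := ⟨_, fun _ => rfl⟩
  have h1 : ∀ μ m, L (μ + Pi.single m 1) = L μ := by
    intro μ m
    rw [hL, hL, kf3_lam_equiv (S.s m) (hinv.inv m)]
    congr 2
    funext y
    rw [S.x0_s]
    congr 1
    refine Finset.prod_congr rfl fun m' _ => ?_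
    by_cases hm : m' = m
    · rw [hm, Pi.add_apply, Pi.single_eq_same, S.x_s]
    · rw [Pi.add_apply, Pi.single_eq_of_ne hm, add_zero, S.x_s_ne _ _ _ _ hm]
  have h2 : ∀ (n : ℕ) μ m, L (μ + Pi.single m (n : ZMod a)) = L μ := by
    intro n μ m
    induction n with
    | zero => simp
    | succ n ih => rw [Nat.cast_succ, Pi.single_add, ← add_assoc, h1, ih]
  have h3 : ∀ μ, L μ = L 0 := by
    intro μ
    have : ∀ T : Finset (Fin N), L (∑ m ∈ T, Pi.single m (μ m)) = L 0 := by
      intro T
      induction T using Finset.induction_on with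
      | empty => rw [Finset.sum_empty]
      | insert m T hm ih =>
        rw [Finset.sum_insert hm, add_comm, ← ZMod.natCast_zmod_val (μ m), h2, ih]
    rw [← this Finset.univ, Finset.univ_sum_single]
  have h4 : ∑ μ, L μ = (-1) ^ N * lam (pw S.x0 h) p := by
    simp only [hL, lam_eq_sum, Finsupp.sum]
    rw [Finset.sum_comm, Finset.mul_sum]
    refine Finset.sum_congr rfl fun v hv => ?_
    have h5 := hinv.supp v (Finsupp.mem_support_iff.1 hv)
    have h6 : ∑ μ : Fin N → ZMod a, ∏ m, S.x m (μ m) (-v) = (-1) ^ N := by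
      rw [← Fintype.piFinset_univ, ← Finset.prod_univ_sum (fun _ => Finset.univ)
        fun m i => S.x m i (-v)]
      simp only [map_neg, Finset.sum_neg_distrib, h5, Finset.prod_const, Finset.card_univ,
        Fintype.card_fin]
    rw [← Finset.mul_sum, ← Finset.sum_mul, h6, pw]
    ring
  have h5 : ∑ μ, L μ = (a : ℤ) ^ N * L 0 := by
    rw [Finset.sum_congr rfl fun μ _ => h3 μ, Finset.sum_const, Finset.card_univ, Fintype.card_fun,
      ZMod.card, Fintype.card_fin, nsmul_eq_mul, Nat.cast_pow]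
  have h6 : lam (fun y => (∏ m, S.x m 0 y) * S.x0 y ^ h) q = 0 := by
    have h7 := act_prod_eq_zero (Sum.elim (fun m => S.x m 0) fun _ : Fin h => S.x0) Finset.univ
      (p := q) (by simpa using hq)
    have h8 : (fun y => (∏ m, S.x m 0 y) * S.x0 y ^ h) =
        fun y => ∏ i, Sum.elim (fun m => S.x m 0) (fun _ : Fin h => S.x0) i y := by
      funext y
      simp [Fintype.prod_sum_type]
    rw [lam_apply, h8, h7]
    rfl
  have h7 : L 0 = S.x0 w0 ^ h * h.factorial * lam (fun y => ∏ m, S.x m 0 y) r := by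
    rw [hL, hp, map_add]
    simp only [Pi.zero_apply]
    rw [h6, add_zero, mul_comm _ r, lam_mul, act_pow_mul S.x0 h w0 _ fun y => by
      simp only [map_sub, hw0, sub_zero], lam_apply, lam_apply]
    exact congrFun ((act r).map_smul (S.x0 w0 ^ h * h.factorial) fun y => ∏ m, S.x m 0 y) 0
  refine ⟨(-1) ^ N * lam (fun y => ∏ m, S.x m 0 y) r, ?_⟩
  have h8 : ((-1 : ℤ) ^ N) * (-1) ^ N = 1 := by rw [← mul_pow]; simp
  rw [h5, h7] at h4
  linear_combination (-1) ^ N * h4.symm - lam (pw S.x0 h) p * h8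

/-! ### Parity -/

/-- The Euler characteristic of a function on `Y × ZMod 2`. -/
def chi : (Y × ZMod 2 → ℤ) →ₗ[ℤ] (Y → ℤ) where
  toFun f y := f (y, 0) - f (y, 1)
  map_add' f g := by
    funext y
    simp only [Pi.add_apply]
    ring
  map_smul' c f := by
    funext y
    simp only [Pi.smul_apply, smul_eq_mul, RingHom.id_apply]
    ring

omit [AddCommGroup Y] in
theorem chi_apply (f : Y × ZMod 2 → ℤ) (y : Y) : chi f y = f (y, 0) - f (y, 1) := rfl

theorem chi_act_even (v : Y) (f : Y × ZMod 2 → ℤ) :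
    chi (act (z (v, (0 : ZMod 2))) f) = act (z v) (chi f) := by
  funext y
  simp only [chi_apply, act_z, Prod.mk_sub_mk, sub_zero]

theorem chi_act_odd (v : Y) (f : Y × ZMod 2 → ℤ) :
    chi (act (z (v, (1 : ZMod 2))) f) = -act (z v) (chi f) := by
  funext y
  have h : (0 : ZMod 2) - 1 = 1 := by decide
  simp only [chi_apply, act_z, Prod.mk_sub_mk, Pi.neg_apply, h, sub_self, neg_sub]

theorem chi_act_dP {σ : Type} (w : σ → Y) (T : Finset σ) (f : Y × ZMod 2 → ℤ) :
    chi (act (dP (fun j => (w j, (0 : ZMod 2))) T) f) = act (dP w T) (chi f) := by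
  classical
  induction T using Finset.induction_on with
  | empty => rw [kf3_act_empty, kf3_act_empty]
  | insert j T hj ih =>
    funext y
    rw [kf3_act_insert _ hj, ← ih, chi_apply, chi_apply, chi_apply, kf3_act_insert _ hj,
      kf3_act_insert _ hj]
    simp only [Prod.mk_sub_mk, sub_zero]
    ring

theorem chi_stan {σ : Type} (w : σ → Y) (T : Finset σ) (c : ℕ) {p : ZY (Y × ZMod 2)}
    (hp : p ∈ stan (fun j => (w j, (0 : ZMod 2))) T c) : ∃ q ∈ aug Y ^ c, chi (tf p) = tf q := by
  classical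
  induction hp using AddSubmonoid.closure_induction with
  | mem p hp =>
    obtain ⟨⟨y, e⟩, S, -, hc, rfl⟩ := hp
    have h1 : chi (tf (1 : ZY (Y × ZMod 2))) = tf (1 : ZY Y) := by
      funext v
      have h2 : (1 : ZMod 2) ≠ 0 := by decide
      rw [chi_apply, ← z_zero, ← z_zero, tf_z, tf_z, tf_z]
      simp [Prod.ext_iff, h2]
    have h2 : chi (tf (dP (fun j => (w j, (0 : ZMod 2))) S)) = tf (dP w S) := by
      rw [← mul_one (dP _ S), ← act_tf, chi_act_dP, h1, act_tf, mul_one]
    have h3 : z y * dP w S ∈ aug Y ^ c := Ideal.mul_mem_left _ _ (dP_mem_aug_pow w S hc)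
    have h4 : ∀ e : ZMod 2, e = 0 ∨ e = 1 := by decide
    rcases h4 e with rfl | rfl
    · exact ⟨_, h3, by rw [← act_tf, chi_act_even, h2, act_tf]⟩
    · exact ⟨_, neg_mem h3, by rw [← act_tf, chi_act_odd, h2, act_tf, map_neg]⟩
  | zero => exact ⟨0, zero_mem _, by simp⟩
  | add p p' _ _ ih ih' =>
    obtain ⟨q, hq, e⟩ := ih
    obtain ⟨q', hq', e'⟩ := ih'
    exact ⟨q + q', add_mem hq hq', by rw [map_add, map_add, e, e', map_add]⟩

theorem anchor_KFun : True := by
  have := @z.eq_1
  have := @shHom.eq_1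
  have := @act.eq_1
  have := @tf.eq_1
  have := @ofF.eq_1
  have := @aug.eq_1
  have := @lam.eq_1
  have := @dP.eq_1
  have := @stan.eq_1
  have := @pw.eq_1
  have := @chi.eq_1
  trivial

end Crest.Agent.R181.K
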