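import Mathlib

/-! Row 181: Koszul chains as functions on finite sets; contraction and wedge operators. -/

set_option autoImplicit false

namespace Crest.Agent.R181

open Finset

variable {n : ℕ}

/-- The Koszul sign `(-1) ^ #{u ∈ U : u < t}`. -/
def sg (t : Fin n) (U : Finset (Fin n)) : ℤ := (-1) ^ (U.filter (· < t)).card

theorem sg_def (t : Fin n) (U : Finset (Fin n)) :
    sg t U = (-1) ^ (U.filter (· < t)).card := rfl

theorem sg_mul_self (t : Fin n) (U : Finset (Fin n)) : sg t U * sg t U = 1 := by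
  rw [sg_def, ← pow_add, ← two_mul, pow_mul]; simp

theorem sg_insert {s t : Fin n} {U : Finset (Fin n)} (hs : s ∉ U) :
    sg t (insert s U) = if s < t then -sg t U else sg t U := by
  rw [sg_def, sg_def, Finset.filter_insert]
  split_ifs with h
  · rw [Finset.card_insert_of_notMem (by simp [hs]), pow_succ]; ring
  · rfl

theorem sg_insert_self (t : Fin n) (U : Finset (Fin n)) : sg t (insert t U) = sg t U := by
  rw [sg_def, sg_def, Finset.filter_insert, if_neg (lt_irrefl t)]

theorem sg_erase_self (t : Fin n) (U : Finset (Fin n)) : sg t (U.erase t) = sg t U := by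
  by_cases h : t ∈ U
  · conv_rhs => rw [← Finset.insert_erase h]
    rw [sg_insert_self]
  · rw [Finset.erase_eq_of_notMem h]

theorem sg_swap {s t : Fin n} {U : Finset (Fin n)} (hs : s ∉ U) (ht : t ∉ U) (hst : s ≠ t) :
    sg s U * sg t (insert s U) = -(sg t U * sg s (insert t U)) := by
  rw [sg_insert hs, sg_insert ht]
  rcases lt_or_gt_of_ne hst with h | h
  · rw [if_pos h, if_neg (not_lt.mpr h.le)]; ring
  · rw [if_neg (not_lt.mpr h.le), if_pos h]; ring

variable (D : Type*) [Ring D] (V : Type*) [AddCommGroup V] [Module D V]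

/-- Contraction with the `t`-th basis vector. -/
def io (t : Fin n) : (Finset (Fin n) → V) →ₗ[D] (Finset (Fin n) → V) where
  toFun f U := if t ∈ U then 0 else sg t U • f (insert t U)
  map_add' f g := by
    funext U; simp only [Pi.add_apply]; split_ifs <;> simp
  map_smul' c f := by
    funext U; simp only [Pi.smul_apply, RingHom.id_apply]
    split_ifs
    · simp
    · rw [smul_comm]

/-- Wedge with the `t`-th basis vector. -/
def ex (t : Fin n) : (Finset (Fin n) → V) →ₗ[D] (Finset (Fin n) → V) where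
  toFun f U := if t ∈ U then sg t U • f (U.erase t) else 0
  map_add' f g := by
    funext U; simp only [Pi.add_apply]; split_ifs <;> simp
  map_smul' c f := by
    funext U; simp only [Pi.smul_apply, RingHom.id_apply]
    split_ifs
    · rw [smul_comm]
    · simp

variable {D V}

theorem io_apply (t : Fin n) (f : Finset (Fin n) → V) (U : Finset (Fin n)) :
    io D V t f U = if t ∈ U then 0 else sg t U • f (insert t U) := rfl

theorem ex_apply (t : Fin n) (f : Finset (Fin n) → V) (U : Finset (Fin n)) :
    ex D V t f U = if t ∈ U then sg t U • f (U.erase t) else 0 := rfl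

theorem io_io (s t : Fin n) (f : Finset (Fin n) → V) :
    io D V s (io D V t f) = -io D V t (io D V s f) := by
  funext U
  simp only [Pi.neg_apply, io_apply, Finset.mem_insert]
  by_cases hs : s ∈ U
  · simp [hs]
  by_cases ht : t ∈ U
  · simp [ht]
  by_cases hst : s = t
  · subst hst; simp
  rw [if_neg hs, if_neg ht, if_neg (by simp [ht, Ne.symm hst]), if_neg (by simp [hs, hst]),
    smul_smul, smul_smul, sg_swap hs ht hst, neg_smul, Finset.insert_comm]

theorem io_ex_self (t : Fin n) (f : Finset (Fin n) → V) :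
    io D V t (ex D V t f) + ex D V t (io D V t f) = f := by
  funext U
  simp only [Pi.add_apply, io_apply, ex_apply]
  by_cases ht : t ∈ U
  · rw [if_pos ht, if_pos ht, if_neg (by simp), smul_smul, sg_erase_self, sg_mul_self, one_smul,
      Finset.insert_erase ht, zero_add]
  · rw [if_neg ht, if_neg ht, if_pos (by simp), smul_smul, sg_insert_self, sg_mul_self, one_smul,
      Finset.erase_insert ht, add_zero]

theorem io_ex_ne {l i : Fin n} (h : i ≠ l) (f : Finset (Fin n) → V) :
    io D V l (ex D V i f) + ex D V i (io D V l f) = 0 := by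
  funext U
  simp only [Pi.add_apply, io_apply, ex_apply, Pi.zero_apply]
  by_cases hl : l ∈ U
  · have : l ∈ U.erase i := by simp [hl, h.symm]
    simp [hl, this]
  by_cases hi : i ∈ U
  · obtain ⟨U', hU', rfl⟩ : ∃ U', i ∉ U' ∧ U = insert i U' :=
      ⟨U.erase i, by simp, (Finset.insert_erase hi).symm⟩
    have hl' : l ∉ U' := fun h' => hl (by simp [h'])
    rw [if_neg hl, if_pos (by simp), if_pos hi, Finset.erase_insert hU', if_neg hl', smul_smul,
      smul_smul, Finset.insert_comm, Finset.erase_insert (by simp [hU', h]), ← add_smul,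
      sg_insert_self, sg_insert_self]
    have := sg_swap hU' hl' h
    have h1 := sg_mul_self i U'
    have h2 := sg_mul_self l U'
    have h3 : sg l (insert i U') * sg i (insert l U') + sg i U' * sg l U' = 0 := by
      have h4 := sg_mul_self i (insert l U')
      linear_combination (sg i U' * sg i (insert l U')) * this
        - sg l (insert i U') * sg i (insert l U') * h1 - sg i U' * sg l U' * h4
    rw [h3, zero_smul]
  · rw [if_neg hl, if_neg (by simp [hi, h]), if_neg hi]; simp

theorem sum_ex_io (f : Finset (Fin n) → V) (U : Finset (Fin n)) :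
    (∑ i, ex D V i (io D V i f)) U = U.card • f U := by
  rw [Finset.sum_apply]
  have : ∀ i, ex D V i (io D V i f) U = if i ∈ U then f U else 0 := by
    intro i
    rw [ex_apply]
    split_ifs with h
    · rw [io_apply, if_neg (by simp), smul_smul, sg_erase_self, sg_mul_self, one_smul,
        Finset.insert_erase h]
    · rfl
  simp only [this]
  rw [Finset.sum_ite_mem, Finset.univ_inter, Finset.sum_const]

variable {V' : Type*} [AddCommGroup V'] [Module D V']

/-- A linear map applied to every component of a chain. -/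
def cl (L : V →ₗ[D] V') : (Finset (Fin n) → V) →ₗ[D] (Finset (Fin n) → V') :=
  L.compLeft (Finset (Fin n))

theorem cl_apply (L : V →ₗ[D] V') (f : Finset (Fin n) → V) (U : Finset (Fin n)) :
    cl L f U = L (f U) := rfl

theorem cl_io (L : V →ₗ[D] V') (t : Fin n) (f : Finset (Fin n) → V) :
    cl L (io D V t f) = io D V' t (cl L f) := by
  funext U
  simp only [cl_apply, io_apply]
  split_ifs <;> simp

theorem cl_ex (L : V →ₗ[D] V') (t : Fin n) (f : Finset (Fin n) → V) :
    cl L (ex D V t f) = ex D V' t (cl L f) := by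
  funext U
  simp only [cl_apply, ex_apply]
  split_ifs <;> simp

theorem cl_injective {L : V →ₗ[D] V'} (h : Function.Injective L) :
    Function.Injective (cl (n := n) L) := by
  intro f g hfg
  funext U
  exact h (congrFun hfg U)

/-- The Koszul differential of the operators `T`. -/
def kos (T : Fin n → V →ₗ[D] V) : (Finset (Fin n) → V) →ₗ[D] (Finset (Fin n) → V) :=
  ∑ t, cl (T t) ∘ₗ io D V t

theorem kos_eq (T : Fin n → V →ₗ[D] V) (f : Finset (Fin n) → V) :
    kos T f = ∑ t, cl (T t) (io D V t f) := by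
  simp [kos, LinearMap.sum_apply]

theorem kos_apply (T : Fin n → V →ₗ[D] V) (f : Finset (Fin n) → V) (U : Finset (Fin n)) :
    kos T f U = ∑ t ∈ Uᶜ, sg t U • T t (f (insert t U)) := by
  rw [kos_eq, Finset.sum_apply]
  simp only [cl_apply, io_apply]
  rw [← Finset.sum_add_sum_compl U, Finset.sum_eq_zero (s := U), zero_add]
  · refine Finset.sum_congr rfl fun t ht => ?_
    rw [if_neg (Finset.mem_compl.mp ht), map_zsmul]
  · intro t ht; rw [if_pos ht, map_zero]

theorem cl_kos {T : Fin n → V →ₗ[D] V} {T' : Fin n → V' →ₗ[D] V'} (L : V →ₗ[D] V')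
    (h : ∀ t v, L (T t v) = T' t (L v)) (f : Finset (Fin n) → V) :
    cl L (kos T f) = kos T' (cl L f) := by
  funext U
  rw [cl_apply, kos_apply, kos_apply, map_sum]
  refine Finset.sum_congr rfl fun t _ => ?_
  rw [map_zsmul, h, cl_apply]

/-- The `q`-chains with values in `W`. -/
def ch (n q : ℕ) (W : Submodule D V) : Submodule D (Finset (Fin n) → V) :=
  Submodule.pi Set.univ fun F => if F.card = q then W else ⊥

theorem mem_ch {q : ℕ} {W : Submodule D V} {f : Finset (Fin n) → V} :
    f ∈ ch n q W ↔ ∀ F : Finset (Fin n), (F.card = q → f F ∈ W) ∧ (F.card ≠ q → f F = 0) := by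
  simp only [ch, Submodule.mem_pi, Set.mem_univ, true_imp_iff]
  refine forall_congr' fun F => ?_
  split_ifs with h <;> simp [h]

theorem mem_ch.mem {q : ℕ} {W : Submodule D V} {f : Finset (Fin n) → V} (hf : f ∈ ch n q W)
    (F : Finset (Fin n)) : f F ∈ W := by
  by_cases h : F.card = q
  · exact (mem_ch.mp hf F).1 h
  · rw [(mem_ch.mp hf F).2 h]; exact W.zero_mem

theorem ch_mono {q : ℕ} {W W' : Submodule D V} (h : W ≤ W') : ch n q W ≤ ch n q W' := by
  intro f hf
  rw [mem_ch] at hf ⊢
  exact fun F => ⟨fun hF => h ((hf F).1 hF), (hf F).2⟩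

theorem io_mem {q : ℕ} {W : Submodule D V} {f : Finset (Fin n) → V} (hf : f ∈ ch n (q + 1) W)
    (t : Fin n) : io D V t f ∈ ch n q W := by
  rw [mem_ch]
  intro F
  rw [io_apply]
  split_ifs with h
  · simp
  · refine ⟨fun _ => W.smul_of_tower_mem _ (mem_ch.mem hf _), fun hF => ?_⟩
    rw [(mem_ch.mp hf _).2 (by rw [Finset.card_insert_of_notMem h]; omega), smul_zero]

theorem io_eq_zero {W : Submodule D V} {f : Finset (Fin n) → V} (hf : f ∈ ch n 0 W)
    (t : Fin n) : io D V t f = 0 := by
  funext F
  rw [io_apply]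
  split_ifs with h
  · rfl
  · rw [(mem_ch.mp hf _).2 (by rw [Finset.card_insert_of_notMem h]; omega), smul_zero]; rfl

theorem ex_mem {q : ℕ} {W : Submodule D V} {f : Finset (Fin n) → V} (hf : f ∈ ch n q W)
    (t : Fin n) : ex D V t f ∈ ch n (q + 1) W := by
  rw [mem_ch]
  intro F
  rw [ex_apply]
  split_ifs with h
  · refine ⟨fun _ => W.smul_of_tower_mem _ (mem_ch.mem hf _), fun hF => ?_⟩
    rw [(mem_ch.mp hf _).2 (by
      have := Finset.card_erase_add_one h
      omega), smul_zero]
  · simp

theorem cl_mem {q : ℕ} {W : Submodule D V} {W' : Submodule D V'} {L : V →ₗ[D] V'}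
    (hL : ∀ v ∈ W, L v ∈ W') {f : Finset (Fin n) → V} (hf : f ∈ ch n q W) :
    cl L f ∈ ch n q W' := by
  rw [mem_ch]
  intro F
  refine ⟨fun _ => hL _ (mem_ch.mem hf _), fun hF => ?_⟩
  rw [cl_apply, (mem_ch.mp hf _).2 hF, map_zero]

theorem map_cl_ch (q : ℕ) (W : Submodule D V) (L : V →ₗ[D] V') :
    (ch n q W).map (cl L) = ch n q (W.map L) := by
  apply le_antisymm
  · rintro _ ⟨f, hf, rfl⟩
    exact cl_mem (fun v hv => Submodule.mem_map_of_mem hv) hf
  · intro g hg
    have : ∀ F : Finset (Fin n), ∃ v, (F.card = q → v ∈ W) ∧ (F.card ≠ q → v = 0) ∧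
        L v = g F := by
      intro F
      by_cases hF : F.card = q
      · obtain ⟨v, hv, hv'⟩ := (mem_ch.mp hg F).1 hF
        exact ⟨v, fun _ => hv, fun h => absurd hF h, hv'⟩
      · exact ⟨0, fun h => absurd h hF, fun _ => rfl, by rw [(mem_ch.mp hg F).2 hF, map_zero]⟩
    choose f hf1 hf2 hf3 using this
    exact ⟨f, mem_ch.mpr fun F => ⟨hf1 F, hf2 F⟩, funext hf3⟩

theorem kos_mem {q : ℕ} {W W' : Submodule D V} {T : Fin n → V →ₗ[D] V}
    (hT : ∀ t, ∀ v ∈ W, T t v ∈ W') {f : Finset (Fin n) → V} (hf : f ∈ ch n (q + 1) W) :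
    kos T f ∈ ch n q W' := by
  rw [kos_eq]
  exact Submodule.sum_mem _ fun t _ => cl_mem (hT t) (io_mem hf t)

theorem kos_eq_zero {W : Submodule D V} {T : Fin n → V →ₗ[D] V}
    {f : Finset (Fin n) → V} (hf : f ∈ ch n 0 W) : kos T f = 0 := by
  rw [kos_eq]
  exact Finset.sum_eq_zero fun t _ => by rw [io_eq_zero hf, map_zero]

theorem sum_ex_io_of_mem {q : ℕ} {W : Submodule D V} {f : Finset (Fin n) → V}
    (hf : f ∈ ch n q W) : ∑ i, ex D V i (io D V i f) = q • f := by
  funext U
  rw [sum_ex_io, Pi.smul_apply]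
  by_cases h : U.card = q
  · rw [h]
  · rw [(mem_ch.mp hf U).2 h]; simp

theorem kos_kos {T : Fin n → V →ₗ[D] V} (hT : ∀ s t v, T s (T t v) = T t (T s v))
    [NoZeroSMulDivisors ℕ V] (f : Finset (Fin n) → V) : kos T (kos T f) = 0 := by
  have h1 : kos T (kos T f) = ∑ s, ∑ t, cl (T s) (cl (T t) (io D V s (io D V t f))) := by
    rw [kos_eq]
    refine Finset.sum_congr rfl fun s _ => ?_
    rw [kos_eq, map_sum, map_sum]
    refine Finset.sum_congr rfl fun t _ => ?_
    rw [← cl_io]
  have h2 : kos T (kos T f) = -kos T (kos T f) := by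
    conv_rhs => rw [h1, Finset.sum_comm, ← Finset.sum_neg_distrib]
    rw [h1]
    refine Finset.sum_congr rfl fun s _ => ?_
    rw [← Finset.sum_neg_distrib]
    refine Finset.sum_congr rfl fun t _ => ?_
    rw [io_io, map_neg, map_neg]
    congr 1
    funext U
    simp only [cl_apply, hT]
  have h3 : (2 : ℕ) • kos T (kos T f) = 0 := by
    rw [two_smul]; nth_rewrite 1 [h2]; simp
  exact (smul_eq_zero.mp h3).resolve_left (by norm_num)

/-- `ch n q W` as a product of copies of `W`. -/
noncomputable def chEquiv (q : ℕ) (W : Submodule D V) :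
    ch n q W ≃ₗ[D] ({F : Finset (Fin n) // F.card = q} → W) where
  toFun f F := ⟨f.1 F.1, mem_ch.mem f.2 _⟩
  map_add' f g := rfl
  map_smul' c f := rfl
  invFun g := ⟨fun F => if h : F.card = q then (g ⟨F, h⟩).1 else 0, mem_ch.mpr fun F =>
    ⟨fun h => by simp only [dif_pos h]; exact (g _).2, fun h => by simp only [dif_neg h]⟩⟩
  left_inv f := by
    ext F
    by_cases h : F.card = q
    · simp only [dif_pos h]
    · simp only [dif_neg h]; exact ((mem_ch.mp f.2 F).2 h).symm
  right_inv g := by
    funext F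
    ext
    simp only [dif_pos F.2]

instance ch_finite (q : ℕ) (W : Submodule D V) [Module.Finite D W] :
    Module.Finite D (ch n q W) :=
  Module.Finite.equiv (chEquiv q W).symm

theorem finrank_ch {D : Type*} [DivisionRing D] {V : Type*} [AddCommGroup V] [Module D V]
    (q : ℕ) (W : Submodule D V) [Module.Finite D W] :
    Module.finrank D (ch n q W) = n.choose q * Module.finrank D W := by
  rw [(chEquiv q W).finrank_eq, Module.finrank_pi_fintype, Finset.sum_const, Finset.card_univ,
    smul_eq_mul, Fintype.card_finset_len, Fintype.card_fin]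

/-- The rank function `ρ_q(H, W) = dim (∂ C_{q+1}(H) + C_q(W))`. -/
noncomputable def rho (T : Fin n → V →ₗ[D] V) (q : ℕ) (H W : Submodule D V) : ℕ :=
  Module.finrank D ((ch n (q + 1) H).map (kos T) ⊔ ch n q W : Submodule D _)

theorem rho_def (T : Fin n → V →ₗ[D] V) (q : ℕ) (H W : Submodule D V) :
    rho T q H W = Module.finrank D ((ch n (q + 1) H).map (kos T) ⊔ ch n q W : Submodule D _) :=
  rfl

theorem anchor_LPPKos : True := by
  have := @sg.eq_1
  have := @io.eq_1.{0, 0}
  have := @ex.eq_1.{0, 0}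
  have := @cl.eq_1.{0, 0, 0}
  have := @kos.eq_1.{0, 0}
  have := @ch.eq_1.{0, 0}
  have := @chEquiv.eq_1.{0, 0}
  have := @rho.eq_1.{0, 0}
  trivial

end Crest.Agent.R181
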