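import Crest.Agent.R181.KGM
import Crest.Agent.R181.LPPKos

/-!
Row 181, module K: auxiliary fermion identities for `KKos`.
-/

set_option autoImplicit false

namespace Crest.Agent.R181.K

open MvPolynomial

variable {D L : Type} [DivisionRing D] [Field L] [Algebra L D] {σ Y : Type} [AddCommGroup Y]
  {w : σ → Y} {M : Type} [AddCommGroup M] [Module D M] {n : ℕ}

theorem kk_ex_ex {V : Type} [AddCommGroup V] [Module D V] (s t : Fin n)
    (f : Finset (Fin n) → V) : ex D V s (ex D V t f) = -ex D V t (ex D V s f) := by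
  funext U
  simp only [Pi.neg_apply, ex_apply, Finset.mem_erase]
  by_cases hst : s = t
  · subst hst; simp
  by_cases hs : s ∈ U
  swap
  · simp [hs]
  by_cases ht : t ∈ U
  swap
  · simp [ht]
  obtain ⟨U', hs', ht', rfl⟩ : ∃ U', s ∉ U' ∧ t ∉ U' ∧ U = insert s (insert t U') := by
    refine ⟨(U.erase s).erase t, by simp, by simp, ?_⟩
    rw [Finset.insert_erase (by simp [ht, Ne.symm hst]), Finset.insert_erase hs]
  have e1 : (insert s (insert t U')).erase s = insert t U' :=
    Finset.erase_insert (by simp [hs', hst])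
  have e2 : (insert s (insert t U')).erase t = insert s U' := by
    rw [Finset.insert_comm]; exact Finset.erase_insert (by simp [ht', Ne.symm hst])
  have e3 : sg t (insert s (insert t U')) = sg t (insert s U') := by
    rw [Finset.insert_comm, sg_insert_self]
  rw [if_pos hs, if_pos ht, if_pos ⟨Ne.symm hst, ht⟩, if_pos ⟨hst, hs⟩, e1, e2,
    Finset.erase_insert ht', Finset.erase_insert hs', smul_smul, smul_smul, ← neg_smul, e3,
    sg_insert_self, sg_insert_self, sg_insert_self]
  congr 1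
  have := sg_swap hs' ht' hst
  linear_combination this

theorem kk_ex_ex_self {V : Type} [AddCommGroup V] [Module D V] (t : Fin n)
    (f : Finset (Fin n) → V) : ex D V t (ex D V t f) = 0 := by
  funext U
  simp only [ex_apply, Pi.zero_apply]
  split_ifs with h1 h2
  · simp at h2
  · simp
  · rfl

theorem kk_io_io_self {V : Type} [AddCommGroup V] [Module D V] (t : Fin n)
    (f : Finset (Fin n) → V) : io D V t (io D V t f) = 0 := by
  funext U
  simp only [io_apply, Pi.zero_apply]
  split_ifs with h1 h2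
  · rfl
  · simp
  · simp at h2

variable (G : GM D L w M)

theorem kk_hom_cl (o : Finset (Fin n) → Y) (par : Finset (Fin n) → ZMod 2)
    {g : MvPolynomial σ L} {v : Y} (hg : IsWeightedHomogeneous w g v)
    (y : Y × ZMod 2) (m : Finset (Fin n) → M) :
    cl (G.ρ g) ((G.pi2 _ o par).π y m) = (G.pi2 _ o par).π (y + (v, 0)) (cl (G.ρ g) m) := by
  funext U
  simp only [cl_apply, GM.pi2_π, Prod.snd_add, Prod.fst_add, add_zero]
  split_ifs with h
  · rw [G.hom_ρ hg, sub_add_eq_add_sub]
  · simp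

theorem kk_hom_io (a : Fin n → Y) (t : Fin n) (y : Y × ZMod 2) (m : Finset (Fin n) → M) :
    io D M t ((G.pi2 _ (fun U => ∑ j ∈ U, a j) (fun U => (U.card : ZMod 2))).π y m) =
      (G.pi2 _ (fun U => ∑ j ∈ U, a j) (fun U => (U.card : ZMod 2))).π (y + (-a t, 1))
        (io D M t m) := by
  funext U
  simp only [io_apply, GM.pi2_π, Prod.snd_add, Prod.fst_add]
  by_cases ht : t ∈ U
  · simp [ht]
  rw [if_neg ht, if_neg ht, Finset.card_insert_of_notMem ht, Finset.sum_insert ht]
  have key : ∀ a b : ZMod 2, (a + 1 = b ↔ a = b + 1) := by decide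
  push_cast
  by_cases hc : (U.card : ZMod 2) = y.2 + 1
  · rw [if_pos hc, if_pos ((key _ _).mpr hc), map_zsmul]
    congr 2
    abel_nf
  · rw [if_neg hc, if_neg (fun h' => hc ((key _ _).mp h')), smul_zero]

theorem kk_hom_ex (a : Fin n → Y) (t : Fin n) (y : Y × ZMod 2) (m : Finset (Fin n) → M) :
    ex D M t ((G.pi2 _ (fun U => ∑ j ∈ U, a j) (fun U => (U.card : ZMod 2))).π y m) =
      (G.pi2 _ (fun U => ∑ j ∈ U, a j) (fun U => (U.card : ZMod 2))).π (y + (a t, 1))
        (ex D M t m) := by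
  funext U
  simp only [ex_apply, GM.pi2_π, Prod.snd_add, Prod.fst_add]
  by_cases ht : t ∈ U
  swap
  · simp [ht]
  obtain ⟨U', hU', rfl⟩ : ∃ U', t ∉ U' ∧ U = insert t U' :=
    ⟨U.erase t, by simp, (Finset.insert_erase ht).symm⟩
  rw [if_pos ht, if_pos ht, Finset.erase_insert hU', Finset.card_insert_of_notMem hU',
    Finset.sum_insert hU']
  push_cast
  by_cases hc : (U'.card : ZMod 2) = y.2
  · rw [if_pos hc, if_pos (by rw [hc]), map_zsmul]
    congr 2
    abel_nf
  · rw [if_neg hc, if_neg (fun h' => hc (add_right_cancel h')), smul_zero]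

theorem kk_cl_comm (g g' : MvPolynomial σ L) (v : Finset (Fin n) → M) :
    cl (G.ρ g) (cl (G.ρ g') v) = cl (G.ρ g') (cl (G.ρ g) v) := by
  funext U
  simp only [cl_apply]
  exact G.ρ_comm g g' _

theorem kk_cl_mul (g g' : MvPolynomial σ L) (v : Finset (Fin n) → M) :
    cl (G.ρ g) (cl (G.ρ g') v) = cl (G.ρ (g * g')) v := by
  funext U
  simp only [cl_apply, map_mul, Module.End.mul_apply]

theorem kk_cl_sum {κ : Type} (s : Finset κ) (g : κ → MvPolynomial σ L) (v : Finset (Fin n) → M) :
    cl (G.ρ (∑ i ∈ s, g i)) v = ∑ i ∈ s, cl (G.ρ (g i)) v := by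
  funext U
  simp only [cl_apply, map_sum, LinearMap.sum_apply, Finset.sum_apply]

theorem kk_cl_zero (v : Finset (Fin n) → M) : cl (G.ρ 0) v = 0 := by
  funext U
  simp only [cl_apply, map_zero, LinearMap.zero_apply, Pi.zero_apply]

theorem kk_cl_one (v : Finset (Fin n) → M) : cl (G.ρ 1) v = v := by
  funext U
  simp only [cl_apply, map_one, Module.End.one_apply]

/-- An antisymmetric double sum with zero diagonal vanishes. -/
theorem kk_sum_antisymm {A : Type} [AddCommGroup A] (f : Fin n → Fin n → A)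
    (h1 : ∀ s t, f s t = -f t s) (h2 : ∀ s, f s s = 0) : ∑ s, ∑ t, f s t = 0 := by
  rw [← Finset.sum_product']
  refine Finset.sum_involution (fun p _ => p.swap) (fun p _ => ?_) (fun p _ hp => ?_)
    (fun p _ => by simp) (fun p _ => Prod.swap_swap p)
  · simp only [Prod.fst_swap, Prod.snd_swap]
    rw [h1 p.1 p.2, neg_add_cancel]
  · intro he
    apply hp
    have : p.2 = p.1 := congrArg Prod.fst he
    rw [this]; exact h2 _

/-- A contraction with polynomial coefficients. -/
noncomputable def kkI (a : Fin n → MvPolynomial σ L) : Module.End D (Finset (Fin n) → M) :=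
  ∑ j, cl (G.ρ (a j)) ∘ₗ io D M j

/-- A wedge with polynomial coefficients. -/
noncomputable def kkE (b : Fin n → MvPolynomial σ L) : Module.End D (Finset (Fin n) → M) :=
  ∑ j, cl (G.ρ (b j)) ∘ₗ ex D M j

theorem kkI_apply (a : Fin n → MvPolynomial σ L) (v : Finset (Fin n) → M) :
    kkI G a v = ∑ j, cl (G.ρ (a j)) (io D M j v) := by
  simp [kkI, LinearMap.sum_apply]

theorem kkE_apply (b : Fin n → MvPolynomial σ L) (v : Finset (Fin n) → M) :
    kkE G b v = ∑ j, cl (G.ρ (b j)) (ex D M j v) := by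
  simp [kkE, LinearMap.sum_apply]

theorem kkI_kkI_eq (a a' : Fin n → MvPolynomial σ L) (v : Finset (Fin n) → M) :
    kkI G a (kkI G a' v) = ∑ s, ∑ t, cl (G.ρ (a s * a' t)) (io D M s (io D M t v)) := by
  rw [kkI_apply, kkI_apply]
  refine Finset.sum_congr rfl fun s _ => ?_
  rw [map_sum, map_sum]
  refine Finset.sum_congr rfl fun t _ => ?_
  rw [← cl_io, kk_cl_mul]

theorem kkE_kkE_eq (b b' : Fin n → MvPolynomial σ L) (v : Finset (Fin n) → M) :
    kkE G b (kkE G b' v) = ∑ s, ∑ t, cl (G.ρ (b s * b' t)) (ex D M s (ex D M t v)) := by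
  rw [kkE_apply, kkE_apply]
  refine Finset.sum_congr rfl fun s _ => ?_
  rw [map_sum, map_sum]
  refine Finset.sum_congr rfl fun t _ => ?_
  rw [← cl_ex, kk_cl_mul]

theorem kkI_kkI_self (a : Fin n → MvPolynomial σ L) (v : Finset (Fin n) → M) :
    kkI G a (kkI G a v) = 0 := by
  rw [kkI_kkI_eq]
  refine kk_sum_antisymm _ (fun s t => ?_) (fun s => ?_)
  · rw [io_io s t, map_neg, mul_comm]
  · rw [kk_io_io_self, map_zero]

theorem kkE_kkE_self (b : Fin n → MvPolynomial σ L) (v : Finset (Fin n) → M) :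
    kkE G b (kkE G b v) = 0 := by
  rw [kkE_kkE_eq]
  refine kk_sum_antisymm _ (fun s t => ?_) (fun s => ?_)
  · rw [kk_ex_ex s t, map_neg, mul_comm]
  · rw [kk_ex_ex_self, map_zero]

theorem kkE_kkE (b b' : Fin n → MvPolynomial σ L) (v : Finset (Fin n) → M) :
    kkE G b (kkE G b' v) = -kkE G b' (kkE G b v) := by
  rw [kkE_kkE_eq, kkE_kkE_eq, Finset.sum_comm, ← Finset.sum_neg_distrib]
  refine Finset.sum_congr rfl fun s _ => ?_
  rw [← Finset.sum_neg_distrib]
  refine Finset.sum_congr rfl fun t _ => ?_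
  rw [kk_ex_ex t s, map_neg, mul_comm]

/-- The basic anticommutator. -/
theorem kkI_kkE (a b : Fin n → MvPolynomial σ L) (v : Finset (Fin n) → M) :
    kkI G a (kkE G b v) + kkE G b (kkI G a v) = cl (G.ρ (∑ j, b j * a j)) v := by
  have h1 : kkI G a (kkE G b v) =
      ∑ s, ∑ t, cl (G.ρ (b s * a t)) (io D M t (ex D M s v)) := by
    rw [kkI_apply, kkE_apply, Finset.sum_comm]
    refine Finset.sum_congr rfl fun s _ => ?_
    rw [map_sum, map_sum]
    refine Finset.sum_congr rfl fun t _ => ?_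
    rw [← cl_io, kk_cl_mul, mul_comm]
  have h2 : kkE G b (kkI G a v) =
      ∑ s, ∑ t, cl (G.ρ (b s * a t)) (ex D M s (io D M t v)) := by
    rw [kkI_apply, kkE_apply]
    refine Finset.sum_congr rfl fun s _ => ?_
    rw [map_sum, map_sum]
    refine Finset.sum_congr rfl fun t _ => ?_
    rw [← cl_ex, kk_cl_mul]
  rw [h1, h2, ← Finset.sum_add_distrib, kk_cl_sum]
  refine Finset.sum_congr rfl fun s _ => ?_
  rw [← Finset.sum_add_distrib, Finset.sum_eq_single s]
  · rw [← map_add, io_ex_self]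
  · intro t _ hts
    rw [← map_add, io_ex_ne (Ne.symm hts), map_zero]
  · simp

theorem kkE_single (j : Fin n) (v : Finset (Fin n) → M) :
    kkE G (Pi.single j 1) v = ex D M j v := by
  rw [kkE_apply, Finset.sum_eq_single j]
  · rw [Pi.single_eq_same, kk_cl_one]
  · intro t _ ht
    rw [Pi.single_eq_of_ne ht, kk_cl_zero]
  · simp

theorem kkI_lin (a : Fin n → MvPolynomial σ L) (g : MvPolynomial σ L) (v : Finset (Fin n) → M) :
    kkI G a (cl (G.ρ g) v) = cl (G.ρ g) (kkI G a v) := by
  rw [kkI_apply, kkI_apply, map_sum]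
  refine Finset.sum_congr rfl fun s _ => ?_
  rw [← cl_io, kk_cl_comm]

theorem kkE_lin (b : Fin n → MvPolynomial σ L) (g : MvPolynomial σ L) (v : Finset (Fin n) → M) :
    kkE G b (cl (G.ρ g) v) = cl (G.ρ g) (kkE G b v) := by
  rw [kkE_apply, kkE_apply, map_sum]
  refine Finset.sum_congr rfl fun s _ => ?_
  rw [← cl_ex, kk_cl_comm]

theorem kk_io_mem (N : Submodule D M) (j : Fin n) :
    ∀ v ∈ Submodule.pi Set.univ (fun _ => N),
      io D M j v ∈ Submodule.pi Set.univ (fun _ : Finset (Fin n) => N) := by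
  intro v hv U _
  rw [io_apply]
  split_ifs
  · exact N.zero_mem
  · exact zsmul_mem (hv _ (Set.mem_univ _)) _

theorem kk_ex_mem (N : Submodule D M) (j : Fin n) :
    ∀ v ∈ Submodule.pi Set.univ (fun _ => N),
      ex D M j v ∈ Submodule.pi Set.univ (fun _ : Finset (Fin n) => N) := by
  intro v hv U _
  rw [ex_apply]
  split_ifs
  · exact zsmul_mem (hv _ (Set.mem_univ _)) _
  · exact N.zero_mem

variable {G}

theorem kk_cl_mem {N : Submodule D M} (hN : G.Good N) (g : MvPolynomial σ L) :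
    ∀ v ∈ Submodule.pi Set.univ (fun _ => N),
      cl (G.ρ g) v ∈ Submodule.pi Set.univ (fun _ : Finset (Fin n) => N) :=
  fun v hv U _ => hN.st g (v U) (hv U (Set.mem_univ _))

theorem kkI_mem {N : Submodule D M} (hN : G.Good N) (a : Fin n → MvPolynomial σ L) :
    ∀ v ∈ Submodule.pi Set.univ (fun _ => N),
      kkI G a v ∈ Submodule.pi Set.univ (fun _ : Finset (Fin n) => N) := by
  intro v hv
  rw [kkI_apply]
  exact Submodule.sum_mem _ fun j _ => kk_cl_mem hN _ _ (kk_io_mem N j v hv)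

theorem kkE_mem {N : Submodule D M} (hN : G.Good N) (b : Fin n → MvPolynomial σ L) :
    ∀ v ∈ Submodule.pi Set.univ (fun _ => N),
      kkE G b v ∈ Submodule.pi Set.univ (fun _ : Finset (Fin n) => N) := by
  intro v hv
  rw [kkE_apply]
  exact Submodule.sum_mem _ fun j _ => kk_cl_mem hN _ _ (kk_ex_mem N j v hv)

theorem anchor_KKosAux1 : True := by
  have := @kkI.eq_1
  have := @kkE.eq_1
  trivial

end Crest.Agent.R181.K
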