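import Crest.Agent.R181.KStan
import Crest.Agent.R181.LPPKos
import Crest.Agent.R181.KKosAux1

/-!
Row 181, module K, part 4: modules killed by `h` equations which are linear in some of the variables.
-/

set_option autoImplicit false

namespace Crest.Agent.R181.K

open MvPolynomial

variable {D L : Type} [DivisionRing D] [Field L] [Algebra L D] {σ Y : Type} [AddCommGroup Y]
  {w : σ → Y} {M : Type} [AddCommGroup M] [Module D M]

/-- `h` equations `F k = ∑ j, φ k j * X (u j)` of the same degree `w0`, and a set `𝒟` of multiples of the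
identity in the image of `φ` cutting out codimension `c` in the other variables. -/
structure Eqs (L : Type) [Field L] {σ Y : Type} [Fintype σ] [DecidableEq σ] [AddCommGroup Y]
    (w : σ → Y) (n h c : ℕ) where
  u : Fin n → σ
  u_inj : Function.Injective u
  φ : Fin h → Fin n → MvPolynomial σ L
  w0 : Y
  φ_hom : ∀ k j, IsWeightedHomogeneous w (φ k j) (w0 - w (u j))
  𝒟 : Set (MvPolynomial σ L)
  inv : ∀ Δ ∈ 𝒟, ∃ ψ : Fin n → Fin h → MvPolynomial σ L,
    ∀ k k', ∑ j, φ k j * ψ j k' = if k = k' then Δ else 0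
  codim : Codim (Finset.univ \ Finset.univ.image u) c 𝒟

/-- The equations. -/
noncomputable def Eqs.F [Fintype σ] [DecidableEq σ] {n h c : ℕ} (E : Eqs L w n h c) (k : Fin h) :
    MvPolynomial σ L := ∑ j, E.φ k j * X (E.u j)

theorem Eqs.F_hom [Fintype σ] [DecidableEq σ] {n h c : ℕ} (E : Eqs L w n h c) (k : Fin h) :
    IsWeightedHomogeneous w (E.F k) E.w0 := by
  rw [Eqs.F]
  refine IsWeightedHomogeneous.sum _ _ _ fun j _ => ?_
  have h := (E.φ_hom k j).mul (isWeightedHomogeneous_X L w (E.u j))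
  rwa [sub_add_cancel] at h

theorem ex_ex {n : ℕ} {V : Type} [AddCommGroup V] [Module D V] (s t : Fin n)
    (f : Finset (Fin n) → V) : ex D V s (ex D V t f) = -ex D V t (ex D V s f) := by
  exact kk_ex_ex s t f

theorem ex_ex_self {n : ℕ} {V : Type} [AddCommGroup V] [Module D V] (t : Fin n)
    (f : Finset (Fin n) → V) : ex D V t (ex D V t f) = 0 := by
  exact kk_ex_ex_self t f

/-- Passing to homology keeps the Euler characteristic. -/
theorem GM.chi_homology (G : GM D L (fun j => (w j, (0 : ZMod 2))) M) (d : Module.End D M)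
    (hd : G.Hom G d (0, 1)) (hl : G.Lin G d) (hdd : ∀ m, d (d m) = 0) {P Q : Submodule D M}
    (hP : G.Good P) (hQ : G.Good Q) (h : P ≤ Q) (hdP : ∀ m ∈ P, d m ∈ P) (hdQ : ∀ m ∈ Q, d m ∈ Q) :
    chi (G.H P Q) = chi (G.H (Q.map d ⊔ P) (Q ⊓ P.comap d)) := by
  rw [G.H_add P (Q.map d ⊔ P) Q, G.H_add (Q.map d ⊔ P) (Q ⊓ P.comap d) Q, GM.H_iso hd hQ hP,
    map_add, map_add, chi_act_odd, z_zero, map_one, Module.End.one_apply]
  abel

/-- A complex on which the variables outside `T` are null-homotopic. -/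
theorem GM.chi_small [Finite σ] (G : GM D L (fun j => (w j, (0 : ZMod 2))) M) (d : Module.End D M)
    (hd : G.Hom G d (0, 1)) (hl : G.Lin G d) (hdd : ∀ m, d (d m) = 0) {P Q : Submodule D M}
    (hP : G.Good P) (hQ : G.Good Q) (h : P ≤ Q) (hdP : ∀ m ∈ P, d m ∈ P) (hdQ : ∀ m ∈ Q, d m ∈ Q)
    (T : Finset σ) (c : ℕ)
    (hT : ∀ j, j ∉ T → ∃ e : Module.End D M, (∀ m, G.ρ (X j) m = d (e m) + e (d m)) ∧
      (∀ m ∈ P, e m ∈ P) ∧ ∀ m ∈ Q, e m ∈ Q)
    (hS : G.Small T c P Q) : ∃ q ∈ aug Y ^ c, act (dP w T) (chi (G.H P Q)) = tf q := by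
  have hle : Q.map d ⊔ P ≤ Q ⊓ P.comap d := by
    refine sup_le ?_ fun m hm => ⟨h hm, hdP m hm⟩
    rintro _ ⟨m, hm, rfl⟩
    refine ⟨hdQ m hm, ?_⟩
    show d (d m) ∈ P
    rw [hdd]
    exact P.zero_mem
  obtain ⟨p, hp, e⟩ := G.stanley T c ((hQ.map hd hl).sup hP) (hQ.inf (hP.comap hd hl)) hle
    (fun j hj m hm => by
      obtain ⟨e, h1, h2, h3⟩ := hT j hj
      rw [h1]
      exact Submodule.add_mem_sup (Submodule.mem_map_of_mem (h3 m hm.1)) (h2 _ hm.2))
    (hS.mono le_sup_right inf_le_left)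
  obtain ⟨q, hq, e'⟩ := chi_stan w T c hp
  exact ⟨q, hq, by rw [G.chi_homology d hd hl hdd hP hQ h hdP hdQ, ← chi_act_dP, e, e']⟩

section fermion

variable [Fintype σ] [DecidableEq σ] {n h c : ℕ} (E : Eqs L w n h c) (G : GM D L w M)

/-- The Koszul complex on the variables `u j`. -/
noncomputable def Eqs.KC : GM D L (fun j => (w j, (0 : ZMod 2))) (Finset (Fin n) → M) :=
  G.pi2 (Finset (Fin n)) (fun U => ∑ j ∈ U, w (E.u j)) (fun U => (U.card : ZMod 2))

/-- The differential. -/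
noncomputable def Eqs.dd : Module.End D (Finset (Fin n) → M) := kos fun j => G.ρ (X (E.u j))

/-- Wedge with the cycle attached to the `k`-th equation. -/
noncomputable def Eqs.eps (k : Fin h) : Module.End D (Finset (Fin n) → M) :=
  ∑ j, cl (G.ρ (E.φ k j)) ∘ₗ ex D M j

theorem Eqs.KC_ρ (g : MvPolynomial σ L) (v : Finset (Fin n) → M) :
    (E.KC G).ρ g v = cl (G.ρ g) v := rfl

theorem Eqs.dd_hom : (E.KC G).Hom (E.KC G) (E.dd G) (0, 1) := by
  intro y m
  change kkI G (fun j => X (E.u j)) _ = (E.KC G).π _ (kkI G (fun j => X (E.u j)) m)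
  rw [kkI_apply, kkI_apply, map_sum]
  refine Finset.sum_congr rfl fun t _ => ?_
  have h1 := kk_hom_io G (fun j => w (E.u j)) t y m
  have h2 := kk_hom_cl G (fun U => ∑ j ∈ U, w (E.u j)) (fun U => (U.card : ZMod 2))
    (isWeightedHomogeneous_X L w (E.u t)) (y + (-w (E.u t), 1)) (io D M t m)
  have h3 : y + (-w (E.u t), 1) + (w (E.u t), 0) = y + (0, 1) := by
    ext <;> simp
  rw [h3, ← h1] at h2
  exact h2

theorem Eqs.dd_lin : (E.KC G).Lin (E.KC G) (E.dd G) := by
  exact fun g m => kkI_lin G (fun j => X (E.u j)) g m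

theorem Eqs.dd_dd (v : Finset (Fin n) → M) : E.dd G (E.dd G v) = 0 := by
  exact kkI_kkI_self G (fun j => X (E.u j)) v

theorem Eqs.eps_hom (k : Fin h) : (E.KC G).Hom (E.KC G) (E.eps G k) (E.w0, 1) := by
  intro y m
  change kkE G (E.φ k) _ = (E.KC G).π _ (kkE G (E.φ k) m)
  rw [kkE_apply, kkE_apply, map_sum]
  refine Finset.sum_congr rfl fun t _ => ?_
  have h1 := kk_hom_ex G (fun j => w (E.u j)) t y m
  have h2 := kk_hom_cl G (fun U => ∑ j ∈ U, w (E.u j)) (fun U => (U.card : ZMod 2))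
    (E.φ_hom k t) (y + (w (E.u t), 1)) (ex D M t m)
  have h3 : y + (w (E.u t), 1) + (E.w0 - w (E.u t), 0) = y + (E.w0, 1) := by
    ext <;> simp [add_assoc]
  rw [h3, ← h1] at h2
  exact h2

theorem Eqs.eps_lin (k : Fin h) : (E.KC G).Lin (E.KC G) (E.eps G k) := by
  exact fun g m => kkE_lin G (E.φ k) g m

theorem Eqs.eps_eps (k k' : Fin h) (v : Finset (Fin n) → M) :
    E.eps G k (E.eps G k' v) = -E.eps G k' (E.eps G k v) := by
  exact kkE_kkE G (E.φ k) (E.φ k') v

theorem Eqs.eps_eps_self (k : Fin h) (v : Finset (Fin n) → M) : E.eps G k (E.eps G k v) = 0 := by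
  exact kkE_kkE_self G (E.φ k) v

theorem Eqs.dd_ex (j : Fin n) (v : Finset (Fin n) → M) :
    (E.KC G).ρ (X (E.u j)) v = E.dd G (ex D M j v) + ex D M j (E.dd G v) := by
  have h1 := kkI_kkE G (fun j => X (E.u j)) (Pi.single j 1) v
  rw [kkE_single, kkE_single, Finset.sum_eq_single j (fun t _ ht => by
    rw [Pi.single_eq_of_ne ht, zero_mul]) (by simp), Pi.single_eq_same, one_mul] at h1
  exact h1.symm

theorem Eqs.dd_eps (k : Fin h) (v : Finset (Fin n) → M) :
    (E.KC G).ρ (E.F k) v = E.dd G (E.eps G k v) + E.eps G k (E.dd G v) := by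
  exact (kkI_kkE G (fun j => X (E.u j)) (E.φ k) v).symm

theorem Eqs.eps_ex (k : Fin h) (j : Fin n) (v : Finset (Fin n) → M) :
    E.eps G k (ex D M j v) = -ex D M j (E.eps G k v) := by
  have h1 := kkE_kkE G (E.φ k) (Pi.single j 1) v
  rw [kkE_single, kkE_single] at h1
  exact h1

/-- The contraction dual to `eps k` up to `Δ`. -/
theorem Eqs.exists_contr {Δ : MvPolynomial σ L} (hΔ : Δ ∈ E.𝒟) (k : Fin h) :
    ∃ ι : Module.End D (Finset (Fin n) → M),
      (∀ k' v, ι (E.eps G k' v) + E.eps G k' (ι v) = if k' = k then (E.KC G).ρ Δ v else 0) ∧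
      ∀ N : Submodule D M, G.Good N → ∀ v ∈ Submodule.pi Set.univ (fun _ => N),
        ι v ∈ Submodule.pi Set.univ (fun _ : Finset (Fin n) => N) := by
  obtain ⟨ψ, hψ⟩ := E.inv Δ hΔ
  refine ⟨kkI G (fun j => ψ j k), fun k' v => ?_, fun N hN => kkI_mem hN _⟩
  have h1 := kkI_kkE G (fun j => ψ j k) (E.φ k') v
  rw [hψ k' k] at h1
  refine h1.trans ?_
  split_ifs
  · rfl
  · exact kk_cl_zero G v

theorem Eqs.dd_mem {N : Submodule D M} (hN : G.Good N) :
    ∀ v ∈ Submodule.pi Set.univ (fun _ => N),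
      E.dd G v ∈ Submodule.pi Set.univ (fun _ : Finset (Fin n) => N) := by
  exact kkI_mem hN (fun j => X (E.u j))

theorem Eqs.eps_mem {N : Submodule D M} (hN : G.Good N) (k : Fin h) :
    ∀ v ∈ Submodule.pi Set.univ (fun _ => N),
      E.eps G k v ∈ Submodule.pi Set.univ (fun _ : Finset (Fin n) => N) := by
  exact kkE_mem hN (E.φ k)

theorem ex_mem (N : Submodule D M) (j : Fin n) :
    ∀ v ∈ Submodule.pi Set.univ (fun _ => N),
      ex D M j v ∈ Submodule.pi Set.univ (fun _ : Finset (Fin n) => N) := by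
  exact kk_ex_mem N j

/-- The Euler characteristic of the Koszul complex. -/
theorem Eqs.chi_KC (A B : Submodule D M) :
    chi ((E.KC G).H (Submodule.pi Set.univ fun _ => A) (Submodule.pi Set.univ fun _ => B)) =
      act (dP w (Finset.univ.image E.u)) (G.H A B) := by
  have hz : ∀ U : Finset (Fin n), ∏ j ∈ U, z (w (E.u j)) = z (∑ j ∈ U, w (E.u j)) := by
    intro U
    induction U using Finset.induction_on with
    | empty => rfl
    | insert a U ha ih => rw [Finset.prod_insert ha, Finset.sum_insert ha, z_add, ih]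
  have e : dP w (Finset.univ.image E.u) =
      ∑ U : Finset (Fin n), ((-1 : ℤ) ^ U.card) • z (∑ j ∈ U, w (E.u j)) := by
    rw [dP, Finset.prod_image fun a _ b _ hab => E.u_inj hab]
    simp only [sub_eq_add_neg]
    rw [Finset.prod_one_add, Finset.powerset_univ]
    refine Finset.sum_congr rfl fun U _ => ?_
    rw [Finset.prod_neg, hz, zsmul_eq_mul]
    push_cast
    rfl
  funext y
  rw [e, map_sum, LinearMap.sum_apply, Finset.sum_apply, chi_apply, GM.H_apply, GM.H_apply, Eqs.KC,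
    GM.hf_pi2, GM.hf_pi2, GM.hf_pi2, GM.hf_pi2, ← Finset.sum_sub_distrib, ← Finset.sum_sub_distrib,
    ← Finset.sum_sub_distrib]
  refine Finset.sum_congr rfl fun U _ => ?_
  rw [map_smul, LinearMap.smul_apply, Pi.smul_apply, act_z, GM.H_apply, smul_eq_mul]
  rcases Nat.even_or_odd U.card with hU | hU
  · have h1 : (U.card : ZMod 2) = 0 := (ZMod.natCast_eq_zero_iff_even).2 hU
    simp [h1, hU.neg_one_pow]
  · have h1 : (U.card : ZMod 2) = 1 := (ZMod.natCast_eq_one_iff_odd).2 hU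
    simp [h1, hU.neg_one_pow]

/-- The filtration by the images of the first `k` wedge operators. -/
noncomputable def Eqs.fil (A B : Submodule D M) (k : ℕ) : Submodule D (Finset (Fin n) → M) :=
  Submodule.pi Set.univ (fun _ => A) ⊔
    ⨆ (i : Fin h) (_ : i.val < k), (Submodule.pi Set.univ fun _ => B).map (E.eps G i)

theorem Eqs.fil_le {A B : Submodule D M} {k : ℕ} {N : Submodule D (Finset (Fin n) → M)}
    (h1 : ∀ v ∈ Submodule.pi Set.univ (fun _ : Finset (Fin n) => A), v ∈ N)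
    (h2 : ∀ i : Fin h, i.val < k → ∀ v ∈ Submodule.pi Set.univ (fun _ : Finset (Fin n) => B),
      E.eps G i v ∈ N) : E.fil G A B k ≤ N :=
  sup_le h1 (iSup_le fun i => iSup_le fun hi => Submodule.map_le_iff_le_comap.2 (h2 i hi))

theorem Eqs.mem_fil_left {A B : Submodule D M} (k : ℕ) {v : Finset (Fin n) → M}
    (hv : v ∈ Submodule.pi Set.univ (fun _ : Finset (Fin n) => A)) : v ∈ E.fil G A B k :=
  Submodule.mem_sup_left hv

theorem Eqs.mem_fil_eps {A B : Submodule D M} {k : ℕ} {i : Fin h} (hi : i.val < k)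
    {v : Finset (Fin n) → M} (hv : v ∈ Submodule.pi Set.univ (fun _ : Finset (Fin n) => B)) :
    E.eps G i v ∈ E.fil G A B k :=
  Submodule.mem_sup_right (Submodule.mem_iSup_of_mem i (Submodule.mem_iSup_of_mem hi
    (Submodule.mem_map_of_mem hv)))

theorem Eqs.fil_zero (A B : Submodule D M) :
    E.fil G A B 0 = Submodule.pi Set.univ fun _ => A :=
  le_antisymm (E.fil_le G (fun _ hv => hv) fun _ hi => absurd hi (Nat.not_lt_zero _)) le_sup_left

theorem Eqs.fil_succ (A B : Submodule D M) (k : Fin h) :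
    E.fil G A B (k.val + 1) =
      (Submodule.pi Set.univ fun _ => B).map (E.eps G k) ⊔ E.fil G A B k.val := by
  refine le_antisymm (E.fil_le G (fun _ hv => Submodule.mem_sup_right (E.mem_fil_left G _ hv))
    fun i hi v hv => ?_) (sup_le (Submodule.map_le_iff_le_comap.2 fun v hv =>
      E.mem_fil_eps G (Nat.lt_succ_self _) hv) (E.fil_le G (fun _ hv => E.mem_fil_left G _ hv)
        fun i hi v hv => E.mem_fil_eps G (Nat.lt_succ_of_lt hi) hv))
  rcases Nat.lt_succ_iff_lt_or_eq.1 hi with h1 | h1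
  · exact Submodule.mem_sup_right (E.mem_fil_eps G h1 hv)
  · obtain rfl : i = k := Fin.ext h1
    exact Submodule.mem_sup_left (Submodule.mem_map_of_mem hv)

theorem Eqs.fil_good {A B : Submodule D M} (hA : G.Good A) (hB : G.Good B) (k : ℕ) :
    (E.KC G).Good (E.fil G A B k) :=
  (G.good_pi2 _ _ _ hA).sup (GM.Good.iSup fun i => GM.Good.iSup fun _ =>
    GM.Good.map (E.eps_hom G i) (E.eps_lin G i) (G.good_pi2 _ _ _ hB))

theorem Eqs.F_mem {A B : Submodule D M} (hF : ∀ k, ∀ m ∈ B, G.ρ (E.F k) m ∈ A) (k : Fin h)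
    {v : Finset (Fin n) → M} (hv : v ∈ Submodule.pi Set.univ (fun _ : Finset (Fin n) => B)) :
    (E.KC G).ρ (E.F k) v ∈ Submodule.pi Set.univ (fun _ : Finset (Fin n) => A) :=
  fun U hU => hF k _ (hv U hU)

theorem Eqs.fil_dd {A B : Submodule D M} (hA : G.Good A) (hB : G.Good B)
    (hF : ∀ k, ∀ m ∈ B, G.ρ (E.F k) m ∈ A) (k : ℕ) :
    ∀ v ∈ E.fil G A B k, E.dd G v ∈ E.fil G A B k := by
  refine E.fil_le G (N := (E.fil G A B k).comap (E.dd G))
    (fun v hv => E.mem_fil_left G _ (E.dd_mem G hA v hv)) fun i hi v hv => ?_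
  rw [Submodule.mem_comap, eq_sub_of_add_eq (E.dd_eps G i v).symm]
  exact sub_mem (E.mem_fil_left G _ (E.F_mem G hF i hv)) (E.mem_fil_eps G hi (E.dd_mem G hB v hv))

theorem Eqs.fil_ex (A B : Submodule D M) (k : ℕ) (j : Fin n) :
    ∀ v ∈ E.fil G A B k, ex D M j v ∈ E.fil G A B k := by
  refine E.fil_le G (N := (E.fil G A B k).comap (ex D M j))
    (fun v hv => E.mem_fil_left G _ (ex_mem A j v hv)) fun i hi v hv => ?_
  rw [Submodule.mem_comap, ← neg_mem_iff, ← E.eps_ex G i j v]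
  exact E.mem_fil_eps G hi (ex_mem B j v hv)

theorem Eqs.hT {P Q : Submodule D (Finset (Fin n) → M)} (hP : ∀ j, ∀ v ∈ P, ex D M j v ∈ P)
    (hQ : ∀ j, ∀ v ∈ Q, ex D M j v ∈ Q) (j : σ) (hj : j ∉ Finset.univ \ Finset.univ.image E.u) :
    ∃ e : Module.End D (Finset (Fin n) → M),
      (∀ m, (E.KC G).ρ (X j) m = E.dd G (e m) + e (E.dd G m)) ∧ (∀ m ∈ P, e m ∈ P) ∧
        ∀ m ∈ Q, e m ∈ Q := by
  have : j ∈ Finset.univ.image E.u := by
    by_contra h'
    exact hj (Finset.mem_sdiff.2 ⟨Finset.mem_univ _, h'⟩)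
  obtain ⟨j', -, rfl⟩ := Finset.mem_image.1 this
  exact ⟨ex D M j', E.dd_ex G j', hP j', hQ j'⟩

/-- One step of the filtration. -/
theorem Eqs.fil_step {A B : Submodule D M} (hA : G.Good A) (hB : G.Good B) (hAB : A ≤ B)
    (hF : ∀ k, ∀ m ∈ B, G.ρ (E.F k) m ∈ A) (k : Fin h) :
    ∃ q ∈ aug Y ^ c, act (dP w (Finset.univ \ Finset.univ.image E.u))
        (chi ((E.KC G).H (E.fil G A B k.val) (Submodule.pi Set.univ fun _ => B))) =
      act (1 - z E.w0) (act (dP w (Finset.univ \ Finset.univ.image E.u))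
        (chi ((E.KC G).H (E.fil G A B (k.val + 1)) (Submodule.pi Set.univ fun _ => B)))) +
        tf (z E.w0 * q) := by
  have gB : (E.KC G).Good (Submodule.pi Set.univ fun _ => B) := G.good_pi2 _ _ _ hB
  obtain ⟨Z, hZ⟩ : ∃ Z, Z = (Submodule.pi Set.univ fun _ : Finset (Fin n) => B) ⊓
    (E.fil G A B k.val).comap (E.eps G k) := ⟨_, rfl⟩
  have mZ : ∀ v, v ∈ Z ↔ v ∈ Submodule.pi Set.univ (fun _ : Finset (Fin n) => B) ∧
      E.eps G k v ∈ E.fil G A B k.val := fun v => by rw [hZ]; rfl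
  have gZ : (E.KC G).Good Z := by
    rw [hZ]
    exact gB.inf (GM.Good.comap (E.eps_hom G k) (E.eps_lin G k) (E.fil_good G hA hB _))
  have le1 : E.fil G A B (k.val + 1) ≤ Z := by
    refine E.fil_le G (fun v hv => (mZ v).2 ⟨fun U hU => hAB (hv U hU),
      E.mem_fil_left G _ (E.eps_mem G hA k v hv)⟩) fun i hi v hv =>
        (mZ _).2 ⟨E.eps_mem G hB i v hv, ?_⟩
    rcases Nat.lt_succ_iff_lt_or_eq.1 hi with h1 | h1
    · rw [E.eps_eps G k i v]
      exact neg_mem (E.mem_fil_eps G h1 (E.eps_mem G hB k v hv))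
    · obtain rfl : i = k := Fin.ext h1
      rw [E.eps_eps_self G i v]
      exact zero_mem _
  have ddZ : ∀ v ∈ Z, E.dd G v ∈ Z := by
    intro v hv
    obtain ⟨h1, h2⟩ := (mZ v).1 hv
    refine (mZ _).2 ⟨E.dd_mem G hB v h1, ?_⟩
    rw [eq_sub_of_add_eq' (E.dd_eps G k v).symm]
    exact sub_mem (E.mem_fil_left G _ (E.F_mem G hF k h1)) (E.fil_dd G hA hB hF _ _ h2)
  have exZ : ∀ j, ∀ v ∈ Z, ex D M j v ∈ Z := by
    intro j v hv
    obtain ⟨h1, h2⟩ := (mZ v).1 hv
    refine (mZ _).2 ⟨ex_mem B j v h1, ?_⟩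
    rw [E.eps_ex G k j v]
    exact neg_mem (E.fil_ex G A B _ j _ h2)
  have sm : (E.KC G).Small (Finset.univ \ Finset.univ.image E.u) c (E.fil G A B (k.val + 1)) Z := by
    refine GM.small_of_codim E.codim (E.fil_good G hA hB _) gZ fun Δ hΔ v hv => ⟨1, ?_⟩
    obtain ⟨ι, i1, i2⟩ := E.exists_contr G hΔ k
    obtain ⟨h1, h2⟩ := (mZ v).1 hv
    have e := i1 k v
    rw [if_pos rfl] at e
    rw [pow_one, ← e]
    refine add_mem ?_ (E.mem_fil_eps G (Nat.lt_succ_self _) (i2 B hB v h1))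
    refine E.fil_le G (N := (E.fil G A B (k.val + 1)).comap ι)
      (fun u hu => E.mem_fil_left G _ (i2 A hA u hu)) (fun i hi u hu => ?_) h2
    have e' := i1 i u
    rw [if_neg (fun h' => by rw [h'] at hi; exact lt_irrefl _ hi)] at e'
    rw [Submodule.mem_comap, eq_neg_of_add_eq_zero_left e']
    exact neg_mem (E.mem_fil_eps G (Nat.lt_succ_of_lt hi) (i2 B hB u hu))
  obtain ⟨q, hq, e⟩ := (E.KC G).chi_small (E.dd G) (E.dd_hom G) (E.dd_lin G) (E.dd_dd G)
    (E.fil_good G hA hB _) gZ le1 (E.fil_dd G hA hB hF _) ddZ _ c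
    (E.hT G (fun j => E.fil_ex G A B _ j) exZ) sm
  refine ⟨q, hq, ?_⟩
  have e1 := GM.H_iso (E.eps_hom G k) gB (E.fil_good G hA hB k.val)
  rw [← E.fil_succ G A B k, ← hZ] at e1
  have e2 := (E.KC G).H_add (E.fil G A B (k.val + 1)) Z (Submodule.pi Set.univ fun _ => B)
  have e3 : chi ((E.KC G).H (E.fil G A B k.val) (Submodule.pi Set.univ fun _ => B)) =
      act (1 - z E.w0) (chi ((E.KC G).H (E.fil G A B (k.val + 1)) (Submodule.pi Set.univ fun _ => B))) +
        act (z E.w0) (chi ((E.KC G).H (E.fil G A B (k.val + 1)) Z)) := by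
    rw [(E.KC G).H_add _ (E.fil G A B (k.val + 1)) _, e1, map_add, chi_act_odd, e2, map_sub, map_one]
    simp only [map_add, LinearMap.sub_apply, Module.End.one_apply]
    abel
  have comm : ∀ (p p' : ZY Y) (f : Y → ℤ), act p (act p' f) = act p' (act p f) := fun p p' f => by
    rw [← Module.End.mul_apply, ← map_mul, mul_comm, map_mul, Module.End.mul_apply]
  rw [e3, map_add, comm _ (1 - z E.w0), comm _ (z E.w0), e, act_tf]

/-- The numerator of a pair killed by the equations. -/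
theorem Eqs.koszul {A B : Submodule D M} (hA : G.Good A) (hB : G.Good B) (hAB : A ≤ B)
    (hF : ∀ k, ∀ m ∈ B, G.ρ (E.F k) m ∈ A) :
    ∃ r q : ZY Y, q ∈ aug Y ^ c ∧
      act (dP w Finset.univ) (G.H A B) = tf ((1 - z E.w0) ^ h * r + q) := by
  have key : ∀ m k : ℕ, k + m = h → ∃ r q : ZY Y, q ∈ aug Y ^ c ∧
      act (dP w (Finset.univ \ Finset.univ.image E.u))
        (chi ((E.KC G).H (E.fil G A B k) (Submodule.pi Set.univ fun _ => B))) =
        tf ((1 - z E.w0) ^ m * r + q) := by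
    intro m
    induction m with
    | zero =>
      intro k _
      obtain ⟨r, -, e⟩ := (E.KC G).chi_small (E.dd G) (E.dd_hom G) (E.dd_lin G) (E.dd_dd G)
        (E.fil_good G hA hB k) (G.good_pi2 _ _ _ hB)
        (E.fil_le G (fun v hv U hU => hAB (hv U hU)) fun i _ v hv => E.eps_mem G hB i v hv)
        (E.fil_dd G hA hB hF _) (E.dd_mem G hB) _ 0
        (E.hT G (fun j => E.fil_ex G A B _ j) fun j => ex_mem B j) (GM.small_zero _ _ _)
      exact ⟨r, 0, zero_mem _, by rw [e, pow_zero, one_mul, add_zero]⟩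
    | succ m ih =>
      intro k hk
      obtain ⟨r, q, hq, e⟩ := ih (k + 1) (by omega)
      obtain ⟨q', hq', e'⟩ := E.fil_step G hA hB hAB hF ⟨k, by omega⟩
      refine ⟨r, (1 - z E.w0) * q + z E.w0 * q',
        add_mem (Ideal.mul_mem_left _ _ hq) (Ideal.mul_mem_left _ _ hq'), ?_⟩
      dsimp only at e'
      rw [e', e, act_tf, ← map_add]
      congr 1
      ring
  obtain ⟨r, q, hq, e⟩ := key h 0 (zero_add h)
  refine ⟨r, q, hq, ?_⟩
  rw [E.fil_zero G A B, E.chi_KC G A B, ← Module.End.mul_apply, ← map_mul] at e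
  rw [← e, dP, dP, dP, Finset.prod_sdiff (Finset.subset_univ _)]

end fermion

theorem anchor_KKos : True := by
  have := @Eqs.F.eq_1
  have := @Eqs.KC.eq_1
  have := @Eqs.dd.eq_1
  have := @Eqs.eps.eq_1
  have := @Eqs.fil.eq_1
  trivial

end Crest.Agent.R181.K
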