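import Crest.Agent.R181.KKos

/-!
Row 181, module K, part 5: the numerator `Kp`, the multiplicity `e`, the K-lemma.
-/

set_option autoImplicit false

namespace Crest.Agent.R181.K

open MvPolynomial
open scoped TensorProduct

variable {D L : Type} [DivisionRing D] [Field L] [Algebra L D] {σ Y : Type} [AddCommGroup Y]
  {w : σ → Y} {M : Type} [AddCommGroup M] [Module D M]
  {M' : Type} [AddCommGroup M'] [Module D M'] [Fintype σ]

namespace GM

/-- The numerator of the Hilbert series of the pair `A ≤ B`. -/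
noncomputable def Kp (G : GM D L w M) (A B : Submodule D M) : ZY Y :=
  ofF (act (dP w Finset.univ) (G.H A B))

/-- The multiplicity in codimension `h`. -/
noncomputable def e (G : GM D L w M) (x0 : Y →+ ℤ) (h : ℕ) (A B : Submodule D M) : ℤ :=
  lam (pw x0 h) (G.Kp A B)

variable {G : GM D L w M} {G' : GM D L w M'}

theorem Kp_eq {A B : Submodule D M} {p : ZY Y} (h : act (dP w Finset.univ) (G.H A B) = tf p) :
    G.Kp A B = p := by
  rw [Kp, h, ofF_tf]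

theorem tf_Kp {A B : Submodule D M} (hA : G.Good A) (hB : G.Good B) (h : A ≤ B) :
    tf (G.Kp A B) = act (dP w Finset.univ) (G.H A B) := by
  obtain ⟨p, -, hp⟩ := G.stanley Finset.univ 0 hA hB h (fun j hj => absurd (Finset.mem_univ j) hj)
    (small_zero _ _ _)
  rw [Kp_eq hp, hp]

theorem Kp_mem_stan {A B : Submodule D M} (hA : G.Good A) (hB : G.Good B) (h : A ≤ B) :
    G.Kp A B ∈ stan w Finset.univ 0 := by
  obtain ⟨p, h1, hp⟩ := G.stanley Finset.univ 0 hA hB h (fun j hj => absurd (Finset.mem_univ j) hj)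
    (small_zero _ _ _)
  rwa [Kp_eq hp]

theorem Kp_small {A B : Submodule D M} (hA : G.Good A) (hB : G.Good B) (h : A ≤ B) {c : ℕ}
    (hS : G.Small Finset.univ c A B) : G.Kp A B ∈ aug Y ^ c := by
  obtain ⟨p, h1, hp⟩ := G.stanley Finset.univ c hA hB h (fun j hj => absurd (Finset.mem_univ j) hj)
    hS
  rw [Kp_eq hp]
  exact stan_le_aug_pow w _ c h1

theorem Kp_add {A B C : Submodule D M} (hA : G.Good A) (hB : G.Good B) (hC : G.Good C)
    (h : A ≤ B) (h' : B ≤ C) : G.Kp A C = G.Kp A B + G.Kp B C := by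
  refine Kp_eq ?_
  rw [map_add, tf_Kp hA hB h, tf_Kp hB hC h', G.H_add A B C, map_add]

theorem Kp_iso {f : M →ₗ[D] M'} {v : Y} (hf : G.Hom G' f v) (hl : G.Lin G' f)
    {B : Submodule D M} (hB : G.Good B) {A : Submodule D M'} (hA : G'.Good A) :
    G'.Kp A (B.map f ⊔ A) = z v * G.Kp (B ⊓ A.comap f) B := by
  refine Kp_eq ?_
  rw [H_iso hf hB hA, ← act_tf, tf_Kp (hB.inf (Good.comap hf hl hA)) hB inf_le_left,
    ← Module.End.mul_apply, ← Module.End.mul_apply, ← map_mul, ← map_mul, mul_comm]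

theorem Kp_pi (κ : Type) [Fintype κ] (o : κ → Y) {A B : Submodule D M} (hA : G.Good A)
    (hB : G.Good B) (h : A ≤ B) :
    (G.pi κ o).Kp (Submodule.pi Set.univ fun _ => A) (Submodule.pi Set.univ fun _ => B) =
      (∑ k, z (o k)) * G.Kp A B := by
  refine Kp_eq ?_
  have e1 : (G.pi κ o).H (Submodule.pi Set.univ fun _ => A) (Submodule.pi Set.univ fun _ => B) =
      act (∑ k, z (o k)) (G.H A B) := by
    funext y
    rw [H_apply, hf_pi, hf_pi, map_sum, LinearMap.sum_apply, Finset.sum_apply,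
      ← Finset.sum_sub_distrib]
    exact Finset.sum_congr rfl fun k _ => by rw [act_z, H_apply]
  rw [e1, ← act_tf, tf_Kp hA hB h, ← Module.End.mul_apply, ← Module.End.mul_apply, ← map_mul,
    ← map_mul, mul_comm]

theorem e_add (x0 : Y →+ ℤ) (h : ℕ) {A B C : Submodule D M} (hA : G.Good A) (hB : G.Good B)
    (hC : G.Good C) (h1 : A ≤ B) (h2 : B ≤ C) : G.e x0 h A C = G.e x0 h A B + G.e x0 h B C := by
  rw [e, e, e, Kp_add hA hB hC h1 h2, map_add]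

end GM

variable [DecidableEq σ] {n h c : ℕ} (E : Eqs L w n h c) {G : GM D L w M} {G' : GM D L w M'}

theorem Eqs.Kp_eq {A B : Submodule D M} (hA : G.Good A) (hB : G.Good B) (hAB : A ≤ B)
    (hF : ∀ k, ∀ m ∈ B, G.ρ (E.F k) m ∈ A) :
    ∃ r q : ZY Y, q ∈ aug Y ^ c ∧ G.Kp A B = (1 - z E.w0) ^ h * r + q := by
  obtain ⟨r, q, hq, h1⟩ := E.koszul G hA hB hAB hF
  exact ⟨r, q, hq, GM.Kp_eq h1⟩

theorem Eqs.Kp_mem (hc : h ≤ c) {A B : Submodule D M} (hA : G.Good A) (hB : G.Good B) (hAB : A ≤ B)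
    (hF : ∀ k, ∀ m ∈ B, G.ρ (E.F k) m ∈ A) : G.Kp A B ∈ aug Y ^ h := by
  obtain ⟨r, q, hq, h1⟩ := E.Kp_eq hA hB hAB hF
  rw [h1]
  refine add_mem (Ideal.mul_mem_right _ _ (Ideal.pow_mem_pow ?_ h)) (Ideal.pow_le_pow_right hc hq)
  exact Ideal.subset_span ⟨E.w0, rfl⟩

theorem Eqs.e_nonneg (hc : h ≤ c) (x0 : Y →+ ℤ) (hw : ∀ j, x0 (w j) = 1) {A B : Submodule D M}
    (hA : G.Good A) (hB : G.Good B) (hAB : A ≤ B) (hF : ∀ k, ∀ m ∈ B, G.ρ (E.F k) m ∈ A) :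
    0 ≤ G.e x0 h A B := by
  exact lam_pw_nonneg w x0 hw Finset.univ h (GM.Kp_mem_stan hA hB hAB) (E.Kp_mem hc hA hB hAB hF)

/-- The K-lemma. -/
theorem Eqs.dvd_e {N a : ℕ} [NeZero a] (S : Sym Y N a) (hc : N + h + 1 ≤ c)
    (τ : Fin N → σ ≃ σ) (hτ : ∀ m j, w (τ m j) = S.s m (w j))
    (hw : ∀ j m, ∑ i, S.x m i (w j) = 0) (hw0 : ∀ m i, S.x m i E.w0 = 0) {A B : Submodule D M}
    (hA : G.Good A) (hB : G.Good B) (hAB : A ≤ B) (hF : ∀ k, ∀ m ∈ B, G.ρ (E.F k) m ∈ A)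
    (hinv : S.Inv (G.H A B)) :
    (S.x0 E.w0 ^ h * h.factorial * (a : ℤ) ^ N) ∣ G.e S.x0 h A B := by
  obtain ⟨r, q, hq, h1⟩ := E.Kp_eq hA hB hAB hF
  refine S.dvd_lam h E.w0 hw0 _ r q h1 (Ideal.pow_le_pow_right hc hq) ?_
  rw [GM.tf_Kp hA hB hAB]
  exact hinv.act_dP w τ hτ hw

/-- A pair containing a shifted copy of `P ≤ ⊤` has at least its multiplicity. -/
theorem Eqs.e_ge (hc : h ≤ c) (x0 : Y →+ ℤ) (hw : ∀ j, x0 (w j) = 1) {f : M →ₗ[D] M'} {v : Y}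
    (hf : G.Hom G' f v) (hl : G.Lin G' f) {A B : Submodule D M'} (hA : G'.Good A) (hB : G'.Good B)
    (hAB : A ≤ B) (hF : ∀ k, ∀ m ∈ B, G'.ρ (E.F k) m ∈ A) (hfB : ∀ m, f m ∈ B)
    {P : Submodule D M} (hP : A.comap f = P) : G.e x0 h P ⊤ ≤ G'.e x0 h A B := by
  subst hP
  have hC : G'.Good ((⊤ : Submodule D M).map f ⊔ A) := (GM.Good.map hf hl G.good_top).sup hA
  have hCB : (⊤ : Submodule D M).map f ⊔ A ≤ B := by
    refine sup_le ?_ hAB
    rintro _ ⟨m, -, rfl⟩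
    exact hfB m
  have h1 : 0 ≤ G'.e x0 h ((⊤ : Submodule D M).map f ⊔ A) B :=
    E.e_nonneg hc x0 hw hC hB hCB fun k m hm => Submodule.mem_sup_right (hF k m hm)
  have h2 : G.Kp (A.comap f) ⊤ ∈ aug Y ^ h := by
    refine E.Kp_mem hc (GM.Good.comap hf hl hA) G.good_top le_top fun k m _ => ?_
    rw [Submodule.mem_comap, hl]
    exact hF k _ (hfB m)
  have h3 : G'.e x0 h A ((⊤ : Submodule D M).map f ⊔ A) = G.e x0 h (A.comap f) ⊤ := by
    rw [GM.e, GM.e, GM.Kp_iso hf hl G.good_top hA, top_inf_eq, lam_pw_z_mul x0 h v h2]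
  rw [GM.e_add x0 h hA hC hB le_sup_right hCB, h3]
  exact le_add_of_nonneg_right h1

/-- The submodule generated by the first `k` equations. -/
noncomputable def Eqs.J (G : GM D L w M) (k : ℕ) : Submodule D M :=
  ⨆ (i : Fin h) (_ : i.val < k), LinearMap.range (G.ρ (E.F i))

theorem Eqs.km2_J_zero (G : GM D L w M) : E.J G 0 = ⊥ := by
  simp [Eqs.J]

theorem Eqs.km2_J_succ (G : GM D L w M) (k : Fin h) :
    E.J G (k.val + 1) = (⊤ : Submodule D M).map (G.ρ (E.F k)) ⊔ E.J G k := by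
  apply le_antisymm
  · refine iSup₂_le fun i hi => ?_
    rcases Nat.lt_succ_iff_lt_or_eq.mp hi with h1 | h1
    · exact le_sup_of_le_right
        (le_iSup₂ (f := fun (i : Fin h) (_ : i.val < k.val) => LinearMap.range (G.ρ (E.F i))) i h1)
    · obtain rfl : i = k := Fin.ext h1
      rw [Submodule.map_top]
      exact le_sup_left
  · refine sup_le ?_ (iSup₂_le fun i hi => ?_)
    · rw [Submodule.map_top]
      exact le_iSup₂ (f := fun (i : Fin h) (_ : i.val < k.val + 1) => LinearMap.range (G.ρ (E.F i)))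
        k (Nat.lt_succ_self _)
    · exact le_iSup₂ (f := fun (i : Fin h) (_ : i.val < k.val + 1) => LinearMap.range (G.ρ (E.F i)))
        i (Nat.lt_succ_of_lt hi)

theorem Eqs.km2_J_good (G : GM D L w M) (k : ℕ) : G.Good (E.J G k) := by
  refine GM.Good.iSup fun i => GM.Good.iSup fun _ => ?_
  rw [← Submodule.map_top]
  exact GM.Good.map (G.hom_ρ (E.F_hom i)) (G.lin_ρ _) G.good_top

theorem Eqs.km2_small (G : GM D L w M) {A B : Submodule D M} (hA : G.Good A) (hB : G.Good B)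
    (hAB : A ≤ B) (hs : ∀ m ∈ B, ∀ Δ ∈ E.𝒟, ∃ r : ℕ, G.ρ (Δ ^ r) m ∈ A) :
    G.Kp A B ∈ aug Y ^ c :=
  GM.Kp_small hA hB hAB (GM.small_of_codim (E.codim.mono (Finset.subset_univ _)) hA hB
    fun Δ hΔ m hm => hs m hm Δ hΔ)

theorem Eqs.km2_step (G : GM D L w M)
    (hreg : ∀ (k : Fin h) (m : M), G.ρ (E.F k) m ∈ E.J G k →
      ∀ Δ ∈ E.𝒟, ∃ r : ℕ, G.ρ (Δ ^ r) m ∈ E.J G k) (k : ℕ) (hk : k ≤ h) :
    ∃ q ∈ aug Y ^ c, G.Kp (E.J G k) ⊤ = (1 - z E.w0) ^ k * G.Kp ⊥ ⊤ + q := by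
  induction k with
  | zero => exact ⟨0, zero_mem _, by rw [E.km2_J_zero, pow_zero, one_mul, add_zero]⟩
  | succ k ih =>
    obtain ⟨q, hq, hK⟩ := ih (Nat.le_of_succ_le hk)
    let i : Fin h := ⟨k, hk⟩
    have hJ : G.Good (E.J G k) := E.km2_J_good G k
    have hJ' : G.Good (E.J G (k + 1)) := E.km2_J_good G (k + 1)
    have hsucc : E.J G (k + 1) = (⊤ : Submodule D M).map (G.ρ (E.F i)) ⊔ E.J G k :=
      E.km2_J_succ G i
    have hQ : G.Good ((E.J G k).comap (G.ρ (E.F i))) :=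
      GM.Good.comap (G.hom_ρ (E.F_hom i)) (G.lin_ρ _) hJ
    have hJQ : E.J G k ≤ (E.J G k).comap (G.ρ (E.F i)) := fun m hm => hJ.st _ m hm
    have h1 : G.Kp (E.J G k) (E.J G (k + 1)) =
        z E.w0 * G.Kp ((E.J G k).comap (G.ρ (E.F i))) ⊤ := by
      rw [hsucc, GM.Kp_iso (G.hom_ρ (E.F_hom i)) (G.lin_ρ _) G.good_top hJ, top_inf_eq]
    have h2 : G.Kp (E.J G k) ((E.J G k).comap (G.ρ (E.F i))) ∈ aug Y ^ c :=
      E.km2_small G hJ hQ hJQ fun m hm => hreg i m hm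
    have h3 := GM.Kp_add hJ hQ G.good_top hJQ le_top
    have h4 := GM.Kp_add hJ hJ' G.good_top (hsucc ▸ le_sup_right) le_top
    refine ⟨(1 - z E.w0) * q + z E.w0 * G.Kp (E.J G k) ((E.J G k).comap (G.ρ (E.F i))),
      add_mem (Ideal.mul_mem_left _ _ hq) (Ideal.mul_mem_left _ _ h2), ?_⟩
    linear_combination (1 - z E.w0) * hK - h4 - h1 + z E.w0 * h3

/-- The equations behave like a regular sequence up to codimension `c`. -/
theorem Eqs.Kp_ci (G : GM D L w M)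
    (hreg : ∀ (k : Fin h) (m : M), G.ρ (E.F k) m ∈ E.J G k →
      ∀ Δ ∈ E.𝒟, ∃ r : ℕ, G.ρ (Δ ^ r) m ∈ E.J G k)
    {P : Submodule D M} (hP : G.Good P) (hJ : E.J G h ≤ P)
    (hsat : ∀ m ∈ P, ∀ Δ ∈ E.𝒟, ∃ r : ℕ, G.ρ (Δ ^ r) m ∈ E.J G h) :
    ∃ q ∈ aug Y ^ c, G.Kp P ⊤ = (1 - z E.w0) ^ h * G.Kp ⊥ ⊤ + q := by
  obtain ⟨q, hq, hK⟩ := E.km2_step G hreg h le_rfl
  have hJg : G.Good (E.J G h) := E.km2_J_good G h
  have h1 := GM.Kp_add hJg hP G.good_top hJ le_top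
  have h2 : G.Kp (E.J G h) P ∈ aug Y ^ c := E.km2_small G hJg hP hJ hsat
  refine ⟨q - G.Kp (E.J G h) P, sub_mem hq h2, ?_⟩
  linear_combination hK - h1

theorem anchor_KMain : True := by
  have := @GM.Kp.eq_1
  have := @GM.e.eq_1
  have := @Eqs.J.eq_1
  trivial

end Crest.Agent.R181.K
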