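import Crest.Agent.R181.KGM

/-! Row 181, module K, part 3: the Stanley form of the numerator of the Hilbert series. -/

set_option autoImplicit false

namespace Crest.Agent.R181.K

open MvPolynomial

variable {D L : Type} [DivisionRing D] [Field L] [Algebra L D] {σ Y : Type} [AddCommGroup Y]
  {w : σ → Y} {M : Type} [AddCommGroup M] [Module D M]

/-- Dividing out the largest power of a variable. -/
theorem exists_div_X [DecidableEq σ] {S : Finset σ} {x : σ} (hx : x ∉ S) {g : MvPolynomial σ L}
    (hg : g ≠ 0) (hS : g ∈ supported L ((insert x S : Finset σ) : Set σ)) :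
    ∃ (k : ℕ) (g₀ g₁ : MvPolynomial σ L), g₀ ≠ 0 ∧ g₀ ∈ supported L (S : Set σ) ∧
      g = X x ^ k * (g₀ + X x * g₁) := by
  obtain ⟨μ, hμ, hmin⟩ := Finset.exists_min_image g.support (fun ν => ν x)
    (support_nonempty.mpr hg)
  set k := μ x with hk
  set h := g.divMonomial (Finsupp.single x k) with hh
  have h1 : g.modMonomial (Finsupp.single x k) = 0 := by
    ext ν
    by_cases hν : Finsupp.single x k ≤ ν
    · rw [coeff_modMonomial_of_le _ hν, coeff_zero]
    · rw [coeff_modMonomial_of_not_le _ hν, coeff_zero]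
      by_contra hc
      exact hν (Finsupp.single_le_iff.mpr (hmin ν (mem_support_iff.mpr hc)))
  have h2 : g = X x ^ k * h := by
    have := divMonomial_add_modMonomial g (Finsupp.single x k)
    rw [h1, add_zero] at this
    rw [X_pow_eq_monomial, this]
  refine ⟨k, h.modMonomial (Finsupp.single x 1), h.divMonomial (Finsupp.single x 1), ?_, ?_, ?_⟩
  · intro h0
    have h3 : ¬ Finsupp.single x 1 ≤ μ - Finsupp.single x k := by
      rw [Finsupp.single_le_iff, Finsupp.tsub_apply, Finsupp.single_eq_same]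
      omega
    have h4 := coeff_modMonomial_of_not_le h h3
    rw [h0, coeff_zero, hh, coeff_divMonomial,
      add_tsub_cancel_of_le (Finsupp.single_le_iff.mpr hk.le)] at h4
    exact mem_support_iff.mp hμ h4.symm
  · rw [mem_supported] at hS ⊢
    intro j hj
    obtain ⟨ν, hν, hjν⟩ := (mem_vars_iff_mem_support j).mp (Finset.mem_coe.mp hj)
    have hν' := mem_support_iff.mp hν
    have h3 : ¬ Finsupp.single x 1 ≤ ν := fun hc => hν' (coeff_modMonomial_of_le _ hc)
    rw [coeff_modMonomial_of_not_le _ h3, hh, coeff_divMonomial] at hν'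
    have h4 : j ∈ g.vars := (mem_vars_iff_mem_support j).mpr ⟨_, mem_support_iff.mpr hν', by
      rw [Finsupp.mem_support_iff] at hjν ⊢
      rw [Finsupp.add_apply]
      omega⟩
    rcases Finset.mem_insert.mp (Finset.mem_coe.mp (hS (Finset.mem_coe.mpr h4))) with rfl | h5
    · exact absurd (Finsupp.single_le_iff.mpr
        (Nat.one_le_iff_ne_zero.mpr (Finsupp.mem_support_iff.mp hjν))) h3
    · exact Finset.mem_coe.mpr h5
  · rw [modMonomial_add_divMonomial_single]
    exact h2

/-- The numerator of the Hilbert series of a pair killed by the variables outside `T` is a Stanley form. -/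
theorem GM.stanley [Finite σ] (G : GM D L w M) (T : Finset σ) (c : ℕ) {A B : Submodule D M}
    (hA : G.Good A) (hB : G.Good B) (h : A ≤ B) (hT : ∀ j, j ∉ T → ∀ m ∈ B, G.ρ (X j) m ∈ A)
    (hS : G.Small T c A B) : ∃ p ∈ stan w T c, act (dP w T) (G.H A B) = tf p := by
  classical
  induction T using Finset.induction_on generalizing c A B with
  | empty =>
    have hd : dP w (∅ : Finset σ) = 1 := Finset.prod_empty
    rw [hd, map_one, Module.End.one_apply]
    rcases Nat.eq_zero_or_pos c with rfl | hc
    · obtain ⟨p, hp, hp'⟩ := exists_stan_empty w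
        (GM.finite_support hA hB h fun j => hT j (Finset.notMem_empty j)) (GM.H_nonneg h)
      exact ⟨p, hp, hp'.symm⟩
    · obtain ⟨g, hg, hg1, hg2⟩ := hS ∅ le_rfl (by simpa using hc)
      rw [Finset.coe_empty, supported_empty, Algebra.mem_bot] at hg1
      obtain ⟨a, rfl⟩ := hg1
      have ha : algebraMap L D a ≠ 0 := by
        rw [map_ne_zero]
        rintro rfl
        exact hg (map_zero _)
      have hBA : B = A := by
        refine le_antisymm (fun m hm => ?_) h
        have h1 := hg2 m hm
        rw [algebraMap_eq, G.ρ_C] at h1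
        exact (A.smul_mem_iff ha).mp h1
      exact ⟨0, zero_mem _, by rw [hBA, G.H_self, map_zero]⟩
  | insert x T hx ih =>
    have hd : dP w (insert x T) = (1 - z (w x)) * dP w T := Finset.prod_insert hx
    have hX : G.Hom G (G.ρ (X x)) (w x) := G.hom_ρ (isWeightedHomogeneous_X L w x)
    have hpow : ∀ (k : ℕ) (m : M), G.ρ (X x ^ (k + 1)) m = G.ρ (X x ^ k) (G.ρ (X x) m) := by
      intro k m
      rw [pow_succ, map_mul, Module.End.mul_apply]
    let N : ℕ →o Submodule D M :=
      ⟨fun k => B ⊓ A.comap (G.ρ (X x ^ k)), monotone_nat_of_le_succ fun k m hm =>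
        ⟨hm.1, by
          have h1 : G.ρ (X x ^ k) m ∈ A := hm.2
          change G.ρ (X x ^ (k + 1)) m ∈ A
          rw [hpow, G.ρ_comm]
          exact hA.st _ _ h1⟩⟩
    have hN : ∀ k m, m ∈ N k ↔ m ∈ B ∧ G.ρ (X x ^ k) m ∈ A := fun k m => Iff.rfl
    have hNg : ∀ k, G.Good (N k) := fun k =>
      hB.inf (GM.Good.comap (G.hom_ρ ((isWeightedHomogeneous_X L w x).pow k)) (G.lin_ρ _) hA)
    have hAN : ∀ k, A ≤ N k := fun k m hm => (hN k m).mpr ⟨h hm, hA.st _ _ hm⟩
    have hNB : ∀ k, N k ≤ B := fun k => inf_le_left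
    have hN0 : N 0 = A := by
      refine le_antisymm (fun m hm => ?_) (hAN 0)
      have h1 := ((hN 0 m).mp hm).2
      rwa [pow_zero, map_one, Module.End.one_apply] at h1
    have hcard : (insert x T).card = T.card + 1 := Finset.card_insert_of_notMem hx
    have hT' : ∀ j, j ∉ T → j ≠ x → ∀ m ∈ B, G.ρ (X j) m ∈ A := fun j hj hjx =>
      hT j fun hc => (Finset.mem_insert.mp hc).elim hjx hj
    have h1 : ∀ k, ∃ p ∈ stan w (insert x T) c,
        act (dP w (insert x T)) (G.H A (N k)) = tf p := by
      intro k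
      induction k with
      | zero => exact ⟨0, zero_mem _, by rw [hN0, G.H_self, map_zero, map_zero]⟩
      | succ k ihk =>
        obtain ⟨p, hp, hp'⟩ := ihk
        obtain ⟨q, hq, hq'⟩ := ih (c - 1) (hNg k) (hNg (k + 1)) (N.monotone (Nat.le_succ k))
          (fun j hj m hm => by
            by_cases hjx : j = x
            · subst hjx
              exact (hN k _).mpr ⟨hB.st _ _ hm.1, by rw [← hpow]; exact ((hN _ m).mp hm).2⟩
            · exact hAN k (hT' j hj hjx m hm.1))
          (fun S hST hlt => by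
            have h2 := Finset.card_le_card hST
            obtain ⟨g, hg, hg1, hg2⟩ := hS S (hST.trans (Finset.subset_insert x T)) (by omega)
            exact ⟨g, hg, hg1, fun m hm => hAN k (hg2 m hm.1)⟩)
        refine ⟨p + (1 - z (w x)) * q, add_mem hp (mul_mem_stan w hx hq), ?_⟩
        rw [G.H_add A (N k), map_add, hp', map_add tf, hd, map_mul, Module.End.mul_apply, hq',
          act_tf]
    obtain ⟨k₀, hk₀⟩ := G.noeth N fun k => (hNg k).st
    have hNk : ∀ k, N k ≤ N k₀ := fun k =>
      (N.monotone (le_max_left k k₀)).trans (hk₀ _ (le_max_right k k₀)).le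
    have h2 : B ⊓ (N k₀).comap (G.ρ (X x)) = N k₀ := by
      refine le_antisymm (fun m hm => hNk (k₀ + 1) ?_) fun m hm => ⟨hm.1, (hNg k₀).st _ _ hm⟩
      have h3 : G.ρ (X x) m ∈ N k₀ := hm.2
      exact (hN _ m).mpr ⟨hm.1, by rw [hpow]; exact ((hN _ _).mp h3).2⟩
    have h3 := GM.H_iso hX hB (hNg k₀)
    rw [h2] at h3
    have hB' : B.map (G.ρ (X x)) ⊔ N k₀ ≤ B := by
      refine sup_le ?_ (hNB k₀)
      rintro _ ⟨m, hm, rfl⟩
      exact hB.st _ _ hm
    obtain ⟨q, hq, hq'⟩ := ih c ((GM.Good.map hX (G.lin_ρ _) hB).sup (hNg k₀)) hB hB'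
      (fun j hj m hm => by
        by_cases hjx : j = x
        · subst hjx
          exact Submodule.mem_sup_left (Submodule.mem_map_of_mem hm)
        · exact Submodule.mem_sup_right (hAN k₀ (hT' j hj hjx m hm)))
      (fun S hST hlt => by
        have hxS : x ∉ S := fun hc => hx (hST hc)
        have h4 : (insert x S).card = S.card + 1 := Finset.card_insert_of_notMem hxS
        obtain ⟨g, hg, hg1, hg2⟩ := hS (insert x S) (Finset.insert_subset_insert x hST) (by omega)
        obtain ⟨k, g₀, g₁, hg₀, hg₀', rfl⟩ := exists_div_X hxS hg hg1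
        refine ⟨g₀, hg₀, hg₀', fun m hm => ?_⟩
        have h5 : G.ρ (g₀ + X x * g₁) m ∈ N k₀ := by
          refine hNk k ((hN k _).mpr ⟨hB.st _ _ hm, ?_⟩)
          have h6 := hg2 m hm
          rwa [map_mul, Module.End.mul_apply] at h6
        have h7 : G.ρ g₀ m = G.ρ (g₀ + X x * g₁) m - G.ρ (X x) (G.ρ g₁ m) := by
          rw [map_add, map_mul, LinearMap.add_apply, Module.End.mul_apply, add_sub_cancel_right]
        rw [h7]
        exact sub_mem (Submodule.mem_sup_right h5)
          (Submodule.mem_sup_left (Submodule.mem_map_of_mem (hB.st _ _ hm))))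
    obtain ⟨p, hp, hp'⟩ := h1 k₀
    have h4 : act (1 - z (w x)) (G.H (N k₀) B) = G.H (B.map (G.ρ (X x)) ⊔ N k₀) B := by
      rw [map_sub, map_one, LinearMap.sub_apply, Module.End.one_apply, ← h3,
        G.H_add (N k₀) (B.map (G.ρ (X x)) ⊔ N k₀) B, add_sub_cancel_left]
    refine ⟨p + q, add_mem hp (stan_mono w (Finset.subset_insert x T) le_rfl hq), ?_⟩
    rw [G.H_add A (N k₀), map_add, hp', map_add tf, hd, mul_comm, map_mul, Module.End.mul_apply, h4,
      hq']

end Crest.Agent.R181.K
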