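import Crest.Agent.R181.LADefs

/-! Row 181: Artin independence, descent of subspaces, separation of weights (task LAArt). -/

set_option autoImplicit false

namespace Crest.Agent.R181

open scoped TensorProduct

section
variable {Ω V J : Type} [Field Ω] [AddCommGroup V] [Module Ω V]

theorem LAArt_g_sum (γ : SL Ω V) {ι : Type} (v : ι → V) (s : Finset ι)
    (hv : ∀ i ∈ s, γ.g (v i) = v i) (c : ι → Ω) :
    ∑ i ∈ s, (γ.ρ (c i) - c i) • v i = γ.g (∑ i ∈ s, c i • v i) - ∑ i ∈ s, c i • v i := by
  rw [map_sum, ← Finset.sum_sub_distrib]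
  exact Finset.sum_congr rfl fun i hi => by rw [γ.smul, hv i hi, sub_smul]

/-- Artin: invariant vectors independent over the fixed field are independent over `Ω`. -/
theorem art (K : Type) [Field K] [Algebra K Ω] [Module K V] [IsScalarTower K Ω V]
    (Γ : J → SL Ω V) (hfix : ∀ ω : Ω, (∀ j, (Γ j).ρ ω = ω) → ∃ k : K, algebraMap K Ω k = ω)
    {ι : Type} (v : ι → V) (hv : ∀ j i, (Γ j).g (v i) = v i) (h : LinearIndependent K v) :
    LinearIndependent Ω v := by
  classical
  rw [linearIndependent_iff'] at h ⊢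
  intro s
  induction s using Finset.strongInduction with
  | H s ih =>
    intro c hc i₀ hi₀
    by_contra hne
    have h1 : ∑ i ∈ s, ((c i₀)⁻¹ * c i) • v i = 0 := by
      simp only [mul_smul]
      rw [← Finset.smul_sum, hc, smul_zero]
    have h2 : ∀ i ∈ s, ∃ k : K, algebraMap K Ω k = (c i₀)⁻¹ * c i := by
      intro i hi
      refine hfix _ fun j => ?_
      by_cases hii : i = i₀
      · rw [hii, inv_mul_cancel₀ hne, map_one]
      · have h3 := LAArt_g_sum (Γ j) v s (fun i _ => hv j i) fun i => (c i₀)⁻¹ * c i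
        rw [h1, map_zero, sub_zero, ← Finset.add_sum_erase _ _ hi₀, inv_mul_cancel₀ hne, map_one,
          sub_self, zero_smul, zero_add] at h3
        exact sub_eq_zero.1
          (ih _ (Finset.erase_ssubset hi₀) _ h3 i (Finset.mem_erase.2 ⟨hii, hi⟩))
    choose! k hk using h2
    have h3 : ∑ i ∈ s, k i • v i = 0 := by
      rw [← h1]
      exact Finset.sum_congr rfl fun i hi => by rw [← hk i hi, algebraMap_smul]
    have h4 := hk i₀ hi₀
    rw [h s k h3 i₀ hi₀, map_zero, inv_mul_cancel₀ hne] at h4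
    exact zero_ne_one h4

theorem LAArt_span (Γ : J → SL Ω V) (X : Submodule Ω V) (hX : Stable Γ X) (s : Finset V)
    (hs : ∀ i ∈ s, ∀ j, (Γ j).g i = i) (c : V → Ω) (hc : ∑ i ∈ s, c i • i ∈ X) :
    ∑ i ∈ s, c i • i ∈ Submodule.span Ω {x | x ∈ X ∧ ∀ j, (Γ j).g x = x} := by
  classical
  induction s using Finset.strongInduction generalizing c with
  | H s ih =>
    have ih' : ∀ d : V → Ω, (∃ i ∈ s, d i = 0) → ∑ i ∈ s, d i • i ∈ X →
        ∑ i ∈ s, d i • i ∈ Submodule.span Ω {x | x ∈ X ∧ ∀ j, (Γ j).g x = x} := by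
      rintro d ⟨i, hi, hd⟩ h
      rw [← Finset.add_sum_erase _ _ hi, hd, zero_smul, zero_add] at h ⊢
      exact ih _ (Finset.erase_ssubset hi) (fun x hx => hs x (Finset.mem_of_mem_erase hx)) d h
    by_cases hA : ∃ d : V → Ω, (∃ i ∈ s, d i = 0) ∧ (∃ i ∈ s, d i ≠ 0) ∧ ∑ i ∈ s, d i • i ∈ X
    · obtain ⟨d, h1, ⟨i₀, hi₀, h2⟩, h3⟩ := hA
      have e : ∑ i ∈ s, (c i - c i₀ / d i₀ * d i) • i =
          ∑ i ∈ s, c i • i - (c i₀ / d i₀) • ∑ i ∈ s, d i • i := by
        rw [Finset.smul_sum, ← Finset.sum_sub_distrib]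
        exact Finset.sum_congr rfl fun i _ => by rw [sub_smul, mul_smul]
      have h4 := ih' (fun i => c i - c i₀ / d i₀ * d i)
        ⟨i₀, hi₀, by rw [div_mul_cancel₀ _ h2, sub_self]⟩
        (by rw [e]; exact X.sub_mem hc (X.smul_mem _ h3))
      rw [e] at h4
      exact (Submodule.sub_mem_iff_left _ (Submodule.smul_mem _ _ (ih' d h1 h3))).1 h4
    · by_cases hB : ∃ i ∈ s, c i ≠ 0
      · obtain ⟨i₀, hi₀, h2⟩ := hB
        have e : ∑ i ∈ s, ((c i₀)⁻¹ * c i) • i = (c i₀)⁻¹ • ∑ i ∈ s, c i • i := by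
          rw [Finset.smul_sum]
          exact Finset.sum_congr rfl fun i _ => mul_smul _ _ _
        have h3 : ∑ i ∈ s, ((c i₀)⁻¹ * c i) • i ∈ X := by
          rw [e]
          exact X.smul_mem _ hc
        have h4 : ∑ i ∈ s, ((c i₀)⁻¹ * c i) • i ∈
            Submodule.span Ω {x | x ∈ X ∧ ∀ j, (Γ j).g x = x} := by
          refine Submodule.subset_span ⟨h3, fun j => ?_⟩
          have h5 := LAArt_g_sum (Γ j) (fun i => i) s (fun i hi => hs i hi j)
            fun i => (c i₀)⁻¹ * c i
          rw [← sub_eq_zero, ← h5]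
          refine Finset.sum_eq_zero fun i hi => ?_
          have h6 : (Γ j).ρ ((c i₀)⁻¹ * c i) - (c i₀)⁻¹ * c i = 0 := by
            by_contra h7
            refine hA ⟨fun i => (Γ j).ρ ((c i₀)⁻¹ * c i) - (c i₀)⁻¹ * c i, ⟨i₀, hi₀, ?_⟩,
              ⟨i, hi, h7⟩, ?_⟩
            · simp only [inv_mul_cancel₀ h2, map_one, sub_self]
            · rw [h5]
              exact X.sub_mem (hX j _ h3) h3
          rw [h6, zero_smul]
        rw [e] at h4
        exact (Submodule.smul_mem_iff _ (inv_ne_zero h2)).1 h4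
      · push Not at hB
        rw [Finset.sum_eq_zero fun i hi => by rw [hB i hi, zero_smul]]
        exact zero_mem _

/-- Descent: a stable subspace of the span of the invariants is spanned by its invariants. -/
theorem desc (K : Type) [Field K] [Algebra K Ω] [Module K V] [IsScalarTower K Ω V]
    (Γ : J → SL Ω V) (h : ∀ j (k : K), (Γ j).ρ (algebraMap K Ω k) = algebraMap K Ω k)
    (hfix : ∀ ω : Ω, (∀ j, (Γ j).ρ ω = ω) → ∃ k : K, algebraMap K Ω k = ω)
    (X : Submodule Ω V) [FiniteDimensional Ω X] (hX : Stable Γ X)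
    (hsp : X ≤ Submodule.span Ω (invK K Γ h : Set V)) :
    FiniteDimensional K (X.restrictScalars K ⊓ invK K Γ h : Submodule K V) ∧
      Module.finrank K (X.restrictScalars K ⊓ invK K Γ h : Submodule K V) =
        Module.finrank Ω X := by
  classical
  set N : Submodule K V := X.restrictScalars K ⊓ invK K Γ h with hN
  let b := Module.Free.chooseBasis K N
  have h1 : LinearIndependent Ω fun i => (b i : V) :=
    art K Γ hfix _ (fun j i => (b i).2.2 j) (b.linearIndependent.map' N.subtype N.ker_subtype)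
  have h2 : Submodule.span Ω (Set.range fun i => (b i : V)) = X := by
    refine le_antisymm (Submodule.span_le.2 ?_) fun x hx => ?_
    · rintro _ ⟨i, rfl⟩
      exact (b i).2.1
    · obtain ⟨s, hs, hx'⟩ := Submodule.mem_span_finite_of_mem_span (hsp hx)
      obtain ⟨c, -, rfl⟩ := Submodule.mem_span_finset.1 hx'
      refine Submodule.span_le.2 ?_ (LAArt_span Γ X hX s (fun i hi => hs hi) c hx)
      rintro y ⟨hy1, hy2⟩
      have h3 : (⟨y, hy1, hy2⟩ : N) ∈ Submodule.span K (Set.range b) := by
        rw [b.span_eq]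
        trivial
      have h4 := Submodule.mem_map_of_mem (f := N.subtype) h3
      rw [Submodule.map_span, ← Set.range_comp] at h4
      exact Submodule.span_le_restrictScalars K Ω _ h4
  let b' := (Module.Basis.span h1).map (LinearEquiv.ofEq _ _ h2)
  have hf := Module.Finite.finite_basis b'
  exact ⟨Module.Finite.of_basis b,
    (Module.finrank_eq_nat_card_basis b).trans (Module.finrank_eq_nat_card_basis b').symm⟩

/-- An injective semilinear map does not lower dimension. -/
theorem finrank_le_of_semilinear {V' : Type} [AddCommGroup V'] [Module Ω V'] (ρ : Ω ≃+* Ω)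
    (g : V →+ V') (hs : ∀ (c : Ω) (x : V), g (c • x) = ρ c • g x) (X : Submodule Ω V)
    (hg : ∀ x ∈ X, g x = 0 → x = 0) (Y : Submodule Ω V') [FiniteDimensional Ω Y]
    (h : ∀ x ∈ X, g x ∈ Y) :
    FiniteDimensional Ω X ∧ Module.finrank Ω X ≤ Module.finrank Ω Y := by
  let j : X →+ Y :=
    { toFun := fun x => ⟨g x, h x x.2⟩
      map_zero' := Subtype.ext (map_zero g)
      map_add' := fun x y => Subtype.ext (map_add g x.1 y.1) }
  have hj : Function.Injective j :=
    (injective_iff_map_eq_zero j).2 fun x hx => Subtype.ext (hg x x.2 (congrArg Subtype.val hx))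
  have h1 : Module.rank Ω X ≤ Module.rank Ω Y :=
    rank_le_of_surjective_injective ρ j ρ.surjective hj fun r m => Subtype.ext (hs r m)
  have h2 := Module.rank_lt_aleph0 Ω Y
  exact ⟨Module.rank_lt_aleph0_iff.1 (h1.trans_lt h2), Cardinal.toNat_le_toNat h1 h2⟩

theorem bijective_of_semilinear [FiniteDimensional Ω V] (ρ : Ω ≃+* Ω) (g : V →+ V)
    (hs : ∀ (c : Ω) (x : V), g (c • x) = ρ c • g x) (hg : Function.Injective g) :
    Function.Bijective g := by
  let Y : Submodule Ω V :=
    { carrier := Set.range g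
      add_mem' := by
        rintro _ _ ⟨x, rfl⟩ ⟨y, rfl⟩
        exact ⟨x + y, map_add g x y⟩
      zero_mem' := ⟨0, map_zero g⟩
      smul_mem' := by
        rintro c _ ⟨x, rfl⟩
        exact ⟨ρ.symm c • x, by rw [hs, RingEquiv.apply_symm_apply]⟩ }
  have h1 := (finrank_le_of_semilinear ρ g hs ⊤
    (fun x _ hx => (injective_iff_map_eq_zero g).1 hg x hx) Y fun x _ => ⟨x, rfl⟩).2
  rw [finrank_top] at h1
  have h2 : Y = ⊤ := Submodule.eq_top_of_finrank_eq (le_antisymm Y.finrank_le h1)
  refine ⟨hg, fun y => ?_⟩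
  have h3 : y ∈ Y := by
    rw [h2]
    trivial
  exact h3

/-- Separation of weights: a subspace stable under enough diagonal operators is graded. -/
theorem sep {Y : Type} (pr : Y → V →ₗ[Ω] V) (hfin : ∀ x, {y | pr y x ≠ 0}.Finite)
    (hsum : ∀ x, ∑ᶠ y, pr y x = x) (hself : ∀ y x, pr y (pr y x) = pr y x)
    (hne : ∀ y y' x, y ≠ y' → pr y (pr y' x) = 0) (e : J → Y → Ω)
    (he : ∀ y y', y ≠ y' → ∃ j, e j y ≠ e j y') (X : Submodule Ω V)
    (hX : ∀ j, ∀ x ∈ X, ∑ᶠ y, e j y • pr y x ∈ X) : ∀ y, ∀ x ∈ X, pr y x ∈ X := by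
  classical
  have key : ∀ j z x, pr z (∑ᶠ y, e j y • pr y x) = e j z • pr z x := by
    intro j z x
    have h1 : (Function.support fun y => e j y • pr y x).Finite :=
      (hfin x).subset fun y hy h0 => hy (by simp only [h0, smul_zero])
    have h2 := (pr z).toAddMonoidHom.map_finsum h1
    simp only [LinearMap.toAddMonoidHom_coe, map_smul] at h2
    rw [h2, finsum_eq_single _ z fun y hy => by rw [hne z y x (Ne.symm hy), smul_zero], hself]
  intro y x hx
  induction hn : (hfin x).toFinset.card using Nat.strong_induction_on generalizing x with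
  | _ n ih =>
    by_cases h : ∃ y', y' ≠ y ∧ pr y' x ≠ 0
    · obtain ⟨y', h1, h2⟩ := h
      obtain ⟨j, hj⟩ := he y y' h1.symm
      have h3 : ∀ z, pr z (∑ᶠ y, e j y • pr y x - e j y' • x) = (e j z - e j y') • pr z x := by
        intro z
        rw [map_sub, key, map_smul, sub_smul]
      have h4 := ih _ ?_ _ (X.sub_mem (hX j x hx) (X.smul_mem (e j y') hx)) rfl
      · rw [h3] at h4
        exact (Submodule.smul_mem_iff _ (sub_ne_zero.2 hj)).1 h4
      · rw [← hn]
        refine Finset.card_lt_card (Finset.ssubset_iff_of_subset ?_ |>.2 ⟨y', ?_, ?_⟩)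
        · intro z hz
          rw [Set.Finite.mem_toFinset, Set.mem_ofPred_eq] at hz ⊢
          intro h0
          exact hz (by rw [h3, h0, smul_zero])
        · rw [Set.Finite.mem_toFinset]
          exact h2
        · rw [Set.Finite.mem_toFinset, Set.mem_ofPred_eq, h3, sub_self, zero_smul]
          exact fun h0 => h0 rfl
    · push Not at h
      have h1 := hsum x
      rw [finsum_eq_single _ y h] at h1
      rw [h1]
      exact hx

/-- The dimension of a graded subspace is the sum of the dimensions of its pieces. -/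
theorem finrank_eq_sum_pieces {Y : Type} [Fintype Y] (pr : Y → V →ₗ[Ω] V)
    (hsum : ∀ x, ∑ y, pr y x = x) (hself : ∀ y x, pr y (pr y x) = pr y x)
    (hne : ∀ y y' x, y ≠ y' → pr y (pr y' x) = 0) (X : Submodule Ω V) [FiniteDimensional Ω X]
    (hX : ∀ y, ∀ x ∈ X, pr y x ∈ X) :
    Module.finrank Ω X =
      ∑ y, Module.finrank Ω (X ⊓ LinearMap.range (pr y) : Submodule Ω V) := by
  classical
  have hf : ∀ y, FiniteDimensional Ω (X ⊓ LinearMap.range (pr y) : Submodule Ω V) := fun y =>
    Submodule.finiteDimensional_of_le inf_le_left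
  let f : X →ₗ[Ω] ∀ y, (X ⊓ LinearMap.range (pr y) : Submodule Ω V) :=
    LinearMap.pi fun y => LinearMap.codRestrict _ ((pr y).comp X.subtype)
      fun x => ⟨hX y x x.2, x, rfl⟩
  have h1 : Function.Injective f := by
    refine (injective_iff_map_eq_zero f).2 fun x hx => Subtype.ext ?_
    rw [← hsum x]
    exact Finset.sum_eq_zero fun y _ => congrArg Subtype.val (congrFun hx y)
  have h2 : Function.Surjective f := by
    intro w
    refine ⟨⟨∑ y, (w y : V), X.sum_mem fun y _ => (w y).2.1⟩, funext fun y => Subtype.ext ?_⟩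
    change pr y (∑ y, (w y : V)) = w y
    rw [map_sum, Finset.sum_eq_single y]
    · obtain ⟨x, hx⟩ := (w y).2.2
      rw [← hx, hself]
    · intro y' _ hy
      obtain ⟨x, hx⟩ := (w y').2.2
      rw [← hx, hne y y' x (Ne.symm hy)]
    · exact fun h => absurd (Finset.mem_univ y) h
  rw [(LinearEquiv.ofBijective f ⟨h1, h2⟩).finrank_eq, Module.finrank_pi_fintype]

end

/-- A finite-dimensional space with an action of a skew field `D`. -/
theorem dvd_finrank {L D W : Type} [Field L] [DivisionRing D] [Algebra L D] [AddCommGroup W]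
    [Module L W] (ψ : D →ₐ[L] Module.End L W) (X : Submodule L W) [FiniteDimensional L X]
    (hX : ∀ d, ∀ x ∈ X, ψ d x ∈ X) : Module.finrank L D ∣ Module.finrank L X := by
  let φ : D →+* Module.End L X :=
    { toFun := fun d => (ψ d).restrict (hX d)
      map_one' := LinearMap.ext fun x => Subtype.ext (by simp)
      map_mul' := fun d d' => LinearMap.ext fun x => Subtype.ext (by simp)
      map_zero' := LinearMap.ext fun x => Subtype.ext (by simp)
      map_add' := fun d d' => LinearMap.ext fun x => Subtype.ext (by simp) }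
  let _ : Module D X := Module.compHom X φ
  have : IsScalarTower L D X := ⟨fun l d x => Subtype.ext (by
    change ψ (l • d) x = l • ψ d x
    rw [map_smul, LinearMap.smul_apply])⟩
  exact ⟨_, (Module.finrank_mul_finrank L D X).symm⟩

/-- Left and right regular representation as commuting matrices. -/
theorem exists_regRep (L D : Type) [Field L] [Ring D] [Algebra L D] [Module.Finite L D] :
    ∃ (lm : D →ₐ[L] Matrix (Fin (Module.finrank L D)) (Fin (Module.finrank L D)) L)
      (rm : Dᵐᵒᵖ →ₐ[L] Matrix (Fin (Module.finrank L D)) (Fin (Module.finrank L D)) L),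
      ∀ d d', lm d * rm d' = rm d' * lm d := by
  let t := (LinearMap.toMatrixAlgEquiv (Module.finBasis L D)).toAlgHom
  refine ⟨t.comp (Algebra.lsmul L L D), t.comp (Algebra.lsmul L L D), fun d d' => ?_⟩
  rw [AlgHom.comp_apply, AlgHom.comp_apply, ← map_mul, ← map_mul]
  congr 1
  exact LinearMap.ext fun x => smul_comm d d' x

end Crest.Agent.R181
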