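import Crest.Agent.R181.LADefs

/-! Row 181: structure of a skew field over the centraliser of a symbol pair (task LACent). -/

set_option autoImplicit false

namespace Crest.Agent.R181

open scoped TensorProduct

section Aux

theorem LACent_qcomm {L R : Type} [CommRing L] [Ring R] [Algebra L R] {x y : R} {c : L}
    (h : x * y = c • (y * x)) (m n : ℕ) : x ^ m * y ^ n = c ^ (m * n) • (y ^ n * x ^ m) := by
  have h1 : ∀ n : ℕ, x * y ^ n = c ^ n • (y ^ n * x) := by
    intro n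
    induction n with
    | zero => simp
    | succ n ih =>
      rw [pow_succ, ← mul_assoc, ih, smul_mul_assoc, mul_assoc, h, mul_smul_comm, smul_smul,
        ← pow_succ, ← mul_assoc]
  induction m with
  | zero => simp
  | succ m ih =>
    rw [pow_succ' x, mul_assoc, ih, mul_smul_comm, ← mul_assoc, h1, smul_mul_assoc, smul_smul,
      ← pow_add, mul_assoc, Nat.succ_mul]

variable {L V : Type} [Field L] [AddCommGroup V] [Module L V] {a : ℕ} {z : L}

theorem LACent_indep (hz : IsPrimitiveRoot z a) (φ : Module.End L V) (y : Fin a → V)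
    (hy : ∀ i, φ (y i) = z ^ (i : ℕ) • y i) (h : ∑ i, y i = 0) (i : Fin a) : y i = 0 := by
  have h1 : iSupIndep (φ.eigenspace ∘ fun i : Fin a => z ^ (i : ℕ)) :=
    φ.eigenspaces_iSupIndep.comp fun i j hij => Fin.ext (hz.pow_inj i.2 j.2 hij)
  exact (iSupIndep_iff_finsetSum_eq_zero_imp_eq_zero _).1 h1 Finset.univ y
    (fun i _ => Module.End.mem_eigenspace_iff.2 (hy i)) h i (Finset.mem_univ i)

theorem LACent_decomp (ha : a ≠ 0) (hz : IsPrimitiveRoot z a) (φ : Module.End L V) (hφ : φ ^ a = 1)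
    (N : Submodule L V) (hN : ∀ x ∈ N, φ x ∈ N) (x : V) (hx : x ∈ N) :
    ∃ y : Fin a → V, (∀ i, y i ∈ N ∧ φ (y i) = z ^ (i : ℕ) • y i) ∧ ∑ i, y i = x := by
  have : NeZero a := ⟨ha⟩
  have ha0 : (a : L) ≠ 0 := hz.neZero'.ne
  have hz0 : z ≠ 0 := hz.ne_zero ha
  have hw := hz.inv
  have hk : ∀ k : ℕ, (φ ^ k) x ∈ N := by
    intro k
    induction k with
    | zero => exact hx
    | succ k ih =>
      rw [pow_succ', Module.End.mul_apply]
      exact hN _ ih
  refine ⟨fun i => (a : L)⁻¹ • ∑ k ∈ Finset.range a, (z⁻¹ ^ (i : ℕ)) ^ k • (φ ^ k) x,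
    fun i => ⟨N.smul_mem _ (N.sum_mem fun k _ => N.smul_mem _ (hk k)), ?_⟩, ?_⟩
  · set f : ℕ → V := fun k => (z⁻¹ ^ (i : ℕ)) ^ k • (φ ^ k) x with hf
    have h1 : f a = f 0 := by
      simp only [hf]
      rw [← pow_mul, mul_comm, pow_mul, hw.pow_eq_one, hφ]
      simp
    have h2 : ∑ k ∈ Finset.range a, f (k + 1) = ∑ k ∈ Finset.range a, f k := by
      have h3 := Finset.sum_range_succ' f a
      rw [Finset.sum_range_succ, h1] at h3
      exact (add_right_cancel h3).symm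
    show φ ((a : L)⁻¹ • ∑ k ∈ Finset.range a, f k) = z ^ (i : ℕ) • (a : L)⁻¹ • ∑ k ∈ Finset.range a, f k
    rw [map_smul, smul_comm (z ^ (i : ℕ)), map_sum]
    congr 1
    rw [← h2, Finset.smul_sum]
    refine Finset.sum_congr rfl fun k _ => ?_
    simp only [hf]
    rw [map_smul, smul_smul, pow_succ' φ, Module.End.mul_apply, pow_succ' (z⁻¹ ^ (i : ℕ)),
      ← mul_assoc, ← mul_pow, mul_inv_cancel₀ hz0, one_pow, one_mul]
  · rw [← Finset.smul_sum, Finset.sum_comm]
    have h1 : ∀ k ∈ Finset.range a, ∑ i : Fin a, (z⁻¹ ^ (i : ℕ)) ^ k • (φ ^ k) x =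
        if k = 0 then (a : L) • x else 0 := by
      intro k hk
      rw [← Finset.sum_smul]
      split_ifs with h
      · subst h
        simp
      · have h2 : z⁻¹ ^ k ≠ 1 := hw.pow_ne_one_of_pos_of_lt h (Finset.mem_range.1 hk)
        have h3 : ∑ i : Fin a, (z⁻¹ ^ (i : ℕ)) ^ k = ∑ i ∈ Finset.range a, (z⁻¹ ^ k) ^ i := by
          rw [Finset.sum_range]
          exact Finset.sum_congr rfl fun i _ => by rw [← pow_mul, ← pow_mul, mul_comm]
        rw [h3, geom_sum_eq h2, ← pow_mul, mul_comm, pow_mul, hw.pow_eq_one]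
        simp
    rw [Finset.sum_congr rfl h1, Finset.sum_ite_eq' , if_pos (Finset.mem_range.2 (Nat.pos_of_ne_zero ha)),
      smul_smul, inv_mul_cancel₀ ha0, one_smul]

end Aux

variable {A : DA} {a : ℕ} {ζ : ℂ}

theorem Pair.LACent_u_ne (ha : 2 ≤ a) (p : Pair A a ζ) : p.u ≠ 0 := by
  intro h
  have h1 := p.hu
  rw [h, zero_pow (by omega)] at h1
  exact p.hT ((map_eq_zero _).1 h1.symm)

theorem Pair.LACent_θ_ne (ha : 2 ≤ a) (p : Pair A a ζ) : p.θ ≠ 0 := by
  intro h
  have h1 := p.hθ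
  rw [h, zero_pow (by omega)] at h1
  exact p.hΘ ((map_eq_zero _).1 h1.symm)

theorem Pair.LACent_mem (p : Pair A a ζ) (d : A.D) :
    d ∈ p.cent ↔ p.u * d = d * p.u ∧ p.θ * d = d * p.θ := by
  rw [Pair.cent, Subalgebra.mem_centralizer_iff]
  simp

/-- conjugation -/
noncomputable def LACent_conj {L D : Type} [Field L] [DivisionRing D] [Algebra L D] (x y : D) :
    Module.End L D := LinearMap.mulLeft L x * LinearMap.mulRight L y

theorem LACent_conj_apply {L D : Type} [Field L] [DivisionRing D] [Algebra L D] (x y v : D) :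
    LACent_conj (L := L) x y v = x * (v * y) := rfl

theorem LACent_conj_pow {L D : Type} [Field L] [DivisionRing D] [Algebra L D] (x y : D) (n : ℕ)
    (v : D) : (LACent_conj (L := L) x y ^ n) v = x ^ n * (v * y ^ n) := by
  induction n with
  | zero => simp
  | succ n ih =>
    rw [pow_succ', Module.End.mul_apply, ih, LACent_conj_apply, pow_succ' x, pow_succ y]
    simp only [mul_assoc]

theorem Pair.LACent_u_mul (p : Pair A a ζ) (d : p.cent) (i j : ℕ) :
    p.u * (d * p.θ ^ i * p.u ^ j) =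
      algebraMap ℂ A.L ζ ^ i • ((d : A.D) * p.θ ^ i * p.u ^ j * p.u) := by
  have h1 := LACent_qcomm p.hc 1 i
  rw [pow_one, one_mul] at h1
  rw [← mul_assoc, ← mul_assoc, ((p.LACent_mem d).1 d.2).1, mul_assoc (d : A.D), h1, mul_smul_comm,
    smul_mul_assoc]
  simp only [mul_assoc, ← pow_succ, ← pow_succ']

theorem Pair.LACent_mul_θ (p : Pair A a ζ) (d : p.cent) (i j : ℕ) :
    (d * p.θ ^ i * p.u ^ j) * p.θ =
      algebraMap ℂ A.L ζ ^ j • (p.θ * ((d : A.D) * p.θ ^ i * p.u ^ j)) := by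
  have h1 := LACent_qcomm p.hc j 1
  rw [pow_one, mul_one] at h1
  rw [mul_assoc, h1, mul_smul_comm, ← mul_assoc p.θ, ← mul_assoc p.θ, ((p.LACent_mem d).1 d.2).2]
  simp only [← mul_assoc]
  rw [mul_assoc (d : A.D) p.θ, mul_assoc (d : A.D) (p.θ ^ i), ← pow_succ, ← pow_succ']

theorem Pair.LACent_φ (ha : 2 ≤ a) (p : Pair A a ζ) (x : A.D) (c : A.L) :
    LACent_conj (L := A.L) p.u p.u⁻¹ x = c • x ↔ p.u * x = c • (x * p.u) := by
  have hu := p.LACent_u_ne ha
  rw [LACent_conj_apply, ← mul_assoc, mul_inv_eq_iff_eq_mul₀ hu, smul_mul_assoc]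

theorem Pair.LACent_ψ (ha : 2 ≤ a) (p : Pair A a ζ) (x : A.D) (c : A.L) :
    LACent_conj (L := A.L) p.θ⁻¹ p.θ x = c • x ↔ x * p.θ = c • (p.θ * x) := by
  have hθ := p.LACent_θ_ne ha
  rw [LACent_conj_apply, inv_mul_eq_iff_eq_mul₀ hθ, mul_smul_comm]

/-- the coordinates map -/
noncomputable def Pair.LACent_Φ (p : Pair A a ζ) : (Fin a × Fin a → p.cent) →ₗ[A.L] A.D where
  toFun d := ∑ q, (d q : A.D) * p.θ ^ (q.1 : ℕ) * p.u ^ (q.2 : ℕ)
  map_add' d d' := by simp [add_mul, Finset.sum_add_distrib]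
  map_smul' c d := by simp [Finset.smul_sum]

theorem Pair.LACent_Φ_apply (p : Pair A a ζ) (d : Fin a × Fin a → p.cent) :
    p.LACent_Φ d = ∑ q, (d q : A.D) * p.θ ^ (q.1 : ℕ) * p.u ^ (q.2 : ℕ) := rfl

theorem Pair.LACent_bij (ha : 2 ≤ a) (hζ : IsPrimitiveRoot ζ a) (p : Pair A a ζ) :
    Function.Bijective p.LACent_Φ := by
  have hz : IsPrimitiveRoot (algebraMap ℂ A.L ζ) a := hζ.map_of_injective (algebraMap ℂ A.L).injective
  have hu := p.LACent_u_ne ha
  have hθ := p.LACent_θ_ne ha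
  constructor
  · refine (injective_iff_map_eq_zero _).2 fun d hd => ?_
    rw [LACent_Φ_apply, Fintype.sum_prod_type] at hd
    funext ⟨i, j⟩
    have h1 := LACent_indep hz (LACent_conj p.u p.u⁻¹) _ (fun i => by
      rw [map_sum, Finset.smul_sum]
      exact Finset.sum_congr rfl fun j _ => (p.LACent_φ ha _ _).2 (p.LACent_u_mul _ _ _)) hd i
    have h2 := LACent_indep hz (LACent_conj p.θ⁻¹ p.θ) _
      (fun j => (p.LACent_ψ ha _ _).2 (p.LACent_mul_θ _ _ _)) h1 j
    have h3 := (mul_eq_zero.1 ((mul_eq_zero.1 h2).resolve_right (pow_ne_zero _ hu))).resolve_right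
      (pow_ne_zero _ hθ)
    exact Subtype.ext h3
  · intro x
    have hφ : LACent_conj (L := A.L) p.u p.u⁻¹ ^ a = 1 := by
      ext v
      rw [LACent_conj_pow, ← mul_assoc, p.hu, Algebra.commutes, ← p.hu, mul_assoc, inv_pow,
        mul_inv_cancel₀ (pow_ne_zero _ hu), mul_one, Module.End.one_apply]
    have hψ : LACent_conj (L := A.L) p.θ⁻¹ p.θ ^ a = 1 := by
      ext v
      rw [LACent_conj_pow, p.hθ, ← Algebra.commutes, ← p.hθ, ← mul_assoc, inv_pow,
        inv_mul_cancel₀ (pow_ne_zero _ hθ), one_mul, Module.End.one_apply]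
    obtain ⟨y, hy, rfl⟩ := LACent_decomp (by omega) hz _ hφ ⊤ (fun _ _ => trivial) x trivial
    have h1 : ∀ i : Fin a, ∃ w : Fin a → p.cent,
        ∑ j, (w j : A.D) * p.θ ^ (i : ℕ) * p.u ^ (j : ℕ) = y i := by
      intro i
      obtain ⟨w, hw, hw'⟩ := LACent_decomp (by omega) hz _ hψ
        ((LACent_conj (L := A.L) p.u p.u⁻¹).eigenspace (algebraMap ℂ A.L ζ ^ (i : ℕ)))
        (fun v hv => by
          rw [Module.End.mem_eigenspace_iff, p.LACent_φ ha] at hv ⊢
          have h2 : p.θ * p.u ≠ 0 := mul_ne_zero hθ hu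
          have h3 : p.u * p.θ⁻¹ = (algebraMap ℂ A.L ζ)⁻¹ • (p.θ⁻¹ * p.u) := by
            have hz0 : algebraMap ℂ A.L ζ ≠ 0 := hz.ne_zero (by omega)
            rw [eq_inv_smul_iff₀ hz0, eq_inv_mul_iff_mul_eq₀ hθ, mul_smul_comm, ← mul_assoc,
              ← smul_mul_assoc, ← p.hc, mul_assoc, mul_inv_cancel₀ hθ, mul_one]
          have hz0 : algebraMap ℂ A.L ζ ≠ 0 := hz.ne_zero (by omega)
          rw [LACent_conj_apply, ← mul_assoc, h3, smul_mul_assoc, mul_assoc, ← mul_assoc p.u, hv,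
            smul_mul_assoc, mul_assoc v, p.hc]
          simp only [mul_smul_comm, smul_smul, mul_assoc]
          congr 1
          field_simp)
        (y i) (Module.End.mem_eigenspace_iff.2 (hy i).2)
      have h4 : ∀ j : Fin a, w j * (p.θ ^ (i : ℕ) * p.u ^ (j : ℕ))⁻¹ ∈ p.cent := by
        intro j
        have hm : p.θ ^ (i : ℕ) * p.u ^ (j : ℕ) ≠ 0 := mul_ne_zero (pow_ne_zero _ hθ) (pow_ne_zero _ hu)
        have hz0 : algebraMap ℂ A.L ζ ≠ 0 := hz.ne_zero (by omega)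
        have e1 := (p.LACent_φ ha _ _).1 (Module.End.mem_eigenspace_iff.1 (hw j).1)
        have e2 := (p.LACent_ψ ha _ _).1 (hw j).2
        have e3 := p.LACent_u_mul 1 i j
        have e4 := p.LACent_mul_θ 1 i j
        simp only [OneMemClass.coe_one, one_mul] at e3 e4
        set m := p.θ ^ (i : ℕ) * p.u ^ (j : ℕ)
        have e5 : w j * m⁻¹ * m = w j := inv_mul_cancel_right₀ hm _
        rw [LACent_mem]
        constructor
        · refine mul_right_cancel₀ hm ?_
          rw [mul_assoc p.u, e5, mul_assoc _ p.u, e3, mul_smul_comm, ← mul_assoc, e5, e1]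
        · refine mul_right_cancel₀ hm ?_
          refine smul_right_injective A.D (pow_ne_zero (j : ℕ) hz0) ?_
          show _ • _ = _ • _
          rw [mul_assoc p.θ, e5, ← e2, mul_assoc _ p.θ, ← mul_smul_comm, ← e4, ← mul_assoc, e5]
      refine ⟨fun j => ⟨_, h4 j⟩, ?_⟩
      rw [← hw']
      refine Finset.sum_congr rfl fun j _ => ?_
      rw [mul_assoc]
      exact inv_mul_cancel_right₀ (mul_ne_zero (pow_ne_zero _ hθ) (pow_ne_zero _ hu)) _
    choose w hw using h1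
    refine ⟨fun q => w q.1 q.2, ?_⟩
    rw [LACent_Φ_apply, Fintype.sum_prod_type]
    exact Finset.sum_congr rfl fun i _ => hw i

theorem Pair.finrank_eq (ha : 2 ≤ a) (hζ : IsPrimitiveRoot ζ a) (p : Pair A a ζ) (hA : A.Fin) :
    Module.finrank A.L A.D = a ^ 2 * Module.finrank A.L p.cent := by
  have : Module.Finite A.L A.D := hA
  have : Module.Finite A.L p.cent := Module.Finite.of_injective p.cent.val.toLinearMap Subtype.val_injective
  rw [← (LinearEquiv.ofBijective _ (p.LACent_bij ha hζ)).finrank_eq, Module.finrank_pi_fintype]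
  simp [sq]

/-- A right action of the centraliser and operators `ϑ, υ` with the relations of `θ, u` give a
right action of the whole skew field. -/
theorem Pair.exists_action (ha : 2 ≤ a) (hζ : IsPrimitiveRoot ζ a) (p : Pair A a ζ)
    {R : Type} [Ring R] [Algebra A.L R] (rm : (p.cent)ᵐᵒᵖ →ₐ[A.L] R) (ϑ υ : R)
    (hϑ : ϑ ^ a = algebraMap A.L R p.Θ) (hυ : υ ^ a = algebraMap A.L R p.T)
    (hc : ϑ * υ = algebraMap ℂ A.L ζ • (υ * ϑ))
    (h₁ : ∀ d, Commute (rm d) ϑ) (h₂ : ∀ d, Commute (rm d) υ) :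
    Nonempty ((A.D)ᵐᵒᵖ →ₐ[A.L] R) := by
  classical
  have ha0 : 0 < a := by omega
  let E := LinearEquiv.ofBijective _ (p.LACent_bij ha hζ)
  let Λ : (Fin a × Fin a → p.cent) →ₗ[A.L] R :=
    { toFun := fun d => ∑ q, υ ^ (q.2 : ℕ) * ϑ ^ (q.1 : ℕ) * rm (MulOpposite.op (d q))
      map_add' := fun d d' => by simp [mul_add, Finset.sum_add_distrib]
      map_smul' := fun c d => by simp [Finset.smul_sum] }
  let Ψ : A.D →ₗ[A.L] R := Λ ∘ₗ E.symm.toLinearMap
  have k0 : ∀ (d : p.cent) (i j : Fin a), Ψ (d * p.θ ^ (i : ℕ) * p.u ^ (j : ℕ)) =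
      υ ^ (j : ℕ) * ϑ ^ (i : ℕ) * rm (MulOpposite.op d) := by
    intro d i j
    have e1 : E (Pi.single (i, j) d) = d * p.θ ^ (i : ℕ) * p.u ^ (j : ℕ) := by
      show p.LACent_Φ _ = _
      rw [Pair.LACent_Φ_apply, Finset.sum_eq_single (i, j)]
      · simp
      · intro q _ hq
        simp [Pi.single_eq_of_ne hq]
      · simp
    show Λ (E.symm _) = _
    rw [← e1, E.symm_apply_apply]
    show ∑ q : Fin a × Fin a, υ ^ (q.2 : ℕ) * ϑ ^ (q.1 : ℕ) *
      rm (MulOpposite.op ((Pi.single (i, j) d : Fin a × Fin a → p.cent) q)) = _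
    rw [Finset.sum_eq_single (i, j)]
    · simp
    · intro q _ hq
      simp [Pi.single_eq_of_ne hq]
    · simp
  have pw : ∀ {S : Type} [Ring S] [Algebra A.L S] (x : S) (c : A.L), x ^ a = algebraMap A.L S c →
      ∀ n : ℕ, x ^ n = c ^ (n / a) • x ^ (n % a) := by
    intro S _ _ x c h n
    conv_lhs => rw [← Nat.div_add_mod n a, pow_add, pow_mul, h, ← map_pow, ← Algebra.smul_def]
  have k1 : ∀ (d : p.cent) (i j : ℕ), Ψ (d * p.θ ^ i * p.u ^ j) =
      υ ^ j * ϑ ^ i * rm (MulOpposite.op d) := by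
    intro d i j
    have e := k0 d ⟨i % a, Nat.mod_lt _ ha0⟩ ⟨j % a, Nat.mod_lt _ ha0⟩
    rw [pw _ _ p.hθ i, pw _ _ p.hu j, pw _ _ hϑ i, pw _ _ hυ j]
    simp only [mul_smul_comm, smul_mul_assoc, map_smul, smul_smul]
    rw [e, mul_comm]
  have k2 : ∀ (d d' : p.cent) (i j k l : ℕ),
      Ψ ((d * p.θ ^ i * p.u ^ j) * (d' * p.θ ^ k * p.u ^ l)) =
        Ψ (d' * p.θ ^ k * p.u ^ l) * Ψ (d * p.θ ^ i * p.u ^ j) := by
    intro d d' i j k l
    obtain ⟨c1, c2⟩ := (p.LACent_mem d').1 d'.2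
    have c3 : p.u ^ j * d' = d' * p.u ^ j := (Commute.pow_left c1 j).eq
    have c4 : p.θ ^ i * d' = d' * p.θ ^ i := (Commute.pow_left c2 i).eq
    have e1 : (d * p.θ ^ i * p.u ^ j) * (d' * p.θ ^ k * p.u ^ l) =
        algebraMap ℂ A.L ζ ^ (j * k) • (((d * d' : p.cent) : A.D) * p.θ ^ (i + k) * p.u ^ (j + l)) := by
      calc (d * p.θ ^ i * p.u ^ j) * (d' * p.θ ^ k * p.u ^ l)
          = d * (p.θ ^ i * (p.u ^ j * d')) * p.θ ^ k * p.u ^ l := by simp only [mul_assoc]
        _ = d * d' * p.θ ^ i * (p.u ^ j * p.θ ^ k) * p.u ^ l := by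
          rw [c3, ← mul_assoc (p.θ ^ i), c4]
          simp only [mul_assoc]
        _ = _ := by
          rw [LACent_qcomm p.hc j k, pow_add, pow_add]
          simp only [mul_smul_comm, smul_mul_assoc, mul_assoc, MulMemClass.coe_mul]
    rw [e1, map_smul, k1, k1, k1, MulOpposite.op_mul, map_mul]
    have c5 : rm (MulOpposite.op d') * (υ ^ j * ϑ ^ i) = υ ^ j * ϑ ^ i * rm (MulOpposite.op d') :=
      (((h₂ _).pow_right j).mul_right ((h₁ _).pow_right i)).eq
    symm
    calc υ ^ l * ϑ ^ k * rm (MulOpposite.op d') * (υ ^ j * ϑ ^ i * rm (MulOpposite.op d))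
        = υ ^ l * ϑ ^ k * (rm (MulOpposite.op d') * (υ ^ j * ϑ ^ i)) * rm (MulOpposite.op d) := by
          simp only [mul_assoc]
      _ = υ ^ l * (ϑ ^ k * υ ^ j) * ϑ ^ i * (rm (MulOpposite.op d') * rm (MulOpposite.op d)) := by
          rw [c5]
          simp only [mul_assoc]
      _ = _ := by
          rw [LACent_qcomm hc k j, add_comm j l, add_comm i k, pow_add, pow_add, mul_comm k j]
          simp only [mul_smul_comm, smul_mul_assoc, mul_assoc]
  have k3 : ∀ x y, Ψ (x * y) = Ψ y * Ψ x := by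
    intro x y
    obtain ⟨d, rfl⟩ := (p.LACent_bij ha hζ).2 x
    obtain ⟨d', rfl⟩ := (p.LACent_bij ha hζ).2 y
    rw [Pair.LACent_Φ_apply, Pair.LACent_Φ_apply, Finset.sum_mul_sum, map_sum, map_sum, map_sum,
      Finset.sum_mul_sum, Finset.sum_comm]
    refine Finset.sum_congr rfl fun q _ => ?_
    rw [map_sum]
    exact Finset.sum_congr rfl fun q' _ => k2 _ _ _ _ _ _
  have k4 : Ψ 1 = 1 := by simpa using k1 1 0 0
  exact ⟨AlgHom.ofLinearMap (Ψ ∘ₗ (MulOpposite.opLinearEquiv A.L).symm.toLinearMap) k4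
    fun x y => k3 _ _⟩

/-- polynomials killed by `θ` -/
theorem Pair.aeval_eq_zero_iff (ha : 2 ≤ a) (hζ : IsPrimitiveRoot ζ a) (p : Pair A a ζ)
    (q : Polynomial A.L) :
    Polynomial.aeval p.θ q = 0 ↔ Polynomial.X ^ a - Polynomial.C p.Θ ∣ q := by
  have hz : IsPrimitiveRoot (algebraMap ℂ A.L ζ) a := hζ.map_of_injective (algebraMap ℂ A.L).injective
  have h0 : Polynomial.aeval p.θ (Polynomial.X ^ a - Polynomial.C p.Θ : Polynomial A.L) = 0 := by
    simp [p.hθ]
  have hm : (Polynomial.X ^ a - Polynomial.C p.Θ : Polynomial A.L).Monic :=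
    Polynomial.monic_X_pow_sub_C _ (by omega)
  refine ⟨fun h => ?_, fun ⟨r, hr⟩ => by rw [hr, map_mul, h0, zero_mul]⟩
  rw [← Polynomial.modByMonic_eq_zero_iff_dvd hm]
  set r := q %ₘ (Polynomial.X ^ a - Polynomial.C p.Θ) with hr
  have h1 : Polynomial.aeval p.θ r = 0 := by
    have h2 := congrArg (Polynomial.aeval p.θ)
      (Polynomial.modByMonic_add_div q (Polynomial.X ^ a - Polynomial.C p.Θ))
    rwa [map_add, map_mul, h0, zero_mul, add_zero, h] at h2
  have h2 : r.natDegree < a := by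
    have h3 := Polynomial.natDegree_modByMonic_lt q hm (by
      intro h4
      have h5 := congrArg Polynomial.natDegree h4
      rw [Polynomial.natDegree_X_pow_sub_C, Polynomial.natDegree_one] at h5
      omega)
    rwa [Polynomial.natDegree_X_pow_sub_C] at h3
  rw [Polynomial.aeval_eq_sum_range' h2, Finset.sum_range] at h1
  ext n
  by_cases hn : n < a
  · have h3 := LACent_indep hz (LACent_conj p.u p.u⁻¹) _ (fun i => by
      have h4 := p.LACent_u_mul 1 i 0
      simp only [OneMemClass.coe_one, one_mul, pow_zero, mul_one] at h4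
      rw [map_smul, (p.LACent_φ ha _ _).2 h4, smul_comm]) h1 ⟨n, hn⟩
    exact (smul_eq_zero.1 h3).resolve_right (pow_ne_zero _ (p.LACent_θ_ne ha))
  · exact Polynomial.coeff_eq_zero_of_natDegree_lt (by omega)

theorem Pair.irreducible (ha : 2 ≤ a) (hζ : IsPrimitiveRoot ζ a) (p : Pair A a ζ) :
    Irreducible (Polynomial.X ^ a - Polynomial.C p.Θ : Polynomial A.L) := by
  have hm : (Polynomial.X ^ a - Polynomial.C p.Θ : Polynomial A.L).Monic :=
    Polynomial.monic_X_pow_sub_C _ (by omega)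
  have h0 := (p.aeval_eq_zero_iff ha hζ _).2 dvd_rfl
  have hi : IsIntegral A.L p.θ := ⟨_, hm, h0⟩
  exact (associated_of_dvd_dvd (minpoly.dvd A.L p.θ h0)
    ((p.aeval_eq_zero_iff ha hζ _).1 (minpoly.aeval A.L p.θ))).irreducible (minpoly.irreducible hi)

end Crest.Agent.R181
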