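import Crest.Agent.R181.NCDefs

/-! Row 181: semilinear operators, Schur data, matrix actions. -/

set_option autoImplicit false

namespace Crest.Agent.R181

open scoped TensorProduct

/-- A bijective semilinear operator together with its field automorphism. -/
structure SL (Ω V : Type) [Field Ω] [AddCommGroup V] [Module Ω V] where
  ρ : Ω ≃+* Ω
  g : V →+ V
  smul : ∀ (c : Ω) (x : V), g (c • x) = ρ c • g x
  bij : Function.Bijective g

section
variable {Ω V J : Type} [Field Ω] [AddCommGroup V] [Module Ω V]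

/-- A subspace stable under the family. -/
def Stable (Γ : J → SL Ω V) (X : Submodule Ω V) : Prop := ∀ j, ∀ x ∈ X, (Γ j).g x ∈ X

/-- No proper stable subspace. -/
def Simple (Γ : J → SL Ω V) : Prop := ∀ X : Submodule Ω V, Stable Γ X → X = ⊥ ∨ X = ⊤

/-- The invariant vectors, as a space over a field `K` fixed by the family. -/
def invK (K : Type) [Field K] [Algebra K Ω] [Module K V] [IsScalarTower K Ω V] (Γ : J → SL Ω V)
    (h : ∀ j (k : K), (Γ j).ρ (algebraMap K Ω k) = algebraMap K Ω k) : Submodule K V where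
  carrier := {x | ∀ j, (Γ j).g x = x}
  add_mem' := by
    intro x y hx hy j
    rw [map_add, hx j, hy j]
  zero_mem' := fun j => map_zero _
  smul_mem' := by
    intro k x hx j
    rw [← algebraMap_smul Ω k x, (Γ j).smul, h j k, hx j]

/-- The commutant of a simple family: a skew field, finite over the fixed field. -/
structure SchurOut [Algebra ℂ Ω] (Γ : J → SL Ω V) where
  A : DA
  i : A.L →ₐ[ℂ] Ω
  j : A.D →+* Module.End Ω V
  fin : A.Fin
  inj : Function.Injective j
  range_i : ∀ ω : Ω, (∃ r, i r = ω) ↔ ∀ γ, (Γ γ).ρ ω = ω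
  range_j : ∀ φ : Module.End Ω V, (∃ d, j d = φ) ↔ ∀ γ x, φ ((Γ γ).g x) = (Γ γ).g (φ x)
  hl : ∀ r : A.L, j (algebraMap A.L A.D r) = algebraMap Ω (Module.End Ω V) (i r)
  desc : ∀ (κ E : Type) [Fintype κ] (z : κ → E → A.D) (t : κ → Ω),
    (∀ e, ∑ k, t k • j (z k e) = 0) →
      t ∈ Submodule.span Ω {s : κ → Ω | ∃ t₀ : κ → A.L,
        (∀ e, ∑ k, t₀ k • z k e = 0) ∧ s = fun k => i (t₀ k)}

end

/-- A matrix over `L` acts on tuples of vectors. -/
noncomputable def mact {L κ : Type} [Field L] [Fintype κ] [DecidableEq κ] (Ω W : Type) [CommRing Ω]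
    [Algebra L Ω] [AddCommGroup W] [Module Ω W] [Module L W] [IsScalarTower L Ω W] :
    Matrix κ κ L →ₐ[L] Module.End Ω (κ → W) where
  toFun M :=
    { toFun := fun x i => ∑ j, M i j • x j
      map_add' := by
        intro x y
        funext i
        simp [Finset.sum_add_distrib]
      map_smul' := by
        intro c x
        funext i
        simp [Finset.smul_sum, smul_comm c] }
  map_one' := by
    ext x i
    simp [Matrix.one_apply]
  map_mul' := by
    intro M N
    apply LinearMap.ext
    intro x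
    funext i
    simp only [Matrix.mul_apply, LinearMap.coe_mk, AddHom.coe_mk, Module.End.mul_apply,
      Finset.sum_smul, Finset.smul_sum, mul_smul]
    exact Finset.sum_comm
  map_zero' := by
    apply LinearMap.ext
    intro x
    funext i
    simp
  map_add' := by
    intro M N
    apply LinearMap.ext
    intro x
    funext i
    simp [add_smul, Finset.sum_add_distrib]
  commutes' := by
    intro r
    apply LinearMap.ext
    intro x
    funext i
    simp [Matrix.algebraMap_matrix_apply, Algebra.algebraMap_eq_smul_one]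

theorem mact_apply {L κ : Type} [Field L] [Fintype κ] [DecidableEq κ] (Ω W : Type) [CommRing Ω]
    [Algebra L Ω] [AddCommGroup W] [Module Ω W] [Module L W] [IsScalarTower L Ω W]
    (M : Matrix κ κ L) (x : κ → W) (i : κ) : mact Ω W M x i = ∑ j, M i j • x j := rfl

/-- The operator induced on polynomials with coefficients in `U` by `g` and the substitution
`S i ↦ lam i • S (π i)`. -/
noncomputable def polyOp {Ω U ι : Type} [Field Ω] [AddCommGroup U] [Module Ω U] (g : U →+ U)
    (π : Equiv.Perm ι) (lam : ι → Ωˣ) : ((ι →₀ ℕ) →₀ U) →+ ((ι →₀ ℕ) →₀ U) :=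
  Finsupp.liftAddHom fun κ : ι →₀ ℕ =>
    (Finsupp.singleAddHom (Finsupp.equivMapDomain π κ)).comp
      ((DistribSMul.toAddMonoidHom U
        ((κ.prod fun i k => lam i ^ k : Ωˣ) : Ω)).comp g)

theorem polyOp_single {Ω U ι : Type} [Field Ω] [AddCommGroup U] [Module Ω U] (g : U →+ U)
    (π : Equiv.Perm ι) (lam : ι → Ωˣ) (κ : ι →₀ ℕ) (x : U) :
    polyOp g π lam (Finsupp.single κ x) = Finsupp.single (Finsupp.equivMapDomain π κ)
      (((κ.prod fun i k => lam i ^ k : Ωˣ) : Ω) • g x) := by
  simp [polyOp]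

/-- Every stable space of homogeneous polynomials has dimension divisible by `dim U`. -/
def VersalDiv {Ω U ι J : Type} [Field Ω] [AddCommGroup U] [Module Ω U] (Γ : J → SL Ω U)
    (π : J → Equiv.Perm ι) (lam : J → ι → Ωˣ) : Prop :=
  ∀ (n : ℕ) (X : Submodule Ω ((ι →₀ ℕ) →₀ U)),
    X ≤ Finsupp.supported U Ω {κ | κ.degree = n} →
    (∀ j, ∀ x ∈ X, polyOp (Γ j).g (π j) (lam j) x ∈ X) →
    Module.finrank Ω U ∣ Module.finrank Ω X

/-- The centraliser of a pair is a skew field. -/
@[reducible] noncomputable def Pair.centDivisionRing {A : DA} {a : ℕ} {ζ : ℂ} (p : Pair A a ζ) :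
    DivisionRing p.cent :=
  DivisionRing.ofIsUnitOrEqZero (by
    intro z
    by_cases hz : z = 0
    · exact Or.inr hz
    · left
      have hz' : (z : A.D) ≠ 0 := fun h => hz (Subtype.ext h)
      have hinv : (z : A.D)⁻¹ ∈ p.cent := Set.inv_mem_centralizer₀ z.2
      exact ⟨⟨z, ⟨_, hinv⟩, Subtype.ext (mul_inv_cancel₀ hz'), Subtype.ext (inv_mul_cancel₀ hz')⟩,
        rfl⟩)

theorem anchor_LADefs : True := by
  have := @Stable.eq_1
  have := @Simple.eq_1
  have := @invK.eq_1
  have := @mact.eq_1
  have := @polyOp.eq_1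
  have := @VersalDiv.eq_1
  have := @Pair.centDivisionRing.eq_1
  trivial

end Crest.Agent.R181
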