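import Crest.Agent.R181.LACent

/-! Row 181: the cyclic extension with generic conjugate elements (task LAKp). -/

set_option autoImplicit false

namespace Crest.Agent.R181

open scoped TensorProduct

/-- The field `K⁺ = L(μ)(θ)` with `σ` and the algebraically independent conjugate families `η`. -/
structure KPlus {A : DA} {a : ℕ} [NeZero a] {ζ : ℂ} (p : Pair A a ζ) (k : ℕ) where
  K : Type
  [fK : Field K]
  [aK : Algebra A.L K]
  [aK' : Algebra (FractionRing (MvPolynomial (ZMod a × Fin k) A.L)) K]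
  [tw : IsScalarTower A.L (FractionRing (MvPolynomial (ZMod a × Fin k) A.L)) K]
  θ : K
  σ : K ≃ₐ[FractionRing (MvPolynomial (ZMod a × Fin k) A.L)] K
  η : ZMod a × Fin k → K
  finrank : Module.finrank (FractionRing (MvPolynomial (ZMod a × Fin k) A.L)) K = a
  hθ : θ ^ a = algebraMap A.L K p.Θ
  hσ : σ θ = algebraMap A.L K (algebraMap ℂ A.L ζ) * θ
  ind : AlgebraicIndependent A.L η
  hη : ∀ i j, σ (η (i, j)) = η (i + 1, j)
  aeval_iff : ∀ q : Polynomial A.L, Polynomial.aeval p.θ q = 0 ↔ Polynomial.aeval θ q = 0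

attribute [instance] KPlus.fK KPlus.aK KPlus.aK' KPlus.tw

theorem LAKp_ind {L K τ : Type} [Field L] [Field K] [Algebra L K] [Finite τ] {μ η : τ → K}
    (hμ : AlgebraicIndependent L μ)
    (h : ∀ t, IsAlgebraic (Algebra.adjoin L (Set.range η)) (μ t)) : AlgebraicIndependent L η := by
  set M := AlgebraicIndependent.matroid L K with hM
  have h1 : M.Indep (Set.range μ) := hμ.to_subtype_range
  have h2 : Set.range μ ⊆ M.closure (Set.range η) := by
    rintro _ ⟨t, rfl⟩
    rw [hM, AlgebraicIndependent.matroid_closure_eq]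
    exact h t
  have h3 : (Set.range μ).encard ≤ M.eRk (Set.range η) := by
    rw [← h1.eRk_eq_encard, ← M.eRk_closure_eq (Set.range η)]
    exact M.eRk_mono h2
  have h4 : (Set.range μ).encard = (Set.univ : Set τ).encard := by
    rw [← Set.image_univ, hμ.injective.encard_image]
  have h5 : (Set.range η).encard ≤ (Set.univ : Set τ).encard := by
    rw [← Set.image_univ]
    exact Set.encard_image_le _ _
  have h6 := M.eRk_le_encard (Set.range η)
  have h7 : M.Indep (Set.range η) :=
    (Matroid.indep_iff_eRk_eq_encard_of_finite (Set.finite_range η)).2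
      (le_antisymm h6 (h5.trans (h4 ▸ h3)))
  have h8 : Function.Injective η := by
    rw [← Set.injOn_univ]
    refine Set.Finite.injOn_of_encard_image_eq Set.finite_univ ?_
    rw [Set.image_univ]
    exact le_antisymm h5 (h4 ▸ h3.trans h6)
  exact AlgebraicIndependent.of_subtype_range h8 h7

theorem LAKp_shift {M : Type} [Monoid M] {a : ℕ} [NeZero a] {w : M} (hw : w ^ a = 1)
    (i : ZMod a) : w ^ (i + 1).val = w ^ i.val * w := by
  rw [← pow_succ, pow_eq_pow_mod (i.val + 1) hw]
  congr 1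
  rw [← ZMod.val_natCast, Nat.cast_add, ZMod.natCast_zmod_val, Nat.cast_one]

theorem LAKp_sum {L : Type} [Field L] {a : ℕ} [NeZero a] {w : L} (hw : w ^ a = 1) (h1 : w ≠ 1) :
    ∑ i : ZMod a, w ^ i.val = 0 := by
  have h := Equiv.sum_comp (Equiv.addRight (1 : ZMod a)) fun i : ZMod a => w ^ i.val
  simp only [Equiv.coe_addRight, LAKp_shift hw, ← Finset.sum_mul] at h
  have h2 : (∑ i : ZMod a, w ^ i.val) * (w - 1) = 0 := by rw [mul_sub, h, mul_one, sub_self]
  exact (mul_eq_zero.1 h2).resolve_right (sub_ne_zero.2 h1)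

/-- the twisted Fourier transform of an independent family is independent -/
theorem LAKp_four {L K J : Type} [Field L] [CharZero L] [Field K] [Algebra L K] [Finite J] {a : ℕ}
    [NeZero a] {z : L} (hz : IsPrimitiveRoot z a) {θ : K} (h0 : θ ≠ 0) (hθ : IsIntegral L θ)
    {μ : ZMod a × J → K} (hμ : AlgebraicIndependent L μ) :
    AlgebraicIndependent L fun t : ZMod a × J =>
      ∑ m : ZMod a, (algebraMap L K (z ^ t.1.val) * θ) ^ m.val * μ (m, t.2) := by
  refine LAKp_ind hμ ?_
  rintro ⟨m₀, j⟩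
  set S := Algebra.adjoin L (Set.range fun t : ZMod a × J =>
      ∑ m : ZMod a, (algebraMap L K (z ^ t.1.val) * θ) ^ m.val * μ (m, t.2)) with hS
  have hz0 : z ≠ 0 := hz.ne_zero (NeZero.ne a)
  have ha : (a : L) ≠ 0 := Nat.cast_ne_zero.2 (NeZero.ne a)
  have key : θ ^ m₀.val * μ (m₀, j) = ∑ i : ZMod a, ((a : L)⁻¹ * ((z ^ m₀.val)⁻¹) ^ i.val) •
      ∑ m : ZMod a, (algebraMap L K (z ^ i.val) * θ) ^ m.val * μ (m, j) := by
    simp only [Finset.smul_sum]
    rw [Finset.sum_comm]
    have e : ∀ m : ZMod a, ∑ i : ZMod a, ((a : L)⁻¹ * ((z ^ m₀.val)⁻¹) ^ i.val) •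
        ((algebraMap L K (z ^ i.val) * θ) ^ m.val * μ (m, j)) =
        ((a : L)⁻¹ * ∑ i : ZMod a, (z ^ m.val * (z ^ m₀.val)⁻¹) ^ i.val) •
          (θ ^ m.val * μ (m, j)) := by
      intro m
      rw [Finset.mul_sum, Finset.sum_smul]
      refine Finset.sum_congr rfl fun i _ => ?_
      rw [mul_pow, ← map_pow, mul_assoc (algebraMap L K _), ← Algebra.smul_def, smul_smul,
        mul_pow, ← pow_mul, ← pow_mul z m.val, mul_comm m.val]
      congr 1
      ring
    simp only [e]
    rw [Finset.sum_eq_single m₀]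
    · rw [mul_inv_cancel₀ (pow_ne_zero _ hz0)]
      simp [ha]
    · intro m _ hm
      rw [LAKp_sum, mul_zero, zero_smul]
      · rw [mul_pow, inv_pow, ← pow_mul, ← pow_mul, mul_comm m.val, mul_comm m₀.val, pow_mul,
          pow_mul, hz.pow_eq_one]
        simp
      · intro h
        rw [mul_inv_eq_one₀ (pow_ne_zero _ hz0)] at h
        exact hm (ZMod.val_injective a (hz.pow_inj (ZMod.val_lt m) (ZMod.val_lt m₀) h))
    · simp
  have hθ' : IsIntegral S θ := hθ.tower_top
  refine IsAlgebraic.of_mul (y := θ ^ m₀.val) (mem_nonZeroDivisors_of_ne_zero (pow_ne_zero _ h0))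
    (hθ'.pow _).isAlgebraic ?_
  have hm : θ ^ m₀.val * μ (m₀, j) ∈ S := by
    rw [key]
    exact S.sum_mem fun i _ => S.smul_mem (Algebra.subset_adjoin ⟨(i, j), rfl⟩) _
  exact isAlgebraic_algebraMap (⟨_, hm⟩ : S)

theorem LAKp_irr {L τ : Type} [Field L] {f : Polynomial L} (hm : f.Monic) (hf : Irreducible f) :
    Irreducible (f.map (algebraMap L (FractionRing (MvPolynomial τ L)))) := by
  have h1 : Irreducible (f.map (algebraMap L (MvPolynomial τ L))) := by
    refine Polynomial.Monic.irreducible_of_irreducible_map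
      (MvPolynomial.constantCoeff : MvPolynomial τ L →+* L) _ (hm.map _) ?_
    rw [Polynomial.map_map]
    have : (MvPolynomial.constantCoeff : MvPolynomial τ L →+* L).comp
        (algebraMap L (MvPolynomial τ L)) = RingHom.id L := by
      ext x
      simp
    rwa [this, Polynomial.map_id]
  rw [Polynomial.Monic.irreducible_iff_irreducible_map_fraction_map
    (K := FractionRing (MvPolynomial τ L)) (hm.map _), Polynomial.map_map,
    ← IsScalarTower.algebraMap_eq] at h1
  exact h1

theorem exists_kplus {A : DA} {a : ℕ} [NeZero a] {ζ : ℂ} (ha : 2 ≤ a) (hζ : IsPrimitiveRoot ζ a)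
    (p : Pair A a ζ) (k : ℕ) : Nonempty (KPlus p k) := by
  have hm : (Polynomial.X ^ a - Polynomial.C p.Θ : Polynomial A.L).Monic :=
    Polynomial.monic_X_pow_sub_C _ (NeZero.ne a)
  have : CharZero A.L := charZero_of_injective_algebraMap (algebraMap ℂ A.L).injective
  let R := MvPolynomial (ZMod a × Fin k) A.L
  let F := FractionRing R
  let f : Polynomial F := (Polynomial.X ^ a - Polynomial.C p.Θ : Polynomial A.L).map (algebraMap A.L F)
  have hf : Irreducible f := LAKp_irr hm (p.irreducible ha hζ)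
  have : Fact (Irreducible f) := ⟨hf⟩
  let K := AdjoinRoot f
  let θ : K := AdjoinRoot.root f
  have hz : IsPrimitiveRoot (algebraMap ℂ A.L ζ) a :=
    hζ.map_of_injective (algebraMap ℂ A.L).injective
  set z := algebraMap ℂ A.L ζ with hzd
  have h0 : Polynomial.aeval θ (Polynomial.X ^ a - Polynomial.C p.Θ : Polynomial A.L) = 0 := by
    rw [← Polynomial.aeval_map_algebraMap F]
    exact (AdjoinRoot.aeval_eq f).trans AdjoinRoot.mk_self
  have hθ : θ ^ a = algebraMap A.L K p.Θ := by
    simpa [sub_eq_zero] using h0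
  have hθ0 : θ ≠ 0 := by
    intro h
    rw [h, zero_pow (NeZero.ne a)] at hθ
    exact p.hΘ ((algebraMap A.L K).injective (by rw [← hθ, map_zero]))
  have hroot : f.eval₂ (Algebra.ofId F K) (algebraMap A.L K z * θ) = 0 := by
    show Polynomial.aeval (algebraMap A.L K z * θ) f = 0
    rw [Polynomial.aeval_map_algebraMap F]
    rw [map_sub, map_pow, Polynomial.aeval_X, Polynomial.aeval_C, mul_pow, ← map_pow,
      hz.pow_eq_one, map_one, one_mul, hθ, sub_self]
  let σ₀ : K →ₐ[F] K := AdjoinRoot.liftAlgHom f (Algebra.ofId F K) _ hroot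
  have : Module.Finite F K := (AdjoinRoot.powerBasis hf.ne_zero).finite
  have hb : Function.Bijective σ₀ := Algebra.IsAlgebraic.algHom_bijective σ₀
  let σ : K ≃ₐ[F] K := AlgEquiv.ofBijective σ₀ hb
  have hσ : σ θ = algebraMap A.L K z * θ := AdjoinRoot.liftAlgHom_root f _ _ hroot
  let φ : R →ₐ[A.L] K := (IsScalarTower.toAlgHom A.L F K).comp (IsScalarTower.toAlgHom A.L R F)
  have hφ : Function.Injective φ :=
    (algebraMap F K).injective.comp (IsFractionRing.injective R F)
  have hμ : AlgebraicIndependent A.L (φ ∘ MvPolynomial.X) :=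
    (MvPolynomial.algebraicIndependent_X _ _).map' hφ
  have hint : IsIntegral A.L θ := ⟨_, hm, h0⟩
  have hσL : ∀ r : A.L, σ (algebraMap A.L K r) = algebraMap A.L K r := fun r => by
    rw [IsScalarTower.algebraMap_apply A.L F K, AlgEquiv.commutes]
  have hσφ : ∀ r : R, σ (φ r) = φ r := fun r => σ.commutes _
  refine ⟨KPlus.mk K θ σ _ ?_ hθ hσ (LAKp_four hz hθ0 hint hμ) ?_ ?_⟩
  · rw [(AdjoinRoot.powerBasis hf.ne_zero).finrank, AdjoinRoot.powerBasis_dim, hm.natDegree_map,
      Polynomial.natDegree_X_pow_sub_C]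
  · intro i j
    simp only [map_sum, map_mul, map_pow, hσL, hσ, Function.comp, hσφ, LAKp_shift hz.pow_eq_one,
      mul_assoc]
  · intro q
    rw [p.aeval_eq_zero_iff ha hζ, ← minpoly.dvd_iff,
      ← minpoly.eq_of_irreducible_of_monic (p.irreducible ha hζ) h0 hm]

end Crest.Agent.R181
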