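import Crest.Agent.R181.LADefs

/-! Row 181: reduction of a space over Laurent series modulo a lattice (task LALat). -/

set_option autoImplicit false

namespace Crest.Agent.R181

open scoped TensorProduct

/-- Reduction modulo the variable of a free module over power series. -/
theorem lat_reduce_free {L K B M : Type} [Field L] [Field K] [Algebra L K] [Ring B] [Algebra L B]
    [AddCommGroup M] [Module (PowerSeries K) M] {n : ℕ}
    (b : Module.Basis (Fin n) (PowerSeries K) M) (σ : K ≃+* K)
    (rm : B →+* Module.End (PowerSeries K) M)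
    (hrm : ∀ (r : L) (x : M), rm (algebraMap L B r) x =
      (PowerSeries.C (algebraMap L K r) : PowerSeries K) • x)
    (u : M →+ M)
    (hu : ∀ (c : PowerSeries K) (x : M), u (c • x) = PowerSeries.map (σ : K →+* K) c • u x)
    (hcomm : ∀ d x, u (rm d x) = rm d (u x)) (a : ℕ) (T : K)
    (hpow : ∀ x, (PowerSeries.C T : PowerSeries K) • (u^[a] x) = x) :
    ∃ (rm' : B →+* Module.End K (Fin n → K)) (u' : (Fin n → K) →+ (Fin n → K)),
      (∀ r : L, rm' (algebraMap L B r) = algebraMap K _ (algebraMap L K r)) ∧
      (∀ (c : K) (x : Fin n → K), u' (c • x) = σ c • u' x) ∧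
      (∀ d x, u' (rm' d x) = rm' d (u' x)) ∧ ∀ x, T • (u'^[a] x) = x := by
  classical
  -- projection and section
  let φ : M →+ (Fin n → K) :=
    { toFun := fun x i => PowerSeries.constantCoeff (b.repr x i)
      map_zero' := by
        funext i
        simp
      map_add' := by
        intro x y
        funext i
        simp }
  have hφ : ∀ x i, φ x i = PowerSeries.constantCoeff (b.repr x i) := fun _ _ => rfl
  have hφs : ∀ (c : PowerSeries K) (x : M),
      φ (c • x) = PowerSeries.constantCoeff c • φ x := by
    intro c x
    funext i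
    simp [hφ]
  let s : (Fin n → K) →+ M :=
    { toFun := fun y => ∑ i, (PowerSeries.C (y i) : PowerSeries K) • b i
      map_zero' := by simp
      map_add' := by
        intro x y
        simp [add_smul, Finset.sum_add_distrib] }
  have hs : ∀ y, s y = ∑ i, (PowerSeries.C (y i) : PowerSeries K) • b i := fun _ => rfl
  have hφs' : ∀ y, φ (s y) = y := by
    intro y
    funext i
    rw [hφ, hs]
    simp [Finsupp.single_apply]
  have hss : ∀ (c : K) y, s (c • y) = (PowerSeries.C c : PowerSeries K) • s y := by
    intro c y
    rw [hs, hs, Finset.smul_sum]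
    refine Finset.sum_congr rfl fun i _ => ?_
    simp [mul_smul]
  have hker : ∀ x, φ x = 0 → ∃ x', x = (PowerSeries.X : PowerSeries K) • x' := by
    intro x hx
    have h : ∀ i, ∃ q, b.repr x i = PowerSeries.X * q := by
      intro i
      have : PowerSeries.constantCoeff (b.repr x i) = 0 := by
        rw [← hφ, hx]
        rfl
      exact PowerSeries.X_dvd_iff.2 this
    choose q hq using h
    refine ⟨∑ i, q i • b i, ?_⟩
    rw [Finset.smul_sum]
    conv_lhs => rw [← b.sum_repr x]
    refine Finset.sum_congr rfl fun i _ => ?_
    rw [hq, mul_smul]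
  have hdec : ∀ x, ∃ x', x = s (φ x) + (PowerSeries.X : PowerSeries K) • x' := by
    intro x
    obtain ⟨x', hx'⟩ := hker (x - s (φ x)) (by rw [map_sub, hφs', sub_self])
    exact ⟨x', by rw [← hx']; abel⟩
  have hlin : ∀ (f : Module.End (PowerSeries K) M) x, φ (f (s (φ x))) = φ (f x) := by
    intro f x
    obtain ⟨x', hx'⟩ := hdec x
    conv_rhs => rw [hx']
    rw [map_add, map_add, map_smul, hφs]
    simp
  have hul : ∀ x, φ (u (s (φ x))) = φ (u x) := by
    intro x
    obtain ⟨x', hx'⟩ := hdec x
    conv_rhs => rw [hx']
    rw [map_add, map_add, hu, hφs]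
    simp
  let red : Module.End (PowerSeries K) M → Module.End K (Fin n → K) := fun f =>
    { toFun := fun y => φ (f (s y))
      map_add' := by
        intro x y
        simp
      map_smul' := by
        intro c y
        rw [hss, map_smul, hφs]
        simp }
  have hred : ∀ f y, red f y = φ (f (s y)) := fun _ _ => rfl
  let rm' : B →+* Module.End K (Fin n → K) :=
    { toFun := fun d => red (rm d)
      map_one' := by
        apply LinearMap.ext
        intro y
        rw [hred, map_one]
        simpa using hφs' y
      map_mul' := by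
        intro d e
        apply LinearMap.ext
        intro y
        rw [Module.End.mul_apply, hred, hred, hred, hlin, map_mul, Module.End.mul_apply]
      map_zero' := by
        apply LinearMap.ext
        intro y
        rw [hred, map_zero]
        simp
      map_add' := by
        intro d e
        apply LinearMap.ext
        intro y
        rw [LinearMap.add_apply, hred, hred, hred, map_add, LinearMap.add_apply, map_add] }
  have hrm' : ∀ d y, rm' d y = φ (rm d (s y)) := fun _ _ => rfl
  let u' : (Fin n → K) →+ (Fin n → K) := φ.comp (u.comp s)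
  have hu' : ∀ y, u' y = φ (u (s y)) := fun _ => rfl
  refine ⟨rm', u', ?_, ?_, ?_, ?_⟩
  · intro r
    apply LinearMap.ext
    intro y
    rw [hrm', hrm, hφs, hφs']
    simp [Module.algebraMap_end_apply]
  · intro c y
    rw [hu', hu', hss, hu, hφs]
    simp
  · intro d y
    rw [hu', hrm', hrm', hu', hul, hlin, hcomm]
  · intro y
    have hit : ∀ (k : ℕ) (x : M), u'^[k] (φ x) = φ (u^[k] x) := by
      intro k
      induction k with
      | zero => intro x; rfl
      | succ k ih =>
        intro x
        rw [Function.iterate_succ_apply', Function.iterate_succ_apply', ih, hu', hul]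
    have h1 := hit a (s y)
    rw [hφs'] at h1
    rw [h1]
    have h2 := congrArg φ (hpow (s y))
    rw [hφs, hφs'] at h2
    simpa using h2

/-- A finite-dimensional `K((z))`-space with an action of a finite-dimensional `L`-algebra `B` and a
commuting semilinear operator `û` with `T û ^ a = 1` reduces to a `K`-space of the same dimension
with the same structure. -/
theorem exists_reduction {L K B X : Type} [Field L] [Field K] [Algebra L K] [Ring B] [Algebra L B]
    [Module.Finite L B] [AddCommGroup X] [Module (LaurentSeries K) X]
    [FiniteDimensional (LaurentSeries K) X] (σ : K ≃+* K)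
    (σ₁ : LaurentSeries K ≃+* LaurentSeries K)
    (hσ₁ : ∀ (x : LaurentSeries K) (n : ℤ), (σ₁ x).coeff n = σ (x.coeff n))
    (rm : B →+* Module.End (LaurentSeries K) X)
    (hrm : ∀ r : L, rm (algebraMap L B r) =
      algebraMap (LaurentSeries K) _ (HahnSeries.C (algebraMap L K r)))
    (û : X →+ X) (hû : ∀ (c : LaurentSeries K) (x : X), û (c • x) = σ₁ c • û x)
    (hcomm : ∀ d x, û (rm d x) = rm d (û x)) (a : ℕ) (ha : 0 < a) (T : K) (hT : T ≠ 0)
    (hpow : ∀ x, (HahnSeries.C T : LaurentSeries K) • (û^[a] x) = x) :
    ∃ (Y : Type) (_ : AddCommGroup Y) (_ : Module K Y) (_ : FiniteDimensional K Y)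
      (rm' : B →+* Module.End K Y) (û' : Y →+ Y),
      Module.finrank K Y = Module.finrank (LaurentSeries K) X ∧
      (∀ r : L, rm' (algebraMap L B r) = algebraMap K _ (algebraMap L K r)) ∧
      (∀ (c : K) (x : Y), û' (c • x) = σ c • û' x) ∧
      (∀ d x, û' (rm' d x) = rm' d (û' x)) ∧ ∀ x, T • (û'^[a] x) = x := by
  classical
  let _ : Module (PowerSeries K) X :=
    Module.compHom X (algebraMap (PowerSeries K) (LaurentSeries K))
  have hsm : ∀ (c : PowerSeries K) (x : X),
      c • x = (algebraMap (PowerSeries K) (LaurentSeries K) c) • x := fun _ _ => rfl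
  have : IsScalarTower (PowerSeries K) (LaurentSeries K) X :=
    IsScalarTower.of_algebraMap_smul fun c x => (hsm c x).symm
  have hC : ∀ c : K, algebraMap (PowerSeries K) (LaurentSeries K) (PowerSeries.C c) =
      HahnSeries.C c := fun c => HahnSeries.ofPowerSeries_C c
  have hσ : ∀ c : PowerSeries K, σ₁ (algebraMap (PowerSeries K) (LaurentSeries K) c) =
      algebraMap (PowerSeries K) (LaurentSeries K) (PowerSeries.map (σ : K →+* K) c) := by
    intro c
    ext n
    rw [hσ₁]
    have h1 := PowerSeries.coeff_coe c n
    have h2 := PowerSeries.coeff_coe (PowerSeries.map (σ : K →+* K) c) n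
    change σ ((HahnSeries.ofPowerSeries ℤ K c).coeff n) =
      (HahnSeries.ofPowerSeries ℤ K (PowerSeries.map (σ : K →+* K) c)).coeff n
    rw [h1, h2]
    split_ifs <;> simp
  have hûR : ∀ (c : PowerSeries K) (x : X),
      û (c • x) = PowerSeries.map (σ : K →+* K) c • û x := by
    intro c x
    rw [hsm, hsm, hû, hσ]
  have hrmR : ∀ (r : L) (x : X), rm (algebraMap L B r) x =
      (PowerSeries.C (algebraMap L K r) : PowerSeries K) • x := by
    intro r x
    rw [hrm, hsm, hC, Module.algebraMap_end_apply]
  have hpowR : ∀ x, (PowerSeries.C T : PowerSeries K) • (û^[a] x) = x := by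
    intro x
    rw [hsm, hC, hpow]
  obtain ⟨m, dv, hdv⟩ := Module.Finite.exists_fin (R := L) (M := B)
  let bx := Module.finBasis (LaurentSeries K) X
  let g : Fin a × Fin m × Fin (Module.finrank (LaurentSeries K) X) → X :=
    fun p => û^[p.1] (rm (dv p.2.1) (bx p.2.2))
  let Λ : Submodule (PowerSeries K) X := Submodule.span _ (Set.range g)
  have hg0 : ∀ i l, rm (dv i) (bx l) ∈ Λ := fun i l =>
    Submodule.subset_span ⟨(⟨0, ha⟩, i, l), rfl⟩
  have hΛu : ∀ x ∈ Λ, û x ∈ Λ := by
    intro x hx
    induction hx using Submodule.span_induction with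
    | mem x hx =>
      obtain ⟨⟨j, i, l⟩, rfl⟩ := hx
      by_cases hj : (j : ℕ) + 1 < a
      · refine Submodule.subset_span ⟨(⟨j + 1, hj⟩, i, l), ?_⟩
        simp only [g]
        rw [Function.iterate_succ_apply']
      · have hja : (j : ℕ) + 1 = a := by have := j.2; omega
        have h1 : û (g (j, i, l)) = û^[a] (rm (dv i) (bx l)) := by
          simp only [g]
          rw [← Function.iterate_succ_apply' û, Nat.succ_eq_add_one, hja]
        have h2 : û^[a] (rm (dv i) (bx l)) =
            (PowerSeries.C T⁻¹ : PowerSeries K) • rm (dv i) (bx l) := by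
          conv_rhs => rw [← hpowR (rm (dv i) (bx l))]
          rw [smul_smul, ← map_mul, inv_mul_cancel₀ hT, map_one, one_smul]
        rw [h1, h2]
        exact Λ.smul_mem _ (hg0 i l)
    | zero => simp
    | add x y _ _ hx hy =>
      rw [map_add]
      exact Λ.add_mem hx hy
    | smul c x _ hx =>
      rw [hûR]
      exact Λ.smul_mem _ hx
  have hΛit : ∀ (k : ℕ), ∀ x ∈ Λ, û^[k] x ∈ Λ := by
    intro k
    induction k with
    | zero => intro x hx; exact hx
    | succ k ih =>
      intro x hx
      rw [Function.iterate_succ_apply']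
      exact hΛu _ (ih x hx)
  have hg1 : ∀ (d : B) l, rm d (bx l) ∈ Λ := by
    intro d l
    have hd : d ∈ Submodule.span L (Set.range dv) := by rw [hdv]; trivial
    induction hd using Submodule.span_induction with
    | mem x hx =>
      obtain ⟨i, rfl⟩ := hx
      exact hg0 i l
    | zero => simp
    | add x y _ _ hx hy =>
      rw [map_add, LinearMap.add_apply]
      exact Λ.add_mem hx hy
    | smul c x _ hx =>
      rw [Algebra.smul_def, map_mul, Module.End.mul_apply, hrmR]
      exact Λ.smul_mem _ hx
  have hcit : ∀ (k : ℕ) d x, û^[k] (rm d x) = rm d (û^[k] x) := by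
    intro k d
    induction k with
    | zero => intro x; rfl
    | succ k ih =>
      intro x
      rw [Function.iterate_succ_apply', Function.iterate_succ_apply', ih, hcomm]
  have hΛrm : ∀ (d : B), ∀ x ∈ Λ, (rm d).restrictScalars (PowerSeries K) x ∈ Λ := by
    intro d x hx
    induction hx using Submodule.span_induction with
    | mem x hx =>
      obtain ⟨⟨j, i, l⟩, rfl⟩ := hx
      simp only [g, LinearMap.restrictScalars_apply]
      rw [← hcit, ← Module.End.mul_apply, ← map_mul]
      exact hΛit _ _ (hg1 _ l)
    | zero => simp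
    | add x y _ _ hx hy =>
      rw [map_add]
      exact Λ.add_mem hx hy
    | smul c x _ hx =>
      rw [map_smul]
      exact Λ.smul_mem _ hx
  have hbx : ∀ l, bx l ∈ Λ := by
    intro l
    simpa using hg1 1 l
  have : Module.Finite (PowerSeries K) Λ :=
    Module.Finite.span_of_finite _ (Set.finite_range g)
  have : Module.IsTorsionFree (PowerSeries K) X := by
    refine Module.IsTorsionFree.of_smul_eq_zero fun r x h => ?_
    rw [hsm, smul_eq_zero] at h
    rcases h with h | h
    · left
      exact IsFractionRing.injective (PowerSeries K) (LaurentSeries K) (by rw [h, map_zero])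
    · exact Or.inr h
  obtain ⟨n, b⟩ : Σ n, Module.Basis (Fin n) (PowerSeries K) Λ :=
    Module.basisOfFiniteTypeTorsionFree'
  have hn : Module.finrank (LaurentSeries K) X = n := by
    have hli : LinearIndependent (PowerSeries K) (fun i => (b i : X)) :=
      b.linearIndependent.map' Λ.subtype (Submodule.ker_subtype Λ)
    have hli' : LinearIndependent (LaurentSeries K) (fun i => (b i : X)) :=
      (LinearIndependent.iff_fractionRing (PowerSeries K) (LaurentSeries K)).1 hli
    have hsp : ⊤ ≤ Submodule.span (LaurentSeries K) (Set.range fun i => (b i : X)) := by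
      rw [← bx.span_eq, Submodule.span_le]
      rintro _ ⟨l, rfl⟩
      have h1 := congrArg (fun y : Λ => (y : X)) (b.sum_repr ⟨bx l, hbx l⟩)
      simp only [Submodule.coe_sum, Submodule.coe_smul] at h1
      rw [← h1]
      refine Submodule.sum_mem _ fun i _ => ?_
      rw [hsm]
      exact Submodule.smul_mem _ _ (Submodule.subset_span ⟨i, rfl⟩)
    rw [Module.finrank_eq_card_basis (Module.Basis.mk hli' hsp), Fintype.card_fin]
  let rmΛ : B →+* Module.End (PowerSeries K) Λ :=
    { toFun := fun d => ((rm d).restrictScalars (PowerSeries K)).restrict (hΛrm d)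
      map_one' := by
        apply LinearMap.ext
        intro y
        apply Subtype.ext
        simp
      map_mul' := by
        intro d e
        apply LinearMap.ext
        intro y
        apply Subtype.ext
        simp
      map_zero' := by
        apply LinearMap.ext
        intro y
        apply Subtype.ext
        simp
      map_add' := by
        intro d e
        apply LinearMap.ext
        intro y
        apply Subtype.ext
        simp }
  have hrmΛ : ∀ d (y : Λ), (rmΛ d y : X) = rm d y := fun _ _ => rfl
  let uΛ : Λ →+ Λ :=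
    { toFun := fun y => ⟨û y, hΛu _ y.2⟩
      map_zero' := by
        apply Subtype.ext
        simp
      map_add' := by
        intro x y
        apply Subtype.ext
        simp }
  have huΛ : ∀ y : Λ, (uΛ y : X) = û y := fun _ => rfl
  have huit : ∀ (k : ℕ) (y : Λ), ((uΛ^[k] y : Λ) : X) = û^[k] y := by
    intro k
    induction k with
    | zero => intro y; rfl
    | succ k ih =>
      intro y
      rw [Function.iterate_succ_apply', Function.iterate_succ_apply', huΛ, ih]
  obtain ⟨rm', u', h1, h2, h3, h4⟩ := lat_reduce_free (L := L) b σ rmΛ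
    (fun r x => Subtype.ext (by rw [hrmΛ, hrmR]; rfl)) uΛ
    (fun c x => Subtype.ext (by rw [huΛ, Submodule.coe_smul, hûR]; rfl))
    (fun d x => Subtype.ext (by rw [huΛ, hrmΛ, hrmΛ, huΛ, hcomm])) a T
    (fun x => Subtype.ext (by rw [Submodule.coe_smul, huit, hpowR]))
  refine ⟨Fin n → K, inferInstance, inferInstance, inferInstance, rm', u', ?_, h1, h2, h3, h4⟩
  rw [hn]
  simp

end Crest.Agent.R181
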