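import Crest.Agent.R181.LAPt
import Crest.Agent.R181.LALat
import Crest.Agent.R181.LAKp

/-! Row 181: divisibility of the dimension of a twisted module (task LADiv). -/

set_option autoImplicit false

namespace Crest.Agent.R181

open scoped TensorProduct

theorem ladiv_action {A : DA} {a : ℕ} {ζ : ℂ} (ha : 2 ≤ a) (hζ : IsPrimitiveRoot ζ a)
    (p : Pair A a ζ) {F K Y : Type} [Field F] [Field K] [Algebra A.L F] [Algebra F K]
    [Algebra A.L K] [IsScalarTower A.L F K] [AddCommGroup Y] [Module K Y] [Module F Y]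
    [Module A.L Y] [IsScalarTower F K Y] [IsScalarTower A.L K Y] [IsScalarTower A.L F Y]
    [SMulCommClass F A.L Y] (θ : K) (σ : K ≃ₐ[F] K) (hθ : θ ^ a = algebraMap A.L K p.Θ)
    (hσ : σ θ = algebraMap A.L K (algebraMap ℂ A.L ζ) * θ)
    (rm : (p.cent)ᵐᵒᵖ →+* Module.End K Y)
    (hrm : ∀ r : A.L, rm (algebraMap A.L _ r) = algebraMap K _ (algebraMap A.L K r))
    (û : Y →+ Y) (hû : ∀ (c : K) (x : Y), û (c • x) = σ c • û x)
    (hcomm : ∀ d x, û (rm d x) = rm d (û x))
    (hpow : ∀ x, algebraMap A.L K p.T • (û^[a] x) = x) :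
    Nonempty ((A.D)ᵐᵒᵖ →ₐ[A.L] Module.End F Y) := by
  let U : Module.End F Y :=
    { toFun := û
      map_add' := û.map_add
      map_smul' := fun f x => by
        rw [← algebraMap_smul K f x, hû, σ.commutes, algebraMap_smul, RingHom.id_apply] }
  have hU : ∀ x, U x = û x := fun _ => rfl
  let ϑ : Module.End F Y := (algebraMap K (Module.End K Y) θ).restrictScalars F
  have hϑ : ∀ x, ϑ x = θ • x := fun _ => rfl
  let rm' : (p.cent)ᵐᵒᵖ →ₐ[A.L] Module.End F Y :=
    { toFun := fun d => (rm d).restrictScalars F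
      map_one' := by rw [map_one]; rfl
      map_mul' := fun d d' => by rw [map_mul]; rfl
      map_zero' := by rw [map_zero]; rfl
      map_add' := fun d d' => by rw [map_add]; rfl
      commutes' := fun r => by
        rw [hrm]
        apply LinearMap.ext
        intro x
        exact algebraMap_smul K r x }
  have hrm' : ∀ d x, rm' d x = rm d x := fun _ _ => rfl
  have hUa : p.T • U ^ a = 1 := by
    apply LinearMap.ext
    intro x
    rw [LinearMap.smul_apply, Module.End.pow_apply, ← algebraMap_smul K p.T]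
    exact hpow x
  have ha' : a - 1 + 1 = a := by omega
  have h1 : (p.T • U ^ (a - 1)) * U = 1 := by
    rw [smul_mul_assoc, ← pow_succ, ha', hUa]
  have h2 : U * (p.T • U ^ (a - 1)) = 1 := by
    rw [mul_smul_comm, ← pow_succ', ha', hUa]
  have hc : U * ϑ = algebraMap ℂ A.L ζ • (ϑ * U) := by
    apply LinearMap.ext
    intro x
    rw [LinearMap.smul_apply, Module.End.mul_apply, Module.End.mul_apply, hU, hU, hϑ, hϑ, hû, hσ,
      mul_smul, algebraMap_smul]
  have hrU : ∀ d, Commute (rm' d) U := by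
    intro d
    apply LinearMap.ext
    intro x
    exact (hcomm d x).symm
  refine p.exists_action ha hζ rm' ϑ (p.T • U ^ (a - 1)) ?_ ?_ ?_ ?_ ?_
  · apply LinearMap.ext
    intro x
    have : ∀ n : ℕ, (ϑ ^ n) x = θ ^ n • x := by
      intro n
      induction n with
      | zero => simp
      | succ n ih => rw [pow_succ', Module.End.mul_apply, ih, hϑ, smul_smul, pow_succ']
    rw [this, hθ, algebraMap_smul, Module.algebraMap_end_apply]
  · have h3 : (p.T • U ^ (a - 1)) ^ a * U ^ a = 1 := by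
      rw [← Commute.mul_pow (h1.trans h2.symm), h1, one_pow]
    rw [Algebra.algebraMap_eq_smul_one, ← h3, ← mul_smul_comm, hUa, mul_one]
  · generalize p.T • U ^ (a - 1) = υ at h1 h2
    calc ϑ * υ = υ * U * ϑ * υ := by rw [h1, one_mul]
      _ = υ * (U * ϑ) * υ := by rw [mul_assoc υ]
      _ = algebraMap ℂ A.L ζ • (υ * ϑ * (U * υ)) := by
        rw [hc, mul_smul_comm, smul_mul_assoc]
        simp only [mul_assoc]
      _ = _ := by rw [h2, mul_one]
  · intro d
    apply LinearMap.ext
    intro x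
    rw [Module.End.mul_apply, Module.End.mul_apply, hϑ, hϑ, hrm', hrm', map_smul]
  · intro d
    exact ((hrU d).pow_right _).smul_right _

theorem KPlus.dvd_finrank {A : DA} {a : ℕ} [NeZero a] {ζ : ℂ} (ha : 2 ≤ a)
    (hζ : IsPrimitiveRoot ζ a) {p : Pair A a ζ} {k : ℕ} (Kp : KPlus p k) (hA : A.Fin)
    {X : Type} [AddCommGroup X] [Module (LaurentSeries Kp.K) X]
    [FiniteDimensional (LaurentSeries Kp.K) X]
    (σ₁ : LaurentSeries Kp.K ≃+* LaurentSeries Kp.K)
    (hσ₁ : ∀ (x : LaurentSeries Kp.K) (n : ℤ), (σ₁ x).coeff n = Kp.σ (x.coeff n))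
    (rm : (p.cent)ᵐᵒᵖ →+* Module.End (LaurentSeries Kp.K) X)
    (hrm : ∀ r : A.L, rm (algebraMap A.L _ r) =
      algebraMap (LaurentSeries Kp.K) _ (HahnSeries.C (algebraMap A.L Kp.K r)))
    (û : X →+ X) (hû : ∀ (c : LaurentSeries Kp.K) (x : X), û (c • x) = σ₁ c • û x)
    (hcomm : ∀ d x, û (rm d x) = rm d (û x))
    (hpow : ∀ x, (HahnSeries.C (algebraMap A.L Kp.K p.T) : LaurentSeries Kp.K) • (û^[a] x) = x) :
    a * Module.finrank A.L p.cent ∣ Module.finrank (LaurentSeries Kp.K) X := by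
  have hfin : Module.Finite A.L A.D := hA
  have hcent : Module.Finite A.L p.cent :=
    Module.Finite.of_injective p.cent.val.toLinearMap Subtype.val_injective
  obtain ⟨Y, _, _, _, rm', û', hdim, hrm', hû', hcomm', hpow'⟩ :=
    exists_reduction Kp.σ.toRingEquiv σ₁ hσ₁ rm hrm û hû hcomm a (by omega)
      (algebraMap A.L Kp.K p.T) ((map_ne_zero _).2 p.hT) hpow
  let F := FractionRing (MvPolynomial (ZMod a × Fin k) A.L)
  let _ : Module F Y := Module.compHom Y (algebraMap F Kp.K)
  let _ : Module A.L Y := Module.compHom Y (algebraMap A.L Kp.K)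
  have : IsScalarTower F Kp.K Y := IsScalarTower.of_algebraMap_smul fun _ _ => rfl
  have : IsScalarTower A.L Kp.K Y := IsScalarTower.of_algebraMap_smul fun _ _ => rfl
  have : IsScalarTower A.L F Y := IsScalarTower.of_algebraMap_smul fun r y => by
    change algebraMap F Kp.K (algebraMap A.L F r) • y = algebraMap A.L Kp.K r • y
    rw [← IsScalarTower.algebraMap_apply]
  have : SMulCommClass F A.L Y := ⟨fun f r y =>
    smul_comm (algebraMap F Kp.K f) (algebraMap A.L Kp.K r) y⟩
  have : Module.Finite F Kp.K := Module.finite_of_finrank_pos (by rw [Kp.finrank]; omega)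
  have : Module.Finite F Y := Module.Finite.trans Kp.K Y
  obtain ⟨ψ⟩ := ladiv_action (F := F) ha hζ p Kp.θ Kp.σ Kp.hθ Kp.hσ rm' hrm' û' hû' hcomm' hpow'
  have h := dvd_finrank_pt (L := A.L) (D := (A.D)ᵐᵒᵖ) (τ := ZMod a × Fin k) (X := Y) ψ.toRingHom
    (fun r => by
      refine (ψ.commutes r).trans (LinearMap.ext fun y => ?_)
      rw [Module.algebraMap_end_apply, Module.algebraMap_end_apply, algebraMap_smul])
  rw [MulOpposite.finrank, p.finrank_eq ha hζ hA, ← Module.finrank_mul_finrank F Kp.K Y,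
    Kp.finrank, hdim, pow_two, mul_assoc] at h
  exact Nat.dvd_of_mul_dvd_mul_left (by omega) h

end Crest.Agent.R181
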