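import Crest.Agent.R181.LADefs

/-! Row 181: finite differences of a monotone function (task LAFd). -/

set_option autoImplicit false

namespace Crest.Agent.R181

open scoped TensorProduct

/-- truncation of an exponent at height `B` -/
noncomputable def fdTrunc {ι : Type} [Fintype ι] (B : ℕ) (c : ι →₀ ℕ) : ι →₀ ℕ :=
  Finsupp.equivFunOnFinite.symm fun i => min (c i) B

theorem fd_exists_bound {ι : Type} [Fintype ι] (f : (ι →₀ ℕ) → ℕ) (hf : Monotone f) (r : ℕ)
    (hr : ∀ c, f c ≤ r) : ∃ B : ℕ, ∀ c, f (fdTrunc B c) = f c := by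
  have hfin : (⋃ s ∈ Set.Iic r, {c : ι →₀ ℕ | Minimal (fun c => f c = s) c}).Finite :=
    (Set.finite_Iic r).biUnion fun s _ =>
      WellQuasiOrderedLE.finite_of_isAntichain (setOfPred_minimal_antichain _)
  obtain ⟨M, hM⟩ := hfin.bddAbove
  refine ⟨∑ i, M i, fun c => le_antisymm (hf fun i => ?_) ?_⟩
  · simp [fdTrunc]
  · obtain ⟨c', hc', hmin⟩ := exists_minimal_le_of_wellFoundedLT (fun c' => f c' = f c) c rfl
    have h1 : c' ≤ M := hM (Set.mem_biUnion (hr c) hmin)
    rw [← hmin.prop]
    refine hf fun i => ?_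
    have h2 : M i ≤ ∑ i, M i := Finset.single_le_sum (fun j _ => Nat.zero_le (M j)) (Finset.mem_univ i)
    simp only [fdTrunc, Finsupp.coe_equivFunOnFinite_symm, le_min_iff]
    exact ⟨hc' i, (h1 i).trans h2⟩

/-- the generating series of `{k | min k B = b}` -/
noncomputable def fdSer (R : Type) [CommRing R] (B b : ℕ) : PowerSeries R :=
  PowerSeries.mk fun k => if min k B = b then 1 else 0

/-- `(1 - X)` times `fdSer` -/
noncomputable def fdPol (R : Type) [CommRing R] (B b : ℕ) : Polynomial R :=
  if b = B then Polynomial.X ^ B else Polynomial.X ^ b * (1 - Polynomial.X)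

theorem fdSer_mul (R : Type) [CommRing R] (B b : ℕ) (hb : b ≤ B) :
    fdSer R B b * (1 - PowerSeries.X) = (fdPol R B b : PowerSeries R) := by
  unfold fdPol
  split_ifs with h
  · subst h
    have : fdSer R b b = PowerSeries.X ^ b * PowerSeries.mk 1 := by
      ext k
      rw [PowerSeries.coeff_X_pow_mul']
      simp [fdSer]
    rw [this, mul_assoc, PowerSeries.mk_one_mul_one_sub_eq_one]
    simp
  · have : fdSer R B b = PowerSeries.X ^ b := by
      ext k
      rw [PowerSeries.coeff_X_pow, fdSer, PowerSeries.coeff_mk]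
      congr 1
      apply propext
      omega
    rw [this]
    simp

theorem fdPol_eval (R : Type) [CommRing R] (B b : ℕ) :
    (fdPol R B b).eval 1 = if b = B then 1 else 0 := by
  unfold fdPol
  split_ifs <;> simp

theorem fd_main {ι R : Type} [Fintype ι] [DecidableEq ι] [CommRing R] (f : (ι →₀ ℕ) → R) (B : ℕ)
    (hB : ∀ c, f (fdTrunc B c) = f c)
    (h : ∀ n : ℕ, ∑ c ∈ Finset.finsuppAntidiag (Finset.univ : Finset ι) n, f c = 0) :
    f (Finsupp.equivFunOnFinite.symm fun _ => B) = 0 := by
  set box : Finset (ι → ℕ) := Fintype.piFinset fun _ => Finset.range (B + 1) with hbox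
  have h1 : ∑ b ∈ box, PowerSeries.C (f (Finsupp.equivFunOnFinite.symm b)) *
      ∏ i, fdSer R B (b i) = 0 := by
    ext n
    simp only [map_sum, PowerSeries.coeff_C_mul, PowerSeries.coeff_prod, Finset.mul_sum, map_zero]
    rw [Finset.sum_comm, ← h n]
    refine Finset.sum_congr rfl fun c _ => ?_
    rw [Finset.sum_eq_single (fun i => min (c i) B)]
    · simp only [fdSer, PowerSeries.coeff_mk, if_true, Finset.prod_const_one, mul_one]
      exact hB c
    · intro b _ hb
      obtain ⟨i, hi⟩ := Function.ne_iff.1 hb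
      rw [Finset.prod_eq_zero (Finset.mem_univ i), mul_zero]
      simp only [fdSer, PowerSeries.coeff_mk]
      rw [if_neg (Ne.symm hi)]
    · intro hn
      exfalso
      apply hn
      simp only [hbox, Fintype.mem_piFinset, Finset.mem_range]
      intro i
      omega
  have h2 : ((∑ b ∈ box, Polynomial.C (f (Finsupp.equivFunOnFinite.symm b)) *
      ∏ i, fdPol R B (b i) : Polynomial R) : PowerSeries R) = 0 := by
    have h3 := congrArg (· * ∏ _i : ι, (1 - PowerSeries.X : PowerSeries R)) h1
    simp only [zero_mul, Finset.sum_mul, mul_assoc, ← Finset.prod_mul_distrib] at h3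
    rw [← h3, ← Polynomial.coeToPowerSeries.ringHom_apply, map_sum]
    refine Finset.sum_congr rfl fun b hb => ?_
    rw [map_mul, map_prod]
    simp only [Polynomial.coeToPowerSeries.ringHom_apply, Polynomial.coe_C]
    congr 1
    refine Finset.prod_congr rfl fun i _ => (fdSer_mul R B (b i) ?_).symm
    simp only [hbox, Fintype.mem_piFinset, Finset.mem_range] at hb
    exact Nat.lt_succ_iff.1 (hb i)
  have h4 := congrArg (Polynomial.eval 1) (Polynomial.coe_eq_zero_iff.1 h2)
  simp only [Polynomial.eval_finsetSum, Polynomial.eval_mul, Polynomial.eval_C,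
    Polynomial.eval_prod, fdPol_eval, Polynomial.eval_zero] at h4
  rw [Finset.sum_eq_single (fun _ => B)] at h4
  · simpa using h4
  · intro b _ hb
    obtain ⟨i, hi⟩ := Function.ne_iff.1 hb
    rw [Finset.prod_eq_zero (Finset.mem_univ i), mul_zero]
    rw [if_neg hi]
  · intro hn
    exfalso
    apply hn
    simp [hbox]

/-- If `f` is monotone on `ι →₀ ℕ` with maximum `r` and all the sums over the exponents of a fixed
degree are divisible by `δ`, then `δ ∣ r`. -/
theorem dvd_max_of_dvd_sums {ι : Type} [Fintype ι] [DecidableEq ι] (f : (ι →₀ ℕ) → ℕ)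
    (hf : Monotone f) (r : ℕ) (hr : ∀ c, f c ≤ r) (c₀ : ι →₀ ℕ) (h₀ : f c₀ = r) (δ : ℕ)
    (h : ∀ n : ℕ, δ ∣ ∑ c ∈ Finset.finsuppAntidiag (Finset.univ : Finset ι) n, f c) :
    δ ∣ r := by
  obtain ⟨B, hB⟩ := fd_exists_bound f hf r hr
  have h1 := fd_main (R := ZMod δ) (fun c => (f c : ZMod δ)) B (fun c => by rw [hB])
    (fun n => by rw [← Nat.cast_sum]; exact (ZMod.natCast_eq_zero_iff _ _).2 (h n))
  have h2 : f (Finsupp.equivFunOnFinite.symm fun _ => B) = r := by
    refine le_antisymm (hr _) ?_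
    rw [← h₀, ← hB c₀]
    refine hf fun i => ?_
    simp [fdTrunc]
  rw [h2] at h1
  exact (ZMod.natCast_eq_zero_iff _ _).1 h1

end Crest.Agent.R181
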