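import Crest.Agent.R181.LAArt

/-! Row 181: a skew field stays a skew field over rational functions (task LAPt). -/

set_option autoImplicit false
set_option linter.style.haveILetI false

namespace Crest.Agent.R181

open scoped TensorProduct

/-- `L[M] ⊗ D` has no zero divisors. -/
theorem pt_noZeroDivisors_poly (L D M : Type) [Field L] [DivisionRing D] [Algebra L D]
    [AddCommMonoid M] [UniqueSums M] : NoZeroDivisors (AddMonoidAlgebra L M ⊗[L] D) := by
  let f : AddMonoidAlgebra L M →ₐ[L] AddMonoidAlgebra D M :=
    AddMonoidAlgebra.mapAlgHom M (Algebra.ofId L D)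
  let g : D →ₐ[L] AddMonoidAlgebra D M := AddMonoidAlgebra.singleZeroAlgHom
  have hf : ∀ (m : M) (r : L), f (AddMonoidAlgebra.single m r)
      = AddMonoidAlgebra.single m (algebraMap L D r) := by
    intro m r
    simp [f]
  have hg : ∀ d : D, g d = AddMonoidAlgebra.single 0 d := fun _ => rfl
  have hc : ∀ p d, Commute (f p) (g d) := by
    intro p d
    induction p using AddMonoidAlgebra.induction_linear with
    | zero => rw [map_zero]; exact Commute.zero_left _
    | add p q hp hq => rw [map_add]; exact hp.add_left hq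
    | single m r =>
      rw [hf, hg, Commute, SemiconjBy, AddMonoidAlgebra.single_mul_single,
        AddMonoidAlgebra.single_mul_single, add_zero, zero_add, Algebra.commutes]
  let Φ : AddMonoidAlgebra L M ⊗[L] D →ₐ[L] AddMonoidAlgebra D M :=
    Algebra.TensorProduct.lift f g hc
  let G : AddMonoidAlgebra D M →ₗ[L] AddMonoidAlgebra L M ⊗[L] D :=
    (Finsupp.lsum L fun m =>
      TensorProduct.mk L (AddMonoidAlgebra L M) D (AddMonoidAlgebra.single m 1)) ∘ₗ
      (AddMonoidAlgebra.coeffLinearEquiv L).toLinearMap
  have hG : ∀ (m : M) (d : D), G (AddMonoidAlgebra.single m d)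
      = AddMonoidAlgebra.single m 1 ⊗ₜ[L] d := by
    intro m d
    simp [G]
  have hGΦ : ∀ x, G (Φ x) = x := by
    intro x
    induction x using TensorProduct.induction_on with
    | zero => rw [map_zero, map_zero]
    | add x y hx hy => rw [map_add, map_add, hx, hy]
    | tmul p d =>
      induction p using AddMonoidAlgebra.induction_linear with
      | zero => rw [TensorProduct.zero_tmul, map_zero, map_zero]
      | add p q hp hq => rw [TensorProduct.add_tmul, map_add, map_add, hp, hq]
      | single m r =>
        have h : Φ (AddMonoidAlgebra.single m r ⊗ₜ[L] d) = f (AddMonoidAlgebra.single m r) * g d :=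
          Algebra.TensorProduct.lift_tmul _ _ _ _ _
        rw [h, hf, hg, AddMonoidAlgebra.single_mul_single, add_zero, hG, ← Algebra.smul_def,
          ← TensorProduct.smul_tmul, AddMonoidAlgebra.smul_single, smul_eq_mul, mul_one]
  exact Function.Injective.noZeroDivisors Φ (Function.LeftInverse.injective hGΦ) (map_zero Φ)
    (map_mul Φ)

/-- Passing to the fraction field in the first factor. -/
theorem pt_noZeroDivisors_frac (L D P K : Type) [Field L] [Ring D] [Algebra L D] [CommRing P]
    [IsDomain P] [Algebra L P] [Field K] [Algebra P K] [IsFractionRing P K] [Algebra L K]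
    [IsScalarTower L P K] [NoZeroDivisors (P ⊗[L] D)] : NoZeroDivisors (K ⊗[L] D) := by
  let ι : P ⊗[L] D →ₐ[L] K ⊗[L] D :=
    Algebra.TensorProduct.map (IsScalarTower.toAlgHom L P K) (AlgHom.id L D)
  have hι : Function.Injective ι :=
    Module.Flat.rTensor_preserves_injective_linearMap (M := D)
      (IsScalarTower.toAlgHom L P K).toLinearMap (IsFractionRing.injective P K)
  have hsm : ∀ (p : P) (y : P ⊗[L] D), ι (p • y) = algebraMap P K p • ι y := by
    intro p y
    induction y using TensorProduct.induction_on with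
    | zero => simp
    | add x y hx hy => rw [smul_add, map_add, map_add, hx, hy, smul_add]
    | tmul q d => simp [ι, Algebra.smul_def]
  have hden : ∀ x : K ⊗[L] D, ∃ p : P, p ≠ 0 ∧ ∃ y, ι y = algebraMap P K p • x := by
    intro x
    induction x using TensorProduct.induction_on with
    | zero => exact ⟨1, one_ne_zero, 0, by simp⟩
    | add x y hx hy =>
      obtain ⟨p, hp, x', hx'⟩ := hx
      obtain ⟨q, hq, y', hy'⟩ := hy
      refine ⟨p * q, mul_ne_zero hp hq, q • x' + p • y', ?_⟩
      rw [map_add, hsm, hsm, hx', hy', smul_add, smul_smul, smul_smul, ← map_mul, ← map_mul,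
        mul_comm q p]
    | tmul k d =>
      obtain ⟨s, t, ht, rfl⟩ := IsFractionRing.div_surjective (A := P) k
      have ht0 : t ≠ 0 := nonZeroDivisors.ne_zero ht
      have ht1 : algebraMap P K t ≠ 0 := fun h =>
        ht0 (IsFractionRing.injective P K (by rw [h, map_zero]))
      refine ⟨t, ht0, s ⊗ₜ[L] d, ?_⟩
      rw [TensorProduct.smul_tmul', smul_eq_mul, mul_div_cancel₀ _ ht1]
      simp [ι]
  have hz : ∀ (x : K ⊗[L] D) (p : P), p ≠ 0 → ι 0 = algebraMap P K p • x → x = 0 := by
    intro x p hp h
    rw [map_zero, eq_comm, smul_eq_zero] at h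
    rcases h with h | h
    · exact absurd (IsFractionRing.injective P K (by rw [h, map_zero])) hp
    · exact h
  refine ⟨fun {x y} hxy => ?_⟩
  obtain ⟨p, hp, x', hx'⟩ := hden x
  obtain ⟨q, hq, y', hy'⟩ := hden y
  have h : x' * y' = 0 := by
    apply hι
    rw [map_mul, hx', hy', smul_mul_smul_comm, hxy, smul_zero, map_zero]
  rcases mul_eq_zero.1 h with h | h
  · exact Or.inl (hz x p hp (h ▸ hx'))
  · exact Or.inr (hz y q hq (h ▸ hy'))

/-- The divisibility once `K ⊗ D` is a domain. -/
theorem pt_dvd (L D K X : Type) [Field L] [DivisionRing D] [Algebra L D] [Module.Finite L D]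
    [Field K] [Algebra L K] [NoZeroDivisors (K ⊗[L] D)] [AddCommGroup X] [Module K X]
    [FiniteDimensional K X] (ψ : D →+* Module.End K X)
    (hψ : ∀ r : L, ψ (algebraMap L D r) = algebraMap K _ (algebraMap L K r)) :
    Module.finrank L D ∣ Module.finrank K X := by
  haveI : IsDomain (K ⊗[L] D) := NoZeroDivisors.to_isDomain _
  letI : Module L X := Module.compHom X (algebraMap L K)
  haveI : IsScalarTower L K X := ⟨fun l k x => by
    rw [Algebra.smul_def, mul_smul]; rfl⟩
  haveI : SMulCommClass K L X := ⟨fun k l x => smul_comm k (algebraMap L K l) x⟩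
  let ψ' : D →ₐ[L] Module.End K X :=
    { ψ with commutes' := fun r => (hψ r).trans rfl }
  let Ψ : K ⊗[L] D →ₐ[K] Module.End K X :=
    Algebra.TensorProduct.lift (Algebra.ofId K _) ψ' fun k d => Algebra.commutes k (ψ' d)
  letI : DivisionRing (K ⊗[L] D) := divisionRingOfFiniteDimensional K _
  have h := dvd_finrank (L := K) (D := K ⊗[L] D) Ψ ⊤ fun _ _ _ => Submodule.mem_top
  rwa [finrank_top, Module.finrank_baseChange] at h

theorem dvd_finrank_pt {L D τ X : Type} [Field L] [DivisionRing D] [Algebra L D]
    [Module.Finite L D] [Fintype τ] [AddCommGroup X]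
    [Module (FractionRing (MvPolynomial τ L)) X]
    [FiniteDimensional (FractionRing (MvPolynomial τ L)) X]
    (ψ : D →+* Module.End (FractionRing (MvPolynomial τ L)) X)
    (hψ : ∀ r : L, ψ (algebraMap L D r) =
      algebraMap (FractionRing (MvPolynomial τ L)) _ (algebraMap L _ r)) :
    Module.finrank L D ∣ Module.finrank (FractionRing (MvPolynomial τ L)) X := by
  haveI : NoZeroDivisors (MvPolynomial τ L ⊗[L] D) := pt_noZeroDivisors_poly L D (τ →₀ ℕ)
  haveI : NoZeroDivisors (FractionRing (MvPolynomial τ L) ⊗[L] D) :=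
    pt_noZeroDivisors_frac L D (MvPolynomial τ L) _
  exact pt_dvd L D _ X ψ hψ

end Crest.Agent.R181
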