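import Crest.Agent.R181.LAArt

/-! Row 181: Schur's lemma for semilinear families (task LASchur). -/

set_option autoImplicit false

namespace Crest.Agent.R181

open scoped TensorProduct

variable {Ω V J : Type} [Field Ω] [AddCommGroup V] [Module Ω V] [Algebra ℂ Ω]

namespace LASchur

/-- the operator as an additive equivalence -/
noncomputable def eqv (γ : SL Ω V) : V ≃+ V := AddEquiv.ofBijective γ.g γ.bij

omit [Algebra ℂ Ω] in
theorem eqv_apply (γ : SL Ω V) (x : V) : eqv γ x = γ.g x := rfl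

omit [Algebra ℂ Ω] in
theorem eqv_smul (γ : SL Ω V) (c : Ω) (x : V) : eqv γ (c • x) = γ.ρ c • eqv γ x := γ.smul c x

omit [Algebra ℂ Ω] in
theorem eqv_symm_smul (γ : SL Ω V) (c : Ω) (x : V) :
    (eqv γ).symm (c • x) = γ.ρ.symm c • (eqv γ).symm x := by
  apply (eqv γ).injective
  rw [eqv_smul, AddEquiv.apply_symm_apply, AddEquiv.apply_symm_apply, RingEquiv.apply_symm_apply]

/-- conjugation of a linear map -/
noncomputable def cj (γ : SL Ω V) (φ : Module.End Ω V) : Module.End Ω V where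
  toFun x := eqv γ (φ ((eqv γ).symm x))
  map_add' x y := by rw [map_add, map_add, map_add]
  map_smul' c x := by
    rw [eqv_symm_smul, map_smul, eqv_smul, RingEquiv.apply_symm_apply, RingHom.id_apply]

/-- inverse conjugation -/
noncomputable def cj' (γ : SL Ω V) (φ : Module.End Ω V) : Module.End Ω V where
  toFun x := (eqv γ).symm (φ (eqv γ x))
  map_add' x y := by rw [map_add, map_add, map_add]
  map_smul' c x := by
    rw [eqv_smul, map_smul, eqv_symm_smul, RingEquiv.symm_apply_apply, RingHom.id_apply]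

omit [Algebra ℂ Ω] in
theorem cj_apply (γ : SL Ω V) (φ : Module.End Ω V) (x : V) :
    cj γ φ x = eqv γ (φ ((eqv γ).symm x)) := rfl

omit [Algebra ℂ Ω] in
theorem cj'_apply (γ : SL Ω V) (φ : Module.End Ω V) (x : V) :
    cj' γ φ x = (eqv γ).symm (φ (eqv γ x)) := rfl

/-- conjugation as a semilinear operator -/
noncomputable def conj (γ : SL Ω V) : SL Ω (Module.End Ω V) where
  ρ := γ.ρ
  g :=
    { toFun := cj γ
      map_zero' := by
        ext x
        rw [cj_apply, LinearMap.zero_apply, map_zero, LinearMap.zero_apply]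
      map_add' := fun φ ψ => by
        ext x
        rw [cj_apply, LinearMap.add_apply, map_add, LinearMap.add_apply, cj_apply, cj_apply] }
  smul c φ := by
    ext x
    exact eqv_smul γ c _
  bij := by
    refine Function.bijective_iff_has_inverse.2 ⟨cj' γ, fun φ => ?_, fun φ => ?_⟩
    · ext x
      change (eqv γ).symm (eqv γ (φ ((eqv γ).symm (eqv γ x)))) = φ x
      rw [AddEquiv.symm_apply_apply, AddEquiv.symm_apply_apply]
    · ext x
      change eqv γ ((eqv γ).symm (φ (eqv γ ((eqv γ).symm x)))) = φ x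
      rw [AddEquiv.apply_symm_apply, AddEquiv.apply_symm_apply]

omit [Algebra ℂ Ω] in
theorem conj_fix (γ : SL Ω V) (φ : Module.End Ω V) (h : ∀ x, φ (γ.g x) = γ.g (φ x)) :
    (conj γ).g φ = φ := by
  ext x
  change γ.g (φ ((eqv γ).symm x)) = φ x
  rw [← h, ← eqv_apply, AddEquiv.apply_symm_apply]

section
variable (K : Type) [Field K] [Algebra K Ω] [Module K V] [IsScalarTower K Ω V]

/-- the commutant -/
def comm (Γ : J → SL Ω V) (h : ∀ j (k : K), (Γ j).ρ (algebraMap K Ω k) = algebraMap K Ω k) :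
    Subalgebra K (Module.End Ω V) where
  carrier := {φ | ∀ γ x, φ ((Γ γ).g x) = (Γ γ).g (φ x)}
  mul_mem' := by
    intro φ ψ hφ hψ γ x
    rw [Module.End.mul_apply, Module.End.mul_apply, hψ, hφ]
  add_mem' := by
    intro φ ψ hφ hψ γ x
    rw [LinearMap.add_apply, LinearMap.add_apply, hψ, hφ, map_add]
  algebraMap_mem' := by
    intro k γ x
    rw [Module.algebraMap_end_apply, Module.algebraMap_end_apply, ← algebraMap_smul Ω k x,
      (Γ γ).smul, h, algebraMap_smul]

omit [Algebra ℂ Ω] in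
theorem comm_unit [FiniteDimensional Ω V] {Γ : J → SL Ω V}
    (h : ∀ j (k : K), (Γ j).ρ (algebraMap K Ω k) = algebraMap K Ω k) (hs : Simple Γ)
    (φ : comm K Γ h) : IsUnit φ ∨ φ = 0 := by
  have hφ : ∀ γ x, φ.1 ((Γ γ).g x) = (Γ γ).g (φ.1 x) := φ.2
  rcases hs (LinearMap.ker φ.1) (fun γ x hx => by
    rw [LinearMap.mem_ker] at hx ⊢
    rw [hφ, hx, map_zero]) with h0 | h0
  · left
    have hu : IsUnit φ.1 := (LinearMap.isUnit_iff_ker_eq_bot _).2 h0
    obtain ⟨u, hu⟩ := hu
    have e1 : φ.1 * ↑u⁻¹ = 1 := by rw [← hu, Units.mul_inv]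
    have e2 : ↑u⁻¹ * φ.1 = 1 := by rw [← hu, Units.inv_mul]
    have hm : (↑u⁻¹ : Module.End Ω V) ∈ comm K Γ h := by
      intro γ x
      apply LinearMap.ker_eq_bot.1 h0
      rw [hφ, ← Module.End.mul_apply, ← Module.End.mul_apply, e1, Module.End.one_apply,
        Module.End.one_apply]
    exact ⟨⟨φ, ⟨_, hm⟩, Subtype.ext e1, Subtype.ext e2⟩, rfl⟩
  · right
    exact Subtype.ext (LinearMap.ker_eq_top.1 h0)

omit [Algebra ℂ Ω] in
theorem comm_indep {Γ : J → SL Ω V}
    (h : ∀ j (k : K), (Γ j).ρ (algebraMap K Ω k) = algebraMap K Ω k)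
    (hfix : ∀ ω : Ω, (∀ j, (Γ j).ρ ω = ω) → ∃ k : K, algebraMap K Ω k = ω) {ι : Type}
    (v : ι → comm K Γ h) (hv : LinearIndependent K v) :
    LinearIndependent Ω (fun i => (v i : Module.End Ω V)) :=
  art K (fun j => conj (Γ j)) hfix _ (fun j i => conj_fix (Γ j) _ ((v i).2 j))
    (hv.map' (comm K Γ h).val.toLinearMap (LinearMap.ker_eq_bot.2 Subtype.val_injective))

omit [Algebra ℂ Ω] in
theorem comm_fin [FiniteDimensional Ω V] {Γ : J → SL Ω V}
    (h : ∀ j (k : K), (Γ j).ρ (algebraMap K Ω k) = algebraMap K Ω k)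
    (hfix : ∀ ω : Ω, (∀ j, (Γ j).ρ ω = ω) → ∃ k : K, algebraMap K Ω k = ω) :
    Module.Finite K (comm K Γ h) := by
  let b := Module.Basis.ofVectorSpace K (comm K Γ h)
  have := (comm_indep K h hfix b b.linearIndependent).finite_of_isNoetherian
  exact Module.Finite.of_basis b

omit [Algebra ℂ Ω] in
theorem comm_desc [FiniteDimensional Ω V] {Γ : J → SL Ω V}
    (h : ∀ j (k : K), (Γ j).ρ (algebraMap K Ω k) = algebraMap K Ω k)
    (hfix : ∀ ω : Ω, (∀ j, (Γ j).ρ ω = ω) → ∃ k : K, algebraMap K Ω k = ω)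
    (κ E : Type) [Fintype κ] (z : κ → E → comm K Γ h) (t : κ → Ω)
    (ht : ∀ e, ∑ k, t k • (z k e : Module.End Ω V) = 0) :
    t ∈ Submodule.span Ω {s : κ → Ω | ∃ t₀ : κ → K,
      (∀ e, ∑ k, t₀ k • z k e = 0) ∧ s = fun k => algebraMap K Ω (t₀ k)} := by
  classical
  have := comm_fin K h hfix
  let d := Module.finBasis K (comm K Γ h)
  have hd := comm_indep K h hfix d d.linearIndependent
  have key : ∀ e m, ∑ k, d.repr (z k e) m • t k = 0 := by
    intro e m
    refine Fintype.linearIndependent_iff.1 hd (fun m => ∑ k, d.repr (z k e) m • t k) ?_ m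
    rw [← ht e]
    simp only [Finset.sum_smul]
    rw [Finset.sum_comm]
    refine Finset.sum_congr rfl fun k _ => ?_
    have e1 : (z k e : Module.End Ω V) = ∑ m, d.repr (z k e) m • (d m : Module.End Ω V) := by
      conv_lhs => rw [← d.sum_repr (z k e)]
      rw [AddSubmonoidClass.coe_finsetSum]
      rfl
    rw [e1, Finset.smul_sum]
    refine Finset.sum_congr rfl fun m _ => ?_
    rw [smul_assoc, smul_comm]
  let w := Module.Basis.ofVectorSpace K Ω
  let F := Finset.univ.biUnion fun k => (w.repr (t k)).support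
  have e2 : t = ∑ b ∈ F, w b • fun k => algebraMap K Ω (w.repr (t k) b) := by
    funext k
    rw [Finset.sum_apply]
    conv_lhs => rw [← w.linearCombination_repr (t k)]
    rw [Finsupp.linearCombination_apply, Finsupp.sum_of_support_subset (s := F) _
      (Finset.subset_biUnion_of_mem (fun k => (w.repr (t k)).support) (Finset.mem_univ k))
      (fun i a => a • w i) (fun b _ => zero_smul _ _)]
    refine Finset.sum_congr rfl fun b _ => ?_
    rw [Pi.smul_apply, smul_eq_mul, Algebra.smul_def, mul_comm]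
  rw [e2]
  refine Submodule.sum_mem _ fun b _ => Submodule.smul_mem _ _ (Submodule.subset_span
    ⟨fun k => w.repr (t k) b, fun e => ?_, rfl⟩)
  apply d.repr.injective
  ext m
  have e3 := congrArg (fun x => w.repr x b) (key e m)
  simp only [map_sum, map_smul, map_zero, Finsupp.coe_finsetSum, Finset.sum_apply,
    Finsupp.smul_apply, smul_eq_mul, Finsupp.zero_apply] at e3 ⊢
  rw [← e3]
  exact Finset.sum_congr rfl fun k _ => mul_comm _ _

theorem schurK [Algebra ℂ K] [IsScalarTower ℂ K Ω] [FiniteDimensional Ω V] [Nontrivial V]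
    {Γ : J → SL Ω V} (h : ∀ j (k : K), (Γ j).ρ (algebraMap K Ω k) = algebraMap K Ω k)
    (hfix : ∀ ω : Ω, (∀ j, (Γ j).ρ ω = ω) → ∃ k : K, algebraMap K Ω k = ω) (hs : Simple Γ) :
    Nonempty (SchurOut Γ) := by
  let : DivisionRing (comm K Γ h) := DivisionRing.ofIsUnitOrEqZero (comm_unit K h hs)
  exact ⟨{
    A := { L := K, D := comm K Γ h }
    i := IsScalarTower.toAlgHom ℂ K Ω
    j := (comm K Γ h).val.toRingHom
    fin := comm_fin K h hfix
    inj := Subtype.val_injective
    range_i := fun ω => ⟨fun ⟨r, hr⟩ γ => hr ▸ h γ r, hfix ω⟩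
    range_j := fun φ => ⟨fun ⟨d, hd⟩ => hd ▸ d.2, fun hφ => ⟨⟨φ, hφ⟩, rfl⟩⟩
    hl := fun r => by
      ext x
      change r • x = algebraMap K Ω r • x
      rw [algebraMap_smul]
    desc := fun κ E _ z t ht => comm_desc K h hfix κ E z t ht }⟩

end

/-- the fixed field -/
def fixF (Γ : J → SL Ω V) (hC : ∀ j (c : ℂ), (Γ j).ρ (algebraMap ℂ Ω c) = algebraMap ℂ Ω c) :
    IntermediateField ℂ Ω where
  carrier := {ω | ∀ j, (Γ j).ρ ω = ω}
  mul_mem' := by
    intro a b ha hb j
    rw [map_mul, ha j, hb j]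
  add_mem' := by
    intro a b ha hb j
    rw [map_add, ha j, hb j]
  algebraMap_mem' := fun c j => hC j c
  inv_mem' := by
    intro a ha j
    rw [map_inv₀, ha j]

end LASchur

theorem schur [FiniteDimensional Ω V] [Nontrivial V] (Γ : J → SL Ω V)
    (hC : ∀ j (c : ℂ), (Γ j).ρ (algebraMap ℂ Ω c) = algebraMap ℂ Ω c) (hs : Simple Γ) :
    Nonempty (SchurOut Γ) :=
  LASchur.schurK (LASchur.fixF Γ hC) (fun j k => k.2 j) (fun ω h => ⟨⟨ω, h⟩, rfl⟩) hs

theorem SchurOut.exists_l {Γ : J → SL Ω V} (S : SchurOut Γ) {L : Type} [Field L] [Algebra ℂ L]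
    (m : L →ₐ[ℂ] Ω) (h : ∀ j r, (Γ j).ρ (m r) = m r) :
    ∃ l : L →ₐ[ℂ] S.A.L, ∀ r, S.i (l r) = m r := by
  choose l hl using fun r => (S.range_i (m r)).2 fun γ => h γ r
  have hi : Function.Injective S.i := (S.i : S.A.L →+* Ω).injective
  refine ⟨
    { toFun := l
      map_one' := hi ?_
      map_mul' := fun x y => hi ?_
      map_zero' := hi ?_
      map_add' := fun x y => hi ?_
      commutes' := fun c => hi ?_ }, hl⟩
  · rw [hl, map_one, map_one]
  · rw [hl, map_mul, map_mul, hl, hl]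
  · rw [hl, map_zero, map_zero]
  · rw [hl, map_add, map_add, hl, hl]
  · rw [hl, AlgHom.commutes, AlgHom.commutes]

theorem SchurOut.exists_d {Γ : J → SL Ω V} (S : SchurOut Γ) {R : Type} [Ring R]
    (ψ : R →+* Module.End Ω V) (h : ∀ z j x, ψ z ((Γ j).g x) = (Γ j).g (ψ z x)) :
    ∃ d : R →+* S.A.D, ∀ z, S.j (d z) = ψ z := by
  choose d hd using fun z => (S.range_j (ψ z)).2 (h z)
  refine ⟨
    { toFun := d
      map_one' := S.inj ?_
      map_mul' := fun x y => S.inj ?_
      map_zero' := S.inj ?_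
      map_add' := fun x y => S.inj ?_ }, hd⟩
  · rw [hd, map_one, map_one]
  · rw [hd, map_mul, map_mul, hd, hd]
  · rw [hd, map_zero, map_zero]
  · rw [hd, map_add, map_add, hd, hd]

/-- a polynomial with invariant coefficients comes from the fixed field -/
theorem SchurOut.exists_poly {Γ : J → SL Ω V} (S : SchurOut Γ) (p : Polynomial Ω)
    (h : ∀ j, p.map ((Γ j).ρ : Ω →+* Ω) = p) :
    ∃ q : Polynomial S.A.L, q.map (S.i : S.A.L →+* Ω) = p := by
  rw [← Polynomial.mem_lifts, Polynomial.lifts_iff_coeff_lifts]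
  intro n
  refine (S.range_i (p.coeff n)).2 fun γ => ?_
  have := congrArg (fun q => q.coeff n) (h γ)
  simpa only [Polynomial.coeff_map, RingHom.coe_coe] using this

theorem SchurOut.j_smul {Γ : J → SL Ω V} (S : SchurOut Γ) (r : S.A.L) (d : S.A.D) :
    S.j (r • d) = S.i r • S.j d := by
  rw [Algebra.smul_def, map_mul, S.hl, ← Algebra.smul_def]

theorem SchurOut.j_aeval {Γ : J → SL Ω V} (S : SchurOut Γ) (p : Polynomial S.A.L) (d : S.A.D) :
    S.j (Polynomial.aeval d p) = Polynomial.aeval (S.j d) (p.map (S.i : S.A.L →+* Ω)) := by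
  induction p using Polynomial.induction_on' with
  | add p q hp hq => rw [map_add, map_add, Polynomial.map_add, map_add, hp, hq]
  | monomial n a =>
    rw [Polynomial.map_monomial, Polynomial.aeval_monomial, Polynomial.aeval_monomial, map_mul,
      map_pow, S.hl]
    rfl

end Crest.Agent.R181
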