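import Crest.Agent.R181.LADefs

/-! Row 181: extension of a semilinear family to rational functions (task LAVer1). -/

set_option autoImplicit false

namespace Crest.Agent.R181

open scoped TensorProduct

open MvPolynomial

/-- The extended family acts on constants, variables and pure tensors as expected. -/
def VersalExt {Ω U ι J : Type} [Field Ω] [AddCommGroup U] [Module Ω U] (Γ : J → SL Ω U)
    (π : J → Equiv.Perm ι) (lam : J → ι → Ωˣ)
    (Γ' : J → SL (FractionRing (MvPolynomial ι Ω)) (FractionRing (MvPolynomial ι Ω) ⊗[Ω] U)) :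
    Prop :=
  (∀ j c, (Γ' j).ρ (algebraMap Ω _ c) = algebraMap Ω _ ((Γ j).ρ c)) ∧
  (∀ j i, (Γ' j).ρ (algebraMap (MvPolynomial ι Ω) _ (X i)) =
    algebraMap (MvPolynomial ι Ω) _ (C (lam j i : Ω) * X (π j i))) ∧
  ∀ j α x, (Γ' j).g (α ⊗ₜ[Ω] x) = (Γ' j).ρ α ⊗ₜ[Ω] (Γ j).g x

theorem anchor_LAVer1 : True := by
  have := @VersalExt.eq_1
  trivial

namespace LAVer1

/-- the substitution on polynomials -/
noncomputable def polyEquiv {Ω ι : Type} [Field Ω] (ρ : Ω ≃+* Ω) (π : Equiv.Perm ι)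
    (lam : ι → Ωˣ) : MvPolynomial ι Ω ≃+* MvPolynomial ι Ω :=
  RingEquiv.ofRingHom
    (eval₂Hom (C.comp (ρ : Ω →+* Ω)) fun i => C (lam i : Ω) * X (π i))
    (eval₂Hom (C.comp (ρ.symm : Ω →+* Ω))
      fun i => C (ρ.symm ((lam (π.symm i))⁻¹ : Ωˣ)) * X (π.symm i))
    (by
      refine ringHom_ext (fun c => by simp) fun i => ?_
      simp [← mul_assoc, ← C_mul])
    (by
      refine ringHom_ext (fun c => by simp) fun i => ?_
      simp [← mul_assoc, ← C_mul])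

theorem polyEquiv_C {Ω ι : Type} [Field Ω] (ρ : Ω ≃+* Ω) (π : Equiv.Perm ι) (lam : ι → Ωˣ)
    (c : Ω) : polyEquiv ρ π lam (C c) = C (ρ c) := by
  simp [polyEquiv]

theorem polyEquiv_X {Ω ι : Type} [Field Ω] (ρ : Ω ≃+* Ω) (π : Equiv.Perm ι) (lam : ι → Ωˣ)
    (i : ι) : polyEquiv ρ π lam (X i) = C (lam i : Ω) * X (π i) := by
  simp [polyEquiv]

section tensor

variable {Ω A U : Type} [Field Ω] [Field A] [Algebra Ω A] [AddCommGroup U] [Module Ω U]

/-- tensor product of two semilinear maps -/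
noncomputable def tmap (ρ : Ω → Ω) (ρ' : A →+* A) (g : U →+ U)
    (h : ∀ c, ρ' (algebraMap Ω A c) = algebraMap Ω A (ρ c))
    (hg : ∀ (c : Ω) x, g (c • x) = ρ c • g x) : A ⊗[Ω] U →+ A ⊗[Ω] U :=
  TensorProduct.liftAddHom
    (AddMonoidHom.mk' (fun α => (TensorProduct.mk Ω A U (ρ' α)).toAddMonoidHom.comp g) (by
      intro a b
      ext x
      simp))
    (by
      intro r m x
      show ρ' (r • m) ⊗ₜ[Ω] g x = ρ' m ⊗ₜ[Ω] g (r • x)
      rw [hg, Algebra.smul_def, map_mul, h, ← Algebra.smul_def, TensorProduct.smul_tmul])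

theorem tmap_tmul (ρ : Ω → Ω) (ρ' : A →+* A) (g : U →+ U)
    (h : ∀ c, ρ' (algebraMap Ω A c) = algebraMap Ω A (ρ c))
    (hg : ∀ (c : Ω) x, g (c • x) = ρ c • g x) (α : A) (x : U) :
    tmap ρ ρ' g h hg (α ⊗ₜ[Ω] x) = ρ' α ⊗ₜ[Ω] g x :=
  TensorProduct.liftAddHom_tmul _ _ _ _

theorem tmap_smul (ρ : Ω → Ω) (ρ' : A →+* A) (g : U →+ U)
    (h : ∀ c, ρ' (algebraMap Ω A c) = algebraMap Ω A (ρ c))
    (hg : ∀ (c : Ω) x, g (c • x) = ρ c • g x) (c : A) (z : A ⊗[Ω] U) :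
    tmap ρ ρ' g h hg (c • z) = ρ' c • tmap ρ ρ' g h hg z := by
  induction z using TensorProduct.induction_on with
  | zero => simp
  | tmul α x =>
    rw [TensorProduct.smul_tmul', tmap_tmul, tmap_tmul, TensorProduct.smul_tmul', smul_eq_mul,
      smul_eq_mul, map_mul]
  | add x y hx hy => rw [smul_add, map_add, map_add, smul_add, hx, hy]

theorem tmap_bij (Γ : SL Ω U) (ρ' : A ≃+* A)
    (h : ∀ c, ρ' (algebraMap Ω A c) = algebraMap Ω A (Γ.ρ c)) :
    Function.Bijective (tmap Γ.ρ (ρ' : A →+* A) Γ.g h Γ.smul) := by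
  let e : U ≃+ U := AddEquiv.ofBijective Γ.g Γ.bij
  have he : ∀ x, e x = Γ.g x := fun _ => rfl
  have h' : ∀ c, (ρ'.symm : A →+* A) (algebraMap Ω A c) = algebraMap Ω A (Γ.ρ.symm c) := by
    intro c
    apply ρ'.injective
    rw [h]
    simp
  have hg' : ∀ (c : Ω) x, (e.symm : U →+ U) (c • x) = Γ.ρ.symm c • (e.symm : U →+ U) x := by
    intro c x
    apply e.injective
    rw [he (_ • _), Γ.smul, ← he]
    simp
  refine Function.bijective_iff_has_inverse.2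
    ⟨tmap Γ.ρ.symm (ρ'.symm : A →+* A) (e.symm : U →+ U) h' hg', fun z => ?_, fun z => ?_⟩
  · induction z using TensorProduct.induction_on with
    | zero => simp
    | tmul α x =>
      rw [tmap_tmul, tmap_tmul, ← he]
      simp
    | add x y hx hy => rw [map_add, map_add, hx, hy]
  · induction z using TensorProduct.induction_on with
    | zero => simp
    | tmul α x =>
      rw [tmap_tmul, tmap_tmul, ← he]
      simp
    | add x y hx hy => rw [map_add, map_add, hx, hy]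

/-- extension of scalars of a semilinear operator -/
noncomputable def ext (Γ : SL Ω U) (ρ' : A ≃+* A)
    (h : ∀ c, ρ' (algebraMap Ω A c) = algebraMap Ω A (Γ.ρ c)) : SL A (A ⊗[Ω] U) where
  ρ := ρ'
  g := tmap Γ.ρ (ρ' : A →+* A) Γ.g h Γ.smul
  smul := tmap_smul Γ.ρ (ρ' : A →+* A) Γ.g h Γ.smul
  bij := tmap_bij Γ ρ' h

theorem ext_ρ (Γ : SL Ω U) (ρ' : A ≃+* A)
    (h : ∀ c, ρ' (algebraMap Ω A c) = algebraMap Ω A (Γ.ρ c)) : (ext Γ ρ' h).ρ = ρ' := rfl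

theorem ext_g (Γ : SL Ω U) (ρ' : A ≃+* A)
    (h : ∀ c, ρ' (algebraMap Ω A c) = algebraMap Ω A (Γ.ρ c)) (α : A) (x : U) :
    (ext Γ ρ' h).g (α ⊗ₜ[Ω] x) = (ext Γ ρ' h).ρ α ⊗ₜ[Ω] Γ.g x :=
  tmap_tmul Γ.ρ (ρ' : A →+* A) Γ.g h Γ.smul α x

end tensor

/-- the substitution on rational functions -/
noncomputable def fracEquiv {Ω ι : Type} [Field Ω] (ρ : Ω ≃+* Ω) (π : Equiv.Perm ι)
    (lam : ι → Ωˣ) : FractionRing (MvPolynomial ι Ω) ≃+* FractionRing (MvPolynomial ι Ω) :=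
  IsFractionRing.ringEquivOfRingEquiv (polyEquiv ρ π lam)

theorem fracEquiv_alg {Ω ι : Type} [Field Ω] (ρ : Ω ≃+* Ω) (π : Equiv.Perm ι) (lam : ι → Ωˣ)
    (f : MvPolynomial ι Ω) : fracEquiv ρ π lam (algebraMap (MvPolynomial ι Ω) _ f) =
      algebraMap (MvPolynomial ι Ω) _ (polyEquiv ρ π lam f) :=
  IsFractionRing.ringEquivOfRingEquiv_algebraMap _ _

theorem fracEquiv_C {Ω ι : Type} [Field Ω] (ρ : Ω ≃+* Ω) (π : Equiv.Perm ι) (lam : ι → Ωˣ)
    (c : Ω) : fracEquiv ρ π lam (algebraMap Ω _ c) = algebraMap Ω _ (ρ c) := by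
  rw [IsScalarTower.algebraMap_apply Ω (MvPolynomial ι Ω) (FractionRing _),
    IsScalarTower.algebraMap_apply Ω (MvPolynomial ι Ω) (FractionRing _), fracEquiv_alg,
    algebraMap_eq, polyEquiv_C]

end LAVer1

theorem exists_versalExt {Ω U ι J : Type} [Field Ω] [AddCommGroup U] [Module Ω U]
    (Γ : J → SL Ω U) (π : J → Equiv.Perm ι) (lam : J → ι → Ωˣ) :
    ∃ Γ', VersalExt Γ π lam Γ' := by
  refine ⟨fun j => LAVer1.ext (Γ j) (LAVer1.fracEquiv (Γ j).ρ (π j) (lam j))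
    (LAVer1.fracEquiv_C (Γ j).ρ (π j) (lam j)), fun j c => ?_, fun j i => ?_, fun j α x => ?_⟩
  · rw [LAVer1.ext_ρ, LAVer1.fracEquiv_C]
  · rw [LAVer1.ext_ρ, LAVer1.fracEquiv_alg, LAVer1.polyEquiv_X]
  · exact LAVer1.ext_g _ _ _ α x

end Crest.Agent.R181
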