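import Crest.Agent.R181.LAFd

/-! Row 181: leading vectors of a submodule of polynomials with vector coefficients. -/

set_option autoImplicit false

namespace Crest.Agent.R181.LAVer2

open Module

variable {Ω U : Type} [Field Ω] [AddCommGroup U] [Module Ω U]

/-- the dimension of a space of finitely supported functions is the sum of the dimensions of the
spaces of leading vectors -/
theorem finrank_eq_sum [FiniteDimensional Ω U] {κ L : Type*} [LinearOrder L] (key : κ → L)
    (hk : Function.Injective key) (s : Finset κ) :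
    ∀ Y : Submodule Ω (κ →₀ U), Y ≤ Finsupp.supported U Ω (s : Set κ) →
      finrank Ω Y = ∑ c ∈ s, finrank Ω
        ((Y ⊓ Finsupp.supported U Ω {k | key k ≤ key c}).map (Finsupp.lapply c)) := by
  classical
  induction s using Finset.induction_on_max_value key with
  | empty =>
    intro Y hY
    rw [Finset.coe_empty, Finsupp.supported_empty, le_bot_iff] at hY
    rw [hY, Finset.sum_empty, finrank_bot]
  | insert a t ha hle ih =>
    intro Y hY
    have fin0 : Module.Finite Ω (Finsupp.supported U Ω ((insert a t : Finset κ) : Set κ)) :=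
      Module.Finite.equiv (Finsupp.supportedEquivFinsupp _).symm
    have finY : FiniteDimensional Ω Y := Submodule.finiteDimensional_of_le hY
    let Y' : Submodule Ω (κ →₀ U) := Y ⊓ LinearMap.ker (Finsupp.lapply a)
    have hY' : Y' ≤ Finsupp.supported U Ω (t : Set κ) := by
      intro p hp k hk
      have h1 := hY hp.1 hk
      rw [Finset.mem_coe, Finset.mem_insert] at h1
      rcases h1 with rfl | h1
      · exact (Finsupp.mem_support_iff.1 hk hp.2).elim
      · exact h1
    have h1 := LinearMap.finrank_range_add_finrank_ker ((Finsupp.lapply a).domRestrict Y :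
      Y →ₗ[Ω] U)
    have h2 : finrank Ω (LinearMap.ker ((Finsupp.lapply a).domRestrict Y : Y →ₗ[Ω] U)) =
        finrank Ω Y' := by
      rw [← Submodule.finrank_map_subtype_eq, LinearMap.ker_domRestrict, Submodule.map_comap_subtype]
    have h3 : Y ⊓ Finsupp.supported U Ω {k | key k ≤ key a} = Y := by
      refine inf_eq_left.2 (hY.trans (Finsupp.supported_mono fun k hk => ?_))
      rw [Finset.mem_coe, Finset.mem_insert] at hk
      rcases hk with rfl | hk
      · exact le_rfl
      · exact hle k hk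
    rw [Finset.sum_insert ha, h3, ← h1, h2, LinearMap.range_domRestrict, ih Y' hY']
    congr 1
    refine Finset.sum_congr rfl fun c hc => ?_
    have h4 : Y' ⊓ Finsupp.supported U Ω {k | key k ≤ key c} =
        Y ⊓ Finsupp.supported U Ω {k | key k ≤ key c} := by
      refine le_antisymm (inf_le_inf_right _ inf_le_left) fun p hp => ⟨⟨hp.1, ?_⟩, hp.2⟩
      by_contra h0
      have h5 : key a ≤ key c := hp.2 (Finsupp.mem_support_iff.2 h0)
      exact ha (hk (le_antisymm h5 (hle c hc)) ▸ hc)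
    rw [h4]

variable {ι : Type} [Fintype ι]

theorem exists_order : ∃ mo : MonomialOrder.{0, 0} ι,
    ∀ k c : ι →₀ ℕ, mo.toSyn k ≤ mo.toSyn c → k.degree ≤ c.degree := by
  let _ : LinearOrder ι := LinearOrder.lift' (Fintype.equivFin ι) (Fintype.equivFin ι).injective
  exact ⟨MonomialOrder.degLex, fun k c h =>
    Finsupp.DegLex.monotone_degree (MonomialOrder.degLex_le_iff.1 h)⟩

theorem degree_equiv (π : Equiv.Perm ι) (k : ι →₀ ℕ) :
    (Finsupp.equivMapDomain π k).degree = k.degree := by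
  rw [Finsupp.degree_eq_sum, Finsupp.degree_eq_sum]
  exact Equiv.sum_comp π.symm k

omit [Fintype ι] in
theorem equiv_inj (π : Equiv.Perm ι) :
    Function.Injective (Finsupp.equivMapDomain π : (ι →₀ ℕ) → ι →₀ ℕ) :=
  (Finsupp.equivCongrLeft π).injective

omit [Fintype ι] in
theorem equiv_surj (π : Equiv.Perm ι) :
    Function.Surjective (Finsupp.equivMapDomain π : (ι →₀ ℕ) → ι →₀ ℕ) :=
  (Finsupp.equivCongrLeft π).surjective

omit [Fintype ι] in
theorem polyOp_apply (g : U →+ U) (π : Equiv.Perm ι) (lam : ι → Ωˣ) (p : (ι →₀ ℕ) →₀ U)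
    (k : ι →₀ ℕ) : polyOp g π lam p (Finsupp.equivMapDomain π k) =
      ((k.prod fun i n => lam i ^ n : Ωˣ) : Ω) • g (p k) := by
  classical
  induction p using Finsupp.induction_linear with
  | zero => simp
  | add p q hp hq => rw [map_add, Finsupp.add_apply, hp, hq, Finsupp.add_apply, map_add, smul_add]
  | single k' x =>
    rw [polyOp_single, Finsupp.single_apply, Finsupp.single_apply]
    by_cases h : k' = k
    · subst h
      rw [if_pos rfl, if_pos rfl]
    · rw [if_neg h, if_neg fun h' => h (equiv_inj π h'), map_zero, smul_zero]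

/-- the part of degree `n` -/
noncomputable def top (n : ℕ) : ((ι →₀ ℕ) →₀ U) →ₗ[Ω] ((ι →₀ ℕ) →₀ U) where
  toFun p := p.filter fun k => k.degree = n
  map_add' _ _ := Finsupp.filter_add
  map_smul' _ _ := Finsupp.filter_smul

omit [Fintype ι] in
theorem top_apply (n : ℕ) (p : (ι →₀ ℕ) →₀ U) (k : ι →₀ ℕ) :
    top (Ω := Ω) n p k = if k.degree = n then p k else 0 := Finsupp.filter_apply _ _ _

/-- Either `N` vanishes or all vectors occur as leading vectors at one exponent. -/
theorem dichotomy [FiniteDimensional Ω U] {J : Type} (Γ : J → SL Ω U) (π : J → Equiv.Perm ι)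
    (lam : J → ι → Ωˣ) (h : VersalDiv Γ π lam) (mo : MonomialOrder.{0, 0} ι)
    (hmo : ∀ k c : ι →₀ ℕ, mo.toSyn k ≤ mo.toSyn c → k.degree ≤ c.degree)
    (N : Submodule Ω ((ι →₀ ℕ) →₀ U))
    (hsh : ∀ d : ι →₀ ℕ, ∀ p ∈ N, Finsupp.mapDomain (· + d) p ∈ N)
    (hop : ∀ j, ∀ p ∈ N, polyOp (Γ j).g (π j) (lam j) p ∈ N) :
    N = ⊥ ∨ ∃ c, ∀ u : U, ∃ p ∈ N, (∀ k ∈ p.support, mo.toSyn k ≤ mo.toSyn c) ∧ p c = u := by
  classical
  let Ld : (ι →₀ ℕ) → Submodule Ω U := fun c =>
    (N ⊓ Finsupp.supported U Ω {k | mo.toSyn k ≤ mo.toSyn c}).map (Finsupp.lapply c)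
  let f : (ι →₀ ℕ) → ℕ := fun c => finrank Ω (Ld c)
  have hmono : Monotone f := by
    intro c c' hcc
    obtain ⟨d, rfl⟩ := exists_add_of_le hcc
    refine Submodule.finrank_mono ?_
    rintro _ ⟨p, hp, rfl⟩
    refine ⟨Finsupp.mapDomain (· + d) p, ⟨hsh d p hp.1, fun k hk => ?_⟩, ?_⟩
    · obtain ⟨k', hk', rfl⟩ := Finset.mem_image.1 (Finsupp.mapDomain_support hk)
      change mo.toSyn (k' + d) ≤ mo.toSyn (c + d)
      rw [map_add, map_add]
      exact add_le_add_left (hp.2 hk') _
    · exact Finsupp.mapDomain_apply (add_left_injective d) p c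
  have hdiv : ∀ n : ℕ, finrank Ω U ∣ ∑ c ∈ Finset.finsuppAntidiag (Finset.univ : Finset ι) n, f c := by
    intro n
    have hmem : ∀ c : ι →₀ ℕ, c ∈ Finset.finsuppAntidiag (Finset.univ : Finset ι) n ↔
        c.degree = n := by
      intro c
      rw [Finset.mem_finsuppAntidiag, Finsupp.degree_eq_sum]
      simp
    let X : Submodule Ω ((ι →₀ ℕ) →₀ U) :=
      (N ⊓ Finsupp.supported U Ω {k | k.degree ≤ n}).map (top n)
    have hX : X ≤ Finsupp.supported U Ω {k | k.degree = n} := by
      rintro _ ⟨p, -, rfl⟩ k hk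
      have := Finsupp.mem_support_iff.1 hk
      rw [top_apply] at this
      by_contra h0
      exact this (if_neg h0)
    have hst : ∀ j, ∀ x ∈ X, polyOp (Γ j).g (π j) (lam j) x ∈ X := by
      rintro j _ ⟨p, hp, rfl⟩
      refine ⟨polyOp (Γ j).g (π j) (lam j) p, ⟨hop j p hp.1, fun k hk => ?_⟩, ?_⟩
      · obtain ⟨k, rfl⟩ := equiv_surj (π j) k
        have h1 := Finsupp.mem_support_iff.1 hk
        rw [polyOp_apply] at h1
        have h2 : p k ≠ 0 := fun h0 => h1 (by rw [h0, map_zero, smul_zero])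
        change (Finsupp.equivMapDomain (π j) k).degree ≤ n
        rw [degree_equiv]
        exact hp.2 (Finsupp.mem_support_iff.2 h2)
      · ext k
        obtain ⟨k, rfl⟩ := equiv_surj (π j) k
        rw [top_apply, polyOp_apply, polyOp_apply, top_apply, degree_equiv]
        split_ifs
        · rfl
        · rw [map_zero, smul_zero]
    have h1 := h n X hX hst
    rw [finrank_eq_sum mo.toSyn mo.toSyn.injective
      (Finset.finsuppAntidiag (Finset.univ : Finset ι) n) X
      (hX.trans (Finsupp.supported_mono fun c hc => (hmem c).2 hc))] at h1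
    refine h1.trans (dvd_of_eq (Finset.sum_congr rfl fun c hc => ?_))
    have hc' := (hmem c).1 hc
    refine congrArg (fun Z : Submodule Ω U => finrank Ω Z) (le_antisymm ?_ ?_)
    · rintro _ ⟨_, ⟨⟨p, hp, rfl⟩, hx⟩, rfl⟩
      refine ⟨p, ⟨hp.1, fun k hk => ?_⟩, ?_⟩
      · by_cases hd : k.degree = n
        · refine hx (Finsupp.mem_support_iff.2 ?_)
          rw [top_apply, if_pos hd]
          exact Finsupp.mem_support_iff.1 hk
        · have h2 : k.degree ≤ n := hp.2 hk
          by_contra h3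
          have h4 := hmo c k (le_of_lt (not_le.1 h3))
          omega
      · change p c = top (Ω := Ω) n p c
        rw [top_apply, if_pos hc']
    · rintro _ ⟨p, hp, rfl⟩
      refine ⟨top (Ω := Ω) n p, ⟨⟨p, ⟨hp.1, fun k hk => ?_⟩, rfl⟩, fun k hk => ?_⟩, ?_⟩
      · exact hc' ▸ hmo k c (hp.2 hk)
      · have := Finsupp.mem_support_iff.1 hk
        rw [top_apply] at this
        refine hp.2 (Finsupp.mem_support_iff.2 fun h0 => this ?_)
        rw [h0, ite_self]
      · change top (Ω := Ω) n p c = p c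
        rw [top_apply, if_pos hc']
  have hle : ∀ c, f c ≤ finrank Ω U := fun c => Submodule.finrank_le _
  obtain ⟨c₀, hc₀⟩ : ∃ c₀, ∀ c, f c ≤ f c₀ := by
    have hfin : (Set.range f).Finite := (Set.finite_Iic (finrank Ω U)).subset (by
      rintro _ ⟨c, rfl⟩
      exact hle c)
    obtain ⟨r, ⟨c₀, rfl⟩, hr⟩ := hfin.exists_maximal ⟨f 0, 0, rfl⟩
    refine ⟨c₀, fun c => ?_⟩
    by_contra h0
    exact h0 (hr ⟨c, rfl⟩ (le_of_lt (not_le.1 h0)))
  have hd := dvd_max_of_dvd_sums f hmono (f c₀) hc₀ c₀ rfl _ hdiv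
  by_cases h0 : f c₀ = 0
  · left
    rw [eq_bot_iff]
    intro p hp
    by_contra hne
    have hs : p.support.Nonempty := Finsupp.support_nonempty_iff.2 hne
    obtain ⟨c, hc, hmax⟩ := Finset.exists_max_image p.support mo.toSyn hs
    have h1 : Ld c = ⊥ := Submodule.finrank_eq_zero.1 (Nat.le_zero.1 (h0 ▸ hc₀ c))
    have h2 : p c ∈ Ld c := ⟨p, ⟨hp, fun k hk => hmax k hk⟩, rfl⟩
    rw [h1] at h2
    exact Finsupp.mem_support_iff.1 hc h2
  · right
    have h1 : Ld c₀ = ⊤ := Submodule.eq_top_of_finrank_eq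
      (le_antisymm (hle c₀) (Nat.le_of_dvd (Nat.pos_of_ne_zero h0) hd))
    refine ⟨c₀, fun u => ?_⟩
    obtain ⟨p, hp, rfl⟩ : u ∈ Ld c₀ := h1 ▸ Submodule.mem_top
    exact ⟨p, hp.1, fun k hk => hp.2 hk, rfl⟩

end Crest.Agent.R181.LAVer2
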