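import Crest.Agent.R181.LAFd
import Crest.Agent.R181.LAVer1
import Crest.Agent.R181.LAVer2Aux

/-! Row 181: the versal lemma (task LAVer2). -/

set_option autoImplicit false

namespace Crest.Agent.R181

open scoped TensorProduct

namespace LAVer2

open MvPolynomial Module

variable {Ω U ι : Type} [Field Ω] [AddCommGroup U] [Module Ω U]

/-- polynomials with vector coefficients as vectors over the rational functions -/
noncomputable def emb : ((ι →₀ ℕ) →₀ U) →ₗ[Ω] FractionRing (MvPolynomial ι Ω) ⊗[Ω] U :=
  Finsupp.lsum Ω fun k => TensorProduct.mk Ω (FractionRing (MvPolynomial ι Ω)) U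
    (algebraMap (MvPolynomial ι Ω) _ (monomial k 1))

theorem emb_single (k : ι →₀ ℕ) (x : U) : emb (Ω := Ω) (Finsupp.single k x) =
    algebraMap (MvPolynomial ι Ω) (FractionRing (MvPolynomial ι Ω)) (monomial k 1) ⊗ₜ[Ω] x :=
  Finsupp.lsum_single _ _ _ _

/-- the coordinate polynomials -/
noncomputable def co (φ : U →ₗ[Ω] Ω) : ((ι →₀ ℕ) →₀ U) →ₗ[Ω] MvPolynomial ι Ω :=
  Finsupp.lsum Ω fun k => (monomial k) ∘ₗ φ

theorem co_single (φ : U →ₗ[Ω] Ω) (k : ι →₀ ℕ) (x : U) :
    co φ (Finsupp.single k x) = monomial k (φ x) :=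
  Finsupp.lsum_single _ _ _ _

theorem coeff_co (φ : U →ₗ[Ω] Ω) (p : (ι →₀ ℕ) →₀ U) (k : ι →₀ ℕ) :
    (co φ p).coeff k = φ (p k) := by
  classical
  induction p using Finsupp.induction_linear with
  | zero => simp
  | add p q hp hq => rw [map_add, coeff_add, hp, hq, Finsupp.add_apply, map_add]
  | single k' x =>
    rw [co_single, coeff_monomial, Finsupp.single_apply]
    split_ifs
    · rfl
    · rw [map_zero]

theorem repr_emb {κ : Type} (b : Basis κ Ω U) (p : (ι →₀ ℕ) →₀ U) (j : κ) :
    (b.baseChange (FractionRing (MvPolynomial ι Ω))).repr (emb (Ω := Ω) p) j =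
      algebraMap (MvPolynomial ι Ω) _ (co (b.coord j) p) := by
  induction p using Finsupp.induction_linear with
  | zero => simp
  | add p q hp hq => simp only [map_add, Finsupp.add_apply, hp, hq]
  | single k x =>
    rw [emb_single, co_single, Basis.baseChange_repr_tmul, Basis.coord_apply,
      ← algebraMap_smul (MvPolynomial ι Ω), Algebra.smul_def, ← map_mul, algebraMap_eq,
      C_mul_monomial, mul_one]

theorem exists_co {κ : Type} [Fintype κ] (b : Basis κ Ω U) (q : κ → MvPolynomial ι Ω) :
    ∃ p : (ι →₀ ℕ) →₀ U, ∀ j, co (b.coord j) p = q j := by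
  classical
  refine ⟨Finsupp.onFinset (Finset.univ.biUnion fun j => (q j).support)
    (fun k => ∑ j, (q j).coeff k • b j) fun k hk => ?_, fun j => ?_⟩
  · obtain ⟨j, -, hj⟩ := Finset.exists_ne_zero_of_sum_ne_zero hk
    exact Finset.mem_biUnion.2 ⟨j, Finset.mem_univ _,
      mem_support_iff.2 fun h => hj (by rw [h, zero_smul])⟩
  · ext k
    rw [coeff_co, Finsupp.onFinset_apply, Basis.coord_apply, Basis.repr_sum_self]

theorem emb_shift (d : ι →₀ ℕ) (p : (ι →₀ ℕ) →₀ U) :
    emb (Ω := Ω) (Finsupp.mapDomain (· + d) p) =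
      algebraMap (MvPolynomial ι Ω) (FractionRing (MvPolynomial ι Ω)) (monomial d 1) •
        emb (Ω := Ω) p := by
  induction p using Finsupp.induction_linear with
  | zero => simp
  | add p q hp hq => rw [Finsupp.mapDomain_add, map_add, hp, hq, map_add, smul_add]
  | single k x =>
    rw [Finsupp.mapDomain_single, emb_single, emb_single, TensorProduct.smul_tmul', smul_eq_mul,
      ← map_mul, monomial_mul, mul_one, add_comm]

theorem rho_monomial (ρ : FractionRing (MvPolynomial ι Ω) ≃+* FractionRing (MvPolynomial ι Ω))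
    (π : Equiv.Perm ι) (lam : ι → Ωˣ)
    (h : ∀ i, ρ (algebraMap (MvPolynomial ι Ω) _ (X i)) =
      algebraMap (MvPolynomial ι Ω) _ (C (lam i : Ω) * X (π i))) (k : ι →₀ ℕ) :
    ρ (algebraMap (MvPolynomial ι Ω) _ (monomial k 1)) = algebraMap (MvPolynomial ι Ω) _
      (monomial (Finsupp.equivMapDomain π k) ((k.prod fun i n => lam i ^ n : Ωˣ) : Ω)) := by
  induction k using Finsupp.induction_linear with
  | zero => simp
  | add k k' hk hk' =>
    rw [Finsupp.prod_add_index' (fun _ => pow_zero _) (fun _ _ _ => pow_add _ _ _),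
      Finsupp.equivMapDomain_eq_mapDomain, Finsupp.mapDomain_add,
      ← Finsupp.equivMapDomain_eq_mapDomain, ← Finsupp.equivMapDomain_eq_mapDomain, Units.val_mul,
      ← monomial_mul, map_mul, ← hk, ← hk', ← map_mul, ← map_mul, monomial_mul, mul_one]
  | single i n =>
    rw [← X_pow_eq_monomial, map_pow, map_pow, h, ← map_pow, Finsupp.equivMapDomain_single,
      Finsupp.prod_single_index (h := fun i n => lam i ^ n) (pow_zero _), mul_pow,
      X_pow_eq_monomial, ← map_pow,
      C_mul_monomial, mul_one, Units.val_pow_eq_pow_val]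

end LAVer2

open MvPolynomial Module LAVer2 in
theorem versal_simple {Ω U ι J : Type} [Field Ω] [AddCommGroup U] [Module Ω U]
    [FiniteDimensional Ω U] [Fintype ι] (Γ : J → SL Ω U) (π : J → Equiv.Perm ι)
    (lam : J → ι → Ωˣ) (h : VersalDiv Γ π lam) (Γ' : J → SL _ _) (hΓ : VersalExt Γ π lam Γ') :
    Simple Γ' := by
  classical
  intro W hW
  obtain ⟨mo, hmo⟩ := exists_order (ι := ι)
  let N : Submodule Ω ((ι →₀ ℕ) →₀ U) := (W.restrictScalars Ω).comap (emb (Ω := Ω))
  have hN : ∀ p, p ∈ N ↔ emb (Ω := Ω) p ∈ W := fun p => Iff.rfl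
  have hop : ∀ j p, emb (Ω := Ω) (polyOp (Γ j).g (π j) (lam j) p) = (Γ' j).g (emb (Ω := Ω) p) := by
    intro j p
    induction p using Finsupp.induction_linear with
    | zero => simp
    | add p q hp hq => simp only [map_add, hp, hq]
    | single k x =>
      rw [polyOp_single, emb_single, emb_single, hΓ.2.2, rho_monomial _ _ _ (hΓ.2.1 j),
        ← TensorProduct.smul_tmul, ← algebraMap_smul (MvPolynomial ι Ω), Algebra.smul_def,
        ← map_mul, algebraMap_eq, C_mul_monomial, mul_one]
  let b := Module.finBasis Ω U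
  let B := b.baseChange (FractionRing (MvPolynomial ι Ω))
  rcases dichotomy Γ π lam h mo hmo N
    (fun d p hp => by rw [hN, emb_shift]; exact W.smul_mem _ hp)
    (fun j p hp => by rw [hN, hop]; exact hW j _ hp) with h0 | ⟨c, hc⟩
  · left
    rw [eq_bot_iff]
    intro w hw
    obtain ⟨s, hs⟩ := IsLocalization.exist_integer_multiples_of_finite
      (nonZeroDivisors (MvPolynomial ι Ω)) fun j => B.repr w j
    choose q hq using hs
    obtain ⟨p, hp⟩ := exists_co b q
    have e : emb (Ω := Ω) p =
        algebraMap (MvPolynomial ι Ω) (FractionRing (MvPolynomial ι Ω)) s • w := by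
      refine B.ext_elem fun j => ?_
      rw [repr_emb, hp, hq, map_smul, Finsupp.smul_apply, smul_eq_mul, Algebra.smul_def]
    have hpN : p ∈ N := by
      rw [hN, e]
      exact W.smul_mem _ hw
    rw [h0, Submodule.mem_bot] at hpN
    rw [hpN, map_zero] at e
    exact (smul_eq_zero.1 e.symm).resolve_left
      (IsFractionRing.to_map_ne_zero_of_mem_nonZeroDivisors s.2)
  · right
    choose p hpN hple hpc using fun i => hc (b i)
    have hli : LinearIndependent (FractionRing (MvPolynomial ι Ω)) fun i => emb (Ω := Ω) (p i) := by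
      rw [Fintype.linearIndependent_iff]
      intro α hα
      obtain ⟨s, hs⟩ := IsLocalization.exist_integer_multiples_of_finite
        (nonZeroDivisors (MvPolynomial ι Ω)) α
      choose q hq using hs
      have hs0 : algebraMap (MvPolynomial ι Ω) (FractionRing (MvPolynomial ι Ω)) s ≠ 0 :=
        IsFractionRing.to_map_ne_zero_of_mem_nonZeroDivisors s.2
      have hrel : ∀ j, ∑ i, q i * co (b.coord j) (p i) = 0 := by
        intro j
        apply IsFractionRing.injective (MvPolynomial ι Ω) (FractionRing (MvPolynomial ι Ω))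
        have h1 := congrArg (fun w => B.repr w j) hα
        simp only [map_sum, map_smul, Finsupp.finsetSum_apply, Finsupp.smul_apply, map_zero,
          Finsupp.zero_apply, smul_eq_mul] at h1
        rw [map_sum, map_zero, ← mul_zero (algebraMap (MvPolynomial ι Ω) _ s), ← h1,
          Finset.mul_sum]
        refine Finset.sum_congr rfl fun i _ => ?_
        rw [map_mul, hq, repr_emb, Algebra.smul_def, mul_assoc]
      have hq0 : ∀ i, q i = 0 := by
        by_contra hne
        push Not at hne
        obtain ⟨i₀, hi₀, hmax⟩ := Finset.exists_max_image (Finset.univ.filter fun i => q i ≠ 0)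
          (fun i => mo.toSyn (mo.degree (q i))) (by
            obtain ⟨i, hi⟩ := hne
            exact ⟨i, Finset.mem_filter.2 ⟨Finset.mem_univ _, hi⟩⟩)
        have hi₀' := (Finset.mem_filter.1 hi₀).2
        have h1 := congrArg (coeff (mo.degree (q i₀) + c)) (hrel i₀)
        rw [coeff_sum, coeff_zero, Finset.sum_eq_single i₀] at h1
        · rw [mo.coeff_mul_of_add_of_degree_le le_rfl (MonomialOrder.degree_le_iff.2 fun k hk =>
            hple i₀ k (Finsupp.mem_support_iff.2 fun h0 => mem_support_iff.1 hk (by
              rw [coeff_co, h0, map_zero]))), coeff_co, hpc, Basis.coord_apply, Basis.repr_self,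
            Finsupp.single_eq_same, mul_one] at h1
          exact MonomialOrder.coeff_degree_ne_zero_iff.2 hi₀' h1
        · intro i _ hi
          by_cases hqi : q i = 0
          · rw [hqi, zero_mul, coeff_zero]
          · rw [mo.coeff_mul_of_add_of_degree_le
              (hmax i (Finset.mem_filter.2 ⟨Finset.mem_univ _, hqi⟩))
              (MonomialOrder.degree_le_iff.2 fun k hk =>
                hple i k (Finsupp.mem_support_iff.2 fun h0 => mem_support_iff.1 hk (by
                  rw [coeff_co, h0, map_zero]))), coeff_co, hpc, Basis.coord_apply,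
              Basis.repr_self, Finsupp.single_eq_of_ne hi.symm, mul_zero]
        · intro h
          exact (h (Finset.mem_univ _)).elim
      intro i
      have h1 := hq i
      rw [hq0, map_zero, Algebra.smul_def] at h1
      exact (mul_eq_zero.1 h1.symm).resolve_left hs0
    have fin : FiniteDimensional (FractionRing (MvPolynomial ι Ω))
        (FractionRing (MvPolynomial ι Ω) ⊗[Ω] U) := Module.Finite.of_basis B
    rw [eq_top_iff, ← hli.span_eq_top_of_card_eq_finrank' (Module.finrank_eq_card_basis B).symm,
      Submodule.span_le]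
    rintro _ ⟨i, rfl⟩
    exact hpN i

end Crest.Agent.R181
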