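import Crest.Agent.R181.LASchur
import Crest.Agent.R181.LAVer2

/-! Row 181: adjoining a free symbol pair (task LASym). -/

set_option autoImplicit false
set_option linter.unusedSectionVars false

namespace Crest.Agent.R181

open scoped TensorProduct

namespace LASym

section clock
variable {L : Type} [Field L] {a : ℕ} [NeZero a] {κ : Type}

/-- the character of `ZMod a` -/
def chi (z : L) (k : ZMod a) : L := z ^ k.val

theorem chi_natCast {z : L} (hz : z ^ a = 1) (n : ℕ) : chi z (n : ZMod a) = z ^ n := by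
  rw [chi, ZMod.val_natCast, ← pow_eq_pow_mod n hz]

theorem chi_add {z : L} (hz : z ^ a = 1) (k k' : ZMod a) :
    chi z (k + k') = chi z k * chi z k' := by
  rw [chi, chi, chi, ZMod.val_add, ← pow_eq_pow_mod _ hz, pow_add]

theorem chi_one {z : L} (hz : z ^ a = 1) : chi z (1 : ZMod a) = z := by
  have := chi_natCast hz 1
  simpa using this

theorem chi_pow {z : L} (hz : z ^ a = 1) (k : ZMod a) : chi z k ^ a = 1 := by
  rw [chi, ← pow_mul, mul_comm, pow_mul, hz, one_pow]

theorem chi_inj {z : L} (hz : IsPrimitiveRoot z a) : Function.Injective (chi (a := a) z) :=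
  fun k k' h => ZMod.val_injective a (hz.pow_inj (ZMod.val_lt k) (ZMod.val_lt k') h)

/-- the clock operator -/
def clock (z : L) : Module.End L (κ → ZMod a → L) where
  toFun x i k := chi z k * x i k
  map_add' x y := by funext i k; simp [mul_add]
  map_smul' c x := by funext i k; simp [mul_left_comm]

/-- the shift operator -/
def shift : Module.End L (κ → ZMod a → L) where
  toFun x i k := x i (k - 1)
  map_add' _ _ := rfl
  map_smul' _ _ := rfl

/-- the coordinate projections -/
def proj (y : ZMod a) : Module.End L (κ → ZMod a → L) where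
  toFun x i k := if k = y then x i k else 0
  map_add' x y := by funext i k; simp only [Pi.add_apply]; split_ifs <;> simp
  map_smul' c x := by funext i k; simp

theorem clock_apply (z : L) (x : κ → ZMod a → L) (i : κ) (k : ZMod a) :
    clock z x i k = chi z k * x i k := rfl
theorem shift_apply (x : κ → ZMod a → L) (i : κ) (k : ZMod a) : shift x i k = x i (k - 1) := rfl
theorem proj_apply (y : ZMod a) (x : κ → ZMod a → L) (i : κ) (k : ZMod a) :
    proj y x i k = if k = y then x i k else 0 := rfl

theorem clock_pow {z : L} (hz : z ^ a = 1) : (clock z : Module.End L (κ → ZMod a → L)) ^ a = 1 := by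
  have h : ∀ (n : ℕ) (x : κ → ZMod a → L) (i : κ) (k : ZMod a),
      (clock z ^ n) x i k = chi z k ^ n * x i k := by
    intro n
    induction n with
    | zero => intro x i k; simp
    | succ n ih =>
      intro x i k
      rw [pow_succ, Module.End.mul_apply, ih, clock_apply, pow_succ, mul_assoc]
  ext1 x
  funext i k
  rw [h, chi_pow hz, one_mul]
  rfl

theorem shift_pow : (shift : Module.End L (κ → ZMod a → L)) ^ a = 1 := by
  have h : ∀ (n : ℕ) (x : κ → ZMod a → L) (i : κ) (k : ZMod a),
      (shift ^ n : Module.End L (κ → ZMod a → L)) x i k = x i (k - n) := by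
    intro n
    induction n with
    | zero => intro x i k; simp
    | succ n ih =>
      intro x i k
      rw [pow_succ, Module.End.mul_apply, ih, shift_apply]
      push_cast
      rw [sub_sub]
  ext1 x
  funext i k
  rw [h]
  simp

theorem clock_shift {z : L} (hz : z ^ a = 1) (x : κ → ZMod a → L) :
    clock z (shift x) = z • shift (clock z x) := by
  funext i k
  have : chi z k = z * chi z (k - 1) := by
    conv_lhs => rw [show k = 1 + (k - 1) by ring, chi_add hz, chi_one hz]
  simp only [clock_apply, shift_apply, Pi.smul_apply, smul_eq_mul, this, mul_assoc]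

variable [Fintype κ] [DecidableEq κ]

theorem mact_clock (z : L) (M : Matrix κ κ L) (x : κ → ZMod a → L) :
    mact L (ZMod a → L) M (clock z x) = clock z (mact L (ZMod a → L) M x) := by
  funext i k
  simp only [mact_apply, clock_apply, Finset.sum_apply, Pi.smul_apply, smul_eq_mul,
    Finset.mul_sum, mul_left_comm]

theorem mact_shift (M : Matrix κ κ L) (x : κ → ZMod a → L) :
    mact L (ZMod a → L) M (shift x) = shift (mact L (ZMod a → L) M x) := by
  funext i k
  simp only [mact_apply, shift_apply, Finset.sum_apply, Pi.smul_apply]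

theorem mact_proj (y : ZMod a) (M : Matrix κ κ L) (x : κ → ZMod a → L) :
    mact L (ZMod a → L) M (proj y x) = proj y (mact L (ZMod a → L) M x) := by
  funext i k
  simp only [mact_apply, proj_apply, Finset.sum_apply, Pi.smul_apply, smul_eq_mul]
  split_ifs <;> simp

end clock

section diag
variable {L U T : Type} [Field L] [AddCommGroup U] [Module L U]

/-- an invertible linear operator as a semilinear one -/
def ofUnit (f : Module.End L U) (h : IsUnit f) : SL L U where
  ρ := RingEquiv.refl L
  g := f.toAddMonoidHom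
  smul c x := f.map_smul c x
  bij := (Module.End.isUnit_iff f).1 h

/-- coefficientwise operators -/
noncomputable def diag (f : T → Module.End L U) : Module.End L (T →₀ U) :=
  Finsupp.lsum ℕ fun t => Finsupp.lsingle t ∘ₗ f t

theorem diag_apply (f : T → Module.End L U) (w : T →₀ U) (t : T) : diag f w t = f t (w t) := by
  classical
  induction w using Finsupp.induction_linear with
  | zero => simp
  | add v w hv hw => simp only [map_add, Finsupp.add_apply, hv, hw]
  | single s x =>
    simp only [diag, Finsupp.lsum_single, LinearMap.comp_apply, Finsupp.lsingle_apply,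
      Finsupp.single_apply]
    split_ifs with h
    · rw [h]
    · simp

/-- constant coefficientwise operators -/
noncomputable def diagHom (L U T : Type) [Field L] [AddCommGroup U] [Module L U] :
    Module.End L U →ₐ[L] Module.End L (T →₀ U) where
  toFun f := diag fun _ => f
  map_one' := by ext1 w; ext t; simp [diag_apply]
  map_mul' f g := by apply LinearMap.ext; intro w; ext t; simp [diag_apply]
  map_zero' := by apply LinearMap.ext; intro w; ext t; simp [diag_apply]
  map_add' f g := by apply LinearMap.ext; intro w; ext t; simp [diag_apply]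
  commutes' r := by apply LinearMap.ext; intro w; ext t; simp [diag_apply]

theorem diagHom_apply (f : Module.End L U) (w : T →₀ U) (t : T) :
    diagHom L U T f w t = f (w t) := diag_apply _ w t

theorem polyOp_refl {ι : Type} (g : U →+ U) (lam : ι → Lˣ) (w : (ι →₀ ℕ) →₀ U) (t : ι →₀ ℕ) :
    polyOp g (Equiv.refl ι) lam w t = ((t.prod fun i k => lam i ^ k : Lˣ) : L) • g (w t) := by
  classical
  induction w using Finsupp.induction_linear with
  | zero => simp
  | add v w hv hw => simp only [map_add, Finsupp.add_apply, hv, hw, smul_add]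
  | single s x =>
    rw [polyOp_single, Finsupp.equivMapDomain_refl, Finsupp.single_apply, Finsupp.single_apply]
    split_ifs with h
    · rw [h]
    · simp

theorem const_of_le {a : ℕ} [NeZero a] (f : ZMod a → ℕ) (h : ∀ y, f y ≤ f (y + 1)) (y : ZMod a) :
    f y = f 0 := by
  have h1 : ∑ y, f y = ∑ y, f (y + 1) := (Equiv.sum_comp (Equiv.addRight 1) f).symm
  have h2 := (Finset.sum_eq_sum_iff_of_le (s := Finset.univ) fun y _ => h y).1 h1
  have h3 : ∀ n : ℕ, f n = f 0 := by
    intro n
    induction n with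
    | zero => simp
    | succ n ih => rw [Nat.cast_succ, ← h2 _ (Finset.mem_univ _), ih]
  rw [← ZMod.natCast_zmod_val y, h3]

end diag

section family
variable {L D : Type} [Field L] [DivisionRing D] [Algebra L D] {a : ℕ} [NeZero a] {κ : Type}
  [Fintype κ] [DecidableEq κ]

/-- the family of operators -/
noncomputable def fam (rm : Dᵐᵒᵖ →ₐ[L] Matrix κ κ L) {z : Lˣ} (hz : (z : L) ^ a = 1) :
    {d : Dᵐᵒᵖ // d ≠ 0} ⊕ Bool → SL L (κ → ZMod a → L)
  | .inl d => ofUnit (mact L (ZMod a → L) (rm d)) ((d.2.isUnit.map rm).map _)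
  | .inr false => ofUnit (clock (z : L)) (IsUnit.of_pow_eq_one (clock_pow hz) (NeZero.ne a))
  | .inr true => ofUnit shift (IsUnit.of_pow_eq_one shift_pow (NeZero.ne a))

/-- the multipliers -/
def mult (D : Type) [DivisionRing D] (z : Lˣ) : {d : Dᵐᵒᵖ // d ≠ 0} ⊕ Bool → Fin 2 → Lˣ
  | .inl _ => 1
  | .inr false => ![z⁻¹, 1]
  | .inr true => ![1, z]

theorem fam_rho (rm : Dᵐᵒᵖ →ₐ[L] Matrix κ κ L) {z : Lˣ} (hz : (z : L) ^ a = 1)
    (j : {d : Dᵐᵒᵖ // d ≠ 0} ⊕ Bool) (c : L) : (fam rm hz j).ρ c = c := by
  rcases j with d | _ | _ <;> rfl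

theorem mult_pow {z : Lˣ} (hz : (z : L) ^ a = 1) (j : {d : Dᵐᵒᵖ // d ≠ 0} ⊕ Bool) (i : Fin 2) :
    (mult D z j i : L) ^ a = 1 := by
  rcases j with d | _ | _ <;> fin_cases i <;> simp [mult, hz]

theorem versalDiv [Module.Finite L D] (rm : Dᵐᵒᵖ →ₐ[L] Matrix κ κ L) {z : Lˣ}
    (hz' : IsPrimitiveRoot (z : L) a) (hκ : Fintype.card κ = Module.finrank L D) :
    VersalDiv (fam rm hz'.pow_eq_one) (fun _ => Equiv.refl (Fin 2)) (mult D z) := by
  classical
  have hz := hz'.pow_eq_one
  intro n X _ hX
  by_cases hfd : FiniteDimensional L X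
  swap
  · rw [Module.finrank_of_infinite_dimensional hfd]; exact dvd_zero _
  let pr : ZMod a → Module.End L ((Fin 2 →₀ ℕ) →₀ (κ → ZMod a → L)) := fun y =>
    diag fun t => proj (y + (t 0 : ℕ))
  have hpr : ∀ y w t i k, pr y w t i k = if k = y + (t 0 : ℕ) then w t i k else 0 := by
    intro y w t i k
    simp only [pr, diag_apply, proj_apply]
  have hsum : ∀ w, ∑ y, pr y w = w := by
    intro w
    ext t i k
    simp only [Finsupp.finsetSum_apply, Finset.sum_apply, hpr]
    rw [Finset.sum_eq_single (k - (t 0 : ℕ))]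
    · simp
    · intro y _ hy
      rw [if_neg]
      rintro rfl
      exact hy (by ring)
    · simp
  have hself : ∀ y w, pr y (pr y w) = pr y w := by
    intro y w
    ext t i k
    simp only [hpr]
    split_ifs <;> rfl
  have hne : ∀ y y' w, y ≠ y' → pr y (pr y' w) = 0 := by
    intro y y' w hy
    ext t i k
    simp only [hpr, Finsupp.coe_zero, Pi.zero_apply]
    split_ifs with h1 h2
    · exact absurd (add_right_cancel (h1.symm.trans h2)) hy
    · rfl
    · rfl
  have hgr : ∀ y, ∀ w ∈ X, pr y w ∈ X := by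
    refine sep pr (fun _ => Set.toFinite _) (fun w => by rw [finsum_eq_sum_of_fintype, hsum])
      hself hne (J := Unit) (fun _ y => chi (z : L) y)
      (fun y y' hy => ⟨(), fun h => hy (chi_inj hz' h)⟩) X fun _ w hw => ?_
    have := hX (.inr false) w hw
    convert this using 1
    rw [finsum_eq_sum_of_fintype]
    ext t i k
    rw [polyOp_refl, Finsupp.prod_fintype _ _ (by simp)]
    simp only [Finsupp.finsetSum_apply, Finset.sum_apply, Finsupp.smul_apply, Pi.smul_apply, hpr,
      smul_eq_mul, mult, fam, ofUnit, Fin.prod_univ_two, LinearMap.toAddMonoidHom_coe, clock_apply]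
    rw [Finset.sum_eq_single (k - (t 0 : ℕ))]
    · have e : chi (z : L) k = (z : L) ^ t 0 * chi (z : L) (k - ((t 0 : ℕ) : ZMod a)) := by
        rw [← chi_natCast hz, ← chi_add hz]
        congr 1
        ring
      have hz0 : (z : L) ^ t 0 ≠ 0 := pow_ne_zero _ z.ne_zero
      simp only [sub_add_cancel, if_true, e]
      simp
      field_simp
    · intro y _ hy
      rw [if_neg, mul_zero]
      rintro rfl
      exact hy (by ring)
    · simp
  rw [finrank_eq_sum_pieces pr hsum hself hne X hgr]
  have hmem : ∀ y w, w ∈ LinearMap.range (pr y) ↔ pr y w = w := by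
    intro y w
    constructor
    · rintro ⟨v, rfl⟩; exact hself y v
    · intro h; exact ⟨w, h⟩
  have hle : ∀ y, Module.finrank L (X ⊓ LinearMap.range (pr y) : Submodule L _) ≤
      Module.finrank L (X ⊓ LinearMap.range (pr (y + 1)) : Submodule L _) := by
    intro y
    have hap : ∀ w t i k, polyOp (fam rm hz (.inr true)).g (Equiv.refl (Fin 2))
        (mult D z (.inr true)) w t i k = (z : L) ^ t 1 * w t i (k - 1) := by
      intro w t i k
      rw [polyOp_refl, Finsupp.prod_fintype _ _ (by simp)]
      simp [mult, fam, ofUnit, shift_apply]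
    refine (finrank_le_of_semilinear (RingEquiv.refl L) (polyOp (fam rm hz (.inr true)).g
      (Equiv.refl (Fin 2)) (mult D z (.inr true))) ?_ _ ?_ _ ?_).2
    · intro c w
      ext t i k
      simp [hap, mul_left_comm]
    · intro w _ h0
      ext t i k
      have := hap w t i (k + 1)
      rw [h0, add_sub_cancel_right] at this
      exact (mul_eq_zero.1 this.symm).resolve_left (pow_ne_zero _ z.ne_zero)
    · intro w hw
      refine ⟨hX (.inr true) w hw.1, (hmem _ _).2 ?_⟩
      have hw2 := (hmem _ _).1 hw.2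
      ext t i k
      rw [hpr, hap]
      split_ifs with h
      · rfl
      · rw [← hw2, hpr, if_neg, mul_zero]
        intro h'
        exact h (by rw [← sub_add_cancel k 1, h']; ring)
  have hconst := const_of_le _ hle
  simp only [hconst, Finset.sum_const, Finset.card_univ, ZMod.card, smul_eq_mul]
  have hU : Module.finrank L (κ → ZMod a → L) = a * Module.finrank L D := by
    rw [Module.finrank_pi_fintype]
    simp [hκ, mul_comm]
  rw [hU]
  refine Nat.mul_dvd_mul_left a ?_
  rw [← MulOpposite.finrank]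
  refine dvd_finrank ((diagHom L _ (Fin 2 →₀ ℕ)).comp ((mact L (ZMod a → L)).comp rm)) _ ?_
  intro d w hw
  by_cases hd : d = 0
  · simp [hd]
  refine ⟨?_, (hmem _ _).2 ?_⟩
  · have := hX (.inl ⟨d, hd⟩) w hw.1
    have e : ((diagHom L _ (Fin 2 →₀ ℕ)).comp ((mact L (ZMod a → L)).comp rm)) d w =
        polyOp (fam rm hz (.inl ⟨d, hd⟩)).g (Equiv.refl (Fin 2)) (mult D z (.inl ⟨d, hd⟩)) w := by
      ext1 t
      rw [polyOp_refl]
      simp [mult, fam, ofUnit, diagHom_apply, Finsupp.prod]
    rw [e]
    exact this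
  · have hw2 := (hmem _ _).1 hw.2
    conv_rhs => rw [← hw2]
    ext1 t
    simp only [pr, diag_apply, AlgHom.comp_apply, diagHom_apply, mact_proj]

end family

theorem comm_of {L Ω U : Type} [Field L] [Field Ω] [Algebra L Ω] [AddCommGroup U] [Module L U]
    (γ : SL Ω (Ω ⊗[L] U)) (g : U →+ U) (hγ : ∀ α x, γ.g (α ⊗ₜ[L] x) = γ.ρ α ⊗ₜ[L] g x)
    (s : Ω) (f : Module.End L U) (h : ∀ x, s ⊗ₜ[L] f (g x) = γ.ρ s ⊗ₜ[L] g (f x))
    (v : Ω ⊗[L] U) :
    (s • f.baseChange Ω) (γ.g v) = γ.g ((s • f.baseChange Ω) v) := by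
  induction v using TensorProduct.induction_on with
  | zero => simp
  | add v w hv hw => simp only [map_add, hv, hw]
  | tmul α x =>
    rw [hγ, LinearMap.smul_apply, LinearMap.smul_apply, LinearMap.baseChange_tmul,
      LinearMap.baseChange_tmul, TensorProduct.smul_tmul', TensorProduct.smul_tmul', hγ,
      smul_eq_mul, smul_eq_mul, map_mul, mul_comm s, mul_comm (γ.ρ s), ← smul_eq_mul,
      ← smul_eq_mul, ← TensorProduct.smul_tmul', ← TensorProduct.smul_tmul', h]

end LASym

open LASym MvPolynomial in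
theorem symStmt_fin {a : ℕ} {ζ : ℂ} (ha : 2 ≤ a) (hζ : IsPrimitiveRoot ζ a) :
    SymStmt DA.Fin a ζ := by
  intro A hA
  have : NeZero a := ⟨by omega⟩
  have : Module.Finite A.L A.D := hA
  obtain ⟨lm, rm, hlr⟩ := exists_regRep A.L A.D
  have hz0 : IsPrimitiveRoot (algebraMap ℂ A.L ζ) a :=
    hζ.map_of_injective (algebraMap ℂ A.L).injective
  let z : A.Lˣ := Units.mk0 (algebraMap ℂ A.L ζ) (hz0.ne_zero (NeZero.ne a))
  have hz' : IsPrimitiveRoot (z : A.L) a := hz0
  have hz := hz'.pow_eq_one
  have hdiv := versalDiv rm hz' (Fintype.card_fin _)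
  obtain ⟨Γ, hΓ⟩ := exists_versalExt (fam rm hz) (fun _ => Equiv.refl (Fin 2)) (mult A.D z)
  have hs := versal_simple _ _ _ hdiv Γ hΓ
  obtain ⟨h1, h2, h3⟩ := hΓ
  set Ω := FractionRing (MvPolynomial (Fin 2) A.L) with hΩ
  set U := Fin (Module.finrank A.L A.D) → ZMod a → A.L with hU
  have hpos : 0 < Module.finrank Ω (Ω ⊗[A.L] U) := by
    rw [Module.finrank_baseChange, Module.finrank_pi_fintype]
    have := Module.finrank_pos (R := A.L) (M := A.D)
    simp
    exact ⟨this, by omega⟩
  have : Nontrivial (Ω ⊗[A.L] U) := Module.nontrivial_of_finrank_pos hpos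
  have hfix : ∀ j (c : A.L), (Γ j).ρ (algebraMap A.L Ω c) = algebraMap A.L Ω c := by
    intro j c
    rw [h1, fam_rho]
  obtain ⟨S⟩ := schur Γ (fun j c => by
    rw [IsScalarTower.algebraMap_apply ℂ A.L Ω, hfix]) hs
  obtain ⟨l, hl⟩ := S.exists_l (IsScalarTower.toAlgHom ℂ A.L Ω) hfix
  let B := Module.End.baseChangeHom A.L Ω U
  have hB : ∀ f : Module.End A.L U, B f = f.baseChange Ω := fun _ => rfl
  let ψ : A.D →ₐ[A.L] Module.End Ω (Ω ⊗[A.L] U) := B.comp ((mact A.L (ZMod a → A.L)).comp lm)
  have hψ : ∀ d, ψ d = B (mact A.L (ZMod a → A.L) (lm d)) := fun _ => rfl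
  obtain ⟨d, hd⟩ := S.exists_d (ψ : A.D →+* Module.End Ω (Ω ⊗[A.L] U)) (fun y j v => by
    have := comm_of (Γ j) (fam rm hz j).g (h3 j) 1 (mact A.L (ZMod a → A.L) (lm y)) (fun x => by
      rw [map_one]
      congr 1
      rcases j with e | _ | _
      · change (mact A.L (ZMod a → A.L) (lm y) * mact A.L (ZMod a → A.L) (rm e)) x =
          (mact A.L (ZMod a → A.L) (rm e) * mact A.L (ZMod a → A.L) (lm y)) x
        rw [← map_mul, ← map_mul, hlr]
      · exact mact_clock _ _ x
      · exact mact_shift _ x) v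
    rw [one_smul] at this
    exact this)
  let s : Fin 2 → Ω := fun i => algebraMap (MvPolynomial (Fin 2) A.L) Ω (X i)
  have hs0 : ∀ i, s i ≠ 0 := fun i =>
    (map_ne_zero_iff _ (IsFractionRing.injective (MvPolynomial (Fin 2) A.L) Ω)).2 (X_ne_zero i)
  have hρ : ∀ j i, (Γ j).ρ (s i) = (mult A.D z j i : A.L) • s i := by
    intro j i
    rw [h2, map_mul, Algebra.smul_def, IsScalarTower.algebraMap_apply A.L
      (MvPolynomial (Fin 2) A.L) Ω]
    rfl
  have hT : ∀ i, ∃ r, S.i r = s i ^ a := fun i => (S.range_i _).2 fun j => by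
    rw [map_pow, hρ, smul_pow, mult_pow hz, one_smul]
  obtain ⟨T, hT1⟩ := hT 1
  obtain ⟨Θ, hT0⟩ := hT 0
  obtain ⟨u, hu⟩ := (S.range_j (s 1 • B (clock (z : A.L)))).2 fun j v =>
    comm_of (Γ j) (fam rm hz j).g (h3 j) (s 1) (clock (z : A.L)) (fun x => by
      rw [hρ, TensorProduct.smul_tmul]
      congr 1
      rcases j with e | _ | _
      · exact (mact_clock _ _ x).symm.trans (one_smul _ _).symm
      · exact (one_smul _ _).symm
      · exact clock_shift hz x) v
  obtain ⟨θ, hθ⟩ := (S.range_j (s 0 • B shift)).2 fun j v =>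
    comm_of (Γ j) (fam rm hz j).g (h3 j) (s 0) shift (fun x => by
      rw [hρ, TensorProduct.smul_tmul]
      congr 1
      rcases j with e | _ | _
      · exact (mact_shift _ x).symm.trans (one_smul _ _).symm
      · change shift (clock (z : A.L) x) = ((z⁻¹ : A.Lˣ) : A.L) • clock (z : A.L) (shift x)
        rw [clock_shift hz, smul_smul, Units.inv_mul, one_smul]
      · exact (one_smul _ _).symm) v
  have hcs : clock (z : A.L) * shift = (z : A.L) • (shift * clock (z : A.L) : Module.End A.L U) :=
    LinearMap.ext fun x => clock_shift hz x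
  refine ⟨S.A, ⟨l, d, fun r => S.inj ?_⟩, ⟨u, θ, T, Θ, ?_, ?_, S.inj ?_, S.inj ?_, S.inj ?_⟩, S.fin,
    fun y => ⟨S.inj ?_, S.inj ?_⟩⟩
  · rw [hd, S.hl, hl, RingHom.coe_coe, AlgHom.commutes]
    exact IsScalarTower.algebraMap_apply A.L Ω _ r
  · rintro rfl
    exact pow_ne_zero a (hs0 1) (by rw [← hT1, map_zero])
  · rintro rfl
    exact pow_ne_zero a (hs0 0) (by rw [← hT0, map_zero])
  · rw [map_pow, hu, S.hl, hT1, smul_pow, ← map_pow B, clock_pow hz, map_one,
      Algebra.algebraMap_eq_smul_one]
  · rw [map_pow, hθ, S.hl, hT0, smul_pow, ← map_pow B, shift_pow, map_one,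
      Algebra.algebraMap_eq_smul_one]
  · rw [S.j_smul, map_mul, map_mul, hu, hθ, AlgHom.commutes, smul_mul_smul_comm,
      smul_mul_smul_comm, ← map_mul B, ← map_mul B, hcs, map_smul, mul_comm (s 1), smul_comm,
      IsScalarTower.algebraMap_apply ℂ A.L Ω, algebraMap_smul]
    rfl
  · change S.j (d y * u) = S.j (u * d y)
    rw [map_mul, map_mul, hd, hu, RingHom.coe_coe, hψ, mul_smul_comm, smul_mul_assoc, ← map_mul B,
      ← map_mul B]
    congr 2
    exact LinearMap.ext fun x => mact_clock _ _ x
  · change S.j (d y * θ) = S.j (θ * d y)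
    rw [map_mul, map_mul, hd, hθ, RingHom.coe_coe, hψ, mul_smul_comm, smul_mul_assoc, ← map_mul B,
      ← map_mul B]
    congr 2
    exact LinearMap.ext fun x => mact_shift _ x

end Crest.Agent.R181
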