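import Crest.Agent.R181.LPPKos

/-! Row 181: base change of subspaces from a field to a skew field. -/

set_option autoImplicit false
set_option linter.unusedSectionVars false

namespace Crest.Agent.R181

open Finset Module

variable {K : Type*} [Field K] (D : Type*) [DivisionRing D] [Algebra K D]
variable {M : Type*} [AddCommGroup M] [Module K M]
variable {V : Type*} [AddCommGroup V] [Module D V] [Module K V] [IsScalarTower K D V]

/-- The `D`-span of the image of a `K`-subspace. -/
def bc (ι : M →ₗ[K] V) (Y : Submodule K M) : Submodule D V := Submodule.span D (ι '' Y)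

theorem bc_def (ι : M →ₗ[K] V) (Y : Submodule K M) : bc D ι Y = Submodule.span D (ι '' Y) := rfl

/-- `ι` is a base-change embedding: functionals on `D` extend. -/
def Sep (ι : M →ₗ[K] V) : Prop :=
  ∀ l : Module.Dual K D, ∃ L : V →+ M, ∀ (d : D) (m : M), L (d • ι m) = l d • m

variable {D}

theorem mem_bc (ι : M →ₗ[K] V) {Y : Submodule K M} {m : M} (hm : m ∈ Y) : ι m ∈ bc D ι Y :=
  Submodule.subset_span ⟨m, hm, rfl⟩

theorem bc_le {ι : M →ₗ[K] V} {Y : Submodule K M} {Z : Submodule D V} (h : ∀ m ∈ Y, ι m ∈ Z) :
    bc D ι Y ≤ Z := by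
  rw [bc_def, Submodule.span_le]
  rintro _ ⟨m, hm, rfl⟩
  exact h m hm

theorem bc_mono (ι : M →ₗ[K] V) {Y Y' : Submodule K M} (h : Y ≤ Y') : bc D ι Y ≤ bc D ι Y' :=
  bc_le fun _ hm => mem_bc ι (h hm)

theorem bc_span (ι : M →ₗ[K] V) (s : Set M) :
    bc D ι (Submodule.span K s) = Submodule.span D (ι '' s) := by
  apply le_antisymm
  · refine bc_le fun m hm => ?_
    induction hm using Submodule.span_induction with
    | mem x hx => exact Submodule.subset_span ⟨x, hx, rfl⟩
    | zero => rw [map_zero]; exact Submodule.zero_mem _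
    | add x y _ _ hx hy => rw [map_add]; exact Submodule.add_mem _ hx hy
    | smul c x _ hx => rw [map_smul]; exact Submodule.smul_of_tower_mem _ c hx
  · exact Submodule.span_mono (Set.image_mono Submodule.subset_span)

theorem bc_sup (ι : M →ₗ[K] V) (Y Y' : Submodule K M) :
    bc D ι (Y ⊔ Y') = bc D ι Y ⊔ bc D ι Y' := by
  apply le_antisymm
  · refine bc_le fun m hm => ?_
    obtain ⟨y, hy, y', hy', rfl⟩ := Submodule.mem_sup.mp hm
    rw [map_add]
    exact Submodule.add_mem_sup (mem_bc ι hy) (mem_bc ι hy')
  · exact sup_le (bc_mono ι le_sup_left) (bc_mono ι le_sup_right)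

theorem bc_map {ι : M →ₗ[K] V} {L : M →ₗ[K] M} {L' : V →ₗ[D] V} (h : ∀ m, ι (L m) = L' (ι m))
    (Y : Submodule K M) : bc D ι (Y.map L) = (bc D ι Y).map L' := by
  rw [bc_def, bc_def, Submodule.map_span, Submodule.map_coe, Set.image_image, Set.image_image]
  simp only [h]

theorem bc_finite (ι : M →ₗ[K] V) (Y : Submodule K M) [Module.Finite K Y] :
    Module.Finite D (bc D ι Y) := by
  obtain ⟨s, hs⟩ := (Module.Finite.iff_fg (N := Y)).mp inferInstance
  rw [← hs, bc_span]
  exact Module.Finite.span_of_finite D (s.finite_toSet.image _)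

theorem finrank_bc {ι : M →ₗ[K] V} (hι : Sep D ι) (Y : Submodule K M) [Module.Finite K Y] :
    finrank D (bc D ι Y) = finrank K Y := by
  let b := Module.finBasis K Y
  have hY : Y = Submodule.span K (Set.range fun i => (b i : M)) := by
    have := congrArg (Submodule.map Y.subtype) b.span_eq
    rw [Submodule.map_span, Submodule.map_top, Submodule.range_subtype, ← Set.range_comp] at this
    exact this.symm
  have hli : LinearIndependent K fun i => (b i : M) :=
    b.linearIndependent.map' Y.subtype Y.ker_subtype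
  have hli' : LinearIndependent D fun i => ι (b i : M) := by
    rw [Fintype.linearIndependent_iff] at hli ⊢
    intro g hg i
    rw [← Module.forall_dual_apply_eq_zero_iff K]
    intro l
    obtain ⟨L, hL⟩ := hι l
    have := congrArg L hg
    rw [map_sum, map_zero] at this
    simp only [hL] at this
    exact hli (fun i => l (g i)) this i
  have h1 : bc D ι Y = Submodule.span D (Set.range fun i => ι (b i : M)) := by
    conv_lhs => rw [hY]
    rw [bc_span, ← Set.range_comp]
    rfl
  rw [h1, finrank_span_eq_card hli', Fintype.card_fin]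

variable {n : ℕ}

theorem Sep.cl {ι : M →ₗ[K] V} (hι : Sep D ι) : Sep D (cl (n := n) ι) := by
  intro l
  obtain ⟨L, hL⟩ := hι l
  refine ⟨L.compLeft (Finset (Fin n)), fun d m => ?_⟩
  funext F
  exact hL d (m F)

theorem bc_ch (ι : M →ₗ[K] V) (q : ℕ) (W : Submodule K M) :
    bc D (cl (n := n) ι) (ch n q W) = ch n q (bc D ι W) := by
  classical
  apply le_antisymm
  · refine bc_le fun f hf => mem_ch.mpr fun F => ⟨fun _ => mem_bc ι (mem_ch.mem hf F), fun hF => ?_⟩
    rw [cl_apply, (mem_ch.mp hf F).2 hF, map_zero]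
  · intro g hg
    rw [← Finset.univ_sum_single g]
    refine Submodule.sum_mem _ fun F _ => ?_
    by_cases hF : F.card = q
    · have : bc D ι W ≤ Submodule.comap (LinearMap.single D (fun _ : Finset (Fin n) => V) F)
          (bc D (cl (n := n) ι) (ch n q W)) := by
        refine bc_le fun m hm => ?_
        have h1 : (LinearMap.single D (fun _ : Finset (Fin n) => V) F) (ι m) =
            cl ι (Pi.single F m) := by
          funext G
          rw [cl_apply, LinearMap.single_apply]
          by_cases hG : G = F
          · subst hG; simp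
          · simp [Pi.single_eq_of_ne hG]
        rw [Submodule.mem_comap, h1]
        refine mem_bc _ (mem_ch.mpr fun G => ?_)
        by_cases hG : G = F
        · subst hG; simp [hm, hF]
        · simp [Pi.single_eq_of_ne hG]
      exact this (mem_ch.mem hg F)
    · rw [(mem_ch.mp hg F).2 hF, Pi.single_zero]
      exact Submodule.zero_mem _

theorem rho_bc {ι : M →ₗ[K] V} (hι : Sep D ι) {T : Fin n → M →ₗ[K] M}
    {T' : Fin n → V →ₗ[D] V} (h : ∀ t m, ι (T t m) = T' t (ι m)) (q : ℕ) (H W : Submodule K M)
    [Module.Finite K H] [Module.Finite K W] :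
    rho T' q (bc D ι H) (bc D ι W) = rho T q H W := by
  rw [rho_def, rho_def, ← finrank_bc (D := D) hι.cl, bc_sup, bc_map (L' := kos T'), bc_ch, bc_ch]
  intro f
  funext U
  rw [cl_apply, kos_apply, kos_apply, map_sum]
  refine Finset.sum_congr rfl fun t _ => ?_
  rw [map_zsmul, h, cl_apply]

theorem anchor_LPPBase : True := by
  have := @bc.eq_1.{0, 0, 0, 0}
  have := @Sep.eq_1.{0, 0, 0, 0}
  trivial

end Crest.Agent.R181
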