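import Crest.Agent.R181.LPPKos
import Crest.Prelude.Def_LexPlusPowers

/-! Row 181: graded Betti numbers through the rank function `rho`. -/

set_option autoImplicit false

namespace Crest.Agent.R181

open Finset MvPolynomial Crest.AlgebraR.LPP Module

theorem finrank_map_add_inf_ker {D : Type*} [DivisionRing D] {V V' : Type*} [AddCommGroup V]
    [Module D V] [AddCommGroup V'] [Module D V'] (f : V →ₗ[D] V') (Y : Submodule D V)
    [Module.Finite D Y] :
    finrank D (Y.map f) + finrank D (LinearMap.ker f ⊓ Y : Submodule D V) = finrank D Y := by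
  have h := (f.domRestrict Y).finrank_range_add_finrank_ker
  rw [LinearMap.range_domRestrict, LinearMap.ker_domRestrict,
    ← Submodule.finrank_map_subtype_eq, Submodule.map_comap_subtype, inf_comm] at h
  exact h

variable {n : ℕ}

/-- Multiplication by the variables on the polynomial ring. -/
noncomputable def XT (n : ℕ) (t : Fin n) :
    MvPolynomial (Fin n) ℂ →ₗ[ℂ] MvPolynomial (Fin n) ℂ :=
  LinearMap.mulLeft ℂ (X t)

theorem XT_apply (t : Fin n) (g : MvPolynomial (Fin n) ℂ) : XT n t g = X t * g := rfl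

/-- Multiplication by the variables on the quotient ring. -/
noncomputable def QT (I : Ideal (MvPolynomial (Fin n) ℂ)) (t : Fin n) :
    (MvPolynomial (Fin n) ℂ ⧸ I) →ₗ[ℂ] (MvPolynomial (Fin n) ℂ ⧸ I) :=
  LinearMap.mulLeft ℂ (Ideal.Quotient.mk I (X t))

theorem QT_apply (I : Ideal (MvPolynomial (Fin n) ℂ)) (t : Fin n)
    (g : MvPolynomial (Fin n) ℂ ⧸ I) : QT I t g = Ideal.Quotient.mk I (X t) * g := rfl

instance hom_finite (e : ℕ) : Module.Finite ℂ (homogeneousSubmodule (Fin n) ℂ e) :=
  Module.Finite.iff_fg.mpr (homogeneousSubmodule_fg (Fin n) ℂ e)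

theorem degreePiece_def (I : Ideal (MvPolynomial (Fin n) ℂ)) (d : ℕ) :
    degreePiece I d = homogeneousSubmodule (Fin n) ℂ d ⊓ Submodule.restrictScalars ℂ I := rfl

theorem mem_degreePiece {I : Ideal (MvPolynomial (Fin n) ℂ)} {d : ℕ}
    {g : MvPolynomial (Fin n) ℂ} : g ∈ degreePiece I d ↔ g.IsHomogeneous d ∧ g ∈ I := Iff.rfl

theorem degreePiece_le (I : Ideal (MvPolynomial (Fin n) ℂ)) (d : ℕ) :
    degreePiece I d ≤ homogeneousSubmodule (Fin n) ℂ d := fun _ h => h.1

instance degreePiece_finite (I : Ideal (MvPolynomial (Fin n) ℂ)) (d : ℕ) :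
    Module.Finite ℂ (degreePiece I d) :=
  Submodule.finiteDimensional_of_le (degreePiece_le I d)

theorem quotPiece_def (I : Ideal (MvPolynomial (Fin n) ℂ)) (e : ℕ) :
    quotPiece I e =
      Submodule.map (Ideal.Quotient.mkₐ ℂ I).toLinearMap (homogeneousSubmodule (Fin n) ℂ e) := rfl

instance quotPiece_finite (I : Ideal (MvPolynomial (Fin n) ℂ)) (d : ℕ) :
    Module.Finite ℂ (quotPiece I d) := by
  rw [quotPiece_def]; infer_instance

theorem koszulD_eq (I : Ideal (MvPolynomial (Fin n) ℂ)) : koszulD I = kos (QT I) := by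
  apply LinearMap.ext
  intro f
  funext U
  rw [kos_apply]
  change (∑ t ∈ Uᶜ, ((-1 : ℂ) ^ (U.filter (· < t)).card) •
      (LinearMap.mulLeft ℂ (Ideal.Quotient.mk I (X t)) ∘ₗ LinearMap.proj (insert t U))) f = _
  rw [LinearMap.sum_apply]
  refine Finset.sum_congr rfl fun t _ => ?_
  rw [LinearMap.smul_apply, sg_def, ← Int.cast_smul_eq_zsmul ℂ]
  push_cast
  rfl

theorem strandChains_eq (I : Ideal (MvPolynomial (Fin n) ℂ)) (p j : ℕ) :
    strandChains I p j = if p ≤ j then ch n p (quotPiece I (j - p)) else ⊥ := by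
  ext f
  change f ∈ ⨅ T : Finset (Fin n), Submodule.comap (LinearMap.proj T)
    (if T.card = p ∧ p ≤ j then quotPiece I (j - p) else ⊥) ↔ _
  simp only [Submodule.mem_iInf, Submodule.mem_comap, LinearMap.proj_apply]
  split_ifs with h
  · rw [mem_ch]
    refine forall_congr' fun F => ?_
    by_cases hF : F.card = p <;> simp [hF, h]
  · simp only [h, and_false, if_false, Submodule.mem_bot]
    exact ⟨fun h => funext h, fun h F => by rw [h]; rfl⟩

instance strandChains_finite (I : Ideal (MvPolynomial (Fin n) ℂ)) (p j : ℕ) :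
    Module.Finite ℂ (strandChains I p j) := by
  rw [strandChains_eq]
  by_cases h : p ≤ j
  · rw [if_pos h]; infer_instance
  · rw [if_neg h]; infer_instance

theorem QT_mem (I : Ideal (MvPolynomial (Fin n) ℂ)) (e : ℕ) (t : Fin n) :
    ∀ v ∈ quotPiece I e, QT I t v ∈ quotPiece I (e + 1) := by
  rintro _ ⟨g, hg, rfl⟩
  refine ⟨X t * g, ?_, by simp [QT_apply]⟩
  have := (isHomogeneous_X ℂ t).mul hg
  rwa [add_comm] at this

theorem XT_mem (e : ℕ) (t : Fin n) :
    ∀ v ∈ homogeneousSubmodule (Fin n) ℂ e, XT n t v ∈ homogeneousSubmodule (Fin n) ℂ (e + 1) := by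
  intro g hg
  have := (isHomogeneous_X ℂ t).mul hg
  rwa [add_comm] at this

/-- The rank of the Koszul differential on the `(p, j)` strand. -/
noncomputable def rk (I : Ideal (MvPolynomial (Fin n) ℂ)) (p j : ℕ) : ℕ :=
  finrank ℂ ((strandChains I p j).map (koszulD I))

theorem rk_def (I : Ideal (MvPolynomial (Fin n) ℂ)) (p j : ℕ) :
    rk I p j = finrank ℂ ((strandChains I p j).map (koszulD I)) := rfl

theorem map_strand_le (I : Ideal (MvPolynomial (Fin n) ℂ)) (p j : ℕ) :
    (strandChains I (p + 1) j).map (koszulD I) ≤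
      LinearMap.ker (koszulD I) ⊓ strandChains I p j := by
  rintro _ ⟨f, hf, rfl⟩
  refine ⟨?_, ?_⟩
  · change koszulD I (koszulD I f) = 0
    rw [koszulD_eq]
    have : NoZeroSMulDivisors ℕ (MvPolynomial (Fin n) ℂ ⧸ I) := by
      refine ⟨fun {c x} h => ?_⟩
      rw [← Nat.cast_smul_eq_nsmul ℂ, smul_eq_zero] at h
      exact h.imp (fun h => by exact_mod_cast h) id
    refine kos_kos (fun s t v => ?_) f
    simp only [QT_apply]; ring
  · rw [strandChains_eq] at hf
    change koszulD I f ∈ strandChains I p j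
    rw [strandChains_eq, koszulD_eq]
    by_cases h : p + 1 ≤ j
    · rw [if_pos h] at hf
      rw [if_pos (by omega), show j - p = j - (p + 1) + 1 by omega]
      exact kos_mem (QT_mem I _) hf
    · rw [if_neg h] at hf
      have hf' : f = 0 := by simpa using hf
      rw [hf', map_zero]
      exact Submodule.zero_mem _

theorem betti_add (I : Ideal (MvPolynomial (Fin n) ℂ)) (p j : ℕ) :
    gradedBetti I p j + rk I (p + 1) j + rk I p j = finrank ℂ (strandChains I p j) := by
  have h1 := finrank_map_add_inf_ker (koszulD I) (strandChains I p j)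
  have h2 := Submodule.finrank_quotient_add_finrank
    (Submodule.comap (LinearMap.ker (koszulD I) ⊓ strandChains I p j).subtype
        (Submodule.map (koszulD I) (strandChains I (p + 1) j)))
  rw [(Submodule.comapSubtypeEquivOfLe (map_strand_le I p j)).finrank_eq] at h2
  change gradedBetti I p j + rk I (p + 1) j = _ at h2
  rw [h2, rk_def, add_comm, h1]

theorem finrank_quotPiece (I : Ideal (MvPolynomial (Fin n) ℂ)) (e : ℕ) :
    finrank ℂ (quotPiece I e) + finrank ℂ (degreePiece I e) =
      finrank ℂ (homogeneousSubmodule (Fin n) ℂ e) := by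
  rw [← finrank_map_add_inf_ker (Ideal.Quotient.mkₐ ℂ I).toLinearMap
    (homogeneousSubmodule (Fin n) ℂ e), ← quotPiece_def]
  have : LinearMap.ker (Ideal.Quotient.mkₐ ℂ I).toLinearMap ⊓ homogeneousSubmodule (Fin n) ℂ e =
      degreePiece I e := by
    ext g
    simp [mem_degreePiece, Ideal.Quotient.eq_zero_iff_mem, and_comm]
  rw [this]

theorem rk_zero (I : Ideal (MvPolynomial (Fin n) ℂ)) (j : ℕ) : rk I 0 j = 0 := by
  have : (strandChains I 0 j).map (koszulD I) = ⊥ := by
    rw [eq_bot_iff]
    rintro _ ⟨f, hf, rfl⟩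
    rw [strandChains_eq, if_pos (Nat.zero_le j)] at hf
    rw [koszulD_eq, kos_eq_zero hf]
    exact Submodule.zero_mem _
  rw [rk_def, this, finrank_bot]

theorem rk_of_lt (I : Ideal (MvPolynomial (Fin n) ℂ)) {p j : ℕ} (h : j < p) : rk I p j = 0 := by
  rw [rk_def, strandChains_eq, if_neg (by omega), Submodule.map_bot, finrank_bot]

theorem rk_succ (I : Ideal (MvPolynomial (Fin n) ℂ)) (q e : ℕ) :
    rk I (q + 1) (q + 1 + e) + n.choose q * finrank ℂ (degreePiece I (e + 1)) =
      rho (XT n) q (homogeneousSubmodule (Fin n) ℂ e) (degreePiece I (e + 1)) := by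
  set mk := (Ideal.Quotient.mkₐ ℂ I).toLinearMap with hmk
  have hmk0 : ∀ g, mk g = 0 ↔ g ∈ I := fun g => Ideal.Quotient.eq_zero_iff_mem
  rw [rho_def, ← finrank_map_add_inf_ker (cl mk), ← finrank_ch]
  have h1 : ((ch n (q + 1) (homogeneousSubmodule (Fin n) ℂ e)).map (kos (XT n)) ⊔
      ch n q (degreePiece I (e + 1))).map (cl mk) =
      (strandChains I (q + 1) (q + 1 + e)).map (koszulD I) := by
    have h0 : (ch n q (degreePiece I (e + 1))).map (cl mk) = ⊥ := by
      rw [eq_bot_iff]
      rintro _ ⟨f, hf, rfl⟩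
      rw [Submodule.mem_bot]
      funext F
      exact (hmk0 _).mpr (mem_ch.mem hf F).2
    rw [Submodule.map_sup, h0, sup_bot_eq, strandChains_eq, if_pos (by omega),
      show q + 1 + e - (q + 1) = e by omega, quotPiece_def, ← map_cl_ch, ← Submodule.map_comp,
      ← Submodule.map_comp, koszulD_eq]
    congr 1
    apply LinearMap.ext
    intro f
    exact cl_kos mk (fun t v => by simp [hmk, XT_apply, QT_apply]) f
  have h2 : LinearMap.ker (cl mk) ⊓ ((ch n (q + 1) (homogeneousSubmodule (Fin n) ℂ e)).map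
      (kos (XT n)) ⊔ ch n q (degreePiece I (e + 1))) = ch n q (degreePiece I (e + 1)) := by
    apply le_antisymm
    · rintro f ⟨hf1, hf2⟩
      have hf3 : f ∈ ch n q (homogeneousSubmodule (Fin n) ℂ (e + 1)) := by
        refine (sup_le ?_ (ch_mono (degreePiece_le I _)) : _ ≤ _) hf2
        rintro _ ⟨g, hg, rfl⟩
        exact kos_mem (XT_mem e) hg
      rw [mem_ch] at hf3 ⊢
      exact fun F => ⟨fun hF => ⟨(hf3 F).1 hF, (hmk0 _).mp (congrFun hf1 F)⟩, (hf3 F).2⟩
    · intro f hf
      refine ⟨?_, Submodule.mem_sup_right hf⟩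
      change cl mk f = 0
      funext F
      exact (hmk0 _).mpr (mem_ch.mem hf F).2
  rw [h1, h2, rk_def]

/-- Graded Betti numbers compare through the Hilbert function and the ranks `rho`. -/
theorem betti_le_of_rho (I J : Ideal (MvPolynomial (Fin n) ℂ))
    (hHF : ∀ d, finrank ℂ (degreePiece J d) = finrank ℂ (degreePiece I d))
    (hrho : ∀ q e, rho (XT n) q (homogeneousSubmodule (Fin n) ℂ e) (degreePiece J (e + 1)) ≤
      rho (XT n) q (homogeneousSubmodule (Fin n) ℂ e) (degreePiece I (e + 1))) (p j : ℕ) :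
    gradedBetti I p j ≤ gradedBetti J p j := by
  have hr : ∀ p, rk J p j ≤ rk I p j := by
    intro p
    rcases p with _ | q
    · rw [rk_zero, rk_zero]
    by_cases h : j < q + 1
    · rw [rk_of_lt _ h, rk_of_lt _ h]
    obtain ⟨e, rfl⟩ : ∃ e, j = q + 1 + e := ⟨j - (q + 1), by omega⟩
    have h1 := rk_succ I q e
    have h2 := rk_succ J q e
    have h3 := hrho q e
    rw [hHF] at h2
    omega
  have hc : finrank ℂ (strandChains I p j) = finrank ℂ (strandChains J p j) := by
    rw [strandChains_eq, strandChains_eq]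
    by_cases h : p ≤ j
    · rw [if_pos h, if_pos h, finrank_ch, finrank_ch]
      have h1 := finrank_quotPiece I (j - p)
      have h2 := finrank_quotPiece J (j - p)
      rw [hHF] at h2
      congr 1
      omega
    · rw [if_neg h, if_neg h, finrank_bot, finrank_bot]
  have h1 := betti_add I p j
  have h2 := betti_add J p j
  have h3 := hr p
  have h4 := hr (p + 1)
  omega

theorem anchor_LPPBetti : True := by
  have := @XT.eq_1
  have := @QT.eq_1
  have := @rk.eq_1
  trivial

end Crest.Agent.R181
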