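import Mathlib
import Crest.Prelude.Def_LexPlusPowers

/-! Row 181: the interface between the noncommutative construction and the textbook half. -/

set_option autoImplicit false

namespace Crest.Agent.R181

open scoped TensorProduct
open MvPolynomial

universe u

/-- The linear form `α_j = ∑ i, b j i ⊗ x_i` in `D ⊗ ℂ[x]`. -/
noncomputable def alpha {n : ℕ} {D : Type u} [DivisionRing D] [Algebra ℂ D]
    (b : Fin n → Fin n → D) (j : Fin n) : D ⊗[ℂ] MvPolynomial (Fin n) ℂ :=
  ∑ i, b j i ⊗ₜ[ℂ] (X i : MvPolynomial (Fin n) ℂ)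

/-- The data asked from the noncommutative construction, for a given skew field `D` and matrix
`b`: the forms `α_j` are left independent, commute, and `α_j ^ a j` lies in the left ideal
generated by `I` and the later forms. -/
def NCData {n : ℕ} (a : Fin n → ℕ) (I : Ideal (MvPolynomial (Fin n) ℂ)) {D : Type u}
    [DivisionRing D] [Algebra ℂ D] (b : Fin n → Fin n → D) : Prop :=
  LinearIndependent D (alpha b) ∧ (∀ j k, Commute (alpha b j) (alpha b k)) ∧
    ∀ j, alpha b j ^ a j ∈ Ideal.span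
      (((fun g => (1 : D) ⊗ₜ[ℂ] g) '' (I : Set (MvPolynomial (Fin n) ℂ))) ∪
        {x | ∃ i, j < i ∧ x = alpha b i})

/-- Noncommutative coordinates exist (over a skew field in universe `u`). -/
def NCCoord (n : ℕ) (a : Fin n → ℕ) (I : Ideal (MvPolynomial (Fin n) ℂ)) : Prop :=
  ∃ (D : Type u) (_ : DivisionRing D) (_ : Algebra ℂ D) (b : Fin n → Fin n → D), NCData a I b

/-- The ideal generated by the monomials with exponent in `E`. -/
noncomputable def monIdeal {n : ℕ} (E : Set (Fin n →₀ ℕ)) : Ideal (MvPolynomial (Fin n) ℂ) :=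
  Ideal.span ((fun m => monomial m (1 : ℂ)) '' E)

open Crest.AlgebraR.LPP in
/-- The conclusion of S0271 for the ideal `I`. -/
def LPPConcl (n : ℕ) (a : Fin n → ℕ) (I : Ideal (MvPolynomial (Fin n) ℂ)) : Prop :=
  ∃ U : ℕ → Set (Fin n →₀ ℕ), (∀ d, IsLexSegment n d (U d)) ∧
    (∀ d, Module.finrank ℂ (lppPiece a (U d) d) = Module.finrank ℂ (degreePiece I d)) ∧
    ∃ J : Ideal (MvPolynomial (Fin n) ℂ),
      (∀ g ∈ J, ∀ d : ℕ, MvPolynomial.homogeneousComponent d g ∈ J) ∧
      (∀ d, degreePiece J d = lppPiece a (U d) d) ∧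
      ∀ p j : ℕ, gradedBetti I p j ≤ gradedBetti J p j

/-- The monomial case (Clements–Lindström and Mermin–Murai). -/
def MMStatement (n : ℕ) (a : Fin n → ℕ) : Prop :=
  ∀ E : Set (Fin n →₀ ℕ), IsUpperSet E → (∀ i, Finsupp.single i (a i) ∈ E) →
    LPPConcl n a (monIdeal E)

theorem anchor_LPPDefs : True := by
  have := @alpha.eq_1.{0}
  have := @NCData.eq_1.{0}
  have := @NCCoord.eq_1.{0}
  have := @monIdeal.eq_1
  have := @LPPConcl.eq_1
  have := @MMStatement.eq_1
  trivial

end Crest.Agent.R181
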