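import Crest.Agent.R181.LPPMain
import Crest.Agent.R181.MM.Final

/-! Row 181: the statement from noncommutative coordinates. -/

set_option autoImplicit false

namespace Crest.Agent.R181

open Crest.AlgebraR.LPP

universe u in
/-- The conclusion of S0271, given noncommutative coordinates. -/
theorem S0271_of_NC (n : ℕ) (a : Fin n → ℕ) (ha : Monotone a)
    (I : Ideal (MvPolynomial (Fin n) ℂ))
    (hI : ∀ g ∈ I, ∀ d : ℕ, MvPolynomial.homogeneousComponent d g ∈ I)
    (h : NCCoord.{u} n a I) :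
    ∃ U : ℕ → Set (Fin n →₀ ℕ), (∀ d, IsLexSegment n d (U d)) ∧
      (∀ d, Module.finrank ℂ (lppPiece a (U d) d) = Module.finrank ℂ (degreePiece I d)) ∧
      ∃ J : Ideal (MvPolynomial (Fin n) ℂ),
        (∀ g ∈ J, ∀ d : ℕ, MvPolynomial.homogeneousComponent d g ∈ J) ∧
        (∀ d, degreePiece J d = lppPiece a (U d) d) ∧
        ∀ p j : ℕ, gradedBetti I p j ≤ gradedBetti J p j :=
  concl_of_NC hI h (MM.mmStatement n a ha)

end Crest.Agent.R181
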