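import Crest.Agent.R181.LPPBetti

/-! Row 181: the initial space of a finite-dimensional subspace for a family of projections. -/

set_option autoImplicit false

namespace Crest.Agent.R181

open Finset Module

variable {D : Type*} [DivisionRing D] {V : Type*} [AddCommGroup V] [Module D V]
variable {K : Type*} [LinearOrder K]

/-- The vectors killed by all projections indexed by `s`. -/
def kerOn (π : K → V →ₗ[D] V) (s : Finset K) : Submodule D V := ⨅ j ∈ s, LinearMap.ker (π j)

omit [LinearOrder K] in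
theorem mem_kerOn {π : K → V →ₗ[D] V} {s : Finset K} {v : V} :
    v ∈ kerOn π s ↔ ∀ j ∈ s, π j v = 0 := by
  simp [kerOn, Submodule.mem_iInf]

/-- Dimension count along the filtration. -/
theorem finrank_eq_sum_gr (π : K → V →ₗ[D] V) (Y : Submodule D V) [Module.Finite D Y]
    (s : Finset K) :
    finrank D Y = finrank D (Y ⊓ kerOn π s : Submodule D V) +
      ∑ k ∈ s, finrank D ((Y ⊓ kerOn π (s.filter (· < k))).map (π k)) := by
  classical
  induction s using Finset.induction_on_max with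
  | empty =>
    have : Y ⊓ kerOn π ∅ = Y := by
      ext v; simp [mem_kerOn]
    rw [this]; simp
  | insert m s hm ih =>
    have hms : m ∉ s := fun h => lt_irrefl _ (hm m h)
    rw [Finset.sum_insert hms]
    have h1 : (insert m s).filter (· < m) = s := by
      ext k
      simp only [Finset.mem_filter, Finset.mem_insert]
      constructor
      · rintro ⟨rfl | h, h'⟩
        · exact absurd h' (lt_irrefl _)
        · exact h
      · exact fun h => ⟨Or.inr h, hm k h⟩
    have h2 : ∑ k ∈ s, finrank D ((Y ⊓ kerOn π ((insert m s).filter (· < k))).map (π k)) =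
        ∑ k ∈ s, finrank D ((Y ⊓ kerOn π (s.filter (· < k))).map (π k)) := by
      refine Finset.sum_congr rfl fun k hk => ?_
      rw [Finset.filter_insert, if_neg (not_lt.mpr (hm k hk).le)]
    have : Module.Finite D (Y ⊓ kerOn π s : Submodule D V) :=
      Submodule.finiteDimensional_of_le inf_le_left
    have h3 := finrank_map_add_inf_ker (π m) (Y ⊓ kerOn π s)
    have h4 : LinearMap.ker (π m) ⊓ (Y ⊓ kerOn π s) = Y ⊓ kerOn π (insert m s) := by
      ext v
      simp only [Submodule.mem_inf, mem_kerOn, LinearMap.mem_ker, Finset.mem_insert,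
        forall_eq_or_imp]
      tauto
    rw [h4] at h3
    rw [h1, h2, ih]
    omega

/-- If `Z` contains the lowest term of every vector of `Y`, then `dim Y ≤ dim Z`. -/
theorem finrank_le_of_lowest (π : K → V →ₗ[D] V) (hππ : ∀ k v, π k (π k v) = π k v)
    (hπ : ∀ j k v, j ≠ k → π j (π k v) = 0) (Y Z : Submodule D V) [Module.Finite D Y]
    [Module.Finite D Z] (s : Finset K) (hY : ∀ v ∈ Y, (∀ k ∈ s, π k v = 0) → v = 0)
    (hZ : ∀ k ∈ s, ∀ v ∈ Y, (∀ j ∈ s, j < k → π j v = 0) → π k v ∈ Z) :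
    finrank D Y ≤ finrank D Z := by
  rw [finrank_eq_sum_gr π Y s, finrank_eq_sum_gr π Z s]
  have h0 : Y ⊓ kerOn π s = ⊥ := by
    rw [eq_bot_iff]
    rintro v ⟨hv, hv'⟩
    exact hY v hv (mem_kerOn.mp hv')
  rw [h0, finrank_bot, zero_add]
  refine le_trans (Finset.sum_le_sum fun k hk => ?_) (Nat.le_add_left _ _)
  have : Module.Finite D (Z ⊓ kerOn π (s.filter (· < k)) : Submodule D V) :=
    Submodule.finiteDimensional_of_le inf_le_left
  apply Submodule.finrank_mono
  rintro _ ⟨v, ⟨hv, hv'⟩, rfl⟩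
  have hv'' := mem_kerOn.mp hv'
  refine ⟨π k v, ⟨hZ k hk v hv fun j hj hjk => hv'' j (Finset.mem_filter.mpr ⟨hj, hjk⟩), ?_⟩,
    hππ k v⟩
  exact mem_kerOn.mpr fun j hj => hπ j k v (Finset.mem_filter.mp hj).2.ne

/-- If every projection of a vector of `Z` is the lowest term of a vector of `Y`, then
`dim Z ≤ dim Y`. -/
theorem finrank_le_of_lowest' (π : K → V →ₗ[D] V) (Y Z : Submodule D V) [Module.Finite D Y]
    [Module.Finite D Z] (s : Finset K) (hZ0 : ∀ v ∈ Z, (∀ k ∈ s, π k v = 0) → v = 0)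
    (hZ : ∀ k ∈ s, ∀ z ∈ Z, ∃ v ∈ Y, (∀ j ∈ s, j < k → π j v = 0) ∧ π k v = π k z) :
    finrank D Z ≤ finrank D Y := by
  rw [finrank_eq_sum_gr π Y s, finrank_eq_sum_gr π Z s]
  have h0 : Z ⊓ kerOn π s = ⊥ := by
    rw [eq_bot_iff]
    rintro v ⟨hv, hv'⟩
    exact hZ0 v hv (mem_kerOn.mp hv')
  rw [h0, finrank_bot, zero_add]
  refine le_trans (Finset.sum_le_sum fun k hk => ?_) (Nat.le_add_left _ _)
  have : Module.Finite D (Y ⊓ kerOn π (s.filter (· < k)) : Submodule D V) :=
    Submodule.finiteDimensional_of_le inf_le_left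
  apply Submodule.finrank_mono
  rintro _ ⟨z, ⟨hz, -⟩, rfl⟩
  obtain ⟨v, hv, hv', hvz⟩ := hZ k hk z hz
  exact ⟨v, ⟨hv, mem_kerOn.mpr fun j hj =>
    hv' j (Finset.mem_filter.mp hj).1 (Finset.mem_filter.mp hj).2⟩, hvz⟩

/-- Degeneration: `N` is graded, `Z` contains the lowest terms of `Y` and is not larger than `Y`;
then `dim (N + Z) ≤ dim (N + Y)`. -/
theorem finrank_sup_le_of_lowest (π : K → V →ₗ[D] V) (hππ : ∀ k v, π k (π k v) = π k v)
    (hπ : ∀ j k v, j ≠ k → π j (π k v) = 0) (N Y Z : Submodule D V) [Module.Finite D N]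
    [Module.Finite D Y] [Module.Finite D Z] (s : Finset K)
    (hY : ∀ v ∈ Y, (∀ k ∈ s, π k v = 0) → v = 0)
    (hZ : ∀ k ∈ s, ∀ v ∈ Y, (∀ j ∈ s, j < k → π j v = 0) → π k v ∈ Z)
    (hN : ∀ k, ∀ v ∈ N, π k v ∈ N) (hZY : finrank D Z ≤ finrank D Y) :
    finrank D (N ⊔ Z : Submodule D V) ≤ finrank D (N ⊔ Y : Submodule D V) := by
  have h1 := Submodule.finrank_sup_add_finrank_inf_eq N Y
  have h2 := Submodule.finrank_sup_add_finrank_inf_eq N Z
  have : Module.Finite D (N ⊓ Y : Submodule D V) := Submodule.finiteDimensional_of_le inf_le_left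
  have : Module.Finite D (N ⊓ Z : Submodule D V) := Submodule.finiteDimensional_of_le inf_le_left
  have h3 := finrank_le_of_lowest π hππ hπ (N ⊓ Y) (N ⊓ Z) s (fun v hv => hY v hv.2)
    (fun k hk v hv h => ⟨hN k v hv.1, hZ k hk v hv.2 h⟩)
  omega

theorem anchor_LPPGr : True := by
  have := @kerOn.eq_1.{0, 0, 0}
  trivial

end Crest.Agent.R181
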