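import Crest.Agent.R181.LPPGr

/-! Row 181: initial monomials of a subspace of a free module with a monomial basis. -/

set_option autoImplicit false

namespace Crest.Agent.R181

open Finset Module

variable {n : ℕ} {D : Type*} [DivisionRing D] {V : Type*} [AddCommGroup V] [Module D V]

/-- The span of the basis vectors indexed by `s`. -/
def mon (B : Basis (Fin n →₀ ℕ) D V) (s : Set (Fin n →₀ ℕ)) : Submodule D V :=
  Submodule.span D (B '' s)

theorem mon_def (B : Basis (Fin n →₀ ℕ) D V) (s : Set (Fin n →₀ ℕ)) :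
    mon B s = Submodule.span D (B '' s) := rfl

theorem mem_mon {B : Basis (Fin n →₀ ℕ) D V} {s : Set (Fin n →₀ ℕ)} {v : V} :
    v ∈ mon B s ↔ ∀ μ, B.repr v μ ≠ 0 → μ ∈ s := by
  rw [mon_def, B.mem_span_image]
  exact ⟨fun h μ hμ => h (by simpa using hμ), fun h μ hμ => h μ (by simpa using hμ)⟩

theorem basis_mem_mon (B : Basis (Fin n →₀ ℕ) D V) {s : Set (Fin n →₀ ℕ)} {μ : Fin n →₀ ℕ}
    (h : μ ∈ s) : B μ ∈ mon B s :=
  Submodule.subset_span ⟨μ, h, rfl⟩

theorem mon_finite (B : Basis (Fin n →₀ ℕ) D V) {s : Set (Fin n →₀ ℕ)} (hs : s.Finite) :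
    Module.Finite D (mon B s) :=
  Module.Finite.span_of_finite D (hs.image B)

theorem mon_mono (B : Basis (Fin n →₀ ℕ) D V) {s t : Set (Fin n →₀ ℕ)} (h : s ⊆ t) :
    mon B s ≤ mon B t :=
  Submodule.span_mono (Set.image_mono h)

/-- Keep the coordinates whose index satisfies `p`. -/
noncomputable def keep (B : Basis (Fin n →₀ ℕ) D V) (p : (Fin n →₀ ℕ) → Prop) : V →ₗ[D] V :=
  open Classical in B.constr ℕ fun μ => if p μ then B μ else 0

open Classical in
theorem keep_basis (B : Basis (Fin n →₀ ℕ) D V) (p : (Fin n →₀ ℕ) → Prop) (μ : Fin n →₀ ℕ) :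
    keep B p (B μ) = if p μ then B μ else 0 := by
  rw [keep, Basis.constr_basis]

open Classical in
theorem repr_keep (B : Basis (Fin n →₀ ℕ) D V) (p : (Fin n →₀ ℕ) → Prop) (v : V)
    (μ : Fin n →₀ ℕ) : B.repr (keep B p v) μ = if p μ then B.repr v μ else 0 := by
  have : B.coord μ ∘ₗ keep B p = if p μ then B.coord μ else 0 := by
    refine B.ext fun ν => ?_
    rw [LinearMap.comp_apply, keep_basis]
    by_cases h : ν = μ
    · subst h
      split_ifs <;> simp
    · split_ifs <;> simp [Finsupp.single_eq_of_ne (Ne.symm h)]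
  have h := LinearMap.congr_fun this v
  rw [LinearMap.comp_apply, Basis.coord_apply] at h
  rw [h]
  split_ifs <;> simp

theorem keep_mem_mon (B : Basis (Fin n →₀ ℕ) D V) (p : (Fin n →₀ ℕ) → Prop)
    {s : Set (Fin n →₀ ℕ)} {v : V} (hv : v ∈ mon B s) : keep B p v ∈ mon B s := by
  rw [mem_mon] at hv ⊢
  intro μ hμ
  rw [repr_keep] at hμ
  exact hv μ fun h => hμ (by simp [h])

theorem keep_mem_mon' (B : Basis (Fin n →₀ ℕ) D V) (p : (Fin n →₀ ℕ) → Prop) (v : V) :
    keep B p v ∈ mon B {μ | p μ} := by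
  rw [mem_mon]
  intro μ hμ
  rw [repr_keep] at hμ
  by_contra h
  exact hμ (if_neg h)

theorem keep_eq_self (B : Basis (Fin n →₀ ℕ) D V) (p : (Fin n →₀ ℕ) → Prop) {v : V}
    (hv : v ∈ mon B {μ | p μ}) : keep B p v = v := by
  refine B.ext_elem fun μ => ?_
  rw [repr_keep]
  split_ifs with h
  · rfl
  · by_contra h'
    exact h (mem_mon.mp hv μ (Ne.symm h'))

theorem keep_eq_zero (B : Basis (Fin n →₀ ℕ) D V) (p : (Fin n →₀ ℕ) → Prop) {v : V}
    (hv : v ∈ mon B {μ | ¬ p μ}) : keep B p v = 0 := by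
  refine B.ext_elem fun μ => ?_
  rw [repr_keep, map_zero, Finsupp.zero_apply]
  split_ifs with h
  · by_contra h'
    exact mem_mon.mp hv μ h' h
  · rfl

/-- The set of lowest monomials (colexicographic order) of the vectors of `W`. -/
def inE (B : Basis (Fin n →₀ ℕ) D V) (W : Submodule D V) : Set (Fin n →₀ ℕ) :=
  {μ | ∃ w ∈ W, B.repr w μ ≠ 0 ∧ ∀ ν, toColex ν < toColex μ → B.repr w ν = 0}

theorem mem_inE {B : Basis (Fin n →₀ ℕ) D V} {W : Submodule D V} {μ : Fin n →₀ ℕ} :
    μ ∈ inE B W ↔ ∃ w ∈ W, B.repr w μ ≠ 0 ∧ ∀ ν, toColex ν < toColex μ → B.repr w ν = 0 :=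
  Iff.rfl

theorem inE_subset {B : Basis (Fin n →₀ ℕ) D V} {W : Submodule D V} {M : Set (Fin n →₀ ℕ)}
    (hW : W ≤ mon B M) : inE B W ⊆ M := by
  rintro μ ⟨w, hw, hμ, -⟩
  exact mem_mon.mp (hW hw) μ hμ

theorem finrank_mon_inE (B : Basis (Fin n →₀ ℕ) D V) (W : Submodule D V)
    {M : Set (Fin n →₀ ℕ)} (hM : M.Finite) (hW : W ≤ mon B M) :
    finrank D (mon B (inE B W)) = finrank D W := by
  classical
  have := mon_finite B hM
  have : Module.Finite D W := Submodule.finiteDimensional_of_le hW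
  have := mon_finite B (hM.subset (inE_subset hW))
  let π : Colex (Fin n →₀ ℕ) → V →ₗ[D] V := fun κ => keep B (fun μ => toColex μ = κ)
  let s : Finset (Colex (Fin n →₀ ℕ)) := hM.toFinset.image toColex
  have hs : ∀ μ ∈ M, toColex μ ∈ s := fun μ hμ =>
    Finset.mem_image_of_mem _ (hM.mem_toFinset.mpr hμ)
  have hz : ∀ v ∈ mon B M, ∀ μ, (μ ∈ M → π (toColex μ) v = 0) → B.repr v μ = 0 := by
    intro v hv μ h
    by_contra h0
    have h1 := congrArg (fun x => B.repr x μ) (h (mem_mon.mp hv μ h0))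
    simp only [π, repr_keep, if_true, map_zero, Finsupp.zero_apply] at h1
    exact h0 h1
  have h0 : ∀ v ∈ mon B M, (∀ k ∈ s, π k v = 0) → v = 0 := by
    intro v hv h
    refine B.ext_elem fun μ => ?_
    rw [hz v hv μ fun hμ => h _ (hs μ hμ)]; simp
  apply le_antisymm
  · refine finrank_le_of_lowest' π W _ s (fun v hv => h0 v (mon_mono B (inE_subset hW) hv)) ?_
    intro k _ z hz
    by_cases hk : B.repr z (ofColex k) = 0
    · refine ⟨0, W.zero_mem, fun j _ _ => map_zero _, ?_⟩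
      refine B.ext_elem fun μ => ?_
      simp only [π, repr_keep, map_zero, Finsupp.zero_apply]
      split_ifs with h
      · rw [← hk, ← h]; rfl
      · rfl
    · obtain ⟨w, hw, hw1, hw2⟩ := mem_mon.mp hz _ hk
      refine ⟨(B.repr z (ofColex k) * (B.repr w (ofColex k))⁻¹) • w, W.smul_mem _ hw, ?_, ?_⟩
      · intro j _ hjk
        refine B.ext_elem fun μ => ?_
        simp only [π, repr_keep, map_zero, Finsupp.zero_apply, map_smul, Finsupp.smul_apply]
        split_ifs with h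
        · rw [hw2 μ (by rw [h]; exact hjk), smul_zero]
        · rw [smul_zero]
      · refine B.ext_elem fun μ => ?_
        simp only [π, repr_keep, map_smul, Finsupp.smul_apply]
        split_ifs with h
        · have : μ = ofColex k := by rw [← h]; rfl
          rw [this, smul_eq_mul, mul_assoc, inv_mul_cancel₀ hw1, mul_one]
        · rw [smul_zero]
  · refine finrank_le_of_lowest π ?_ ?_ W _ s (fun v hv => h0 v (hW hv)) ?_
    · intro k v
      exact keep_eq_self B _ (keep_mem_mon' B _ v)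
    · intro j k v hjk
      refine keep_eq_zero B _ (mon_mono B ?_ (keep_mem_mon' B _ v))
      intro μ hμ hμ'
      exact hjk (hμ'.symm.trans hμ)
    · intro k _ v hv h
      rw [mem_mon]
      intro μ hμ
      simp only [π, repr_keep] at hμ
      have h1 : toColex μ = k := by
        by_contra h'; exact hμ (if_neg h')
      rw [if_pos h1] at hμ
      exact ⟨v, hv, hμ, fun ν hν => hz v (hW hv) ν fun hνM => h _ (hs ν hνM) (h1 ▸ hν)⟩

/-- The indicator exponent of a finite set of variables. -/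
noncomputable def ind (F : Finset (Fin n)) : Fin n →₀ ℕ := ∑ t ∈ F, Finsupp.single t 1

theorem ind_insert {t : Fin n} {U : Finset (Fin n)} (h : t ∉ U) :
    ind (insert t U) = Finsupp.single t 1 + ind U := by
  rw [ind, Finset.sum_insert h]; rfl

/-- Projection of a chain on a multidegree. -/
noncomputable def chProj (B : Basis (Fin n →₀ ℕ) D V) (κ : Colex (Fin n →₀ ℕ)) :
    (Finset (Fin n) → V) →ₗ[D] (Finset (Fin n) → V) :=
  LinearMap.pi fun F => keep B (fun μ => toColex (μ + ind F) = κ) ∘ₗ LinearMap.proj F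

theorem chProj_apply (B : Basis (Fin n →₀ ℕ) D V) (κ : Colex (Fin n →₀ ℕ))
    (f : Finset (Fin n) → V) (F : Finset (Fin n)) :
    chProj B κ f F = keep B (fun μ => toColex (μ + ind F) = κ) (f F) := rfl

theorem keep_shift (B : Basis (Fin n →₀ ℕ) D V) {T : Fin n → V →ₗ[D] V}
    (hT : ∀ i μ, T i (B μ) = B (μ + Finsupp.single i 1)) (p : (Fin n →₀ ℕ) → Prop) (t : Fin n)
    (v : V) : keep B p (T t v) = T t (keep B (fun μ => p (μ + Finsupp.single t 1)) v) := by
  have : keep B p ∘ₗ T t = T t ∘ₗ keep B (fun μ => p (μ + Finsupp.single t 1)) := by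
    refine B.ext fun μ => ?_
    rw [LinearMap.comp_apply, LinearMap.comp_apply, hT, keep_basis, keep_basis]
    split_ifs
    · rw [hT]
    · rw [map_zero]
  exact LinearMap.congr_fun this v

theorem chProj_kos (B : Basis (Fin n →₀ ℕ) D V) {T : Fin n → V →ₗ[D] V}
    (hT : ∀ i μ, T i (B μ) = B (μ + Finsupp.single i 1)) (κ : Colex (Fin n →₀ ℕ))
    (f : Finset (Fin n) → V) : chProj B κ (kos T f) = kos T (chProj B κ f) := by
  funext U
  rw [chProj_apply, kos_apply, kos_apply, map_sum]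
  refine Finset.sum_congr rfl fun t ht => ?_
  rw [map_zsmul, keep_shift B hT, chProj_apply, ind_insert (Finset.mem_compl.mp ht)]
  simp only [add_assoc]

theorem rho_inE_le (B : Basis (Fin n →₀ ℕ) D V) {T : Fin n → V →ₗ[D] V}
    (hT : ∀ i μ, T i (B μ) = B (μ + Finsupp.single i 1)) (q : ℕ) {S M : Set (Fin n →₀ ℕ)}
    (hS : S.Finite) (hM : M.Finite) (W : Submodule D V) (hW : W ≤ mon B M) :
    rho T q (mon B S) (mon B (inE B W)) ≤ rho T q (mon B S) W := by
  classical
  have := mon_finite B hM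
  have := mon_finite B hS
  have : Module.Finite D W := Submodule.finiteDimensional_of_le hW
  have := mon_finite B (hM.subset (inE_subset hW))
  let s : Finset (Colex (Fin n →₀ ℕ)) :=
    (hM.toFinset ×ˢ (Finset.univ : Finset (Finset (Fin n)))).image
      fun x => toColex (x.1 + ind x.2)
  have hs : ∀ μ ∈ M, ∀ F, toColex (μ + ind F) ∈ s := fun μ hμ F =>
    Finset.mem_image.mpr ⟨(μ, F), by simp [hμ], rfl⟩
  have hz : ∀ f ∈ ch n q W, ∀ F μ, (μ ∈ M → chProj B (toColex (μ + ind F)) f = 0) →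
      B.repr (f F) μ = 0 := by
    intro f hf F μ h
    by_contra h0
    have h1 := congrArg (fun x => B.repr (x F) μ) (h (mem_mon.mp (hW (mem_ch.mem hf F)) μ h0))
    simp only [chProj_apply, repr_keep, if_true, Pi.zero_apply, map_zero,
      Finsupp.zero_apply] at h1
    exact h0 h1
  rw [rho_def, rho_def]
  refine finrank_sup_le_of_lowest (chProj B) ?_ ?_ _ _ _ s ?_ ?_ ?_ ?_
  · intro k f
    funext F
    exact keep_eq_self B _ (keep_mem_mon' B _ _)
  · intro j k f hjk
    funext F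
    refine keep_eq_zero B _ (mon_mono B ?_ (keep_mem_mon' B _ _))
    intro μ hμ hμ'
    exact hjk (hμ'.symm.trans hμ)
  · intro f hf h
    funext F
    refine B.ext_elem fun μ => ?_
    rw [hz f hf F μ fun hμ => h _ (hs μ hμ F)]; simp
  · intro k _ f hf h
    rw [mem_ch]
    intro F
    refine ⟨fun _ => ?_, fun hF => by rw [chProj_apply, (mem_ch.mp hf F).2 hF, map_zero]⟩
    rw [mem_mon]
    intro μ hμ
    rw [chProj_apply, repr_keep] at hμ
    have h1 : toColex (μ + ind F) = k := by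
      by_contra h'; exact hμ (if_neg h')
    rw [if_pos h1] at hμ
    refine ⟨f F, mem_ch.mem hf F, hμ, fun ν hν => hz f hf F ν fun hνM => h _ (hs ν hνM F) ?_⟩
    rw [← h1]
    exact add_lt_add_left hν (toColex (ind F))
  · rintro k _ ⟨f, hf, rfl⟩
    refine ⟨chProj B k f, ?_, (chProj_kos B hT k f).symm⟩
    have hf' := mem_ch.mp hf
    exact mem_ch.mpr fun F => ⟨fun hF => keep_mem_mon B _ ((hf' F).1 hF),
      fun hF => by rw [chProj_apply, (hf' F).2 hF, map_zero]⟩
  · rw [finrank_ch, finrank_ch, finrank_mon_inE B W hM hW]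

theorem repr_shift (B : Basis (Fin n →₀ ℕ) D V) {T : Fin n → V →ₗ[D] V}
    (hT : ∀ i μ, T i (B μ) = B (μ + Finsupp.single i 1)) (t : Fin n) (v : V) (μ : Fin n →₀ ℕ) :
    B.repr (T t v) (μ + Finsupp.single t 1) = B.repr v μ := by
  have : B.coord (μ + Finsupp.single t 1) ∘ₗ T t = B.coord μ := by
    refine B.ext fun ν => ?_
    rw [LinearMap.comp_apply, hT]
    by_cases h : ν = μ
    · subst h; simp
    · have h' : μ + Finsupp.single t 1 ≠ ν + Finsupp.single t 1 := fun h' =>
        h (add_right_cancel h').symm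
      simp [Finsupp.single_eq_of_ne (Ne.symm h), Finsupp.single_eq_of_ne h']
  exact LinearMap.congr_fun this v

theorem shift_mem_mon (B : Basis (Fin n →₀ ℕ) D V) {T : Fin n → V →ₗ[D] V}
    (hT : ∀ i μ, T i (B μ) = B (μ + Finsupp.single i 1)) (t : Fin n) {s s' : Set (Fin n →₀ ℕ)}
    (h : ∀ μ ∈ s, μ + Finsupp.single t 1 ∈ s') {v : V} (hv : v ∈ mon B s) :
    T t v ∈ mon B s' := by
  have : (mon B s).map (T t) ≤ mon B s' := by
    rw [mon_def, Submodule.map_span, Submodule.span_le]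
    rintro _ ⟨_, ⟨μ, hμ, rfl⟩, rfl⟩
    rw [hT]
    exact basis_mem_mon B (h μ hμ)
  exact this (Submodule.mem_map_of_mem hv)

theorem mem_mon_univ (B : Basis (Fin n →₀ ℕ) D V) (v : V) : v ∈ mon B Set.univ :=
  mem_mon.mpr fun _ _ => trivial

theorem inE_shift (B : Basis (Fin n →₀ ℕ) D V) {T : Fin n → V →ₗ[D] V}
    (hT : ∀ i μ, T i (B μ) = B (μ + Finsupp.single i 1)) (t : Fin n) {W W' : Submodule D V}
    (h : ∀ w ∈ W, T t w ∈ W') {μ : Fin n →₀ ℕ} (hμ : μ ∈ inE B W) :
    μ + Finsupp.single t 1 ∈ inE B W' := by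
  obtain ⟨w, hw, hw1, hw2⟩ := hμ
  refine ⟨T t w, h w hw, by rwa [repr_shift B hT], fun ν hν => ?_⟩
  by_contra h0
  have h1 : T t w ∈ mon B (Set.range fun ξ => ξ + Finsupp.single t 1) :=
    shift_mem_mon B hT t (fun ξ _ => Set.mem_range_self (f := fun ξ => ξ + Finsupp.single t 1) ξ)
      (mem_mon_univ B w)
  obtain ⟨ξ, rfl⟩ := mem_mon.mp h1 ν h0
  rw [repr_shift B hT] at h0
  exact h0 (hw2 ξ (lt_of_add_lt_add_right (a := toColex (Finsupp.single t 1)) hν))

theorem anchor_LPPInit : True := by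
  have := @mon.eq_1.{0, 0}
  have := @keep.eq_1.{0, 0}
  have := @inE.eq_1.{0, 0}
  have := @ind.eq_1
  have := @chProj.eq_1.{0, 0}
  trivial

end Crest.Agent.R181
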