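import Crest.Agent.R181.LPPRing

/-! Row 181: from noncommutative coordinates to a monomial ideal containing the pure powers. -/

set_option autoImplicit false

namespace Crest.Agent.R181

open Finset Module MvPolynomial Crest.AlgebraR.LPP
open scoped TensorProduct

variable {n : ℕ} {D : Type*} [DivisionRing D] [Algebra ℂ D]

variable (n D) in
/-- The forms of degree `d` over the skew field. -/
noncomputable def HD (d : ℕ) : Submodule D (RD n D) := mon (BD n D) {μ | μ.degree = d}

theorem HD_def (d : ℕ) : HD n D d = mon (BD n D) {μ | μ.degree = d} := rfl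

theorem HD_eq_bc (d : ℕ) : HD n D d = bc D (iota n D) (homogeneousSubmodule (Fin n) ℂ d) := by
  rw [hom_eq_mon, bc_mon, HD_def]

instance HD_finite (d : ℕ) : Module.Finite D (HD n D d) :=
  mon_finite _ (Finsupp.finite_of_degree_eq d)

theorem XD_mem_HD (d : ℕ) (i : Fin n) : ∀ v ∈ HD n D d, XD n D i v ∈ HD n D (d + 1) := by
  intro v hv
  refine shift_mem_mon (BD n D) XD_basis i (fun μ hμ => ?_) hv
  have hμ' : μ.degree = d := hμ
  change (μ + Finsupp.single i 1).degree = d + 1
  rw [map_add, hμ', Finsupp.degree_single]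

theorem cD_mem_HD (c : D) (d : ℕ) : ∀ v ∈ HD n D d, cD n c v ∈ HD n D d := by
  rw [HD_eq_bc]; exact cD_mem_bc c _

theorem alpha_mem_HD (b : Fin n → Fin n → D) (d : ℕ) (j : Fin n) :
    ∀ v ∈ HD n D d, rmul (alpha b j) v ∈ HD n D (d + 1) := by
  intro v hv
  rw [rmul_alpha]
  exact Submodule.sum_mem _ fun i _ => XD_mem_HD d i _ (cD_mem_HD _ d v hv)

variable (D) in
/-- The degree-`d` piece of the extended ideal. -/
noncomputable def WD (I : Ideal (MvPolynomial (Fin n) ℂ)) (d : ℕ) : Submodule D (RD n D) :=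
  bc D (iota n D) (degreePiece I d)

theorem WD_def (I : Ideal (MvPolynomial (Fin n) ℂ)) (d : ℕ) :
    WD D I d = bc D (iota n D) (degreePiece I d) := rfl

instance WD_finite (I : Ideal (MvPolynomial (Fin n) ℂ)) (d : ℕ) : Module.Finite D (WD D I d) :=
  bc_finite _ _

theorem WD_le (I : Ideal (MvPolynomial (Fin n) ℂ)) (d : ℕ) : WD D I d ≤ HD n D d := by
  rw [HD_eq_bc]; exact bc_mono _ (degreePiece_le I d)

theorem XD_mem_WD (I : Ideal (MvPolynomial (Fin n) ℂ)) (d : ℕ) (i : Fin n) :
    ∀ v ∈ WD D I d, XD n D i v ∈ WD D I (d + 1) := by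
  have : WD D I d ≤ Submodule.comap (XD n D i) (WD D I (d + 1)) := by
    refine bc_le fun g hg => ?_
    rw [Submodule.mem_comap, ← XD_iota]
    exact mem_bc _ ⟨XT_mem d i g hg.1, I.mul_mem_left _ hg.2⟩
  exact this

theorem alpha_mem_WD (b : Fin n → Fin n → D) (I : Ideal (MvPolynomial (Fin n) ℂ)) (d : ℕ)
    (j : Fin n) : ∀ v ∈ WD D I d, rmul (alpha b j) v ∈ WD D I (d + 1) := by
  intro v hv
  rw [rmul_alpha]
  exact Submodule.sum_mem _ fun i _ => XD_mem_WD I d i _ (cD_mem_bc _ _ v hv)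

variable (n D) in
/-- The projection on degree `d`. -/
noncomputable def pD (d : ℕ) : RD n D →ₗ[D] RD n D := keep (BD n D) fun μ => μ.degree = d

theorem pD_def (d : ℕ) : pD n D d = keep (BD n D) fun μ => μ.degree = d := rfl

theorem pD_iota (d : ℕ) (g : MvPolynomial (Fin n) ℂ) :
    pD n D d (iota n D g) = iota n D (homogeneousComponent d g) := by
  refine (BD n D).ext_elem fun μ => ?_
  rw [pD_def, repr_keep, repr_iota, repr_iota, coeff_homogeneousComponent]
  split_ifs <;> simp

theorem pD_of_mem {d e : ℕ} {v : RD n D} (hv : v ∈ HD n D e) :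
    pD n D d v = if e = d then v else 0 := by
  split_ifs with h
  · subst h; exact keep_eq_self _ _ hv
  · refine keep_eq_zero (BD n D) (fun μ => μ.degree = d) (mem_mon.mpr fun μ hμ hμ' => h ?_)
    have h1 : μ.degree = e := mem_mon.mp hv μ hμ
    exact h1.symm.trans hμ'

theorem pD_mem_WD {I : Ideal (MvPolynomial (Fin n) ℂ)}
    (hI : ∀ g ∈ I, ∀ d : ℕ, homogeneousComponent d g ∈ I) (d : ℕ) :
    ∀ v ∈ bc D (iota n D) (I.restrictScalars ℂ), pD n D d v ∈ WD D I d := by
  have : bc D (iota n D) (I.restrictScalars ℂ) ≤ Submodule.comap (pD n D d) (WD D I d) := by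
    refine bc_le fun g hg => ?_
    rw [Submodule.mem_comap, pD_iota]
    exact mem_bc _ ⟨homogeneousComponent_mem d g, hI g hg d⟩
  exact this

theorem mul_mem_bc (I : Ideal (MvPolynomial (Fin n) ℂ)) (r : RD n D) :
    ∀ v ∈ bc D (iota n D) (I.restrictScalars ℂ),
      r * v ∈ bc D (iota n D) (I.restrictScalars ℂ) := by
  intro v hv
  induction hv using Submodule.span_induction generalizing r with
  | mem x hx =>
    obtain ⟨g, hg, rfl⟩ := hx
    induction r using TensorProduct.induction_on with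
    | zero => rw [zero_mul]; exact Submodule.zero_mem _
    | tmul c s =>
      have : (c ⊗ₜ[ℂ] s) * iota n D g = c • iota n D (s * g) := by
        simp [iota_apply, TensorProduct.smul_tmul']
      rw [this]
      exact Submodule.smul_mem _ _ (mem_bc _ (I.mul_mem_left s hg))
    | add x y hx hy => rw [add_mul]; exact Submodule.add_mem _ hx hy
  | zero => rw [mul_zero]; exact Submodule.zero_mem _
  | add x y _ _ hx hy => rw [mul_add]; exact Submodule.add_mem _ (hx r) (hy r)
  | smul c x _ hx =>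
    have : r * c • x = (r * (c ⊗ₜ[ℂ] (1 : MvPolynomial (Fin n) ℂ))) * x := by
      rw [mul_assoc]
      congr 1
      have : (c ⊗ₜ[ℂ] (1 : MvPolynomial (Fin n) ℂ) : RD n D) = c • (1 : RD n D) := by
        rw [Algebra.TensorProduct.one_def, TensorProduct.smul_tmul', smul_eq_mul, mul_one]
      rw [this, smul_mul_assoc, one_mul]
    rw [this]
    exact hx _

theorem exists_of_mem_span (b : Fin n → Fin n → D) (I : Ideal (MvPolynomial (Fin n) ℂ))
    (j : Fin n) {u : RD n D}
    (hu : u ∈ Ideal.span (((fun g => (1 : D) ⊗ₜ[ℂ] g) '' (I : Set (MvPolynomial (Fin n) ℂ))) ∪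
        {x | ∃ i, j < i ∧ x = alpha b i})) :
    ∃ g ∈ bc D (iota n D) (I.restrictScalars ℂ), ∃ r : Fin n → RD n D,
      u = g + ∑ i, if j < i then r i * alpha b i else 0 := by
  classical
  induction hu using Submodule.span_induction with
  | mem x hx =>
    rcases hx with ⟨g, hg, rfl⟩ | ⟨i, hi, rfl⟩
    · exact ⟨iota n D g, mem_bc _ hg, 0, by simp [iota_apply]⟩
    · refine ⟨0, Submodule.zero_mem _, Pi.single i 1, ?_⟩
      rw [zero_add, Finset.sum_eq_single i]
      · simp [hi]
      · intro k _ hk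
        simp [Pi.single_eq_of_ne hk]
      · simp
  | zero => exact ⟨0, Submodule.zero_mem _, 0, by simp⟩
  | add x y _ _ hx hy =>
    obtain ⟨g, hg, r, rfl⟩ := hx
    obtain ⟨g', hg', r', rfl⟩ := hy
    refine ⟨g + g', Submodule.add_mem _ hg hg', r + r', ?_⟩
    rw [add_add_add_comm, ← Finset.sum_add_distrib]
    congr 1
    refine Finset.sum_congr rfl fun i _ => ?_
    split_ifs
    · rw [Pi.add_apply, add_mul]
    · rw [add_zero]
  | smul c x _ hx =>
    obtain ⟨g, hg, r, rfl⟩ := hx
    refine ⟨c * g, mul_mem_bc I c g hg, fun i => c * r i, ?_⟩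
    rw [smul_eq_mul, mul_add, Finset.mul_sum]
    congr 1
    refine Finset.sum_congr rfl fun i _ => ?_
    split_ifs
    · rw [mul_assoc]
    · rw [mul_zero]

/-- The substitution `y ^ μ ↦ α ^ μ` is a graded bijection intertwining the variables with the
right multiplications by the forms `α_j`. -/
theorem exists_Psi {b : Fin n → Fin n → D} (hli : LinearIndependent D (alpha b))
    (hc : ∀ j k, Commute (alpha b j) (alpha b k)) :
    ∃ Ψ : RD n D →ₗ[D] RD n D, Function.Bijective Ψ ∧
      (∀ j u, Ψ (XD n D j u) = rmul (alpha b j) (Ψ u)) ∧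
      (∀ d, (HD n D d).map Ψ = HD n D d) ∧ (∀ d u, Ψ (pD n D d u) = pD n D d (Ψ u)) ∧
      ∀ j k, Ψ (BD n D (Finsupp.single j k)) = alpha b j ^ k := by
  classical
  obtain ⟨pw, hpw0, hpw⟩ := exists_pw (alpha b) hc
  obtain ⟨c, hcb, -⟩ := exists_inverse hli
  let Ψ : RD n D →ₗ[D] RD n D := (BD n D).constr ℕ pw
  have hΨ : ∀ μ, Ψ (BD n D μ) = pw μ := fun μ => (BD n D).constr_basis ℕ pw μ
  have hX : ∀ j u, Ψ (XD n D j u) = rmul (alpha b j) (Ψ u) := by
    intro j u
    have : Ψ ∘ₗ XD n D j = rmul (alpha b j) ∘ₗ Ψ := by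
      refine (BD n D).ext fun μ => ?_
      rw [LinearMap.comp_apply, LinearMap.comp_apply, XD_basis, hΨ, hΨ, hpw, rmul_apply]
    exact LinearMap.congr_fun this u
  have hB0 : BD n D 0 = 1 := by
    rw [BD_apply, Algebra.TensorProduct.one_def]; rfl
  have hdeg : ∀ d (μ : Fin n →₀ ℕ), μ.degree = d → pw μ ∈ HD n D d := by
    intro d
    induction d with
    | zero =>
      intro μ hμ
      rw [Finsupp.degree_eq_zero_iff] at hμ
      rw [hμ, hpw0, ← hB0]
      exact basis_mem_mon _ (show (0 : Fin n →₀ ℕ).degree = 0 from map_zero _)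
    | succ d ih =>
      intro μ hμ
      obtain ⟨ν, i, hν, rfl⟩ := exists_eq_add_single hμ
      rw [hpw]
      exact alpha_mem_HD b d i _ (ih ν hν)
  have hxa : ∀ i u, XD n D i u = ∑ j, rmul (alpha b j) (cD n (c i j) u) := by
    intro i u
    simp only [rmul_alpha, cD_cD]
    rw [Finset.sum_comm]
    simp only [← map_sum, ← cD_sum, hcb]
    rw [Finset.sum_eq_single i]
    · rw [if_pos rfl, cD_one]
    · intro l _ hl
      rw [if_neg (Ne.symm hl), cD_zero, map_zero]
    · simp
  have hmap : ∀ d, (HD n D d).map Ψ = HD n D d := by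
    intro d
    apply le_antisymm
    · rw [HD_def, mon_def, Submodule.map_span, Submodule.span_le]
      rintro _ ⟨_, ⟨μ, hμ, rfl⟩, rfl⟩
      rw [hΨ]
      exact hdeg d μ hμ
    · induction d with
      | zero =>
        rw [HD_def, mon_def, Submodule.span_le]
        rintro _ ⟨μ, hμ, rfl⟩
        have hμ' : μ = 0 := (Finsupp.degree_eq_zero_iff _).mp hμ
        exact ⟨BD n D μ, basis_mem_mon _ hμ, by rw [hΨ, hμ', hpw0, hB0]⟩
      | succ d ih =>
        conv_lhs => rw [HD_def, mon_def]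
        rw [Submodule.span_le]
        rintro _ ⟨μ, hμ, rfl⟩
        obtain ⟨ν, i, hν, rfl⟩ := exists_eq_add_single hμ
        rw [← XD_basis, hxa]
        refine Submodule.sum_mem _ fun j _ => ?_
        obtain ⟨w, hw, hw'⟩ := ih (cD_mem_HD (c i j) d _ (basis_mem_mon _ hν))
        exact ⟨XD n D j w, XD_mem_HD d j w hw, by rw [hX, hw']⟩
  have hp : ∀ d u, Ψ (pD n D d u) = pD n D d (Ψ u) := by
    intro d u
    have : Ψ ∘ₗ pD n D d = pD n D d ∘ₗ Ψ := by
      refine (BD n D).ext fun μ => ?_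
      rw [LinearMap.comp_apply, LinearMap.comp_apply, hΨ, pD_of_mem (hdeg _ μ rfl),
        pD_of_mem (e := μ.degree) (basis_mem_mon _ rfl)]
      split_ifs
      · rw [hΨ]
      · rw [map_zero]
    exact LinearMap.congr_fun this u
  refine ⟨Ψ, ⟨?_, ?_⟩, hX, hmap, hp, ?_⟩
  · rw [injective_iff_map_eq_zero]
    intro u hu
    refine (BD n D).ext_elem fun μ => ?_
    have h1 := finrank_map_add_inf_ker Ψ (HD n D μ.degree)
    rw [hmap] at h1
    have : Module.Finite D (LinearMap.ker Ψ ⊓ HD n D μ.degree : Submodule D _) :=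
      Submodule.finiteDimensional_of_le inf_le_right
    have h2 : LinearMap.ker Ψ ⊓ HD n D μ.degree = ⊥ :=
      Submodule.finrank_eq_zero.mp (by omega)
    have h3 : pD n D μ.degree u ∈ LinearMap.ker Ψ ⊓ HD n D μ.degree :=
      ⟨by rw [SetLike.mem_coe, LinearMap.mem_ker, hp, hu, map_zero], keep_mem_mon' _ _ u⟩
    rw [h2, Submodule.mem_bot] at h3
    have h4 := congrArg (fun x => (BD n D).repr x μ) h3
    simp only [pD_def, repr_keep, if_true] at h4
    exact h4
  · rw [← LinearMap.range_eq_top, eq_top_iff, ← (BD n D).span_eq, Submodule.span_le]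
    rintro _ ⟨μ, rfl⟩
    have : BD n D μ ∈ (HD n D μ.degree).map Ψ := by
      rw [hmap]; exact basis_mem_mon _ rfl
    obtain ⟨w, -, hw⟩ := this
    exact ⟨w, hw⟩
  · intro j k
    rw [hΨ]
    induction k with
    | zero => rw [Finsupp.single_zero, hpw0, pow_zero]
    | succ k ih => rw [Finsupp.single_add, hpw, ih, pow_succ]

/-- Noncommutative coordinates degenerate `I` to a monomial ideal with the pure powers. -/
theorem monomial_of_NC {a : Fin n → ℕ} {I : Ideal (MvPolynomial (Fin n) ℂ)}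
    (hI : ∀ g ∈ I, ∀ d : ℕ, homogeneousComponent d g ∈ I) {b : Fin n → Fin n → D}
    (h : NCData a I b) :
    ∃ E : Set (Fin n →₀ ℕ), IsUpperSet E ∧ (∀ i, Finsupp.single i (a i) ∈ E) ∧
      (∀ d, finrank ℂ (degreePiece (monIdeal E) d) = finrank ℂ (degreePiece I d)) ∧
      ∀ p j, gradedBetti I p j ≤ gradedBetti (monIdeal E) p j := by
  classical
  obtain ⟨hli, hc, hpow⟩ := h
  have : CharZero D := charZero_of_injective_algebraMap (algebraMap ℂ D).injective
  obtain ⟨Ψ, hΨ, hX, hmap, hp, hsingle⟩ := exists_Psi hli hc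
  obtain ⟨c, -, hbc⟩ := exists_inverse hli
  obtain ⟨Wy, hWyd⟩ : ∃ Wy : ℕ → Submodule D (RD n D), ∀ d, Wy d = (WD D I d).comap Ψ :=
    ⟨_, fun _ => rfl⟩
  have hWm : ∀ d w, w ∈ Wy d ↔ Ψ w ∈ WD D I d := fun d w => by rw [hWyd, Submodule.mem_comap]
  have hWy : ∀ d, Wy d ≤ HD n D d := by
    intro d w hw
    have h1 : Ψ w ∈ (HD n D d).map Ψ := by rw [hmap]; exact WD_le I d ((hWm d w).mp hw)
    obtain ⟨w', hw', h2⟩ := h1
    rwa [← hΨ.1 h2]
  have hfin : ∀ d, finrank D (Wy d) = finrank D (WD D I d) := by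
    intro d
    rw [(Submodule.equivMapOfInjective Ψ hΨ.1 (Wy d)).finrank_eq, hWyd,
      Submodule.map_comap_eq_of_surjective hΨ.2]
  obtain ⟨E, hEm⟩ : ∃ E : Set (Fin n →₀ ℕ), ∀ μ, μ ∈ E ↔ μ ∈ inE (BD n D) (Wy μ.degree) :=
    ⟨{μ | μ ∈ inE (BD n D) (Wy μ.degree)}, fun _ => Iff.rfl⟩
  have hE : ∀ d, E ∩ {μ | μ.degree = d} = inE (BD n D) (Wy d) := by
    intro d
    ext μ
    constructor
    · rintro ⟨h1, h2⟩
      have h2' : μ.degree = d := h2
      rw [← h2']; exact (hEm μ).mp h1
    · intro h1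
      have h2 : μ.degree = d := inE_subset (hWy d) h1
      refine ⟨?_, h2⟩
      rwa [hEm, h2]
  have hstep : ∀ μ ∈ E, ∀ t, μ + Finsupp.single t 1 ∈ E := by
    intro μ hμ t
    rw [hEm, map_add, Finsupp.degree_single]
    refine inE_shift (BD n D) XD_basis t (fun w hw => ?_) ((hEm μ).mp hμ)
    rw [hWm, hX]
    exact alpha_mem_WD b I _ t _ ((hWm _ w).mp hw)
  have hup : IsUpperSet E := by
    intro μ ν hμν hμ
    obtain ⟨ξ, rfl⟩ := exists_add_of_le hμν
    clear hμν
    induction hξ : ξ.degree generalizing ξ with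
    | zero =>
      rw [Finsupp.degree_eq_zero_iff] at hξ
      rwa [hξ, add_zero]
    | succ d ih =>
      obtain ⟨ξ', i, hξ', rfl⟩ := exists_eq_add_single hξ
      rw [← add_assoc]
      exact hstep _ (ih ξ' hξ') i
  have hbcE : ∀ d, bc D (iota n D) (degreePiece (monIdeal E) d) =
      mon (BD n D) (inE (BD n D) (Wy d)) := by
    intro d
    rw [degreePiece_monIdeal hup, bc_mon, hE]
  have hHF : ∀ d, finrank ℂ (degreePiece (monIdeal E) d) = finrank ℂ (degreePiece I d) := by
    intro d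
    rw [← finrank_bc (D := D) sep_iota, ← finrank_bc (D := D) sep_iota, hbcE,
      finrank_mon_inE _ _ (Finsupp.finite_of_degree_eq d) (hWy d), hfin, WD_def]
  refine ⟨E, hup, ?_, hHF, betti_le_of_rho I _ hHF ?_⟩
  · intro j
    obtain ⟨g, hg, r, hr⟩ := exists_of_mem_span b I j (hpow j)
    choose s hs using fun i => hΨ.2 (r i)
    let z : RD n D := ∑ i, if j < i then XD n D i (s i) else 0
    have hz : z ∈ mon (BD n D) {μ | ∃ i, j < i ∧ μ i ≠ 0} := by
      refine Submodule.sum_mem _ fun i _ => ?_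
      split_ifs with hi
      · refine shift_mem_mon (BD n D) XD_basis i (fun μ _ => ?_) (mem_mon_univ _ _)
        exact ⟨i, hi, by simp⟩
      · exact Submodule.zero_mem _
    have hw : Ψ (BD n D (Finsupp.single j (a j)) - z) = g := by
      rw [map_sub, hsingle, hr, sub_eq_iff_eq_add, map_sum]
      congr 1
      refine Finset.sum_congr rfl fun i _ => ?_
      split_ifs
      · rw [hX, hs, rmul_apply]
      · rw [map_zero]
    have hz0 : ∀ ν : Fin n →₀ ℕ, (∀ i, j < i → ν i = 0) → (BD n D).repr z ν = 0 := by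
      intro ν hν
      by_contra h0
      obtain ⟨i, hi, hi'⟩ := mem_mon.mp hz ν h0
      exact hi' (hν i hi)
    rw [hEm, Finsupp.degree_single]
    refine ⟨pD n D (a j) (BD n D (Finsupp.single j (a j)) - z), ?_, ?_, ?_⟩
    · rw [hWm, hp, hw]
      exact pD_mem_WD hI _ g hg
    · rw [pD_def, repr_keep, if_pos (Finsupp.degree_single _ _), map_sub, Finsupp.sub_apply,
        hz0 _ (fun i hi => Finsupp.single_eq_of_ne hi.ne'), Basis.repr_self,
        Finsupp.single_eq_same, sub_zero]
      exact one_ne_zero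
    · intro ν hν
      have hne : ν ≠ Finsupp.single j (a j) := by
        rintro rfl; exact lt_irrefl _ hν
      obtain ⟨i, hi1, hi2⟩ := Finsupp.Colex.lt_iff.mp hν
      have hi2' : ν i < Finsupp.single j (a j) i := hi2
      have hij : i = j := by
        by_contra hij
        rw [Finsupp.single_eq_of_ne hij] at hi2'
        exact Nat.not_lt_zero _ hi2'
      subst hij
      rw [pD_def, repr_keep, map_sub, Finsupp.sub_apply, hz0 ν (fun k hk => by
        have : ν k = Finsupp.single i (a i) k := hi1 k hk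
        rw [this, Finsupp.single_eq_of_ne hk.ne']), Basis.repr_self,
        Finsupp.single_eq_of_ne hne]
      simp
  · intro q e
    rw [← rho_bc (D := D) sep_iota XD_iota, ← rho_bc (D := D) sep_iota XD_iota, hbcE,
      ← HD_eq_bc, ← WD_def]
    refine (rho_inE_le (BD n D) XD_basis q (Finsupp.finite_of_degree_eq e)
      (Finsupp.finite_of_degree_eq (e + 1)) (Wy (e + 1)) (hWy _)).trans ?_
    refine (rho_le_of_map (T' := fun j => rmul (alpha b j)) Ψ hΨ.1 hX q _ _ (HD n D e)
      (WD D I (e + 1)) (fun v hv => ?_) (fun v hv => (hWm _ v).mp hv)).trans ?_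
    · rw [← hmap]; exact Submodule.mem_map_of_mem hv
    refine rho_le_of_Phi (β := fun j i => cD n (b j i)) ?_ (fun l j i v => XD_cD l _ v)
      (fun j v => rmul_alpha b j v) ?_ q _ _ (fun j i => cD_mem_HD _ e)
      (fun j i => cD_mem_bc _ _)
    · intro j k i l v
      simp only [cD_cD, ← cD_add]
      rw [manin (hc j k) i l]
    · intro v hv k
      have h1 : ∑ i, cD n (c i k) (∑ j, cD n (b j i) (v j)) = 0 := by
        simp only [hv, map_zero, Finset.sum_const_zero]
      simp only [map_sum, cD_cD] at h1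
      rw [Finset.sum_comm] at h1
      simp only [← cD_sum, hbc] at h1
      rw [Finset.sum_eq_single k] at h1
      · rwa [if_pos rfl, cD_one] at h1
      · intro j _ hj
        rw [if_neg hj, cD_zero]
      · simp

universe u in
/-- The textbook half: noncommutative coordinates and the monomial case give the statement. -/
theorem concl_of_NC {a : Fin n → ℕ} {I : Ideal (MvPolynomial (Fin n) ℂ)}
    (hI : ∀ g ∈ I, ∀ d : ℕ, homogeneousComponent d g ∈ I) (h : NCCoord.{u} n a I)
    (hMM : MMStatement n a) : LPPConcl n a I := by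
  obtain ⟨D, _, _, b, hb⟩ := h
  obtain ⟨E, hE, hP, hHF, hβ⟩ := monomial_of_NC hI hb
  obtain ⟨U, hU, hU', J, hJ, hJ', hβ'⟩ := hMM E hE hP
  exact ⟨U, hU, fun d => (hU' d).trans (hHF d), J, hJ, hJ',
    fun p j => (hβ p j).trans (hβ' p j)⟩

theorem anchor_LPPMain : True := by
  have := @HD.eq_1.{0}
  have := @WD.eq_1.{0}
  have := @pD.eq_1.{0}
  trivial

end Crest.Agent.R181
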