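import Crest.Agent.R181.LPPKos

/-! Row 181: noncommutative change of variables in the Koszul complex. -/

set_option autoImplicit false

namespace Crest.Agent.R181

open Finset Module

theorem finrank_le_of_injOn {D : Type*} [DivisionRing D] {V V' : Type*} [AddCommGroup V]
    [Module D V] [AddCommGroup V'] [Module D V'] (f : V →ₗ[D] V') (Y : Submodule D V)
    (Y' : Submodule D V') [Module.Finite D Y'] (hinj : ∀ v ∈ Y, f v = 0 → v = 0)
    (hmap : ∀ v ∈ Y, f v ∈ Y') : finrank D Y ≤ finrank D Y' := by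
  refine LinearMap.finrank_le_finrank_of_injective (f := f.restrict hmap) ?_
  rw [injective_iff_map_eq_zero]
  intro v hv
  exact Subtype.ext (hinj v.1 v.2 (congrArg Subtype.val hv))

variable {n : ℕ} {D : Type*} [DivisionRing D] {V : Type*} [AddCommGroup V] [Module D V]

theorem nsmul_succ_eq_zero (D : Type*) [DivisionRing D] [CharZero D] {V : Type*}
    [AddCommGroup V] [Module D V] {k : ℕ} {v : V} (h : (k + 1) • v = 0) : v = 0 := by
  rw [← Nat.cast_smul_eq_nsmul D, smul_eq_zero] at h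
  exact h.resolve_left (Nat.cast_ne_zero.mpr (Nat.succ_ne_zero k))

/-- Contraction twisted by the matrix of operators `β`. -/
def Bop (β : Fin n → Fin n → V →ₗ[D] V) (i : Fin n) :
    (Finset (Fin n) → V) →ₗ[D] (Finset (Fin n) → V) :=
  ∑ j, cl (β j i) ∘ₗ io D V j

theorem Bop_eq (β : Fin n → Fin n → V →ₗ[D] V) (i : Fin n) (f : Finset (Fin n) → V) :
    Bop β i f = ∑ j, cl (β j i) (io D V j f) := by
  simp [Bop, LinearMap.sum_apply]

/-- The change-of-variables map on `q`-chains. -/
def Phi (β : Fin n → Fin n → V →ₗ[D] V) :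
    ℕ → (Finset (Fin n) → V) →ₗ[D] (Finset (Fin n) → V)
  | 0 => LinearMap.id
  | q + 1 => ∑ i, ex D V i ∘ₗ Phi β q ∘ₗ Bop β i

theorem Phi_zero (β : Fin n → Fin n → V →ₗ[D] V) (f : Finset (Fin n) → V) :
    Phi β 0 f = f := rfl

theorem Phi_succ (β : Fin n → Fin n → V →ₗ[D] V) (q : ℕ) (f : Finset (Fin n) → V) :
    Phi β (q + 1) f = ∑ i, ex D V i (Phi β q (Bop β i f)) := by
  simp [Phi, LinearMap.sum_apply]

theorem Bop_mem {β : Fin n → Fin n → V →ₗ[D] V} {W : Submodule D V}
    (hW : ∀ j i, ∀ v ∈ W, β j i v ∈ W) {q : ℕ} {f : Finset (Fin n) → V}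
    (hf : f ∈ ch n (q + 1) W) (i : Fin n) : Bop β i f ∈ ch n q W := by
  rw [Bop_eq]
  exact Submodule.sum_mem _ fun j _ => cl_mem (hW j i) (io_mem hf j)

theorem Phi_mem {β : Fin n → Fin n → V →ₗ[D] V} {W : Submodule D V}
    (hW : ∀ j i, ∀ v ∈ W, β j i v ∈ W) (q : ℕ) {f : Finset (Fin n) → V}
    (hf : f ∈ ch n q W) : Phi β q f ∈ ch n q W := by
  induction q generalizing f with
  | zero => exact hf
  | succ q ih =>
    rw [Phi_succ]
    exact Submodule.sum_mem _ fun i _ => ex_mem (ih (Bop_mem hW hf i)) i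

theorem Bop_Bop [CharZero D] {β : Fin n → Fin n → V →ₗ[D] V}
    (hM : ∀ j k i l v, β k l (β j i v) + β k i (β j l v) = β j l (β k i v) + β j i (β k l v))
    (i l : Fin n) (f : Finset (Fin n) → V) :
    Bop β l (Bop β i f) = -Bop β i (Bop β l f) := by
  have h1 : ∀ i l, Bop β l (Bop β i f) =
      ∑ k, ∑ j, cl (β k l) (cl (β j i) (io D V k (io D V j f))) := by
    intro i l
    rw [Bop_eq]
    refine Finset.sum_congr rfl fun k _ => ?_
    rw [Bop_eq, map_sum, map_sum]
    refine Finset.sum_congr rfl fun j _ => ?_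
    rw [← cl_io]
  set S := Bop β l (Bop β i f) + Bop β i (Bop β l f) with hS
  have h2 : S = ∑ k, ∑ j, (cl (β k l) (cl (β j i) (io D V k (io D V j f))) +
      cl (β k i) (cl (β j l) (io D V k (io D V j f)))) := by
    rw [hS, h1, h1, ← Finset.sum_add_distrib]
    refine Finset.sum_congr rfl fun k _ => ?_
    rw [← Finset.sum_add_distrib]
  have h3 : S = -S := by
    conv_rhs => rw [h2, Finset.sum_comm, ← Finset.sum_neg_distrib]
    rw [h2]
    refine Finset.sum_congr rfl fun k _ => ?_
    rw [← Finset.sum_neg_distrib]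
    refine Finset.sum_congr rfl fun j _ => ?_
    rw [io_io k j f]
    funext U
    simp only [Pi.add_apply, Pi.neg_apply, cl_apply, map_neg]
    rw [← neg_add, hM]
  have h4 : (1 + 1) • S = 0 := by
    rw [add_smul, one_smul]; nth_rewrite 1 [h3]; simp
  exact eq_neg_of_add_eq_zero_left (nsmul_succ_eq_zero D h4)

theorem io_Phi [CharZero D] {β : Fin n → Fin n → V →ₗ[D] V}
    (hM : ∀ j k i l v, β k l (β j i v) + β k i (β j l v) = β j l (β k i v) + β j i (β k l v))
    (q : ℕ) {f : Finset (Fin n) → V} (hf : f ∈ ch n (q + 1) (⊤ : Submodule D V)) (l : Fin n) :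
    io D V l (Phi β (q + 1) f) = (q + 1) • Phi β q (Bop β l f) := by
  have hT : ∀ j i, ∀ v ∈ (⊤ : Submodule D V), β j i v ∈ (⊤ : Submodule D V) :=
    fun _ _ _ _ => trivial
  induction q generalizing f l with
  | zero =>
    have hG : ∀ i, Phi β 0 (Bop β i f) ∈ ch n 0 (⊤ : Submodule D V) := fun i =>
      Phi_mem hT 0 (Bop_mem hT hf i)
    rw [Phi_succ, map_sum, Finset.sum_eq_single l]
    · have := io_ex_self (D := D) l (Phi β 0 (Bop β l f))
      rw [io_eq_zero (hG l), map_zero, add_zero] at this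
      rw [this]; simp
    · intro i _ hil
      have := io_ex_ne (D := D) hil (Phi β 0 (Bop β i f))
      rwa [io_eq_zero (hG i), map_zero, add_zero] at this
    · simp
  | succ q ih =>
    set G : Fin n → (Finset (Fin n) → V) := fun i => Phi β (q + 1) (Bop β i f) with hGdef
    have hG : ∀ i, G i ∈ ch n (q + 1) (⊤ : Submodule D V) := fun i =>
      Phi_mem hT _ (Bop_mem hT hf i)
    have hanti : ∀ i, io D V l (G i) = -io D V i (G l) := by
      intro i
      simp only [hGdef]
      rw [ih (Bop_mem hT hf i), ih (Bop_mem hT hf l), Bop_Bop hM i l, map_neg, smul_neg]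
    have h1 : ∀ i, io D V l (ex D V i (G i)) =
        (if i = l then G l else 0) + ex D V i (io D V i (G l)) := by
      intro i
      have h2 : ex D V i (io D V i (G l)) = -ex D V i (io D V l (G i)) := by
        rw [hanti, map_neg, neg_neg]
      rw [h2, ← sub_eq_add_neg, eq_sub_iff_add_eq]
      split_ifs with h
      · subst h; exact io_ex_self _ _
      · exact io_ex_ne h _
    rw [Phi_succ, map_sum]
    change ∑ i, io D V l (ex D V i (G i)) = (q + 1 + 1) • G l
    simp only [h1]
    rw [Finset.sum_add_distrib, sum_ex_io_of_mem (hG l), Finset.sum_ite_eq' Finset.univ l,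
      if_pos (Finset.mem_univ l), succ_nsmul' (G l) (q + 1)]

theorem Phi_cl {β : Fin n → Fin n → V →ₗ[D] V} {L : V →ₗ[D] V}
    (hL : ∀ j i v, L (β j i v) = β j i (L v)) (q : ℕ) (f : Finset (Fin n) → V) :
    Phi β q (cl L f) = cl L (Phi β q f) := by
  induction q generalizing f with
  | zero => rfl
  | succ q ih =>
    rw [Phi_succ, Phi_succ, map_sum]
    refine Finset.sum_congr rfl fun i _ => ?_
    rw [cl_ex, ← ih]
    congr 2
    rw [Bop_eq, Bop_eq, map_sum]
    refine Finset.sum_congr rfl fun j _ => ?_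
    rw [← cl_io]
    funext U
    simp only [cl_apply, hL]

theorem kos_Phi [CharZero D] {β : Fin n → Fin n → V →ₗ[D] V} {X A : Fin n → V →ₗ[D] V}
    (hM : ∀ j k i l v, β k l (β j i v) + β k i (β j l v) = β j l (β k i v) + β j i (β k l v))
    (hX : ∀ l j i v, X l (β j i v) = β j i (X l v))
    (hA : ∀ j v, A j v = ∑ i, X i (β j i v))
    (q : ℕ) {f : Finset (Fin n) → V} (hf : f ∈ ch n (q + 1) (⊤ : Submodule D V)) :
    kos X (Phi β (q + 1) f) = (q + 1) • Phi β q (kos A f) := by
  have h1 : kos A f = ∑ i, cl (X i) (Bop β i f) := by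
    rw [kos_eq]
    simp only [Bop_eq, map_sum]
    rw [Finset.sum_comm]
    refine Finset.sum_congr rfl fun j _ => ?_
    funext U
    rw [Finset.sum_apply]
    simp only [cl_apply, hA]
  rw [kos_eq, h1, map_sum, Finset.smul_sum]
  refine Finset.sum_congr rfl fun l _ => ?_
  rw [io_Phi hM q hf, map_nsmul, Phi_cl (hX l)]

theorem Phi_eq_zero [CharZero D] {β : Fin n → Fin n → V →ₗ[D] V}
    (hM : ∀ j k i l v, β k l (β j i v) + β k i (β j l v) = β j l (β k i v) + β j i (β k l v))
    (hinj : ∀ v : Fin n → V, (∀ i, ∑ j, β j i (v j) = 0) → ∀ j, v j = 0)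
    (q : ℕ) {f : Finset (Fin n) → V} (hf : f ∈ ch n q (⊤ : Submodule D V))
    (h : Phi β q f = 0) : f = 0 := by
  have hT : ∀ j i, ∀ v ∈ (⊤ : Submodule D V), β j i v ∈ (⊤ : Submodule D V) :=
    fun _ _ _ _ => trivial
  induction q generalizing f with
  | zero => exact h
  | succ q ih =>
    have h1 : ∀ l, Bop β l f = 0 := by
      intro l
      have := io_Phi hM q hf l
      rw [h, map_zero] at this
      exact ih (Bop_mem hT hf l) (nsmul_succ_eq_zero D this.symm)
    have h2 : ∀ j, io D V j f = 0 := by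
      intro j
      funext U
      refine hinj (fun j => io D V j f U) (fun i => ?_) j
      have := congrFun (h1 i) U
      rw [Bop_eq, Finset.sum_apply] at this
      exact this
    have h3 := sum_ex_io_of_mem hf
    simp only [h2, map_zero, Finset.sum_const_zero] at h3
    exact nsmul_succ_eq_zero D h3.symm

/-- The Koszul ranks of the new operators are bounded by those of the old ones. -/
theorem rho_le_of_Phi [CharZero D] {β : Fin n → Fin n → V →ₗ[D] V} {X A : Fin n → V →ₗ[D] V}
    (hM : ∀ j k i l v, β k l (β j i v) + β k i (β j l v) = β j l (β k i v) + β j i (β k l v))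
    (hX : ∀ l j i v, X l (β j i v) = β j i (X l v))
    (hA : ∀ j v, A j v = ∑ i, X i (β j i v))
    (hinj : ∀ v : Fin n → V, (∀ i, ∑ j, β j i (v j) = 0) → ∀ j, v j = 0)
    (q : ℕ) (H W : Submodule D V) [Module.Finite D H] [Module.Finite D W]
    (hH : ∀ j i, ∀ v ∈ H, β j i v ∈ H) (hW : ∀ j i, ∀ v ∈ W, β j i v ∈ W) :
    rho A q H W ≤ rho X q H W := by
  rw [rho_def, rho_def]
  refine finrank_le_of_injOn (Phi β q) _ _ (fun f hf => Phi_eq_zero hM hinj q ?_) ?_
  · have : (ch n (q + 1) H).map (kos A) ⊔ ch n q W ≤ ch n q ⊤ := by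
      refine sup_le ?_ (ch_mono le_top)
      rintro _ ⟨g, hg, rfl⟩
      exact kos_mem (fun _ _ _ => Submodule.mem_top) hg
    exact this hf
  · suffices h : (ch n (q + 1) H).map (kos A) ⊔ ch n q W ≤
        Submodule.comap (Phi β q) ((ch n (q + 1) H).map (kos X) ⊔ ch n q W) from fun f hf => h hf
    refine sup_le ?_ ?_
    · rintro _ ⟨g, hg, rfl⟩
      refine Submodule.mem_comap.mpr (Submodule.mem_sup_left ?_)
      have h1 := kos_Phi hM hX hA q (ch_mono le_top hg)
      have h2 : Phi β q (kos A g) = ((q + 1 : ℕ) : D)⁻¹ • kos X (Phi β (q + 1) g) := by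
        rw [h1, ← Nat.cast_smul_eq_nsmul D, smul_smul,
          inv_mul_cancel₀ (Nat.cast_ne_zero.mpr (Nat.succ_ne_zero q)), one_smul]
      rw [h2]
      exact Submodule.smul_mem _ _ ⟨_, Phi_mem hH _ hg, rfl⟩
    · intro g hg
      exact Submodule.mem_comap.mpr (Submodule.mem_sup_right (Phi_mem hW q hg))

/-- Transport of `rho` along an injective intertwining map. -/
theorem rho_le_of_map {V' : Type*} [AddCommGroup V'] [Module D V'] {T : Fin n → V →ₗ[D] V}
    {T' : Fin n → V' →ₗ[D] V'} (L : V →ₗ[D] V') (hL : Function.Injective L)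
    (h : ∀ t v, L (T t v) = T' t (L v)) (q : ℕ) (H W : Submodule D V) (H' W' : Submodule D V')
    [Module.Finite D H'] [Module.Finite D W'] (hH : ∀ v ∈ H, L v ∈ H')
    (hW : ∀ v ∈ W, L v ∈ W') : rho T q H W ≤ rho T' q H' W' := by
  rw [rho_def, rho_def]
  refine finrank_le_of_injOn (cl L) _ _
    (fun f _ hf => cl_injective hL (by rw [hf, map_zero])) ?_
  suffices h : (ch n (q + 1) H).map (kos T) ⊔ ch n q W ≤
      Submodule.comap (cl L) ((ch n (q + 1) H').map (kos T') ⊔ ch n q W') from fun f hf => h hf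
  refine sup_le ?_ ?_
  · rintro _ ⟨g, hg, rfl⟩
    refine Submodule.mem_comap.mpr (Submodule.mem_sup_left ?_)
    rw [cl_kos L h]
    exact ⟨_, cl_mem hH hg, rfl⟩
  · intro g hg
    exact Submodule.mem_comap.mpr (Submodule.mem_sup_right (cl_mem hW hg))

theorem anchor_LPPPhi : True := by
  have := @Bop.eq_1.{0, 0}
  have := @Phi.eq_1.{0, 0}
  have := @Phi.eq_2.{0, 0}
  have := @Phi.eq_def.{0, 0}
  trivial

end Crest.Agent.R181
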