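import Crest.Agent.R181.LPPDefs
import Crest.Agent.R181.LPPInit
import Crest.Agent.R181.LPPPhi
import Crest.Agent.R181.LPPBase

/-! Row 181: the ring `D ⊗ ℂ[x]`, its monomial basis and the operators of the transfer. -/

set_option autoImplicit false

namespace Crest.Agent.R181

open Finset Module MvPolynomial Crest.AlgebraR.LPP
open scoped TensorProduct

open scoped IsMulCommutative in
theorem exists_pw {n : ℕ} {R : Type*} [Monoid R] (α : Fin n → R)
    (h : ∀ j k, Commute (α j) (α k)) :
    ∃ pw : (Fin n →₀ ℕ) → R, pw 0 = 1 ∧ ∀ μ j, pw (μ + Finsupp.single j 1) = pw μ * α j := by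
  classical
  have : IsMulCommutative (Submonoid.closure (Set.range α)) :=
    Submonoid.isMulCommutative_closure _ (by rintro _ ⟨j, rfl⟩ _ ⟨k, rfl⟩; exact h j k)
  let α' : Fin n → Submonoid.closure (Set.range α) := fun j =>
    ⟨α j, Submonoid.subset_closure ⟨j, rfl⟩⟩
  refine ⟨fun μ => ((∏ j, α' j ^ μ j : Submonoid.closure (Set.range α)) : R), by simp, ?_⟩
  intro μ j
  have h1 : ∏ i, α' i ^ (μ + Finsupp.single j 1 : Fin n →₀ ℕ) i = (∏ i, α' i ^ μ i) * α' j := by
    simp only [Finsupp.add_apply, pow_add, Finset.prod_mul_distrib]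
    congr 1
    rw [Finset.prod_eq_single j]
    · simp
    · intro i _ hij
      rw [Finsupp.single_eq_of_ne hij, pow_zero]
    · simp
  simp only [h1]
  rfl

theorem exists_eq_add_single {n d : ℕ} {μ : Fin n →₀ ℕ} (h : μ.degree = d + 1) :
    ∃ (ν : Fin n →₀ ℕ) (i : Fin n), ν.degree = d ∧ μ = ν + Finsupp.single i 1 := by
  have h0 : μ ≠ 0 := by
    rintro rfl
    simp at h
  obtain ⟨i, hi⟩ := Finsupp.ne_iff.mp h0
  have h1 : μ = (μ - Finsupp.single i 1) + Finsupp.single i 1 := by
    rw [tsub_add_cancel_of_le]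
    rw [Finsupp.single_le_iff]
    exact Nat.one_le_iff_ne_zero.mpr hi
  refine ⟨μ - Finsupp.single i 1, i, ?_, h1⟩
  rw [h1, map_add, Finsupp.degree_single] at h
  omega

variable {n : ℕ} {D : Type*} [DivisionRing D] [Algebra ℂ D]

variable (n D) in
/-- The polynomial ring over the skew field. -/
abbrev RD := D ⊗[ℂ] MvPolynomial (Fin n) ℂ

variable (n D) in
/-- The embedding of the complex polynomial ring. -/
noncomputable def iota : MvPolynomial (Fin n) ℂ →ₗ[ℂ] RD n D :=
  TensorProduct.mk ℂ D (MvPolynomial (Fin n) ℂ) 1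

theorem iota_apply (g : MvPolynomial (Fin n) ℂ) : iota n D g = (1 : D) ⊗ₜ[ℂ] g := rfl

variable (n D) in
/-- The monomial basis over the skew field. -/
noncomputable def BD : Basis (Fin n →₀ ℕ) D (RD n D) :=
  Algebra.TensorProduct.basis D (basisMonomials (Fin n) ℂ)

theorem BD_apply (μ : Fin n →₀ ℕ) : BD n D μ = iota n D (monomial μ 1) := by
  rw [BD, Algebra.TensorProduct.basis_apply]; rfl

theorem repr_iota (g : MvPolynomial (Fin n) ℂ) (μ : Fin n →₀ ℕ) :
    (BD n D).repr (iota n D g) μ = algebraMap ℂ D (coeff μ g) := by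
  rw [BD, iota_apply, Algebra.TensorProduct.basis_repr_tmul, one_smul, Finsupp.mapRange_apply]
  rfl

/-- Right multiplication. -/
noncomputable def rmul (r : RD n D) : RD n D →ₗ[D] RD n D where
  toFun u := u * r
  map_add' u v := add_mul u v r
  map_smul' c u := smul_mul_assoc c u r

theorem rmul_apply (r u : RD n D) : rmul r u = u * r := rfl

theorem iota_central (g : MvPolynomial (Fin n) ℂ) (u : RD n D) :
    iota n D g * u = u * iota n D g := by
  induction u using TensorProduct.induction_on with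
  | zero => simp
  | tmul d s => simp [iota_apply, mul_comm]
  | add x y hx hy => rw [mul_add, add_mul, hx, hy]

theorem iota_mul (g h : MvPolynomial (Fin n) ℂ) :
    iota n D (g * h) = iota n D g * iota n D h := by
  simp [iota_apply]

theorem sep_iota : Sep D (iota n D) := by
  intro l
  refine ⟨((TensorProduct.lid ℂ (MvPolynomial (Fin n) ℂ)).toLinearMap ∘ₗ
    l.rTensor (MvPolynomial (Fin n) ℂ)).toAddMonoidHom, fun d m => ?_⟩
  simp [iota_apply, TensorProduct.smul_tmul']

theorem bc_mon (s : Set (Fin n →₀ ℕ)) :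
    bc D (iota n D) (mon (basisMonomials (Fin n) ℂ) s) = mon (BD n D) s := by
  rw [mon_def, bc_span, mon_def, Set.image_image]
  congr 1
  refine Set.image_congr fun μ _ => ?_
  rw [BD_apply]; rfl

theorem hom_eq_mon (d : ℕ) : homogeneousSubmodule (Fin n) ℂ d =
    mon (basisMonomials (Fin n) ℂ) {μ | μ.degree = d} := by
  ext g
  rw [mem_mon, mem_homogeneousSubmodule]
  simp only [Set.mem_ofPred_eq, Finsupp.degree_eq_weight_one]
  exact ⟨fun h μ hμ => h hμ, fun h μ hμ => h μ hμ⟩

theorem degreePiece_monIdeal {E : Set (Fin n →₀ ℕ)} (hE : IsUpperSet E) (d : ℕ) :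
    degreePiece (monIdeal E) d = mon (basisMonomials (Fin n) ℂ) (E ∩ {μ | μ.degree = d}) := by
  ext g
  rw [degreePiece_def, Submodule.mem_inf, hom_eq_mon, mem_mon, mem_mon,
    Submodule.restrictScalars_mem]
  change _ ∧ g ∈ Ideal.span ((fun m => monomial m (1 : ℂ)) '' E) ↔ _
  rw [mem_ideal_span_monomial_image]
  constructor
  · rintro ⟨h1, h2⟩ μ hμ
    obtain ⟨ν, hν, hνμ⟩ := h2 μ (mem_support_iff.mpr hμ)
    exact ⟨hE hνμ hν, h1 μ hμ⟩
  · exact fun h => ⟨fun μ hμ => (h μ hμ).2,
      fun μ hμ => ⟨μ, (h μ (mem_support_iff.mp hμ)).1, le_rfl⟩⟩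

variable (n D) in
/-- Multiplication by the central variables. -/
noncomputable def XD (i : Fin n) : RD n D →ₗ[D] RD n D := rmul (iota n D (X i))

theorem XD_apply (i : Fin n) (u : RD n D) : XD n D i u = u * iota n D (X i) := rfl

theorem XD_iota (i : Fin n) (g : MvPolynomial (Fin n) ℂ) :
    iota n D (XT n i g) = XD n D i (iota n D g) := by
  rw [XD_apply, XT_apply, ← iota_mul, mul_comm]

theorem XD_basis (i : Fin n) (μ : Fin n →₀ ℕ) :
    XD n D i (BD n D μ) = BD n D (μ + Finsupp.single i 1) := by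
  rw [BD_apply, BD_apply, XD_apply, ← iota_mul, monomial_add_single, pow_one]

/-- Right multiplication by a scalar of the skew field. -/
noncomputable def cD (n : ℕ) (c : D) : RD n D →ₗ[D] RD n D :=
  rmul (c ⊗ₜ[ℂ] (1 : MvPolynomial (Fin n) ℂ))

theorem cD_apply (c : D) (u : RD n D) :
    cD n c u = u * (c ⊗ₜ[ℂ] (1 : MvPolynomial (Fin n) ℂ)) := rfl

theorem cD_mem_bc (c : D) (Y : Submodule ℂ (MvPolynomial (Fin n) ℂ)) :
    ∀ v ∈ bc D (iota n D) Y, cD n c v ∈ bc D (iota n D) Y := by
  have : bc D (iota n D) Y ≤ Submodule.comap (cD n c) (bc D (iota n D) Y) := by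
    refine bc_le fun m hm => ?_
    have h1 : cD n c (iota n D m) = c • iota n D m := by
      simp [cD_apply, iota_apply, TensorProduct.smul_tmul']
    rw [Submodule.mem_comap, h1]
    exact Submodule.smul_mem _ _ (mem_bc _ hm)
  exact this

theorem cD_cD (c c' : D) (u : RD n D) : cD n c' (cD n c u) = cD n (c * c') u := by
  simp [cD_apply, mul_assoc]

theorem cD_add (c c' : D) (u : RD n D) : cD n (c + c') u = cD n c u + cD n c' u := by
  simp [cD_apply, TensorProduct.add_tmul, mul_add]

theorem cD_sum (c : Fin n → D) (u : RD n D) : cD n (∑ i, c i) u = ∑ i, cD n (c i) u := by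
  simp [cD_apply, TensorProduct.sum_tmul, Finset.mul_sum]

theorem cD_one (u : RD n D) : cD n (1 : D) u = u := by
  rw [cD_apply, ← Algebra.TensorProduct.one_def, mul_one]

theorem cD_zero (u : RD n D) : cD n (0 : D) u = 0 := by
  simp [cD_apply]

theorem XD_cD (l : Fin n) (c : D) (u : RD n D) : XD n D l (cD n c u) = cD n c (XD n D l u) := by
  rw [XD_apply, XD_apply, cD_apply, cD_apply, mul_assoc, mul_assoc, iota_central]

theorem rmul_alpha (b : Fin n → Fin n → D) (j : Fin n) (u : RD n D) :
    rmul (alpha b j) u = ∑ i, XD n D i (cD n (b j i) u) := by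
  rw [rmul_apply, alpha, Finset.mul_sum]
  refine Finset.sum_congr rfl fun i _ => ?_
  simp [XD_apply, cD_apply, iota_apply, mul_assoc]

/-- The Manin relations. -/
theorem manin {b : Fin n → Fin n → D} {j k : Fin n} (h : Commute (alpha b j) (alpha b k))
    (i l : Fin n) : b j i * b k l + b j l * b k i = b k i * b j l + b k l * b j i := by
  classical
  let φ : MvPolynomial (Fin n) ℂ →ₗ[ℂ] ℂ :=
    lcoeff ℂ 0 ∘ₗ (pderiv i).toLinearMap ∘ₗ (pderiv l).toLinearMap
  have hφ : ∀ s t : Fin n, φ (X s * X t) =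
      (if s = i ∧ t = l then 1 else 0) + (if s = l ∧ t = i then 1 else 0) := by
    intro s t
    have hd : ∀ l s : Fin n, pderiv l (X s : MvPolynomial (Fin n) ℂ) =
        C (if s = l then 1 else 0) := by
      intro l s
      by_cases h : s = l
      · subst h; simp
      · rw [pderiv_X_of_ne h, if_neg h, map_zero]
    have h1 : φ (X s * X t) = constantCoeff (pderiv i (pderiv l
        (X s * X t : MvPolynomial (Fin n) ℂ))) := rfl
    rw [h1]
    simp only [pderiv_mul, hd, pderiv_C, map_add, map_mul, constantCoeff_C, zero_mul, mul_zero,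
      zero_add, add_zero, ite_and]
    split_ifs <;> simp
  let Φ : RD n D →ₗ[ℂ] D := (TensorProduct.rid ℂ D).toLinearMap ∘ₗ φ.lTensor D
  have hΦ : ∀ j k, Φ (alpha b j * alpha b k) = b j i * b k l + b j l * b k i := by
    intro j k
    rw [alpha, alpha, Finset.sum_mul_sum]
    simp only [Algebra.TensorProduct.tmul_mul_tmul, map_sum, Φ, LinearMap.comp_apply,
      LinearMap.lTensor_tmul, LinearEquiv.coe_coe, TensorProduct.rid_tmul, hφ, add_smul,
      ite_smul, one_smul, zero_smul, Finset.sum_add_distrib, ite_and, Finset.sum_ite_eq',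
      Finset.mem_univ, if_true, Finset.sum_ite_irrel, Finset.sum_const_zero]
  rw [← hΦ, ← hΦ, h.eq]

theorem exists_inverse {b : Fin n → Fin n → D} (h : LinearIndependent D (alpha b)) :
    ∃ c : Fin n → Fin n → D, (∀ i l, ∑ j, c i j * b j l = if i = l then 1 else 0) ∧
      ∀ j k, ∑ i, b j i * c i k = if j = k then 1 else 0 := by
  classical
  let L : (Fin n → D) →ₗ[D] (Fin n → D) := Matrix.vecMulLinear (Matrix.of b)
  have hL : ∀ v l, L v l = ∑ j, v j * b j l := fun v l => rfl
  have hinj : Function.Injective L := by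
    rw [injective_iff_map_eq_zero]
    intro v hv
    funext j
    refine Fintype.linearIndependent_iff.mp h v ?_ j
    simp only [alpha, Finset.smul_sum, TensorProduct.smul_tmul', smul_eq_mul]
    rw [Finset.sum_comm]
    refine Finset.sum_eq_zero fun i _ => ?_
    rw [← TensorProduct.sum_tmul, ← hL, hv, Pi.zero_apply, TensorProduct.zero_tmul]
  have hsurj := LinearMap.injective_iff_surjective.mp hinj
  choose c hc using fun i => hsurj (Pi.single i 1)
  have h1 : ∀ i l, ∑ j, c i j * b j l = if i = l then 1 else 0 := by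
    intro i l
    rw [← hL, hc, Pi.single_apply]
    simp only [eq_comm]
  refine ⟨c, h1, fun j k => ?_⟩
  have h2 : L (fun k => ∑ i, b j i * c i k) = L (Pi.single j 1) := by
    funext l
    rw [hL, hL]
    simp only [Finset.sum_mul, mul_assoc]
    rw [Finset.sum_comm]
    simp only [← Finset.mul_sum, h1]
    simp [Pi.single_apply]
  have := congrFun (hinj h2) k
  rw [this, Pi.single_apply]
  simp only [eq_comm]

theorem anchor_LPPRing : True := by
  have := @iota.eq_1.{0}
  have := @BD.eq_1.{0}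
  have := @rmul.eq_1.{0}
  have := @XD.eq_1.{0}
  have := @cD.eq_1.{0}
  trivial

end Crest.Agent.R181
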