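import Crest.Agent.R181.McStd

/-! Row 181 (route 2): `D ⊗ R₀` is a noetherian domain; left fractions (auxiliary for `MaAm`). -/

set_option autoImplicit false

namespace Crest.Agent.R181.Mc.A1

open scoped TensorProduct

theorem central {L D R₀ : Type} [Field L] [Ring D] [Algebra L D] [CommRing R₀] [Algebra L R₀]
    (r : R₀) (x : D ⊗[L] R₀) : (1 : D) ⊗ₜ[L] r * x = x * (1 : D) ⊗ₜ[L] r := by
  induction x using TensorProduct.induction_on with
  | zero => simp
  | tmul d s => simp [mul_comm]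
  | add x y hx hy => rw [mul_add, add_mul, hx, hy]

theorem noeth {L : Type} [Field L] (D : Type) [DivisionRing D] [Algebra L D] (R₀ : Type)
    [CommRing R₀] [Algebra L R₀] [Algebra.FiniteType L R₀] : IsNoetherianRing (D ⊗[L] R₀) := by
  obtain ⟨n, φ, hφ⟩ := Algebra.FiniteType.iff_quotient_mvPolynomial''.1
    (inferInstance : Algebra.FiniteType L R₀)
  let X : (Fin n →₀ ℕ) → Module.End D (D ⊗[L] R₀) := fun u =>
    { toFun := fun x => x * (1 : D) ⊗ₜ[L] φ (MvPolynomial.monomial u 1)
      map_add' := fun x y => add_mul x y _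
      map_smul' := fun c x => smul_mul_assoc c x _ }
  have hXa : ∀ u x, X u x = x * (1 : D) ⊗ₜ[L] φ (MvPolynomial.monomial u 1) := fun _ _ => rfl
  have hX : IsMon X := by
    refine ⟨LinearMap.ext fun x => ?_, fun u v => LinearMap.ext fun x => ?_⟩
    · rw [hXa, MvPolynomial.monomial_zero', MvPolynomial.C_1, map_one,
        ← Algebra.TensorProduct.one_def, mul_one]; rfl
    · rw [Module.End.mul_apply, hXa, hXa, hXa, mul_assoc, Algebra.TensorProduct.tmul_mul_tmul,
        ← map_mul, MvPolynomial.monomial_mul, add_comm v u, mul_one, mul_one]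
  have hm : Gens X (fun _ : Fin 1 => (1 : D ⊗[L] R₀)) ⊤ := by
    refine eq_top_iff.2 fun x _ => ?_
    induction x using TensorProduct.induction_on with
    | zero => exact Submodule.zero_mem _
    | add x y hx hy => exact Submodule.add_mem _ (hx trivial) (hy trivial)
    | tmul d r =>
      obtain ⟨p, rfl⟩ := hφ r
      induction p using MvPolynomial.induction_on' with
      | add p q hp hq =>
        rw [map_add, TensorProduct.tmul_add]
        exact Submodule.add_mem _ (hp trivial) (hq trivial)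
      | monomial u c =>
        have e : d ⊗ₜ[L] φ (MvPolynomial.monomial u c) = (c • d) • X u 1 := by
          rw [hXa, one_mul, TensorProduct.smul_tmul', smul_eq_mul, mul_one,
            TensorProduct.smul_tmul, ← map_smul, MvPolynomial.smul_monomial, smul_eq_mul, mul_one]
        rw [e]
        exact Submodule.smul_mem _ _ (Submodule.subset_span ⟨(0, u), rfl⟩)
  refine ⟨(monotone_stabilizes_iff_noetherian.1 fun N => ?_).noetherian⟩
  obtain ⟨k₀, hk⟩ := acc hX _ hm ⟨fun k => (N k).restrictScalars D, fun _ _ h => N.monotone h⟩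
    (fun k u x hx => by
      rw [hXa, ← central]
      exact (N k).smul_mem _ hx)
  exact ⟨k₀, fun k h => (Submodule.restrictScalars_injective D _ _ (hk k h)).symm⟩

theorem nzd_poly {L : Type} [Field L] (D : Type) [DivisionRing D] [Algebra L D] (τ : Type) :
    NoZeroDivisors (D ⊗[L] MvPolynomial τ L) := by
  let φ : D ⊗[L] MvPolynomial τ L →ₐ[L] AddMonoidAlgebra D (τ →₀ ℕ) :=
    Algebra.TensorProduct.lift AddMonoidAlgebra.singleZeroAlgHom
      (AddMonoidAlgebra.mapAlgHom (τ →₀ ℕ) (Algebra.ofId L D)) (fun d p => by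
        induction p using AddMonoidAlgebra.induction_linear with
        | zero => simp
        | add x y hx hy => rw [map_add]; exact hx.add_right hy
        | single m r =>
          rw [AddMonoidAlgebra.mapAlgHom_single, AddMonoidAlgebra.singleZeroAlgHom_apply]
          exact AddMonoidAlgebra.single_commute_single (AddCommute.all _ _)
            (Algebra.commutes r d).symm)
  let ψ : AddMonoidAlgebra D (τ →₀ ℕ) →ₐ[L] D ⊗[L] MvPolynomial τ L :=
    AddMonoidAlgebra.liftNCAlgHom Algebra.TensorProduct.includeLeft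
      ((Algebra.TensorProduct.includeRight :
        MvPolynomial τ L →ₐ[L] D ⊗[L] MvPolynomial τ L).toMonoidHom.comp
          (AddMonoidAlgebra.of L (τ →₀ ℕ))) (fun d m => by
        simp [Commute, SemiconjBy])
  have h : ∀ u, ψ (φ u) = u := by
    intro u
    induction u using TensorProduct.induction_on with
    | zero => simp
    | add x y hx hy => rw [map_add, map_add, hx, hy]
    | tmul d p =>
      induction p using AddMonoidAlgebra.induction_linear with
      | zero => simp
      | add x y hx hy => rw [TensorProduct.tmul_add, map_add, map_add, hx, hy]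
      | single m r =>
        have e1 : φ (d ⊗ₜ[L] AddMonoidAlgebra.single m r) =
            AddMonoidAlgebra.single m (r • d) := by
          simp only [φ, Algebra.TensorProduct.lift_tmul, AddMonoidAlgebra.mapAlgHom_single,
            AddMonoidAlgebra.singleZeroAlgHom_apply, AddMonoidAlgebra.single_mul_single, zero_add]
          rw [Algebra.smul_def, Algebra.commutes]; rfl
        have e2 : ψ (AddMonoidAlgebra.single m (r • d)) =
            (r • d) ⊗ₜ[L] AddMonoidAlgebra.single m 1 := by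
          simp [ψ, TensorProduct.smul_tmul', Algebra.TensorProduct.tmul_mul_tmul]
        rw [e1, e2, TensorProduct.smul_tmul]
        simp
  exact Function.Injective.noZeroDivisors φ (Function.LeftInverse.injective h) (map_zero φ)
    (map_mul φ)

theorem domain {L : Type} [Field L] (D : Type) [DivisionRing D] [Algebra L D] (R₀ : Type)
    [CommRing R₀] [IsDomain R₀] [Algebra L R₀] {τ : Type} (β : MvPolynomial τ L →ₐ[L] R₀)
    (hβ : Function.Injective β) (h : ∀ r : R₀, ∃ b c, b ≠ 0 ∧ β b * r = β c) :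
    IsDomain (D ⊗[L] R₀) := by
  let Φ : D ⊗[L] MvPolynomial τ L →ₐ[L] D ⊗[L] R₀ :=
    Algebra.TensorProduct.map (AlgHom.id L D) β
  have hΦ : Function.Injective Φ :=
    Module.Flat.lTensor_preserves_injective_linearMap (M := D) β.toLinearMap hβ
  have hreg : ∀ s : R₀, s ≠ 0 → ∀ x : D ⊗[L] R₀, (1 : D) ⊗ₜ[L] s * x = 0 → x = 0 := by
    intro s hs x hx
    have h1 := Module.Flat.lTensor_preserves_injective_linearMap (M := D) (LinearMap.mulLeft L s)
      (mul_right_injective₀ hs)
    have h2 : ∀ y : D ⊗[L] R₀, (LinearMap.mulLeft L s).lTensor D y = (1 : D) ⊗ₜ[L] s * y := by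
      intro y
      induction y using TensorProduct.induction_on with
      | zero => simp
      | tmul d r => simp
      | add x y hx hy => rw [map_add, mul_add, hx, hy]
    exact h1 (by rw [h2, hx, map_zero])
  have hcl : ∀ x : D ⊗[L] R₀, ∃ b y, b ≠ 0 ∧ (1 : D) ⊗ₜ[L] β b * x = Φ y := by
    intro x
    induction x using TensorProduct.induction_on with
    | zero => exact ⟨1, 0, one_ne_zero, by simp⟩
    | tmul d r =>
      obtain ⟨b, c, hb, e⟩ := h r
      exact ⟨b, d ⊗ₜ c, hb, by simp [Φ, e]⟩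
    | add x y hx hy =>
      obtain ⟨b, x', hb, e⟩ := hx
      obtain ⟨b', y', hb', e'⟩ := hy
      refine ⟨b * b', (1 : D) ⊗ₜ b' * x' + (1 : D) ⊗ₜ b * y', mul_ne_zero hb hb', ?_⟩
      have t : ∀ c, Φ ((1 : D) ⊗ₜ c) = (1 : D) ⊗ₜ[L] β c := fun c => by simp [Φ]
      rw [map_add, map_mul, map_mul, map_mul, t, t, ← e, ← e', ← mul_assoc, ← mul_assoc, mul_add]
      simp [mul_comm]
  have := nzd_poly (L := L) D τ
  have : NoZeroDivisors (D ⊗[L] R₀) := ⟨fun {x y} hxy => by
    obtain ⟨b, x', hb, e⟩ := hcl x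
    obtain ⟨b', y', hb', e'⟩ := hcl y
    have h0 : Φ (x' * y') = Φ 0 := by
      rw [map_mul, ← e, ← e', mul_assoc, ← mul_assoc x, ← central, mul_assoc, hxy]
      simp
    rcases mul_eq_zero.1 (hΦ h0) with h1 | h1
    · exact Or.inl (hreg _ ((map_ne_zero_iff β hβ).2 hb) x (by rw [e, h1, map_zero]))
    · exact Or.inr (hreg _ ((map_ne_zero_iff β hβ).2 hb') y (by rw [e', h1, map_zero]))⟩
  have : Nontrivial (D ⊗[L] R₀) :=
    (Algebra.TensorProduct.includeLeft_injective (R := L) (S := L) (A := D) (B := R₀)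
      (algebraMap L R₀).injective).nontrivial
  exact NoZeroDivisors.to_isDomain _

theorem frac {R D' D'' : Type} [Ring R] [DivisionRing D'] [DivisionRing D''] (i : R →+* D')
    (hi : Function.Injective i) (hs : ∀ x : D', ∃ r s : R, s ≠ 0 ∧ x = (i s)⁻¹ * i r)
    (ψ : R →+* D'') (hψ : Function.Injective ψ) : ∃ Ψ : D' →+* D'', ∀ r, Ψ (i r) = ψ r := by
  have hs' : ∀ x : D', ∃ r s : R, s ≠ 0 ∧ i s * x = i r := fun x => by
    obtain ⟨r, s, h0, rfl⟩ := hs x
    exact ⟨r, s, h0, mul_inv_cancel_left₀ ((map_ne_zero_iff i hi).2 h0) _⟩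
  have ore : ∀ r s : R, s ≠ 0 → ∃ t t' : R, t ≠ 0 ∧ t * r = t' * s := fun r s h0 => by
    obtain ⟨t', t, ht, e⟩ := hs' (i r * (i s)⁻¹)
    refine ⟨t, t', ht, hi ?_⟩
    rw [map_mul, map_mul, ← e, mul_assoc, inv_mul_cancel_right₀ ((map_ne_zero_iff i hi).2 h0)]
  have hmul : ∀ s t : R, s ≠ 0 → t ≠ 0 → s * t ≠ 0 := fun s t h1 h2 =>
    (map_ne_zero_iff i hi).1 (by
      rw [map_mul]; exact mul_ne_zero ((map_ne_zero_iff i hi).2 h1) ((map_ne_zero_iff i hi).2 h2))
  choose r₀ s₀ h₀ e₀ using hs'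
  let F : D' → D'' := fun x => (ψ (s₀ x))⁻¹ * ψ (r₀ x)
  have hF₀ : ∀ x, ψ (s₀ x) * F x = ψ (r₀ x) := fun x =>
    mul_inv_cancel_left₀ ((map_ne_zero_iff ψ hψ).2 (h₀ x)) _
  have K : ∀ (r s : R) (x : D'), i s * x = i r → ψ s * F x = ψ r := by
    intro r s x e
    obtain ⟨t, t', ht, e1⟩ := ore s (s₀ x) (h₀ x)
    have e2 : t * r = t' * r₀ x := hi (by
      rw [map_mul, map_mul, ← e, ← e₀, ← mul_assoc, ← mul_assoc, ← map_mul, ← map_mul, e1])
    refine mul_left_cancel₀ ((map_ne_zero_iff ψ hψ).2 ht) ?_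
    rw [← mul_assoc, ← map_mul, e1, map_mul, mul_assoc, hF₀, ← map_mul, ← map_mul, e2]
  have hFi : ∀ r, F (i r) = ψ r := fun r => by
    have := K r 1 (i r) (by rw [map_one, one_mul])
    rwa [map_one, one_mul] at this
  refine ⟨{ toFun := F
            map_one' := by rw [← map_one i, hFi, map_one]
            map_zero' := by rw [← map_zero i, hFi, map_zero]
            map_mul' := fun x y => ?_
            map_add' := fun x y => ?_ }, hFi⟩
  · obtain ⟨t, t', ht, e1⟩ := ore (r₀ x) (s₀ y) (h₀ y)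
    refine mul_left_cancel₀ ((map_ne_zero_iff ψ hψ).2 (hmul _ _ ht (h₀ x))) ?_
    rw [K (t' * r₀ y) (t * s₀ x) (x * y) (by
      rw [map_mul, mul_assoc, ← mul_assoc (i (s₀ x)), e₀, ← mul_assoc, ← map_mul, e1, map_mul,
        mul_assoc, e₀, map_mul])]
    rw [map_mul ψ t, mul_assoc, ← mul_assoc (ψ (s₀ x)), hF₀, ← mul_assoc, ← map_mul ψ t, e1,
      map_mul ψ t' (s₀ y), mul_assoc, hF₀, map_mul]
  · obtain ⟨t, t', ht, e1⟩ := ore (s₀ x) (s₀ y) (h₀ y)
    have a1 : i (t * s₀ x) * x = i (t * r₀ x) := by rw [map_mul, mul_assoc, e₀, map_mul]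
    have a2 : i (t * s₀ x) * y = i (t' * r₀ y) := by rw [e1, map_mul, mul_assoc, e₀, map_mul]
    refine mul_left_cancel₀ ((map_ne_zero_iff ψ hψ).2 (hmul _ _ ht (h₀ x))) ?_
    rw [K (t * r₀ x + t' * r₀ y) (t * s₀ x) (x + y) (by rw [mul_add, a1, a2, map_add]), mul_add,
      K _ _ _ a1, K _ _ _ a2, map_add]

end Crest.Agent.R181.Mc.A1
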