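import Mathlib

/-! Row 181 (route 2): Schur's lemma for a family of additive symmetries (auxiliary to `MaAm`). -/

set_option autoImplicit false

namespace Crest.Agent.R181.Mc

section

variable {K V J : Type} [DivisionRing K] [AddCommGroup V] [Module K V]

/-- the linear maps commuting with a family of additive maps -/
def MaAm2_comm (K : Type) [DivisionRing K] [Module K V] (g : J → V →+ V) :
    Subring (Module.End K V) where
  carrier := {φ | ∀ γ x, φ (g γ x) = g γ (φ x)}
  mul_mem' := by
    intro a b ha hb γ x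
    simp only [Module.End.mul_apply]
    rw [hb γ x, ha γ]
  one_mem' := fun _ _ => rfl
  add_mem' := by
    intro a b ha hb γ x
    simp only [LinearMap.add_apply, map_add]
    rw [hb γ x, ha γ]
  zero_mem' := fun γ x => by simp
  neg_mem' := by
    intro a ha γ x
    simp only [LinearMap.neg_apply, map_neg]
    rw [ha γ]

theorem MaAm2_schur (g : J → V →+ V)
    (hW : ∀ W : Submodule K V, (∀ γ, ∀ x ∈ W, g γ x ∈ W) → W = ⊥ ∨ W = ⊤)
    (a : MaAm2_comm K g) : IsUnit a ∨ a = 0 := by
  obtain ⟨φ, hφ⟩ := a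
  have hφ' : ∀ γ x, φ (g γ x) = g γ (φ x) := hφ
  by_cases h0 : φ = 0
  · right
    exact Subtype.ext h0
  left
  have h1 : LinearMap.ker φ = ⊥ := by
    refine (hW _ fun γ x hx => ?_).resolve_right fun h => h0 (LinearMap.ker_eq_top.1 h)
    rw [LinearMap.mem_ker] at hx ⊢
    rw [hφ', hx, map_zero]
  have h2 : LinearMap.range φ = ⊤ := by
    refine (hW _ fun γ x hx => ?_).resolve_left fun h => h0 (LinearMap.range_eq_bot.1 h)
    obtain ⟨y, rfl⟩ := hx
    exact ⟨g γ y, hφ' γ y⟩
  let e : V ≃ₗ[K] V := LinearEquiv.ofBijective φ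
    ⟨LinearMap.ker_eq_bot.1 h1, LinearMap.range_eq_top.1 h2⟩
  have he : ∀ x, e x = φ x := fun _ => rfl
  have hψ : (e.symm : V →ₗ[K] V) ∈ MaAm2_comm K g := by
    intro γ x
    apply e.injective
    change e (e.symm (g γ x)) = e (g γ (e.symm x))
    rw [e.apply_symm_apply, he, hφ', ← he, e.apply_symm_apply]
  refine ⟨⟨⟨φ, hφ⟩, ⟨_, hψ⟩, ?_, ?_⟩, rfl⟩
  · apply Subtype.ext
    ext x
    exact e.apply_symm_apply x
  · apply Subtype.ext
    ext x
    exact e.symm_apply_apply x

end

/-- common left denominators -/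
theorem MaAm2_den {R K μ : Type} [Ring R] [IsDomain R] [DivisionRing K] [Fintype μ] (i : R →+* K)
    (hi : Function.Injective i) (hs : ∀ x : K, ∃ r s : R, s ≠ 0 ∧ x = (i s)⁻¹ * i r)
    (w : μ → K) : ∃ (s : R) (x : μ → R), s ≠ 0 ∧ ∀ m, i s * w m = i (x m) := by
  classical
  have key : ∀ T : Finset μ, ∃ s : R, s ≠ 0 ∧ ∀ m ∈ T, ∃ r, i s * w m = i r := by
    intro T
    induction T using Finset.induction_on with
    | empty => exact ⟨1, one_ne_zero, by simp⟩
    | insert a T _ ih =>
      obtain ⟨s, hs0, h⟩ := ih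
      obtain ⟨r, t, ht, e⟩ := hs (i s * w a)
      have ht' : i t ≠ 0 := fun h0 => ht (hi (h0.trans (map_zero i).symm))
      refine ⟨t * s, mul_ne_zero ht hs0, fun m hm => ?_⟩
      rcases Finset.mem_insert.1 hm with rfl | hm
      · exact ⟨r, by rw [map_mul, mul_assoc, e, ← mul_assoc, mul_inv_cancel₀ ht', one_mul]⟩
      · obtain ⟨r', hr'⟩ := h m hm
        exact ⟨t * r', by rw [map_mul, mul_assoc, hr', map_mul]⟩
  obtain ⟨s, hs0, h⟩ := key Finset.univ
  choose x hx using fun m => h m (Finset.mem_univ m)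
  exact ⟨s, x, hs0, hx⟩

/-- right multiplication -/
def MaAm2_right {K D μ : Type} [DivisionRing K] [Ring D] (δ : D →+* K) :
    Dᵐᵒᵖ →+* Module.End K (μ → K) where
  toFun d :=
    { toFun := fun x m => x m * δ d.unop
      map_add' := fun x y => by funext m; simp [add_mul]
      map_smul' := fun a x => by funext m; simp [mul_assoc] }
  map_one' := by
    refine LinearMap.ext fun x => ?_
    funext m
    simp
  map_mul' a b := by
    refine LinearMap.ext fun x => ?_
    funext m
    simp [mul_assoc]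
  map_zero' := by
    refine LinearMap.ext fun x => ?_
    funext m
    simp
  map_add' a b := by
    refine LinearMap.ext fun x => ?_
    funext m
    simp [mul_add]

theorem MaAm2_right_apply {K D μ : Type} [DivisionRing K] [Ring D] (δ : D →+* K) (d : Dᵐᵒᵖ)
    (x : μ → K) (m : μ) : MaAm2_right δ d x m = x m * δ d.unop := rfl

/-- matrices with central entries -/
def MaAm2_mat {K Ω μ : Type} [DivisionRing K] [Field Ω] [Fintype μ] [DecidableEq μ] (ι : Ω →+* K)
    (hι : ∀ ω x, Commute (ι ω) x) : Matrix μ μ Ω →+* Module.End K (μ → K) where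
  toFun A :=
    { toFun := fun x m => ∑ m', ι (A m m') * x m'
      map_add' := fun x y => by funext m; simp [mul_add, Finset.sum_add_distrib]
      map_smul' := fun a x => by
        funext m
        simp only [Pi.smul_apply, smul_eq_mul, RingHom.id_apply, Finset.mul_sum]
        refine Finset.sum_congr rfl fun m' _ => ?_
        rw [← mul_assoc, (hι _ a).eq, mul_assoc] }
  map_one' := by
    refine LinearMap.ext fun x => ?_
    funext m
    simp [Matrix.one_apply, apply_ite ι]
  map_mul' A B := by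
    refine LinearMap.ext fun x => ?_
    funext m
    simp only [LinearMap.coe_mk, AddHom.coe_mk, Module.End.mul_apply, Matrix.mul_apply, map_sum,
      map_mul, Finset.sum_mul, Finset.mul_sum, mul_assoc]
    exact Finset.sum_comm
  map_zero' := by
    refine LinearMap.ext fun x => ?_
    funext m
    simp
  map_add' a b := by
    refine LinearMap.ext fun x => ?_
    funext m
    simp [add_mul, Finset.sum_add_distrib]

theorem MaAm2_mat_apply {K Ω μ : Type} [DivisionRing K] [Field Ω] [Fintype μ] [DecidableEq μ]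
    (ι : Ω →+* K) (hι : ∀ ω x, Commute (ι ω) x) (A : Matrix μ μ Ω) (x : μ → K) (m : μ) :
    MaAm2_mat ι hι A x m = ∑ m', ι (A m m') * x m' := rfl

theorem MaAm2_mat_scalar {K Ω μ : Type} [DivisionRing K] [Field Ω] [Fintype μ] [DecidableEq μ]
    (ι : Ω →+* K) (hι : ∀ ω x, Commute (ι ω) x) (ω : Ω) (x : μ → K) :
    MaAm2_mat ι hι (algebraMap Ω _ ω) x = ι ω • x := by
  funext m
  rw [MaAm2_mat_apply]
  simp [Matrix.algebraMap_matrix_apply, apply_ite ι]

/-- monomial semilinear maps -/
def MaAm2_g {K μ : Type} [DivisionRing K] (ρ : K →+* K) (π : Equiv.Perm μ) (c : μ → K) :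
    (μ → K) →+ (μ → K) where
  toFun x m := c (π.symm m) * ρ (x (π.symm m))
  map_zero' := by funext m; simp
  map_add' x y := by funext m; simp [mul_add]

theorem MaAm2_g_apply {K μ : Type} [DivisionRing K] (ρ : K →+* K) (π : Equiv.Perm μ) (c : μ → K)
    (x : μ → K) (m : μ) : MaAm2_g ρ π c x m = c (π.symm m) * ρ (x (π.symm m)) := rfl

end Crest.Agent.R181.Mc
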