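import Crest.Agent.R181.MsSym
import Crest.Agent.R181.MaAmAux2
import Crest.Agent.R181.MaAmAux1

/-! Row 181 (route 2): amalgamating an arbitrary skew field with the commutant of a simple family. -/

set_option autoImplicit false

namespace Crest.Agent.R181.Mc

open scoped TensorProduct

/-- `D ⊗ R₀` is left noetherian for `R₀` of finite type (use `acc`). -/
theorem noeth_tensor {L : Type} [Field L] (D : Type) [DivisionRing D] [Algebra L D] (R₀ : Type)
    [CommRing R₀] [Algebra L R₀] [Algebra.FiniteType L R₀] : IsNoetherianRing (D ⊗[L] R₀) :=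
  A1.noeth D R₀

/-- `D ⊗ R₀` is a domain when `R₀` is birational to a polynomial ring. -/
theorem domain_tensor {L : Type} [Field L] (D : Type) [DivisionRing D] [Algebra L D] (R₀ : Type)
    [CommRing R₀] [IsDomain R₀] [Algebra L R₀] {τ : Type} (β : MvPolynomial τ L →ₐ[L] R₀)
    (hβ : Function.Injective β) (h : ∀ r : R₀, ∃ b c, b ≠ 0 ∧ β b * r = β c) :
    IsDomain (D ⊗[L] R₀) :=
  A1.domain D R₀ β hβ h

/-- universal property of the skew field of left fractions -/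
theorem frac_lift {R D' D'' : Type} [Ring R] [DivisionRing D'] [DivisionRing D''] (i : R →+* D')
    (hi : Function.Injective i) (hs : ∀ x : D', ∃ r s : R, s ≠ 0 ∧ x = (i s)⁻¹ * i r)
    (ψ : R →+* D'') (hψ : Function.Injective ψ) : ∃ Ψ : D' →+* D'', ∀ r, Ψ (i r) = ψ r :=
  A1.frac i hi hs ψ hψ

/-- Monomial semilinear symmetries: `(g x) (π m) = c m • ρ (x m)`. -/
structure Sym (L R₀ μ : Type) [Field L] [CommRing R₀] [Algebra L R₀] where
  ρ : R₀ ≃ₐ[L] R₀
  π : Equiv.Perm μ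
  c : μ → Lˣ

/-- Amalgamation.  `E` acts on `μ → Ω` commuting with the symmetries; every stable saturated submodule of
`μ → D ⊗ R₀` is trivial. -/
theorem exists_amalgam {L : Type} [Field L] (D : Type) [DivisionRing D] [Algebra L D] (R₀ : Type)
    [CommRing R₀] [IsDomain R₀] [Algebra L R₀] [IsDomain (D ⊗[L] R₀)] [IsNoetherianRing (D ⊗[L] R₀)]
    (Ω : Type) [Field Ω] [Algebra R₀ Ω] [IsFractionRing R₀ Ω]
    {μ J : Type} [Fintype μ] [DecidableEq μ] [Nonempty μ] (Γ : J → Sym L R₀ μ)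
    (hS : ∀ M : Submodule (D ⊗[L] R₀) (μ → D ⊗[L] R₀),
      (∀ γ, ∀ x ∈ M, (fun m => (((Γ γ).c ((Γ γ).π.symm m) : Lˣ) : L) •
          Algebra.TensorProduct.map (AlgHom.id L D) (Γ γ).ρ.toAlgHom (x ((Γ γ).π.symm m))) ∈ M) →
      (∀ r : D ⊗[L] R₀, r ≠ 0 → ∀ x, r • x ∈ M → x ∈ M) → M = ⊥ ∨ M = ⊤)
    (E : Type) [Ring E] (j : E →+* Matrix μ μ Ω)
    (hj : ∀ γ (ρΩ : Ω →+* Ω), (∀ r, ρΩ (algebraMap R₀ Ω r) = algebraMap R₀ Ω ((Γ γ).ρ r)) →
      ∀ e m m', j e ((Γ γ).π m) ((Γ γ).π m') * algebraMap R₀ Ω (algebraMap L R₀ ((Γ γ).c m')) =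
        algebraMap R₀ Ω (algebraMap L R₀ ((Γ γ).c m)) * ρΩ (j e m m')) :
    ∃ (D' : Type) (_ : DivisionRing D') (f : Dᵐᵒᵖ →+* D') (k : E →+* D'),
      (∀ d e, Commute (f d) (k e)) ∧
      (∀ (l : L) (e : E), j e = algebraMap Ω _ (algebraMap R₀ Ω (algebraMap L R₀ l)) →
        k e = f (algebraMap L Dᵐᵒᵖ l)) ∧
      ∀ (ω : Ω) (e : E), j e = algebraMap Ω _ ω → ∀ x, Commute (k e) x := by
  obtain ⟨K, _, i, hi, hs⟩ := exists_frac (D ⊗[L] R₀)
  -- fractions in `Ω`
  have hΩi : Function.Injective (algebraMap R₀ Ω) := IsFractionRing.injective R₀ Ω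
  have hΩs : ∀ x : Ω, ∃ r s : R₀, s ≠ 0 ∧ x = (algebraMap R₀ Ω s)⁻¹ * algebraMap R₀ Ω r := by
    intro x
    obtain ⟨r, s, hs0, e⟩ := IsFractionRing.div_surjective (A := R₀) x
    exact ⟨r, s, nonZeroDivisors.ne_zero hs0, by rw [← e, div_eq_inv_mul]⟩
  -- the central embedding of `Ω`
  have hr : Function.Injective
      (Algebra.TensorProduct.includeRight : R₀ →ₐ[L] D ⊗[L] R₀) :=
    Algebra.TensorProduct.includeRight_injective (algebraMap L D).injective
  obtain ⟨ι, hι⟩ := frac_lift (algebraMap R₀ Ω) hΩi hΩs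
    (i.comp (Algebra.TensorProduct.includeRight : R₀ →ₐ[L] D ⊗[L] R₀).toRingHom) (hi.comp hr)
  replace hι : ∀ r, ι (algebraMap R₀ Ω r) = i (1 ⊗ₜ r) := hι
  have hc0 : ∀ (r : R₀) (y : D ⊗[L] R₀), Commute ((1 : D) ⊗ₜ[L] r) y := by
    intro r y
    induction y using TensorProduct.induction_on with
    | zero => exact Commute.zero_right _
    | tmul d s => simp [Commute, SemiconjBy, mul_comm]
    | add a b ha hb => exact ha.add_right hb
  have hc1 : ∀ (r : R₀) (x : K), Commute (i (1 ⊗ₜ r)) x := by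
    intro r x
    obtain ⟨a, b, -, rfl⟩ := hs x
    exact ((hc0 r b).map i).inv_right₀.mul_right ((hc0 r a).map i)
  have hc : ∀ (ω : Ω) (x : K), Commute (ι ω) x := by
    intro ω x
    obtain ⟨a, b, -, rfl⟩ := hΩs ω
    rw [map_mul, map_inv₀, hι, hι]
    exact (hc1 b x).inv_left₀.mul_left (hc1 a x)
  -- the symmetries
  have hρi : ∀ γ, Function.Injective
      (Algebra.TensorProduct.map (AlgHom.id L D) (Γ γ).ρ.toAlgHom) := fun γ =>
    (Algebra.TensorProduct.congr (AlgEquiv.refl (R := L) (A₁ := D)) (Γ γ).ρ).injective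
  have hρ : ∀ γ, ∃ ρ : K →+* K, ∀ y,
      ρ (i y) = i (Algebra.TensorProduct.map (AlgHom.id L D) (Γ γ).ρ.toAlgHom y) := fun γ =>
    frac_lift i hi hs
      (i.comp (Algebra.TensorProduct.map (AlgHom.id L D) (Γ γ).ρ.toAlgHom).toRingHom)
      (hi.comp (hρi γ))
  choose ρ hρ using hρ
  have hρΩ : ∀ γ, ∃ σ : Ω →+* Ω, ∀ r, σ (algebraMap R₀ Ω r) = algebraMap R₀ Ω ((Γ γ).ρ r) :=
    fun γ => frac_lift (algebraMap R₀ Ω) hΩi hΩs
      ((algebraMap R₀ Ω).comp (Γ γ).ρ.toAlgHom.toRingHom) (hΩi.comp (Γ γ).ρ.injective)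
  choose σ hσ using hρΩ
  have hρι : ∀ γ ω, ρ γ (ι ω) = ι (σ γ ω) := by
    intro γ ω
    have h1 : ∀ r, ρ γ (ι (algebraMap R₀ Ω r)) = ι (σ γ (algebraMap R₀ Ω r)) := fun r => by
      rw [hι, hρ, hσ, hι]
      simp
    obtain ⟨a, b, -, rfl⟩ := hΩs ω
    simp only [map_mul, map_inv₀, h1]
  have hL : ∀ l : L, ι (algebraMap R₀ Ω (algebraMap L R₀ l)) = i (algebraMap L _ l) := by
    intro l
    rw [hι]
    exact congrArg i ((Algebra.TensorProduct.includeRight : R₀ →ₐ[L] D ⊗[L] R₀).commutes l)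
  let g : J → (μ → K) →+ (μ → K) := fun γ => MaAm2_g (ρ γ) (Γ γ).π
    fun m => ι (algebraMap R₀ Ω (algebraMap L R₀ ((Γ γ).c m)))
  have hg : ∀ γ x m, g γ x m = ι (algebraMap R₀ Ω (algebraMap L R₀ ((Γ γ).c ((Γ γ).π.symm m)))) *
      ρ γ (x ((Γ γ).π.symm m)) := fun _ _ _ => rfl
  have hne : ∀ s : D ⊗[L] R₀, s ≠ 0 → i s ≠ 0 := fun s h0 h1 =>
    h0 (hi (h1.trans (map_zero i).symm))
  -- simplicity
  have hW : ∀ W : Submodule K (μ → K), (∀ γ, ∀ x ∈ W, g γ x ∈ W) → W = ⊥ ∨ W = ⊤ := by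
    intro W hWg
    let M : Submodule (D ⊗[L] R₀) (μ → D ⊗[L] R₀) :=
      { carrier := {x | (fun m => i (x m)) ∈ W}
        add_mem' := by
          intro a b ha hb
          have := W.add_mem ha hb
          convert this using 1
          simp only [Set.mem_ofPred_eq, Pi.add_apply, map_add]
          rfl
        zero_mem' := by
          simp only [Set.mem_ofPred_eq, Pi.zero_apply, map_zero]
          exact W.zero_mem
        smul_mem' := by
          intro r a ha
          have := W.smul_mem (i r) ha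
          simp only [Set.mem_ofPred_eq, Pi.smul_apply, smul_eq_mul, map_mul]
          exact this }
    have hM : ∀ x, x ∈ M ↔ (fun m => i (x m)) ∈ W := fun _ => Iff.rfl
    have hsm : ∀ (s : K) (w : μ → K), s ≠ 0 → s • w ∈ W → w ∈ W := by
      intro s w h0 h1
      have := W.smul_mem s⁻¹ h1
      rwa [smul_smul, inv_mul_cancel₀ h0, one_smul] at this
    have hden : ∀ w : μ → K, ∃ (s : D ⊗[L] R₀) (x : μ → D ⊗[L] R₀), i s ≠ 0 ∧
        i s • w = fun m => i (x m) := by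
      intro w
      obtain ⟨s, x, h0, h1⟩ := MaAm2_den i hi hs w
      exact ⟨s, x, hne s h0, funext h1⟩
    refine (hS M (fun γ x hx => ?_) (fun r h0 x hx => ?_)).imp (fun h => ?_) (fun h => ?_)
    rotate_left 2
    · rw [eq_bot_iff]
      intro w hw
      obtain ⟨s, x, h0, h1⟩ := hden w
      have h2 : x ∈ M := by
        rw [hM, ← h1]
        exact W.smul_mem _ hw
      rw [h, Submodule.mem_bot] at h2
      have h3 : i s • w = 0 := by
        rw [h1, h2]
        funext m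
        simp
      rw [Submodule.mem_bot]
      exact (smul_eq_zero.1 h3).resolve_left h0
    · rw [eq_top_iff]
      intro w _
      obtain ⟨s, x, h0, h1⟩ := hden w
      refine hsm _ w h0 ?_
      rw [h1, ← hM, h]
      trivial
    · rw [hM] at hx ⊢
      convert hWg γ _ hx using 1
      funext m
      rw [hg, hL, hρ, Algebra.smul_def, map_mul]
    · rw [hM] at hx ⊢
      refine hsm (i r) _ (hne r h0) ?_
      convert hx using 1
      funext m
      simp
  have : Nontrivial (MaAm2_comm K g) := inferInstance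
  let δ : D →+* K := i.comp Algebra.TensorProduct.includeLeftRingHom
  have hδ : ∀ d, δ d = i (d ⊗ₜ 1) := fun _ => rfl
  have hf : ∀ d, MaAm2_right (μ := μ) δ d ∈ MaAm2_comm K g := by
    intro d γ x
    funext m
    rw [MaAm2_right_apply, hg, hg, MaAm2_right_apply, map_mul, hδ, hρ, mul_assoc]
    simp
  have hk : ∀ e, ((MaAm2_mat ι hc).comp j) e ∈ MaAm2_comm K g := by
    intro e γ x
    funext m
    obtain ⟨n, rfl⟩ := (Γ γ).π.surjective m
    rw [RingHom.comp_apply, MaAm2_mat_apply, hg, MaAm2_mat_apply, map_sum, Finset.mul_sum,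
      ← Equiv.sum_comp (Γ γ).π]
    refine Finset.sum_congr rfl fun n' _ => ?_
    rw [hg, Equiv.symm_apply_apply, Equiv.symm_apply_apply, ← mul_assoc, ← map_mul,
      hj γ (σ γ) (hσ γ), map_mul, map_mul, hρι, mul_assoc]
  refine ⟨MaAm2_comm K g, DivisionRing.ofIsUnitOrEqZero (MaAm2_schur g hW),
    (MaAm2_right δ).codRestrict _ hf, ((MaAm2_mat ι hc).comp j).codRestrict _ hk, ?_, ?_, ?_⟩
  · intro d e
    apply Subtype.ext
    refine LinearMap.ext fun x => ?_
    funext m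
    change MaAm2_right δ d (MaAm2_mat ι hc (j e) x) m = MaAm2_mat ι hc (j e) (MaAm2_right δ d x) m
    simp only [MaAm2_right_apply, MaAm2_mat_apply, Finset.sum_mul, mul_assoc]
  · intro l e he
    apply Subtype.ext
    refine LinearMap.ext fun x => ?_
    funext m
    change MaAm2_mat ι hc (j e) x m = MaAm2_right δ (algebraMap L Dᵐᵒᵖ l) x m
    rw [he, MaAm2_mat_scalar, MaAm2_right_apply, Pi.smul_apply, smul_eq_mul, (hc _ _).eq, hL, hδ]
    rfl
  · intro ω e he φ
    apply Subtype.ext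
    refine LinearMap.ext fun x => ?_
    change MaAm2_mat ι hc (j e) (φ.1 x) = φ.1 (MaAm2_mat ι hc (j e) x)
    rw [he, MaAm2_mat_scalar, MaAm2_mat_scalar, map_smul]

end Crest.Agent.R181.Mc
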