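import Crest.Agent.R181.McRing

/-! Row 181 (route 2): construction of the ring `A` with its free modules. -/

set_option autoImplicit false
set_option linter.unusedSectionVars false

namespace Crest.Agent.R181.Mc

open scoped TensorProduct

variable {a : ℕ} [NeZero a] {L K : Type} [Field L] [CommRing K] [Algebra L K] (κ : KData a L K)

/-- Cutting an ambient ring down to the subring spanned by the four families of generators. -/
theorem ctx_of_amb (D : Type) [DivisionRing D] [Algebra L D] (E : Type) [Ring E]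
    (ιD : D →+* E) (ιB : Br κ →+* E) (e : Gam a → E) (σ : E)
    (comm : ∀ d b, ιD d * ιB b = ιB b * ιD d)
    (alg : ∀ l : L, ιB (algebraMap L (Br κ) l) = ιD (algebraMap L D l))
    (e_mul : ∀ γ γ', e γ * e γ' = if γ = γ' then e γ else 0)
    (e_D : ∀ γ d, e γ * ιD d = ιD d * e γ)
    (e_B : ∀ γ δ b, Hom κ b δ → e (γ + δ) * ιB b = ιB b * e γ)
    (σ_pow : σ ^ a = 1)
    (σ_D : ∀ d, σ * ιD d = ιD d * σ)
    (σ_B : ∀ b, σ * ιB b = ιB (σB κ b) * σ)
    (σ_e : ∀ γ, σ * e γ = e (rot a γ) * σ)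
    (sh : E →+* E)
    (sh_D : ∀ d, sh (ιD d) = ιD d)
    (sh_B : ∀ b, sh (ιB b) = ιB b)
    (sh_e : ∀ γ, sh (e γ) = e (γ + (0, 1, 0)))
    (sh_σ : sh σ = σ)
    (F : ℤ → Type) [∀ k, AddCommGroup (F k)] [∀ k, Module E (F k)]
    (one : ∀ k, F k)
    (e_one : ∀ k : ℤ, e ((a : ℤ) * k, 0, 0) • one k = one k)
    (σ_one : ∀ k, σ • one k = one k)
    (free : ∀ k, ∃ φ : D ⊗[L] Br κ ≃+ F k, ∀ d b, φ (d ⊗ₜ[L] b) = ιD d • ιB b • one k) :
    Nonempty (Ctx κ D) := by
  classical
  let G : Set E := Set.range ιD ∪ Set.range ιB ∪ Set.range e ∪ {σ}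
  let A : Subring E := Subring.closure G
  have hD : ∀ d, ιD d ∈ A := fun d =>
    Subring.subset_closure (Or.inl (Or.inl (Or.inl ⟨d, rfl⟩)))
  have hB : ∀ b, ιB b ∈ A := fun b =>
    Subring.subset_closure (Or.inl (Or.inl (Or.inr ⟨b, rfl⟩)))
  have he : ∀ γ, e γ ∈ A := fun γ => Subring.subset_closure (Or.inl (Or.inr ⟨γ, rfl⟩))
  have hσ : σ ∈ A := Subring.subset_closure (Or.inr rfl)
  have hsh : ∀ x ∈ A, sh x ∈ A := by
    have h : A ≤ A.comap sh := by
      refine Subring.closure_le.2 ?_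
      rintro x (((⟨d, rfl⟩ | ⟨b, rfl⟩) | ⟨γ, rfl⟩) | rfl)
      · show sh (ιD d) ∈ A
        rw [sh_D]; exact hD d
      · show sh (ιB b) ∈ A
        rw [sh_B]; exact hB b
      · show sh (e γ) ∈ A
        rw [sh_e]; exact he _
      · show sh x ∈ A
        rw [sh_σ]; exact hσ
    exact fun x hx => h hx
  refine ⟨{
    A := A
    ιD := ιD.codRestrict A hD
    ιB := ιB.codRestrict A hB
    e := fun γ => ⟨e γ, he γ⟩
    σ := ⟨σ, hσ⟩
    comm := fun d b => Subtype.ext (comm d b)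
    alg := fun l => Subtype.ext (alg l)
    e_mul := fun γ γ' => Subtype.ext ?_
    e_D := fun γ d => Subtype.ext (e_D γ d)
    e_B := fun γ δ b h => Subtype.ext (e_B γ δ b h)
    σ_pow := Subtype.ext σ_pow
    σ_D := fun d => Subtype.ext (σ_D d)
    σ_B := fun b => Subtype.ext (σ_B b)
    σ_e := fun γ => Subtype.ext (σ_e γ)
    gen_top := ?_
    sh := (sh.comp A.subtype).codRestrict A fun x => hsh x x.2
    sh_D := fun d => Subtype.ext (sh_D d)
    sh_B := fun b => Subtype.ext (sh_B b)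
    sh_e := fun γ => Subtype.ext (sh_e γ)
    sh_σ := Subtype.ext sh_σ
    F := F
    addF := inferInstance
    modF := fun k => Module.compHom (F k) A.subtype
    one := one
    e_one := e_one
    σ_one := σ_one
    free := free }⟩
  · have h := e_mul γ γ'
    split_ifs with hγ
    · rw [if_pos hγ] at h; exact h
    · rw [if_neg hγ] at h; exact h
  · rw [eq_top_iff]
    rintro ⟨x, hx⟩ -
    induction hx using Subring.closure_induction with
    | mem x hx =>
      refine Subring.subset_closure ?_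
      rcases hx with ((⟨d, rfl⟩ | ⟨b, rfl⟩) | ⟨γ, rfl⟩) | rfl
      · exact Or.inl (Or.inl (Or.inl ⟨d, rfl⟩))
      · exact Or.inl (Or.inl (Or.inr ⟨b, rfl⟩))
      · exact Or.inl (Or.inr ⟨γ, rfl⟩)
      · exact Or.inr rfl
    | zero => exact Subring.zero_mem _
    | one => exact Subring.one_mem _
    | add x y hx hy ihx ihy => exact Subring.add_mem _ ihx ihy
    | neg x hx ih => exact Subring.neg_mem _ ih
    | mul x y hx hy ihx ihy => exact Subring.mul_mem _ ihx ihy

/-- the homogeneous component of degree `δ` -/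
noncomputable def ctxπ (δ : Gam a) : Br κ →ₗ[L] Br κ where
  toFun b := (ρB κ b).coeff δ
  map_add' x y := by simp
  map_smul' l x := by
    have h : ρB κ (algebraMap L (Br κ) l) = AddMonoidAlgebra.single 0 (algebraMap L (Br κ) l) :=
      hom_algebraMap κ l
    have hs : ∀ y : Br κ, l • y = algebraMap L (Br κ) l * y := fun y => Algebra.smul_def l y
    rw [RingHom.id_apply, hs, hs, map_mul, h, AddMonoidAlgebra.coeff_single_zero_mul]

theorem ctxπ_apply (δ : Gam a) (b : Br κ) : ctxπ κ δ b = (ρB κ b).coeff δ := rfl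

open Classical in
theorem ctxπ_hom {b : Br κ} {δ : Gam a} (h : Hom κ b δ) (γ : Gam a) :
    ctxπ κ γ b = if γ = δ then b else 0 := by
  have h' : ρB κ b = AddMonoidAlgebra.single δ b := h
  rw [ctxπ_apply, h', AddMonoidAlgebra.coeff_single, Finsupp.single_apply]
  simp only [eq_comm]

open Classical in
theorem ctxπ_mul (γ γ' : Gam a) :
    ctxπ κ γ * ctxπ κ γ' = if γ = γ' then ctxπ κ γ else 0 := by
  refine LinearMap.ext fun x => ?_
  rw [Module.End.mul_apply, ctxπ_hom κ (b := ctxπ κ γ' x) (hom_ρB κ x γ') γ]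
  split_ifs with h
  · rw [h]
  · rfl

theorem ctxπ_mul_hom {b : Br κ} {δ : Gam a} (h : Hom κ b δ) (γ : Gam a) (x : Br κ) :
    ctxπ κ (γ + δ) (b * x) = b * ctxπ κ γ x := by
  have h' : ρB κ b = AddMonoidAlgebra.single δ b := h
  rw [ctxπ_apply, ctxπ_apply, map_mul, h', add_comm, AddMonoidAlgebra.coeff_single_mul_add]

theorem ctxπ_σ (γ : Gam a) (x : Br κ) : σB κ (ctxπ κ γ x) = ctxπ κ (rot a γ) (σB κ x) := by
  classical
  conv_rhs => rw [← sum_ρB κ x, Finsupp.sum, map_sum, map_sum]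
  have h : ∀ δ, ctxπ κ (rot a γ) (σB κ ((ρB κ x).coeff δ))
      = if δ = γ then σB κ ((ρB κ x).coeff δ) else 0 := by
    intro δ
    rw [ctxπ_hom κ (hom_ρB κ x δ).σB]
    by_cases hδ : δ = γ
    · rw [if_pos hδ, if_pos (by rw [hδ])]
    · rw [if_neg hδ, if_neg fun h => hδ ((rot a).injective h).symm]
  simp only [h, Finset.sum_ite_eq']
  split_ifs with hγ
  · rfl
  · rw [ctxπ_apply, Finsupp.notMem_support_iff.1 hγ, map_zero]

/-- the cyclic symmetry as a linear map -/
noncomputable def ctxσ : Module.End L (Br κ) where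
  toFun := σB κ
  map_add' := map_add _
  map_smul' l x := by
    have hs : ∀ y : Br κ, l • y = algebraMap L (Br κ) l * y := fun y => Algebra.smul_def l y
    rw [RingHom.id_apply, hs, hs, map_mul, σB_algebraMap]

theorem ctxσ_apply (x : Br κ) : ctxσ κ x = σB κ x := rfl

theorem ctxσ_pow : ctxσ κ ^ a = 1 := by
  refine LinearMap.ext fun x => ?_
  rw [Module.End.pow_apply]
  exact σB_iterate κ x

/-- the degree of the generator with index `p` -/
def ctxc (a : ℕ) (p : ℤ × ℤ) : Gam a := ((a : ℤ) * p.1, p.2, 0)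

omit [NeZero a] in
theorem ctxc_rot (p : ℤ × ℤ) : rot a (ctxc a p) = ctxc a p := rfl

section Amb

variable (D : Type) [DivisionRing D] [Algebra L D]

/-- the ambient ring -/
abbrev CtxAmb : Type := ℤ × ℤ → Module.End L (D ⊗[L] Br κ)

/-- operators on the second factor -/
noncomputable def ctxR : Module.End L (Br κ) →+* Module.End L (D ⊗[L] Br κ) :=
  (Module.End.lTensorAlgHom L (Br κ) D : Module.End L (Br κ) →ₐ[L] _)

/-- operators on the first factor -/
noncomputable def ctxL : Module.End L D →+* Module.End L (D ⊗[L] Br κ) :=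
  (Module.End.rTensorAlgHom L D (Br κ) : Module.End L D →ₐ[L] _)

omit [NeZero a] in
theorem ctxR_tmul (f : Module.End L (Br κ)) (d : D) (b : Br κ) :
    ctxR κ D f (d ⊗ₜ[L] b) = d ⊗ₜ[L] f b := rfl

omit [NeZero a] in
theorem ctxL_tmul (f : Module.End L D) (d : D) (b : Br κ) :
    ctxL κ D f (d ⊗ₜ[L] b) = f d ⊗ₜ[L] b := rfl

omit [NeZero a] in
theorem ctxL_comm (f : Module.End L D) (g : Module.End L (Br κ)) :
    ctxL κ D f * ctxR κ D g = ctxR κ D g * ctxL κ D f := by
  refine TensorProduct.ext' fun d b => ?_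
  simp only [Module.End.mul_apply, ctxR_tmul, ctxL_tmul]

/-- left multiplication in `B` -/
noncomputable def ctxlB : Br κ →+* Module.End L (Br κ) :=
  (Algebra.lmul L (Br κ) : Br κ →ₐ[L] _)

/-- left multiplication in `D` -/
noncomputable def ctxlD : D →+* Module.End L D :=
  (Algebra.lmul L D : D →ₐ[L] _)

omit [NeZero a] in
theorem ctxlB_apply (b x : Br κ) : ctxlB κ b x = b * x := rfl

theorem ctxlD_apply (d x : D) : ctxlD (L := L) D d x = d * x := rfl

/-- the action of `D` -/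
noncomputable def ctxιD : D →+* CtxAmb κ D :=
  (Pi.constRingHom _ _).comp ((ctxL κ D).comp (ctxlD D))

/-- the action of `B` -/
noncomputable def ctxιB : Br κ →+* CtxAmb κ D :=
  (Pi.constRingHom _ _).comp ((ctxR κ D).comp (ctxlB κ))

/-- the degree projections -/
noncomputable def ctxe (γ : Gam a) : CtxAmb κ D := fun p => ctxR κ D (ctxπ κ (γ - ctxc a p))

/-- the symmetry -/
noncomputable def ctxs : CtxAmb κ D := fun _ => ctxR κ D (ctxσ κ)

omit [NeZero a] in
theorem ctxιD_apply (d : D) (p : ℤ × ℤ) : ctxιD κ D d p = ctxL κ D (ctxlD D d) := rfl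

omit [NeZero a] in
theorem ctxιB_apply (b : Br κ) (p : ℤ × ℤ) : ctxιB κ D b p = ctxR κ D (ctxlB κ b) := rfl

/-- the shift of the `S`-degree -/
noncomputable def ctxsh : CtxAmb κ D →+* CtxAmb κ D :=
  RingHom.pi fun p => Pi.evalRingHom _ (p.1, p.2 - 1)

omit [NeZero a] in
theorem ctxsh_apply (x : CtxAmb κ D) (p : ℤ × ℤ) : ctxsh κ D x p = x (p.1, p.2 - 1) := rfl

/-- the free module with generator in degree `(a k, 0, 0)` -/
def CtxF (_k : ℤ) : Type := D ⊗[L] Br κ

noncomputable instance (k : ℤ) : AddCommGroup (CtxF κ D k) :=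
  (inferInstance : AddCommGroup (D ⊗[L] Br κ))

noncomputable instance (k : ℤ) : Module (CtxAmb κ D) (CtxF κ D k) :=
  Module.compHom (D ⊗[L] Br κ)
    (Pi.evalRingHom (fun _ : ℤ × ℤ => Module.End L (D ⊗[L] Br κ)) (k, 0))

/-- the identification of `F k` with `D ⊗ B` -/
noncomputable def ctxφ (k : ℤ) : D ⊗[L] Br κ ≃+ CtxF κ D k := AddEquiv.refl _

omit [NeZero a] in
theorem ctx_smul (k : ℤ) (x : CtxAmb κ D) (v : D ⊗[L] Br κ) :
    x • ctxφ κ D k v = ctxφ κ D k (x (k, 0) v) := rfl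

end Amb

/-- The ambient ring is `ℤ × ℤ → End_L (D ⊗ B)`; at the index `(k, j)` the projection `e γ` is the
homogeneous component of degree `γ - (a k, j, 0)`.  `A` is the subring generated by `D`, `B`, the
`e γ` and `σ`; `sh` is the reindexing `j ↦ j - 1` and `F k` is `D ⊗ B` at the index `(k, 0)`. -/
theorem exists_ctx (D : Type) [DivisionRing D] [Algebra L D] : Nonempty (Ctx κ D) := by
  classical
  refine ctx_of_amb κ D (CtxAmb κ D) (ctxιD κ D) (ctxιB κ D) (ctxe κ D) (ctxs κ D)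
    ?_ ?_ ?_ ?_ ?_ ?_ ?_ ?_ ?_ (ctxsh κ D) (fun _ => rfl) (fun _ => rfl) ?_ rfl (CtxF κ D)
    (fun k => ctxφ κ D k (1 ⊗ₜ[L] 1)) ?_ ?_ ?_
  · intro d b
    funext p
    exact ctxL_comm κ D _ _
  · intro l
    funext p
    rw [ctxιB_apply, ctxιD_apply]
    refine TensorProduct.ext' fun d b => ?_
    rw [ctxR_tmul, ctxL_tmul, ctxlB_apply, ctxlD_apply, ← Algebra.smul_def, ← Algebra.smul_def,
      TensorProduct.smul_tmul]
  · intro γ γ'
    funext p
    have h : (ctxe κ D γ * ctxe κ D γ') p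
        = ctxR κ D (ctxπ κ (γ - ctxc a p) * ctxπ κ (γ' - ctxc a p)) := (map_mul _ _ _).symm
    rw [h, ctxπ_mul]
    by_cases hγ : γ = γ'
    · rw [if_pos hγ, if_pos (by rw [hγ])]
      rfl
    · rw [if_neg hγ, if_neg fun h => hγ (sub_left_inj.1 h), map_zero]
      rfl
  · intro γ d
    funext p
    exact (ctxL_comm κ D _ _).symm
  · intro γ δ b h
    funext p
    show ctxR κ D _ * ctxR κ D _ = ctxR κ D _ * ctxR κ D _
    rw [← map_mul, ← map_mul]
    congr 1
    refine LinearMap.ext fun x => ?_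
    rw [Module.End.mul_apply, Module.End.mul_apply, ctxlB_apply, ctxlB_apply, add_sub_right_comm,
      ctxπ_mul_hom κ h]
  · funext p
    show ctxR κ D (ctxσ κ) ^ a = 1
    rw [← map_pow, ctxσ_pow, map_one]
  · intro d
    funext p
    exact (ctxL_comm κ D _ _).symm
  · intro b
    funext p
    show ctxR κ D _ * ctxR κ D _ = ctxR κ D _ * ctxR κ D _
    rw [← map_mul, ← map_mul]
    congr 1
    refine LinearMap.ext fun x => ?_
    rw [Module.End.mul_apply, Module.End.mul_apply, ctxlB_apply, ctxlB_apply, ctxσ_apply,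
      ctxσ_apply, map_mul]
  · intro γ
    funext p
    show ctxR κ D _ * ctxR κ D _ = ctxR κ D _ * ctxR κ D _
    rw [← map_mul, ← map_mul]
    congr 1
    refine LinearMap.ext fun x => ?_
    rw [Module.End.mul_apply, Module.End.mul_apply, ctxσ_apply, ctxσ_apply, ctxπ_σ, map_sub,
      ctxc_rot]
  · intro γ
    funext p
    rw [ctxsh_apply]
    have h : γ - ctxc a (p.1, p.2 - 1) = γ + (0, 1, 0) - ctxc a p := by
      ext <;> simp [ctxc]
      ring
    show ctxR κ D (ctxπ κ (γ - ctxc a (p.1, p.2 - 1))) = ctxR κ D (ctxπ κ (γ + (0, 1, 0) - ctxc a p))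
    rw [h]
  · intro k
    rw [ctx_smul]
    congr 1
    show ctxR κ D (ctxπ κ (((a : ℤ) * k, 0, 0) - ctxc a (k, 0))) (1 ⊗ₜ[L] 1) = _
    have h : (((a : ℤ) * k, 0, 0) : Gam a) - ctxc a (k, 0) = 0 := sub_self _
    rw [h, ctxR_tmul, ctxπ_hom κ (hom_one κ), if_pos rfl]
  · intro k
    rw [ctx_smul]
    congr 1
    show ctxR κ D (ctxσ κ) (1 ⊗ₜ[L] 1) = _
    rw [ctxR_tmul, ctxσ_apply, map_one]
  · intro k
    refine ⟨ctxφ κ D k, fun d b => ?_⟩
    rw [ctx_smul, ctx_smul, ctxιB_apply, ctxιD_apply, ctxR_tmul, ctxL_tmul, ctxlB_apply,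
      ctxlD_apply, mul_one, mul_one]

end Crest.Agent.R181.Mc
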