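import Crest.Agent.R181.McInv

/-! Row 181 (route 2): points satisfying the linear and quadratic relations. -/

set_option autoImplicit false

namespace Crest.Agent.R181.Mc

open MvPolynomial

variable {a : ℕ} [NeZero a] {L K : Type} [Field L] [CharZero L] [CommRing K] [Algebra L K]
  (κ : KData a L K)

/-- `ω` satisfies all linear and quadratic relations with invariant coefficients -/
structure IsPt {Ω : Type} [Field Ω] (ψ : Inv κ →+* Ω) (ω : Fin 2 ⊕ (Mset a × Fin a) → Ω) : Prop where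
  lin : ∀ g : Fin 2 ⊕ (Mset a × Fin a) → Inv κ, ∑ α, (g α : Br κ) * tvar κ α = 0 →
    ∑ α, ψ (g α) * ω α = 0
  quad : ∀ g : Fin 2 ⊕ (Mset a × Fin a) → Fin 2 ⊕ (Mset a × Fin a) → Inv κ,
    ∑ α, ∑ β, (g α β : Br κ) * (tvar κ α * tvar κ β) = 0 → ∑ α, ∑ β, ψ (g α β) * (ω α * ω β) = 0

omit [NeZero a] [CharZero L] in
theorem pt_θ_mem : kk κ κ.θ ∈ B00 κ :=
  Subring.subset_closure (Or.inl (Or.inr (Or.inl rfl)))

omit [NeZero a] [CharZero L] in
theorem pt_s_mem : xt κ none ∈ B00 κ :=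
  Subring.subset_closure (Or.inl (Or.inr (Or.inr rfl)))

omit [NeZero a] [CharZero L] in
theorem pt_S_mem (i : ZMod a) : xv κ (Sum.inr (some i)) ∈ B00 κ :=
  Subring.subset_closure (Or.inr ⟨i, rfl⟩)

theorem W0_le_B00 : W0 κ ≤ B00 κ := by
  intro q hq
  obtain ⟨g, hg⟩ := W0_decomp κ q hq
  rw [hg]
  exact Subring.sum_mem _ fun r _ =>
    Subring.mul_mem _ (Subring.pow_mem _ (pt_θ_mem κ) _) (Inv_le_B00 κ (g r).2)

omit [NeZero a] [CharZero L] in
theorem pt_σ_inv (q : Inv κ) : σB κ (q : Br κ) = q := q.2.2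

variable {κ}
variable {Ω : Type} [Field Ω] {ψ : Inv κ →+* Ω} {ω : Fin 2 ⊕ (Mset a × Fin a) → Ω}
  {ev : B00 κ →+* Ω}

omit [NeZero a] [CharZero L] in
theorem pt_ev_decomp (hev : ∀ q : Inv κ, ev (Subring.inclusion (Inv_le_B00 κ) q) = ψ q)
    (q : B00 κ) (G : Fin a → Inv κ)
    (hG : (q : Br κ) = ∑ r : Fin a, kk κ κ.θ ^ (r : ℕ) * (G r : Br κ)) :
    ev q = ∑ r : Fin a, ev ⟨kk κ κ.θ, pt_θ_mem κ⟩ ^ (r : ℕ) * ψ (G r) := by
  have h : q = ∑ r : Fin a, (⟨kk κ κ.θ, pt_θ_mem κ⟩ : B00 κ) ^ (r : ℕ) *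
      Subring.inclusion (Inv_le_B00 κ) (G r) := by
    apply Subtype.ext
    rw [hG, AddSubmonoidClass.coe_finsetSum]
    rfl
  rw [h, map_sum]
  exact Finset.sum_congr rfl fun r _ => by rw [map_mul, map_pow, hev]

/-- relations with coefficients of weight zero transfer to the point -/
theorem IsPt.lin0 (h : IsPt κ ψ ω) (hev : ∀ q : Inv κ, ev (Subring.inclusion (Inv_le_B00 κ) q) = ψ q)
    (g : Fin 2 ⊕ (Mset a × Fin a) → B00 κ) (hg : ∀ α, (g α : Br κ) ∈ W0 κ)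
    (h0 : ∑ α, (g α : Br κ) * tvar κ α = 0) : ∑ α, ev (g α) * ω α = 0 := by
  choose G hG using fun α => W0_decomp κ (g α : Br κ) (hg α)
  have h1 : ∀ r : Fin a, ∑ α, (G α r : Br κ) * tvar κ α = 0 := by
    refine eigen_indep κ (fun r => ∑ α, (G α r : Br κ) * tvar κ α) (fun r => ?_) ?_
    · rw [map_sum]
      exact Finset.sum_congr rfl fun α _ => by rw [map_mul, pt_σ_inv, σB_tvar]
    · rw [← h0]
      simp only [Finset.mul_sum]
      rw [Finset.sum_comm]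
      refine Finset.sum_congr rfl fun α _ => ?_
      rw [hG α, Finset.sum_mul]
      exact Finset.sum_congr rfl fun r _ => (mul_assoc _ _ _).symm
  have h2 := fun r => h.lin (fun α => G α r) (h1 r)
  calc ∑ α, ev (g α) * ω α
      = ∑ α, ∑ r : Fin a, ev ⟨kk κ κ.θ, pt_θ_mem κ⟩ ^ (r : ℕ) * (ψ (G α r) * ω α) := by
        refine Finset.sum_congr rfl fun α _ => ?_
        rw [pt_ev_decomp hev (g α) (G α) (hG α), Finset.sum_mul]
        exact Finset.sum_congr rfl fun r _ => mul_assoc _ _ _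
    _ = ∑ r : Fin a, ev ⟨kk κ κ.θ, pt_θ_mem κ⟩ ^ (r : ℕ) * ∑ α, ψ (G α r) * ω α := by
        rw [Finset.sum_comm]
        exact Finset.sum_congr rfl fun r _ => (Finset.mul_sum _ _ _).symm
    _ = 0 := Finset.sum_eq_zero fun r _ => by rw [h2 r, mul_zero]

theorem IsPt.quad0 (h : IsPt κ ψ ω) (hev : ∀ q : Inv κ, ev (Subring.inclusion (Inv_le_B00 κ) q) = ψ q)
    (g : Fin 2 ⊕ (Mset a × Fin a) → Fin 2 ⊕ (Mset a × Fin a) → B00 κ)
    (hg : ∀ α β, (g α β : Br κ) ∈ W0 κ)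
    (h0 : ∑ α, ∑ β, (g α β : Br κ) * (tvar κ α * tvar κ β) = 0) :
    ∑ α, ∑ β, ev (g α β) * (ω α * ω β) = 0 := by
  choose G hG using fun α β => W0_decomp κ (g α β : Br κ) (hg α β)
  have h1 : ∀ r : Fin a, ∑ α, ∑ β, (G α β r : Br κ) * (tvar κ α * tvar κ β) = 0 := by
    refine eigen_indep κ (fun r => ∑ α, ∑ β, (G α β r : Br κ) * (tvar κ α * tvar κ β))
      (fun r => ?_) ?_
    · rw [map_sum]
      refine Finset.sum_congr rfl fun α _ => ?_
      rw [map_sum]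
      exact Finset.sum_congr rfl fun β _ => by rw [map_mul, map_mul, pt_σ_inv, σB_tvar, σB_tvar]
    · rw [← h0]
      simp only [Finset.mul_sum]
      rw [Finset.sum_comm]
      refine Finset.sum_congr rfl fun α _ => ?_
      rw [Finset.sum_comm]
      refine Finset.sum_congr rfl fun β _ => ?_
      rw [hG α β, Finset.sum_mul]
      exact Finset.sum_congr rfl fun r _ => (mul_assoc _ _ _).symm
  have h2 := fun r => h.quad (fun α β => G α β r) (h1 r)
  calc ∑ α, ∑ β, ev (g α β) * (ω α * ω β)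
      = ∑ α, ∑ β, ∑ r : Fin a,
          ev ⟨kk κ κ.θ, pt_θ_mem κ⟩ ^ (r : ℕ) * (ψ (G α β r) * (ω α * ω β)) := by
        refine Finset.sum_congr rfl fun α _ => Finset.sum_congr rfl fun β _ => ?_
        rw [pt_ev_decomp hev (g α β) (G α β) (hG α β), Finset.sum_mul]
        exact Finset.sum_congr rfl fun r _ => mul_assoc _ _ _
    _ = ∑ r : Fin a, ev ⟨kk κ κ.θ, pt_θ_mem κ⟩ ^ (r : ℕ) *
          ∑ α, ∑ β, ψ (G α β r) * (ω α * ω β) := by
        simp only [Finset.mul_sum]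
        refine Eq.trans ?_ (Finset.sum_comm)
        exact Finset.sum_congr rfl fun α _ => Finset.sum_comm
    _ = 0 := Finset.sum_eq_zero fun r _ => by rw [h2 r, mul_zero]

/-- `u` is a combination of the new variables with coefficients of weight zero, and `w` is the
corresponding value at the point -/
def PtRep (ev : B00 κ →+* Ω) (ω : Fin 2 ⊕ (Mset a × Fin a) → Ω) (u : Br κ) (w : Ω) : Prop :=
  ∃ g : Fin 2 ⊕ (Mset a × Fin a) → B00 κ, (∀ α, (g α : Br κ) ∈ W0 κ) ∧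
    u = ∑ α, (g α : Br κ) * tvar κ α ∧ w = ∑ α, ev (g α) * ω α

omit [CharZero L] in
theorem PtRep.var (α : Fin 2 ⊕ (Mset a × Fin a)) : PtRep ev ω (tvar κ α) (ω α) := by
  classical
  refine ⟨Pi.single α 1, fun β => ?_, ?_, ?_⟩
  · by_cases hβ : β = α
    · subst hβ
      rw [Pi.single_eq_same]
      exact (W0 κ).one_mem
    · rw [Pi.single_eq_of_ne hβ]
      exact (W0 κ).zero_mem
  · rw [Finset.sum_eq_single α]
    · simp
    · intro β _ hβ
      simp [Pi.single_eq_of_ne hβ]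
    · simp
  · rw [Finset.sum_eq_single α]
    · simp
    · intro β _ hβ
      simp [Pi.single_eq_of_ne hβ]
    · simp

omit [CharZero L] in
theorem PtRep.zero : PtRep ev ω 0 0 :=
  ⟨fun _ => 0, fun _ => (W0 κ).zero_mem, by simp, by simp⟩

omit [CharZero L] in
theorem PtRep.add {u u' : Br κ} {w w' : Ω} (h : PtRep ev ω u w) (h' : PtRep ev ω u' w') :
    PtRep ev ω (u + u') (w + w') := by
  obtain ⟨g, hg, rfl, rfl⟩ := h
  obtain ⟨g', hg', rfl, rfl⟩ := h'
  refine ⟨fun α => g α + g' α, fun α => (W0 κ).add_mem (hg α) (hg' α), ?_, ?_⟩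
  · rw [← Finset.sum_add_distrib]
    exact Finset.sum_congr rfl fun α _ => by rw [Subring.coe_add, add_mul]
  · rw [← Finset.sum_add_distrib]
    exact Finset.sum_congr rfl fun α _ => by rw [map_add, add_mul]

omit [CharZero L] in
theorem PtRep.mul {u : Br κ} {w : Ω} (h : PtRep ev ω u w) (q : B00 κ) (hq : (q : Br κ) ∈ W0 κ) :
    PtRep ev ω (q * u) (ev q * w) := by
  obtain ⟨g, hg, rfl, rfl⟩ := h
  refine ⟨fun α => q * g α, fun α => (W0 κ).mul_mem hq (hg α), ?_, ?_⟩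
  · rw [Finset.mul_sum]
    exact Finset.sum_congr rfl fun α _ => by rw [Subring.coe_mul, mul_assoc]
  · rw [Finset.mul_sum]
    exact Finset.sum_congr rfl fun α _ => by rw [map_mul, mul_assoc]

omit [CharZero L] in
theorem PtRep.sum {ι : Type} (s : Finset ι) {u : ι → Br κ} {w : ι → Ω}
    (h : ∀ i ∈ s, PtRep ev ω (u i) (w i)) : PtRep ev ω (∑ i ∈ s, u i) (∑ i ∈ s, w i) := by
  classical
  induction s using Finset.induction_on with
  | empty => exact PtRep.zero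
  | insert i s hi ih =>
    rw [Finset.sum_insert hi, Finset.sum_insert hi]
    exact (h i (Finset.mem_insert_self _ _)).add
      (ih fun j hj => h j (Finset.mem_insert_of_mem hj))

theorem PtRep.unique (h : IsPt κ ψ ω)
    (hev : ∀ q : Inv κ, ev (Subring.inclusion (Inv_le_B00 κ) q) = ψ q) {u : Br κ} {w w' : Ω}
    (h1 : PtRep ev ω u w) (h2 : PtRep ev ω u w') : w = w' := by
  obtain ⟨g, hg, e1, rfl⟩ := h1
  obtain ⟨g', hg', e2, rfl⟩ := h2
  have := h.lin0 hev (fun α => g α - g' α) (fun α => (W0 κ).sub_mem (hg α) (hg' α)) (by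
    rw [← sub_self u]
    nth_rewrite 1 [e1]
    rw [e2, ← Finset.sum_sub_distrib]
    exact Finset.sum_congr rfl fun α _ => by rw [AddSubgroupClass.coe_sub, sub_mul])
  rw [← sub_eq_zero, ← Finset.sum_sub_distrib, ← this]
  exact Finset.sum_congr rfl fun α _ => by rw [map_sub, sub_mul]

theorem PtRep.quad (h : IsPt κ ψ ω)
    (hev : ∀ q : Inv κ, ev (Subring.inclusion (Inv_le_B00 κ) q) = ψ q) {u₁ u₂ u₃ u₄ : Br κ}
    {w₁ w₂ w₃ w₄ : Ω} (h1 : PtRep ev ω u₁ w₁) (h2 : PtRep ev ω u₂ w₂) (h3 : PtRep ev ω u₃ w₃)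
    (h4 : PtRep ev ω u₄ w₄) (e : u₁ * u₂ = u₃ * u₄) : w₁ * w₂ = w₃ * w₄ := by
  obtain ⟨g₁, hg₁, rfl, rfl⟩ := h1
  obtain ⟨g₂, hg₂, rfl, rfl⟩ := h2
  obtain ⟨g₃, hg₃, rfl, rfl⟩ := h3
  obtain ⟨g₄, hg₄, rfl, rfl⟩ := h4
  have := h.quad0 hev (fun α β => g₁ α * g₂ β - g₃ α * g₄ β)
    (fun α β => (W0 κ).sub_mem ((W0 κ).mul_mem (hg₁ α) (hg₂ β)) ((W0 κ).mul_mem (hg₃ α) (hg₄ β))) (by
    rw [← sub_eq_zero.2 e, Finset.sum_mul_sum, Finset.sum_mul_sum, ← Finset.sum_sub_distrib]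
    refine Finset.sum_congr rfl fun α _ => ?_
    rw [← Finset.sum_sub_distrib]
    refine Finset.sum_congr rfl fun β _ => ?_
    rw [AddSubgroupClass.coe_sub, Subring.coe_mul, Subring.coe_mul]
    ring)
  rw [← sub_eq_zero, ← this, Finset.sum_mul_sum, Finset.sum_mul_sum, ← Finset.sum_sub_distrib]
  refine Finset.sum_congr rfl fun α _ => ?_
  rw [← Finset.sum_sub_distrib]
  refine Finset.sum_congr rfl fun β _ => ?_
  rw [map_sub, map_mul, map_mul]
  ring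

variable (κ) in
/-- the coefficient `xc` as an element of `B00` -/
noncomputable def ptXc (x : Mset a) : B00 κ :=
  (⟨xt κ none, pt_s_mem κ⟩ : B00 κ) ^ (x.1.1 : ℕ) *
    ∏ i, (⟨xv κ (Sum.inr (some i)), pt_S_mem κ i⟩ : B00 κ) ^ (x.1.2.1 i : ℕ)

omit [CharZero L] in
theorem ptXc_coe (x : Mset a) : (ptXc κ x : Br κ) = xc κ x := by
  rw [ptXc, Subring.coe_mul, SubmonoidClass.coe_finsetProd]
  rfl

omit [CharZero L] in
/-- the degree of the coefficient `xc` -/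
theorem pt_hom_xc (x : Mset a) :
    Hom κ (xc κ x) (0, ((∑ i, (x.1.2.1 i : ℕ) : ℕ) : ℤ), -fun i => ((x.1.2.2 i : ℕ) : ZMod a)) := by
  have h := ((hom_xt κ none).pow (x.1.1 : ℕ)).mul
    (Hom.prod Finset.univ (x := fun i => xv κ (Sum.inr (some i)) ^ (x.1.2.1 i : ℕ))
      (δ := fun i => (x.1.2.1 i : ℕ) • degV a (Sum.inr (some i)))
      fun i _ => (hom_xv κ _).pow _)
  have e : (x.1.1 : ℕ) • degT a none + ∑ i, (x.1.2.1 i : ℕ) • degV a (Sum.inr (some i)) =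
      ((0, ((∑ i, (x.1.2.1 i : ℕ) : ℕ) : ℤ), -fun i => ((x.1.2.2 i : ℕ) : ZMod a)) : Gam a) := by
    refine Prod.ext ?_ (Prod.ext ?_ (funext fun j => ?_))
    · simp [degT, degV, Prod.fst_sum]
    · simp [degT, degV, Prod.fst_sum, Prod.snd_sum]
    · have h1 : ∑ i : ZMod a, ((x.1.2.1 i : ℕ) : ZMod a) *
          (Pi.single (i + 1) (1 : ZMod a) : ZMod a → ZMod a) j = ((x.1.2.1 (j - 1) : ℕ) : ZMod a) := by
        rw [Finset.sum_eq_single (j - 1)]
        · simp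
        · intro i _ hi
          rw [Pi.single_eq_of_ne, mul_zero]
          intro hj
          exact hi (by rw [hj]; simp)
        · simp
      have h2 : ∑ i : ZMod a, ((x.1.2.1 i : ℕ) : ZMod a) *
          (Pi.single i (1 : ZMod a) : ZMod a → ZMod a) j = ((x.1.2.1 j : ℕ) : ZMod a) := by
        rw [Finset.sum_eq_single j]
        · simp
        · intro i _ hi
          rw [Pi.single_eq_of_ne (Ne.symm hi), mul_zero]
        · simp
      have h3 := x.2.2 j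
      simp only [degT, degV, Prod.snd_add, Prod.smul_snd, Prod.snd_sum, Pi.add_apply, Pi.smul_apply,
        Finset.sum_apply, Pi.neg_apply, Pi.one_apply, Pi.sub_apply]
      simp only [nsmul_eq_mul, mul_sub, Finset.sum_sub_distrib, h1, h2]
      linear_combination h3
  rw [e] at h
  exact h

omit [CharZero L] in
theorem pt_W0_mul {p q : Br κ} {j j' : ℤ} {w : ZMod a → ZMod a} (hp : Hom κ p (0, j, w))
    (hq : Hom κ q (0, j', w)) : p ^ (a - 1) * q ∈ W0 κ := by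
  have h := (hp.pow (a - 1)).mul hq
  have e : (a - 1) • ((0, j, w) : Gam a) + (0, j', w) = (0, (a - 1) • j + j', 0) := by
    refine Prod.ext (by simp) (Prod.ext rfl ?_)
    change (a - 1) • w + w = 0
    rw [← succ_nsmul, Nat.sub_add_cancel (Nat.pos_of_ne_zero (NeZero.ne a))]
    ext i
    simp
  rw [e] at h
  exact mem_W0_of_hom κ h

variable (κ) in
/-- constants as elements of `B00` -/
noncomputable def ptK : K →+* B00 κ :=
  (kk κ).codRestrict (B00 κ) fun x => W0_le_B00 κ (mem_W0_of_hom κ (j := 0) (hom_kk κ x))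

theorem ptK_mem (x : K) : (ptK κ x : Br κ) ∈ W0 κ := mem_W0_of_hom κ (j := 0) (hom_kk κ x)

theorem pt_ev_K (hev : ∀ q : Inv κ, ev (Subring.inclusion (Inv_le_B00 κ) q) = ψ q) (l : L) :
    ev (ptK κ (algebraMap L K l)) = ψ (cL κ l) := by
  rw [← hev]
  exact congrArg ev (Subtype.ext (kk_algebraMap κ l))

omit [NeZero a] [CharZero L] in
theorem pt_ev_s (hev : ∀ q : Inv κ, ev (Subring.inclusion (Inv_le_B00 κ) q) = ψ q) :
    ev ⟨xt κ none, pt_s_mem κ⟩ ^ a = ψ (cL κ κ.T) := by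
  rw [← hev, ← map_pow]
  congr 1
  exact Subtype.ext (xt_none_pow κ)

omit [CharZero L] in
theorem pt_ev_xc_ne (hev : ∀ q : Inv κ, ev (Subring.inclusion (Inv_le_B00 κ) q) = ψ q)
    (hN : ψ ⟨NS κ, NS_mem κ⟩ ≠ 0) (x : Mset a) : ev (ptXc κ x) ≠ 0 := by
  have hs : ev ⟨xt κ none, pt_s_mem κ⟩ ≠ 0 := by
    intro h0
    have h1 := pt_ev_s hev
    rw [h0, zero_pow (NeZero.ne a)] at h1
    exact (map_ne_zero (ψ.comp (cL κ))).2 κ.hT h1.symm
  have hS : ∀ i, ev ⟨xv κ (Sum.inr (some i)), pt_S_mem κ i⟩ ≠ 0 := by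
    have h1 : ψ ⟨NS κ, NS_mem κ⟩ = ∏ i, ev ⟨xv κ (Sum.inr (some i)), pt_S_mem κ i⟩ := by
      rw [← hev, ← map_prod]
      congr 1
      apply Subtype.ext
      rw [SubmonoidClass.coe_finsetProd]
      rfl
    rw [h1] at hN
    exact fun i => Finset.prod_ne_zero_iff.1 hN i (Finset.mem_univ i)
  rw [ptXc, map_mul, map_pow, map_prod]
  refine mul_ne_zero (pow_ne_zero _ hs) (Finset.prod_ne_zero_iff.2 fun i _ => ?_)
  rw [map_pow]
  exact pow_ne_zero _ (hS i)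

theorem pt_rep_xm (x : Mset a) : ∃ w : Ω, PtRep ev ω (xm κ x) w := by
  refine ⟨∑ r : Fin a, ev (ptK κ (algebraMap L K κ.Θ⁻¹ * κ.θ ^ (a - (r : ℕ)))) * ω (Sum.inr (x, r)), ?_⟩
  rw [xm_eq]
  refine PtRep.sum _ fun r _ => ?_
  have h := (PtRep.var (ev := ev) (ω := ω) (Sum.inr (x, r))).mul
    (ptK κ (algebraMap L K κ.Θ⁻¹ * κ.θ ^ (a - (r : ℕ)))) (ptK_mem _)
  have e : (ptK κ (algebraMap L K κ.Θ⁻¹ * κ.θ ^ (a - (r : ℕ))) : Br κ) =
      algebraMap L (Br κ) κ.Θ⁻¹ * kk κ κ.θ ^ (a - (r : ℕ)) := by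
    change kk κ _ = _
    rw [map_mul, map_pow, kk_algebraMap]
  rw [e] at h
  exact h

omit [CharZero L] in
theorem pt_iter (q : Br κ) (hq : q ∈ W0 κ) (x : Mset a) (i : ℕ) :
    ∃ q' ∈ W0 κ, ∃ x' : Mset a, (σB κ)^[i] (q * xm κ x) = q' * xm κ x' := by
  induction i with
  | zero => exact ⟨q, hq, x, rfl⟩
  | succ i ih =>
    obtain ⟨q', hq', x', e⟩ := ih
    obtain ⟨x'', e'⟩ := σB_xm κ x'
    exact ⟨σB κ q', σB_mem_W0 κ hq', x'', by rw [Function.iterate_succ_apply', e, map_mul, e']⟩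

omit [CharZero L] in
theorem pt_homog {K' : Type} [CommRing K'] (f : K →+* K') (z z' : K') (φ : Polynomial L)
    (hφ : φ.map (algebraMap L K) = ∏ i : ZMod a, (Polynomial.X - Polynomial.C (κ.b i))) :
    eval₂ (f.comp (algebraMap L K)) ![z, z'] (φ.homogenize a) = ∏ i, (z - f (κ.b i) * z') := by
  rw [← eval₂_map, ← Polynomial.homogenize_map, hφ]
  have h := Polynomial.homogenize_finsetProd (s := (Finset.univ : Finset (ZMod a)))
    (p := fun i => Polynomial.X - Polynomial.C (κ.b i)) (n := fun _ => 1)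
    (fun i _ => Polynomial.natDegree_X_sub_C_le _)
  rw [Finset.sum_const, Finset.card_univ, ZMod.card, smul_eq_mul, mul_one] at h
  rw [h, eval₂_prod]
  refine Finset.prod_congr rfl fun i _ => ?_
  simp [Polynomial.homogenize_sub]

/-- The binding of points. -/
theorem IsPt.bind [IsAlgClosed Ω] (ha : 2 ≤ a) (h : IsPt κ ψ ω) (hN : ψ ⟨NS κ, NS_mem κ⟩ ≠ 0)
    (φ : Polynomial L)
    (hφ : φ.map (algebraMap L K) = ∏ i : ZMod a, (Polynomial.X - Polynomial.C (κ.b i))) :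
    ω (Sum.inr (y0 ha)) ^ a = ψ (cL κ κ.T) *
        eval₂ (ψ.comp (cL κ)) ![ω (Sum.inl 0), ω (Sum.inl 1)] (φ.homogenize a) ∧
      (ω (Sum.inl 0) = 0 → ω (Sum.inl 1) = 0 → ∀ k, ω (Sum.inr k) = 0) := by
  classical
  obtain ⟨ev, hev⟩ := exists_ev κ ψ
  choose W hW using pt_rep_xm (κ := κ) (ev := ev) (ω := ω)
  have hne := pt_ev_xc_ne hev hN
  -- same exponent vector
  have R1 : ∀ x x' : Mset a, (∀ i, (x.1.2.2 i : ℕ) = x'.1.2.2 i) →
      W x / ev (ptXc κ x) = W x' / ev (ptXc κ x') := by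
    intro x x' hc
    have hx := pt_hom_xc (κ := κ) x
    have hx' := pt_hom_xc (κ := κ) x'
    simp only [← hc] at hx'
    have h1 := (hW x).mul (ptXc κ x ^ (a - 1) * ptXc κ x') (by
      rw [Subring.coe_mul, SubmonoidClass.coe_pow, ptXc_coe, ptXc_coe]
      exact pt_W0_mul hx hx')
    have h2 := (hW x').mul (ptXc κ x ^ (a - 1) * ptXc κ x) (by
      rw [Subring.coe_mul, SubmonoidClass.coe_pow, ptXc_coe]
      exact pt_W0_mul hx hx)
    have e : ((ptXc κ x ^ (a - 1) * ptXc κ x' : B00 κ) : Br κ) * xm κ x =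
        ((ptXc κ x ^ (a - 1) * ptXc κ x : B00 κ) : Br κ) * xm κ x' := by
      simp only [Subring.coe_mul, SubmonoidClass.coe_pow, ptXc_coe, xm, hc]
      ring
    rw [e] at h1
    have h3 := PtRep.unique h hev h1 h2
    rw [map_mul, map_mul, mul_assoc, mul_assoc] at h3
    have h4 := mul_left_cancel₀ (by rw [map_pow]; exact pow_ne_zero _ (hne x)) h3
    rw [div_eq_div_iff (hne x) (hne x')]
    linear_combination h4
  -- quadratic relations
  have R2 : ∀ x₁ x₂ x₃ x₄ : Mset a,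
      (∀ i, (x₁.1.2.2 i : ℕ) + x₂.1.2.2 i = x₃.1.2.2 i + x₄.1.2.2 i) →
      W x₁ / ev (ptXc κ x₁) * (W x₂ / ev (ptXc κ x₂)) =
        W x₃ / ev (ptXc κ x₃) * (W x₄ / ev (ptXc κ x₄)) := by
    intro x₁ x₂ x₃ x₄ hc
    have h12 := (pt_hom_xc (κ := κ) x₁).mul (pt_hom_xc (κ := κ) x₂)
    have h34 := (pt_hom_xc (κ := κ) x₃).mul (pt_hom_xc (κ := κ) x₄)
    rw [Prod.mk_add_mk, Prod.mk_add_mk, add_zero] at h12 h34
    have hw : ((-fun i => ((x₃.1.2.2 i : ℕ) : ZMod a)) + -fun i => ((x₄.1.2.2 i : ℕ) : ZMod a)) =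
        ((-fun i => ((x₁.1.2.2 i : ℕ) : ZMod a)) + -fun i => ((x₂.1.2.2 i : ℕ) : ZMod a)) := by
      funext i
      have := congrArg (Nat.cast : ℕ → ZMod a) (hc i)
      simp only [Nat.cast_add] at this
      simp only [Pi.add_apply, Pi.neg_apply]
      linear_combination this
    rw [hw] at h34
    have h1 := (hW x₁).mul ((ptXc κ x₁ * ptXc κ x₂) ^ (a - 1) * (ptXc κ x₃ * ptXc κ x₄)) (by
      simp only [Subring.coe_mul, SubmonoidClass.coe_pow, ptXc_coe]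
      exact pt_W0_mul h12 h34)
    have h3 := (hW x₃).mul ((ptXc κ x₁ * ptXc κ x₂) ^ (a - 1) * (ptXc κ x₁ * ptXc κ x₂)) (by
      simp only [Subring.coe_mul, SubmonoidClass.coe_pow, ptXc_coe]
      exact pt_W0_mul h12 h12)
    have hp : (∏ i, xt κ (some i) ^ (x₁.1.2.2 i : ℕ)) * ∏ i, xt κ (some i) ^ (x₂.1.2.2 i : ℕ) =
        (∏ i, xt κ (some i) ^ (x₃.1.2.2 i : ℕ)) * ∏ i, xt κ (some i) ^ (x₄.1.2.2 i : ℕ) := by
      rw [← Finset.prod_mul_distrib, ← Finset.prod_mul_distrib]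
      exact Finset.prod_congr rfl fun i _ => by rw [← pow_add, ← pow_add, hc]
    have h5 := PtRep.quad h hev h1 (hW x₂) h3 (hW x₄) (by
      simp only [Subring.coe_mul, SubmonoidClass.coe_pow, ptXc_coe, xm]
      linear_combination
        ((xc κ x₁ * xc κ x₂) ^ (a - 1) * (xc κ x₁ * xc κ x₂ * xc κ x₃ * xc κ x₄)) * hp)
    rw [map_mul, map_mul (f := ev) ((ptXc κ x₁ * ptXc κ x₂) ^ (a - 1)), mul_assoc, mul_assoc,
      mul_assoc, mul_assoc] at h5
    have h6 := mul_left_cancel₀ (by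
      rw [map_pow, map_mul]
      exact pow_ne_zero _ (mul_ne_zero (hne x₁) (hne x₂))) h5
    rw [map_mul, map_mul] at h6
    rw [div_mul_div_comm, div_mul_div_comm,
      div_eq_div_iff (mul_ne_zero (hne x₁) (hne x₂)) (mul_ne_zero (hne x₃) (hne x₄))]
    linear_combination h6
  -- pure powers
  have R3 : ∀ (x : Mset a) (i : ZMod a), (∀ j, (x.1.2.2 j : ℕ) = (Pi.single i a : ZMod a → ℕ) j) →
      W x / ev (ptXc κ x) = ω (Sum.inl 0) - ev (ptK κ (κ.b i)) * ω (Sum.inl 1) := by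
    intro x i hc
    have hx := pt_hom_xc (κ := κ) x
    have hw : (-fun j => ((x.1.2.2 j : ℕ) : ZMod a)) = 0 := by
      funext j
      rw [Pi.neg_apply, hc, Pi.single_apply]
      split_ifs <;> simp
    rw [hw] at hx
    have h1 := ((PtRep.var (κ := κ) (ev := ev) (ω := ω) (Sum.inl 0)).add
      ((PtRep.var (κ := κ) (ev := ev) (ω := ω) (Sum.inl 1)).mul (ptK κ (-κ.b i)) (ptK_mem _))).mul
      (ptXc κ x) (by rw [ptXc_coe]; exact mem_W0_of_hom κ hx)
    have e : (ptXc κ x : Br κ) * (tvar κ (Sum.inl 0) + (ptK κ (-κ.b i) : Br κ) * tvar κ (Sum.inl 1)) =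
        xm κ x := by
      rw [ptXc_coe, xm, Finset.prod_eq_single i, hc, Pi.single_eq_same, xt_some_pow]
      · change _ * (xv κ (Sum.inl 0) + kk κ (-κ.b i) * xv κ (Sum.inl 1)) = _
        rw [map_neg]
        ring
      · intro j _ hj
        rw [hc, Pi.single_eq_of_ne hj, pow_zero]
      · simp
    rw [e] at h1
    rw [PtRep.unique h hev (hW x) h1, mul_div_cancel_left₀ _ (hne x), map_neg, map_neg]
    ring
  -- the function on exponent vectors
  let π : (ZMod a → ℕ) → Ω := fun c =>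
    if hc : ∑ i, c i = a then
      W (exists_Mset c hc).choose / ev (ptXc κ (exists_Mset c hc).choose) else 0
  have hπ : ∀ (c : ZMod a → ℕ) (hc : ∑ i, c i = a),
      π c = W (exists_Mset c hc).choose / ev (ptXc κ (exists_Mset c hc).choose) :=
    fun c hc => dif_pos hc
  have hver := veronese a π (by
    intro c₁ c₂ c₃ c₄ h₁ h₂ h₃ h₄ e
    rw [hπ c₁ h₁, hπ c₂ h₂, hπ c₃ h₃, hπ c₄ h₄]
    refine R2 _ _ _ _ fun i => ?_
    rw [(exists_Mset c₁ h₁).choose_spec, (exists_Mset c₂ h₂).choose_spec,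
      (exists_Mset c₃ h₃).choose_spec, (exists_Mset c₄ h₄).choose_spec]
    exact congrFun e i)
  have R4 : ∀ x : Mset a, (W x / ev (ptXc κ x)) ^ a =
      ∏ i, (ω (Sum.inl 0) - ev (ptK κ (κ.b i)) * ω (Sum.inl 1)) ^ (x.1.2.2 i : ℕ) := by
    intro x
    have h1 := hver (fun i => (x.1.2.2 i : ℕ)) x.2.1
    rw [hπ _ x.2.1, R1 _ x (exists_Mset _ x.2.1).choose_spec] at h1
    rw [h1]
    refine Finset.prod_congr rfl fun i _ => ?_
    have hs : ∑ j, (Pi.single i a : ZMod a → ℕ) j = a := by simp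
    rw [hπ _ hs, R3 _ i (exists_Mset _ hs).choose_spec]
  constructor
  · have h1 := PtRep.var (κ := κ) (ev := ev) (ω := ω) (Sum.inr (y0 ha))
    rw [tvar_y0] at h1
    have h2 := R4 (y0 ha).1
    have h3 : ptXc κ (y0 ha).1 = ⟨xt κ none, pt_s_mem κ⟩ := by
      simp [ptXc, y0]
    have h4 : ψ.comp (cL κ) = (ev.comp (ptK κ)).comp (algebraMap L K) :=
      RingHom.ext fun l => (pt_ev_K hev l).symm
    rw [PtRep.unique h hev h1 (hW _), h4, pt_homog _ _ _ φ hφ, ← pt_ev_s hev, ← h3,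
      ← mul_div_cancel₀ (W (y0 ha).1) (hne (y0 ha).1), mul_pow, h2]
    simp [y0]
  · rintro h0 h1 ⟨x, r⟩
    have hW0 : ∀ x, W x = 0 := by
      intro x
      have h2 := R4 x
      simp only [h0, h1, mul_zero, sub_zero] at h2
      rw [Finset.prod_pow_eq_pow_sum, x.2.1, zero_pow (NeZero.ne a)] at h2
      exact (div_eq_zero_iff.1 (pow_eq_zero_iff (NeZero.ne a) |>.1 h2)).resolve_right (hne x)
    have h3 : ∀ i : ℕ, PtRep ev ω ((σB κ)^[i] (kk κ κ.θ ^ (r : ℕ) * xm κ x)) 0 := by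
      intro i
      obtain ⟨q, hq, x', e⟩ := pt_iter _ ((W0 κ).pow_mem (ptK_mem κ.θ) (r : ℕ)) x i
      have h4 := (hW x').mul ⟨q, W0_le_B00 κ hq⟩ hq
      rw [hW0, mul_zero] at h4
      exact e ▸ h4
    have h5 := (PtRep.sum (Finset.range a) fun i _ => h3 i).mul
      (ptK κ (algebraMap L K (a : L)⁻¹)) (ptK_mem _)
    rw [Finset.sum_const_zero, mul_zero] at h5
    have e : (ptK κ (algebraMap L K (a : L)⁻¹) : Br κ) = algebraMap L (Br κ) (a : L)⁻¹ :=
      kk_algebraMap κ _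
    rw [e] at h5
    exact PtRep.unique h hev (PtRep.var (Sum.inr (x, r))) h5

end Crest.Agent.R181.Mc
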