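import Crest.Agent.R181.McUl
import Crest.Agent.R181.McPoint
import Crest.Agent.R181.McCtx
import Crest.Agent.R181.NCDefs

/-! Row 181 (route 2): coordinates of a rank one Ulrich module. -/

set_option autoImplicit false
set_option linter.unusedSectionVars false

namespace Crest.Agent.R181.Mc

open MvPolynomial

variable {a : ℕ} [NeZero a] {L K : Type} [Field L] [CommRing K] [Algebra L K]
  {κ : KData a L K} {D : Type} [DivisionRing D] [Algebra L D]

section

variable {C : Ctx κ D} {U : Type} [AddCommGroup U] [Module C.A U] {u₀ : U}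

theorem b1_indep1 (H : C.IsUl U u₀) (G : Fin 2 → Module.End C.A U)
    (h : ∑ ε, G ε (C.ιB (xv κ (Sum.inl ε)) • u₀) = 0) : ∀ ε, G ε = 0 := by
  have key := H.indep 1 (fun i => if i = 0 then G 1 else G 0) (by
    rw [Fin.sum_univ_two] at h
    simp only [Finset.sum_range_succ, Finset.range_zero, Finset.sum_empty, zero_add, pow_zero,
      one_mul, Nat.sub_zero, pow_one, Nat.sub_self, mul_one, if_true, one_ne_zero, if_false]
    rw [add_comm]
    exact h)
  have k0 := key 0 (by norm_num)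
  have k1 := key 1 (by norm_num)
  simp only [if_true, one_ne_zero, if_false] at k0 k1
  intro ε
  fin_cases ε
  · exact k1
  · exact k0

theorem b1_indep2 (H : C.IsUl U u₀) (G : Fin 2 → Fin 2 → Module.End C.A U)
    (h : ∑ ε, ∑ ε', G ε ε' (C.ιB (xv κ (Sum.inl ε) * xv κ (Sum.inl ε')) • u₀) = 0) :
    ∀ ε ε', G ε ε' + G ε' ε = 0 := by
  have key := H.indep 2
    (fun i => if i = 0 then G 1 1 else if i = 1 then G 0 1 + G 1 0 else G 0 0) (by
    simp only [Fin.sum_univ_two] at h
    simp only [Finset.sum_range_succ, Finset.range_zero, Finset.sum_empty, zero_add, pow_zero,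
      one_mul, Nat.sub_zero, pow_one, Nat.sub_self, mul_one, if_true, one_ne_zero, if_false,
      Nat.add_one_sub_one, OfNat.ofNat_ne_zero, OfNat.ofNat_ne_one, LinearMap.add_apply, pow_two]
    rw [mul_comm (xv κ (Sum.inl 1)) (xv κ (Sum.inl 0))] at h
    rw [← h]
    abel)
  have k0 := key 0 (by norm_num)
  have k1 := key 1 (by norm_num)
  have k2 := key 2 (by norm_num)
  simp only [if_true, one_ne_zero, if_false, OfNat.ofNat_ne_zero, OfNat.ofNat_ne_one] at k0 k1 k2
  intro ε ε'
  fin_cases ε <;> fin_cases ε'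
  · show G 0 0 + G 0 0 = 0
    rw [k2, add_zero]
  · exact k1
  · show G 1 0 + G 0 1 = 0
    rw [add_comm]
    exact k1
  · show G 1 1 + G 1 1 = 0
    rw [k0, add_zero]

theorem b1_ext (H : C.IsUl U u₀) {c c' : Module.End C.A U} (h : c u₀ = c' u₀) : c = c' :=
  sub_eq_zero.1 (H.ev_inj _ (by rw [LinearMap.sub_apply, h, sub_self]))

/-- the action of `D` on the distinguished vector -/
theorem b1_f (H : C.IsUl U u₀) :
    ∃ f : D →+* (Module.End C.A U)ᵐᵒᵖ, ∀ d, (f d).unop u₀ = C.ιD d • u₀ := by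
  have h : ∀ d, ∃ c : Module.End C.A U, c u₀ = C.ιD d • u₀ := fun d =>
    H.ev_surj _ (by rw [← mul_smul, C.e_D, mul_smul, H.e_u])
      (by rw [← mul_smul, C.σ_D, mul_smul, H.σ_u])
  choose c hc using h
  refine ⟨{ toFun := fun d => MulOpposite.op (c d)
            map_one' := ?_
            map_mul' := ?_
            map_zero' := ?_
            map_add' := ?_ }, fun d => hc d⟩
  · rw [← MulOpposite.op_one]
    congr 1
    exact b1_ext H (by rw [hc, map_one, one_smul]; rfl)
  · intro d d'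
    rw [← MulOpposite.op_mul]
    congr 1
    exact b1_ext H (by rw [Module.End.mul_apply, hc, hc, map_smul, hc, map_mul, mul_smul])
  · rw [← MulOpposite.op_zero]
    congr 1
    exact b1_ext H (by rw [hc, map_zero, zero_smul]; rfl)
  · intro d d'
    rw [← MulOpposite.op_add]
    congr 1
    exact b1_ext H (by rw [LinearMap.add_apply, hc, hc, hc, map_add, add_smul])

/-- the invariants act linearly -/
theorem b1_φ (act : Br κ →+* Module.End ℤ U)
    (h3 : ∀ b d x, C.ιD d • act b x = act b (C.ιD d • x))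
    (h4 : ∀ b b' x, C.ιB b' • act b x = act b (C.ιB b' • x))
    (h5 : ∀ b x, C.σ • act b x = act (σB κ b) (C.σ • x))
    (h6 : ∀ (b : Br κ) (δ γ : Gam a), Hom κ b δ →
        ∀ x, C.e (γ + (δ.1, 0, δ.2.2)) • act b x = act b (C.e γ • x)) :
    ∃ φ : Inv κ →+* (Module.End C.A U)ᵐᵒᵖ, ∀ q x, (φ q).unop x = act q x := by
  have h : ∀ q : Inv κ, ∃ g : U →ₗ[C.A] U, ∀ x, g x = act q x := by
    intro q
    refine C.exists_linear (act q).toAddMonoidHom (fun d v => (h3 _ d v).symm)
      (fun b v => (h4 _ b v).symm) (fun γ v => ?_) (fun v => ?_)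
    · show act q (C.e γ • v) = C.e γ • act q v
      have hq : (q : Br κ) ∈ W0 κ := q.2.1
      rw [← sum_ρB κ (q : Br κ), Finsupp.sum, map_sum, LinearMap.sum_apply, LinearMap.sum_apply,
        Finset.smul_sum]
      refine Finset.sum_congr rfl fun δ hδ => ?_
      obtain ⟨e1, e2⟩ := hq δ (Finsupp.mem_support_iff.1 hδ)
      have := h6 _ δ γ (hom_ρB κ (q : Br κ) δ) v
      rw [e1, e2] at this
      rw [← this]
      congr 2
      exact add_zero γ
    · show act q (C.σ • v) = C.σ • act q v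
      have hq : σB κ (q : Br κ) = q := q.2.2
      rw [h5, hq]
  choose g hg using h
  refine ⟨{ toFun := fun q => MulOpposite.op (g q)
            map_one' := ?_
            map_mul' := ?_
            map_zero' := ?_
            map_add' := ?_ }, fun q x => hg q x⟩
  · rw [← MulOpposite.op_one]
    congr 1
    ext x
    rw [hg]
    simp
  · intro q q'
    rw [← MulOpposite.op_mul]
    congr 1
    ext x
    rw [Module.End.mul_apply, hg, hg, hg, mul_comm q q']
    simp
  · rw [← MulOpposite.op_zero]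
    congr 1
    ext x
    rw [hg]
    simp
  · intro q q'
    rw [← MulOpposite.op_add]
    congr 1
    ext x
    rw [LinearMap.add_apply, hg, hg, hg]
    simp

end

theorem b1_main (ha : 2 ≤ a) (hD : Div a D κ.ζ κ.Θ κ.T) :
    ∃ (R : Type) (_ : Ring R) (_ : Nontrivial R) (f : D →+* R) (φ : Inv κ →+* R)
      (w : Fin 2 ⊕ (Mset a × Fin a) → Fin 2 → R),
      (∀ x : R, IsUnit x ∨ x = 0) ∧ (∀ q x, φ q * x = x * φ q) ∧
      (∀ l : L, φ (cL κ l) = f (algebraMap L D l)) ∧ φ ⟨NS κ, NS_mem κ⟩ ≠ 0 ∧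
      (∀ ε, w (Sum.inl ε) = Pi.single ε 1) ∧ (∀ d α ε, Commute (f d) (w α ε)) ∧ Manin w ∧
      (∀ g : Fin 2 ⊕ (Mset a × Fin a) → Inv κ, ∑ α, (g α : Br κ) * tvar κ α = 0 →
        ∀ ε, ∑ α, φ (g α) * w α ε = 0) ∧
      (∀ g : Fin 2 ⊕ (Mset a × Fin a) → Fin 2 ⊕ (Mset a × Fin a) → Inv κ,
        ∑ α, ∑ β, (g α β : Br κ) * (tvar κ α * tvar κ β) = 0 →
        ∀ ε ε', ∑ α, ∑ β, φ (g α β) * (w α ε * w β ε' + w α ε' * w β ε) = 0) := by
  obtain ⟨C⟩ := exists_ctx κ D
  obtain ⟨U, i1, i2, u₀, H⟩ := C.exists_ul ha hD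
  obtain ⟨act, h1, h2, h3, h4, h5, h6⟩ := C.exists_act H.bij
  obtain ⟨f, hf⟩ := b1_f H
  obtain ⟨φ, hφ⟩ := b1_φ act h3 h4 h5 h6
  have hu : u₀ ≠ 0 := by
    intro h
    have h1 : (1 : Br κ) = 0 := H.inj 1 (by rw [h, smul_zero])
    exact NS_ne_zero κ (by rw [← mul_one (NS κ), h1, mul_zero])
  have h0 : ∀ (b : Br κ) (n : ℤ) (lam : ZMod a → ZMod a), Hom κ b (n, 0, lam) →
      ∀ x, act b x = C.ιB b • x := by
    intro b n lam hb x
    have := h1 b n 0 lam hb x
    rwa [pow_zero, map_one, one_smul] at this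
  have hc : ∀ α, ∃ c : Fin 2 → Module.End C.A U,
      act (tvar κ α) u₀ = ∑ ε, c ε (C.ιB (xv κ (Sum.inl ε)) • u₀) ∧
        ∀ ε, α = Sum.inl ε → c = Pi.single ε 1 := by
    rintro (ε | k)
    · refine ⟨Pi.single ε 1, ?_, fun ε' h => by rw [Sum.inl.inj h]⟩
      have : act (tvar κ (Sum.inl ε)) u₀ = C.ιB (xv κ (Sum.inl ε)) • u₀ :=
        h0 _ _ _ (hom_xv κ (Sum.inl ε)) u₀
      rw [this, Finset.sum_eq_single ε]
      · simp
      · intro b _ hb
        simp [hb]
      · simp
    · obtain ⟨j, hj⟩ := hom_tvar κ (Sum.inr k)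
      have e1 := h6 _ _ 0 hj u₀
      rw [zero_add, H.e_u] at e1
      have e2 := h5 (tvar κ (Sum.inr k)) u₀
      rw [σB_tvar, H.σ_u] at e2
      obtain ⟨p, q, hpq⟩ := H.span1 _ e1 e2
      refine ⟨![p, q], ?_, fun ε h => by cases h⟩
      rw [Fin.sum_univ_two]
      exact hpq
  choose c hc1 hc2 using hc
  have hcomm : ∀ q (x : Module.End C.A U), (φ q).unop * x = x * (φ q).unop := by
    intro q x
    ext v
    rw [Module.End.mul_apply, Module.End.mul_apply, hφ, hφ, h2]
  have hprod : ∀ α β, act (tvar κ α * tvar κ β) u₀ = ∑ ε, ∑ ε',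
      (c β ε' * c α ε) (C.ιB (xv κ (Sum.inl ε) * xv κ (Sum.inl ε')) • u₀) := by
    intro α β
    rw [map_mul, Module.End.mul_apply, hc1 β, map_sum, Finset.sum_comm]
    refine Finset.sum_congr rfl fun ε' _ => ?_
    rw [← h2, ← h4, hc1 α, Finset.smul_sum, map_sum]
    refine Finset.sum_congr rfl fun ε _ => ?_
    rw [Module.End.mul_apply, ← map_smul (c α ε), ← mul_smul, ← map_mul, mul_comm]
  have : Nontrivial (Module.End C.A U) := ⟨1, 0, fun h => hu (by
    have := congrArg (fun c : Module.End C.A U => c u₀) h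
    simpa using this)⟩
  refine ⟨(Module.End C.A U)ᵐᵒᵖ, inferInstance, inferInstance, f, φ,
    fun α ε => MulOpposite.op (c α ε), ?_, ?_, ?_, ?_, ?_, ?_, ?_, ?_, ?_⟩
  · intro x
    by_cases hx : x = 0
    · exact Or.inr hx
    · exact Or.inl (isUnit_unop.1 (H.unit _ fun h => hx (MulOpposite.unop_eq_zero_iff _ |>.1 h)))
  · intro q x
    apply MulOpposite.unop_injective
    rw [MulOpposite.unop_mul, MulOpposite.unop_mul, hcomm]
  · intro l
    apply MulOpposite.unop_injective
    refine b1_ext H ?_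
    rw [hφ, hf, ← C.alg]
    exact h0 _ 0 0 (hom_algebraMap κ l) u₀
  · intro h
    have e1 := hφ ⟨NS κ, NS_mem κ⟩ u₀
    rw [h] at e1
    have e2 := h1 _ _ a _ (hom_NS κ) u₀
    have e3 : act (NS κ) u₀ = 0 := e1.symm
    rw [e3, smul_zero] at e2
    exact NS_ne_zero κ (H.inj _ e2.symm)
  · intro ε
    funext ε'
    show MulOpposite.op (c (Sum.inl ε) ε') = _
    rw [hc2 _ ε rfl]
    by_cases h : ε' = ε
    · subst h
      simp
    · simp [h]
  · intro d α ε
    apply MulOpposite.unop_injective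
    rw [MulOpposite.unop_mul, MulOpposite.unop_mul, MulOpposite.unop_op]
    have := b1_indep1 H (fun ε => c α ε * (f d).unop - (f d).unop * c α ε) ?_ ε
    · exact sub_eq_zero.1 this
    simp only [LinearMap.sub_apply, Module.End.mul_apply, Finset.sum_sub_distrib]
    rw [← map_sum, ← hc1, h2, hf, ← h3, hc1, Finset.smul_sum, sub_eq_zero]
    refine Finset.sum_congr rfl fun ε _ => ?_
    rw [map_smul (f d).unop, hf, ← map_smul (c α ε), ← mul_smul, ← mul_smul, C.comm]
  · intro α β ε ε'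
    apply MulOpposite.unop_injective
    simp only [MulOpposite.unop_add, MulOpposite.unop_mul, MulOpposite.unop_op]
    have := b1_indep2 H (fun ε ε' => c β ε' * c α ε - c α ε' * c β ε) ?_ ε ε'
    · rw [← sub_eq_zero, ← this]
      abel
    simp only [LinearMap.sub_apply, Finset.sum_sub_distrib]
    rw [← hprod, ← hprod, mul_comm, sub_self]
  · intro g hg ε
    apply MulOpposite.unop_injective
    simp only [Finset.unop_sum, MulOpposite.unop_mul, MulOpposite.unop_op, MulOpposite.unop_zero,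
      ← hcomm]
    refine b1_indep1 H (fun ε => ∑ α, (φ (g α)).unop * c α ε) ?_ ε
    have e : act (∑ α, (g α : Br κ) * tvar κ α) u₀ = 0 := by rw [hg, map_zero]; rfl
    rw [← e, map_sum, LinearMap.sum_apply]
    simp only [LinearMap.sum_apply]
    rw [Finset.sum_comm]
    refine Finset.sum_congr rfl fun α _ => ?_
    rw [map_mul, Module.End.mul_apply, hc1, ← hφ, map_sum]
    rfl
  · intro g hg ε ε'
    apply MulOpposite.unop_injective
    simp only [Finset.unop_sum, MulOpposite.unop_mul, MulOpposite.unop_op, MulOpposite.unop_zero,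
      MulOpposite.unop_add, ← hcomm, mul_add, Finset.sum_add_distrib]
    refine b1_indep2 H (fun ε ε' => ∑ α, ∑ β, (φ (g α β)).unop * (c β ε' * c α ε)) ?_ ε ε'
    have e : act (∑ α, ∑ β, (g α β : Br κ) * (tvar κ α * tvar κ β)) u₀ = 0 := by
      rw [hg, map_zero]; rfl
    rw [← e]
    simp only [map_sum, LinearMap.sum_apply]
    symm
    calc ∑ α, ∑ β, act ((g α β : Br κ) * (tvar κ α * tvar κ β)) u₀
        = ∑ α, ∑ β, ∑ ε, ∑ ε', ((φ (g α β)).unop * (c β ε' * c α ε))
            (C.ιB (xv κ (Sum.inl ε) * xv κ (Sum.inl ε')) • u₀) := by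
          refine Finset.sum_congr rfl fun α _ => Finset.sum_congr rfl fun β _ => ?_
          rw [map_mul, Module.End.mul_apply, hprod, ← hφ]
          simp only [map_sum]
          rfl
      _ = _ := by
          simp only [Fin.sum_univ_two, Finset.sum_add_distrib]

end Crest.Agent.R181.Mc
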