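import Crest.Agent.R181.McDefs
import Crest.Agent.R181.NCDefs

/-! Row 181 (route 2): a skew field over the centraliser of a symbol pair. -/

set_option autoImplicit false

namespace Crest.Agent.R181.Mc

open Polynomial

section Eig

variable {L M : Type*} [Field L] [AddCommGroup M] [Module L M] {a : ℕ} {z : L}

theorem b2_indep (hz : IsPrimitiveRoot z a) (α : Module.End L M) (x : Fin a → M)
    (hx : ∀ i, α (x i) = z ^ (i : ℕ) • x i) (h : ∑ i, x i = 0) (i : Fin a) : x i = 0 := by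
  have h1 := (Module.End.eigenspaces_iSupIndep α).comp (f := fun i : Fin a => z ^ (i : ℕ))
    (fun i j hij => Fin.ext (hz.pow_inj i.2 j.2 hij))
  exact (iSupIndep_iff_finsetSum_eq_zero_imp_eq_zero _).1 h1 Finset.univ x
    (fun i _ => Module.End.mem_eigenspace_iff.2 (hx i)) h i (Finset.mem_univ i)

theorem b2_split (ha : (a : L) ≠ 0) (hz : IsPrimitiveRoot z a) (α : Module.End L M)
    (hα : α ^ a = 1) (x : M) :
    ∃ y : Fin a → M, ∑ i, y i = x ∧ (∀ i, α (y i) = z ^ (i : ℕ) • y i) ∧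
      ∀ (β : Module.End L M) (s : L), Commute β α → β x = s • x → ∀ i, β (y i) = s • y i := by
  have ha0 : a ≠ 0 := by rintro rfl; simp at ha
  have hz0 : z ≠ 0 := hz.ne_zero ha0
  refine ⟨fun i => (a : L)⁻¹ • ∑ k ∈ Finset.range a, (z⁻¹ ^ (i : ℕ)) ^ k • (α ^ k) x, ?_, ?_, ?_⟩
  · rw [← Finset.smul_sum, Finset.sum_comm]
    simp only [← Finset.sum_smul]
    rw [Finset.sum_eq_single 0]
    · simp [smul_smul, ha]
    · intro k hk hk0
      have h1 : z⁻¹ ^ k ≠ 1 := hz.inv.pow_ne_one_of_pos_of_lt hk0 (Finset.mem_range.1 hk)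
      have h2 : ∑ i : Fin a, (z⁻¹ ^ (i : ℕ)) ^ k = ∑ i ∈ Finset.range a, (z⁻¹ ^ k) ^ i := by
        rw [Finset.sum_range]
        exact Finset.sum_congr rfl fun i _ => by rw [← pow_mul, ← pow_mul, mul_comm]
      rw [h2, geom_sum_eq h1, ← pow_mul, mul_comm, pow_mul, hz.inv.pow_eq_one]
      simp
    · intro h
      exact absurd (Finset.mem_range.2 (Nat.pos_of_ne_zero ha0)) h
  · intro i
    set s := z⁻¹ ^ (i : ℕ) with hs
    have hs1 : s ^ a = 1 := by rw [hs, ← pow_mul, mul_comm, pow_mul, hz.inv.pow_eq_one, one_pow]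
    have hs2 : z ^ (i : ℕ) * s = 1 := by rw [hs, ← mul_pow, mul_inv_cancel₀ hz0, one_pow]
    have h1 := Finset.sum_range_succ (fun k => s ^ k • (α ^ k) x) a
    have h2 := Finset.sum_range_succ' (fun k => s ^ k • (α ^ k) x) a
    rw [h1, hs1, hα, pow_zero, pow_zero, add_left_inj] at h2
    rw [map_smul, smul_comm (z ^ (i : ℕ))]
    congr 1
    conv_rhs => rw [h2]
    rw [map_sum, Finset.smul_sum]
    refine Finset.sum_congr rfl fun k _ => ?_
    rw [map_smul, smul_smul, pow_succ', ← mul_assoc, hs2, one_mul, pow_succ', Module.End.mul_apply]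
  · intro β s hc hx i
    rw [map_smul, smul_comm s]
    congr 1
    rw [map_sum, Finset.smul_sum]
    refine Finset.sum_congr rfl fun k _ => ?_
    rw [map_smul, ← Module.End.mul_apply, (hc.pow_right k).eq, Module.End.mul_apply, hx, map_smul,
      smul_comm]

end Eig

section Sym

variable {L D : Type*} [Field L] [Ring D] [Algebra L D] {η : L} {θ y : D}

theorem b2_y_pow (h : y * θ = η • (θ * y)) (i : ℕ) : y * θ ^ i = η ^ i • (θ ^ i * y) := by
  induction i with
  | zero => simp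
  | succ i ih =>
    rw [pow_succ, ← mul_assoc, ih, smul_mul_assoc, mul_assoc, h, mul_smul_comm, smul_smul,
      pow_succ, mul_assoc]

theorem b2_pow_θ (h : y * θ = η • (θ * y)) (j : ℕ) : y ^ j * θ = η ^ j • (θ * y ^ j) := by
  induction j with
  | zero => simp
  | succ j ih =>
    rw [pow_succ', mul_assoc, ih, mul_smul_comm, ← mul_assoc, h, smul_mul_assoc, smul_smul,
      pow_succ η, mul_assoc]

theorem b2_y_mon (h : y * θ = η • (θ * y)) (i j : ℕ) :
    y * (θ ^ i * y ^ j) = η ^ i • (θ ^ i * y ^ j * y) := by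
  rw [← mul_assoc, b2_y_pow h, smul_mul_assoc, mul_assoc, mul_assoc, ← pow_succ, ← pow_succ']

theorem b2_mon_θ (h : y * θ = η • (θ * y)) (i j : ℕ) :
    θ ^ i * y ^ j * θ = η ^ j • (θ * (θ ^ i * y ^ j)) := by
  rw [mul_assoc, b2_pow_θ h, mul_smul_comm, ← mul_assoc, ← mul_assoc, ← pow_succ, ← pow_succ']

/-- two-sided multiplication -/
noncomputable def b2cj (L : Type*) {D : Type*} [Field L] [Ring D] [Algebra L D] (g h : D) :
    Module.End L D := LinearMap.mulLeft L g * LinearMap.mulRight L h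

theorem b2cj_apply (g h x : D) : b2cj L g h x = g * (x * h) := rfl

theorem b2cj_pow (g h : D) (k : ℕ) : b2cj L g h ^ k = b2cj L (g ^ k) (h ^ k) := by
  unfold b2cj
  rw [(LinearMap.commute_mulLeft_right g h).mul_pow, LinearMap.pow_mulLeft, LinearMap.pow_mulRight]

end Sym

section Basis

variable {L C D : Type} [Field L] [DivisionRing C] [DivisionRing D] [Algebra L C] [Algebra L D]
  {a : ℕ} {η Θ T : L} {θ y : D}

theorem b2_α {x : D} {s : L} (hy : y ≠ 0) : b2cj L y y⁻¹ x = s • x ↔ y * x = s • (x * y) := by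
  rw [b2cj_apply, ← mul_assoc, mul_inv_eq_iff_eq_mul₀ hy, smul_mul_assoc]

theorem b2_β {x : D} {s : L} (hθ : θ ≠ 0) : b2cj L θ⁻¹ θ x = s • x ↔ x * θ = s • (θ * x) := by
  rw [b2cj_apply, inv_mul_eq_iff_eq_mul₀ hθ, mul_smul_comm]

theorem b2_central {g : D} {r : L} (h : g ^ a = algebraMap L D r) (hg : g ≠ 0) :
    b2cj L g g⁻¹ ^ a = 1 ∧ b2cj L g⁻¹ g ^ a = 1 := by
  have h0 : algebraMap L D r ≠ 0 := h ▸ pow_ne_zero a hg
  constructor
  · ext x
    rw [b2cj_pow, b2cj_apply, inv_pow, h, ← mul_assoc, Algebra.commutes, mul_assoc,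
      mul_inv_cancel₀ h0, mul_one, Module.End.one_apply]
  · ext x
    rw [b2cj_pow, b2cj_apply, inv_pow, h, ← Algebra.commutes, ← mul_assoc,
      inv_mul_cancel₀ h0, one_mul, Module.End.one_apply]

theorem b2_comm (hη : η ≠ 0) (hθ : θ ≠ 0) (hy : y ≠ 0) (h : y * θ = η • (θ * y)) :
    Commute (b2cj L y y⁻¹) (b2cj L θ⁻¹ θ) := by
  have h1 : θ⁻¹ * y = η • (y * θ⁻¹) := by
    rw [inv_mul_eq_iff_eq_mul₀ hθ, mul_smul_comm, ← mul_assoc, ← smul_mul_assoc, ← h,
      mul_inv_cancel_right₀ hθ]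
  have h2 : θ * y⁻¹ = η • (y⁻¹ * θ) := by
    rw [mul_inv_eq_iff_eq_mul₀ hy, smul_mul_assoc, mul_assoc, ← mul_smul_comm, ← h,
      inv_mul_cancel_left₀ hy]
  have _ := hη
  ext x
  simp only [Module.End.mul_apply, b2cj_apply]
  calc y * (θ⁻¹ * (x * θ) * y⁻¹) = y * θ⁻¹ * x * (θ * y⁻¹) := by simp only [mul_assoc]
    _ = θ⁻¹ * y * x * (y⁻¹ * θ) := by
        rw [h1, h2, mul_smul_comm, smul_mul_assoc, smul_mul_assoc]
    _ = θ⁻¹ * (y * (x * y⁻¹) * θ) := by simp only [mul_assoc]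

/-- independence of the monomials over elements commuting with `θ` and `y` -/
theorem b2_mon_indep (hη : IsPrimitiveRoot η a) (hθ : θ ≠ 0) (hy : y ≠ 0)
    (h : y * θ = η • (θ * y)) (c : Fin a × Fin a → D) (h1 : ∀ k, θ * c k = c k * θ)
    (h2 : ∀ k, y * c k = c k * y)
    (h0 : ∑ k, c k * (θ ^ (k.1 : ℕ) * y ^ (k.2 : ℕ)) = 0) (k : Fin a × Fin a) : c k = 0 := by
  rw [Fintype.sum_prod_type] at h0
  have e1 := b2_indep hη (b2cj L y y⁻¹) _ (fun i => by
    rw [map_sum, Finset.smul_sum]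
    refine Finset.sum_congr rfl fun j _ => (b2_α hy).2 ?_
    rw [← mul_assoc, h2, mul_assoc, b2_y_mon h, mul_smul_comm, mul_assoc (c _)]) h0 k.1
  have e2 := b2_indep hη (b2cj L θ⁻¹ θ) _ (fun j => (b2_β hθ).2 (by
    rw [mul_assoc, b2_mon_θ h, mul_smul_comm, ← mul_assoc (c _), ← h1, mul_assoc])) e1 k.2
  exact (mul_eq_zero.1 e2).resolve_right (mul_ne_zero (pow_ne_zero _ hθ) (pow_ne_zero _ hy))

/-- every element is a combination of the monomials -/
theorem b2_mon_span (ha : (a : L) ≠ 0) (hη : IsPrimitiveRoot η a) (hθ : θ ≠ 0) (hy : y ≠ 0)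
    (h : y * θ = η • (θ * y)) {r s : L} (hθa : θ ^ a = algebraMap L D r)
    (hya : y ^ a = algebraMap L D s) (x : D) :
    ∃ c : Fin a × Fin a → D, (∀ k, θ * c k = c k * θ) ∧ (∀ k, y * c k = c k * y) ∧
      ∑ k, c k * (θ ^ (k.1 : ℕ) * y ^ (k.2 : ℕ)) = x := by
  have ha0 : a ≠ 0 := by rintro rfl; simp at ha
  have hη0 : η ≠ 0 := hη.ne_zero ha0
  obtain ⟨x₁, s1, e1, -⟩ := b2_split ha hη _ (b2_central hya hy).1 x
  choose x₂ s2 e2 e3 using fun i => b2_split ha hη _ (b2_central hθa hθ).2 (x₁ i)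
  have hm : ∀ i j : ℕ, θ ^ i * y ^ j ≠ 0 := fun i j =>
    mul_ne_zero (pow_ne_zero _ hθ) (pow_ne_zero _ hy)
  refine ⟨fun k => x₂ k.1 k.2 * (θ ^ (k.1 : ℕ) * y ^ (k.2 : ℕ))⁻¹, fun k => ?_, fun k => ?_, ?_⟩
  · apply mul_right_cancel₀ (hm k.1 k.2)
    apply smul_right_injective D (pow_ne_zero (k.2 : ℕ) hη0)
    have f1 := (b2_β hθ).1 (e2 k.1 k.2)
    simp only
    rw [mul_assoc θ, inv_mul_cancel_right₀ (hm _ _), ← f1, mul_assoc _ θ, ← mul_smul_comm,
      ← b2_mon_θ h, ← mul_assoc, inv_mul_cancel_right₀ (hm _ _)]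
  · apply mul_right_cancel₀ (hm k.1 k.2)
    have f1 := (b2_α hy).1 (e3 k.1 _ _ (b2_comm hη0 hθ hy h) (e1 k.1) k.2)
    rw [mul_assoc y, inv_mul_cancel_right₀ (hm _ _), f1, mul_assoc _ y, b2_y_mon h,
      mul_smul_comm, ← mul_assoc, inv_mul_cancel_right₀ (hm _ _)]
  · simp only [inv_mul_cancel_right₀ (hm _ _)]
    rw [Fintype.sum_prod_type]
    simp only [s2, s1]

theorem b2_div (ha : (a : L) ≠ 0) (hη : IsPrimitiveRoot η a) (hΘ : Θ ≠ 0) (hT : T ≠ 0)
    (h : y * θ = η • (θ * y)) (hθa : θ ^ a = algebraMap L D Θ)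
    (hya : y ^ a = algebraMap L D T⁻¹) (ι : C →ₐ[L] D)
    (hι : ∀ x, (∃ c, ι c = x) ↔ θ * x = x * θ ∧ y * x = x * y) : Div a C η Θ T := by
  intro V _ _ _ t w ht hw hc
  have ha0 : a ≠ 0 := by rintro rfl; simp at ha
  have hθ : θ ≠ 0 := by
    rintro rfl
    rw [zero_pow ha0, eq_comm, map_eq_zero] at hθa
    exact hΘ hθa
  have hy : y ≠ 0 := by
    rintro rfl
    rw [zero_pow ha0, eq_comm, map_eq_zero] at hya
    exact inv_ne_zero hT hya
  letI : Module C D := Module.compHom D (ι : C →+* D)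
  have sm : ∀ (c : C) (x : D), c • x = ι c * x := fun _ _ => rfl
  have c1 : ∀ c, θ * ι c = ι c * θ := fun c => ((hι _).1 ⟨c, rfl⟩).1
  have c2 : ∀ c, y * ι c = ι c * y := fun c => ((hι _).1 ⟨c, rfl⟩).2
  have li : LinearIndependent C fun k : Fin a × Fin a => θ ^ (k.1 : ℕ) * y ^ (k.2 : ℕ) := by
    rw [Fintype.linearIndependent_iff]
    intro g hg k
    have := b2_mon_indep hη hθ hy h (fun k => ι (g k)) (fun k => c1 _) (fun k => c2 _) hg k
    exact (map_eq_zero ι).1 this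
  have sp : ⊤ ≤ Submodule.span C
      (Set.range fun k : Fin a × Fin a => θ ^ (k.1 : ℕ) * y ^ (k.2 : ℕ)) := by
    intro x _
    obtain ⟨c, h1, h2, h3⟩ := b2_mon_span ha hη hθ hy h hθa hya x
    rw [← h3]
    refine Submodule.sum_mem _ fun k _ => ?_
    obtain ⟨c', hc'⟩ := (hι (c k)).2 ⟨h1 k, h2 k⟩
    rw [← hc', ← sm]
    exact Submodule.smul_mem _ _ (Submodule.subset_span ⟨k, rfl⟩)
  let B := Module.Basis.mk li sp
  have hB : ∀ k, B k = θ ^ (k.1 : ℕ) * y ^ (k.2 : ℕ) := fun k => Module.Basis.mk_apply li sp k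
  let F : V → D →ₗ[C] V := fun v =>
    B.constr ℕ fun k => (t ^ (k.1 : ℕ)) ((w ^ (k.2 : ℕ)) v)
  have hF : ∀ v k, F v (B k) = (t ^ (k.1 : ℕ)) ((w ^ (k.2 : ℕ)) v) := fun v k =>
    B.constr_basis ℕ _ k
  have al : ∀ (r : L) (x : D), r • x = algebraMap L C r • x := fun r x => by
    rw [sm, AlgHom.commutes, Algebra.smul_def]
  have hw' : ∀ v, (w ^ a) v = algebraMap L C T⁻¹ • v := fun v => by
    conv_rhs => rw [← hw v]
    rw [smul_smul, ← map_mul, inv_mul_cancel₀ hT, map_one, one_smul]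
  have opw : ∀ (s : Module.End C V) (r : L), (∀ v, (s ^ a) v = algebraMap L C r • v) →
      ∀ (q : ℕ) v, (s ^ (a * q)) v = algebraMap L C (r ^ q) • v := by
    intro s r hs q
    induction q with
    | zero => simp
    | succ q ih =>
      intro v
      rw [mul_add, mul_one, pow_add, Module.End.mul_apply, ih, hs, smul_smul, ← map_mul, pow_succ]
  have hF' : ∀ v (i j : ℕ), F v (θ ^ i * y ^ j) = (t ^ i) ((w ^ j) v) := by
    intro v i j
    have hp := Nat.pos_of_ne_zero ha0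
    have e := hF v (⟨i % a, Nat.mod_lt _ hp⟩, ⟨j % a, Nat.mod_lt _ hp⟩)
    rw [hB] at e
    simp only at e
    conv_lhs => rw [← Nat.div_add_mod i a, ← Nat.div_add_mod j a]
    conv_rhs => rw [← Nat.div_add_mod i a, ← Nat.div_add_mod j a]
    rw [pow_add, pow_add, pow_add, pow_add, Module.End.mul_apply, Module.End.mul_apply,
      opw t Θ ht, opw w T⁻¹ hw', map_smul, pow_mul, pow_mul, hθa, hya, ← map_pow, ← map_pow,
      ← Algebra.smul_def, ← Algebra.smul_def, smul_mul_assoc, mul_smul_comm, al, al, map_smul,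
      map_smul, e]
  have hwt : ∀ (i : ℕ) v, w ((t ^ i) v) = algebraMap L C (η ^ i) • (t ^ i) (w v) := by
    intro i
    induction i with
    | zero => simp
    | succ i ih =>
      intro v
      rw [pow_succ, Module.End.mul_apply, ih, hc, map_smul, smul_smul, ← map_mul, ← pow_succ,
        Module.End.mul_apply]
  let lm : ∀ g : D, (∀ c, g * ι c = ι c * g) → D →ₗ[C] D := fun g hg =>
    { toFun := fun x => g * x
      map_add' := mul_add g
      map_smul' := fun c x => by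
        rw [RingHom.id_apply, sm, sm, ← mul_assoc, hg, mul_assoc] }
  let rm : D → D →ₗ[C] D := fun g =>
    { toFun := fun x => x * g
      map_add' := fun x x' => add_mul x x' g
      map_smul' := fun c x => by rw [RingHom.id_apply, sm, sm, mul_assoc] }
  have f1 : ∀ v d, F v (θ * d) = t (F v d) := by
    intro v d
    have : F v ∘ₗ lm θ c1 = t ∘ₗ F v := B.ext fun k => by
      show F v (θ * B k) = t (F v (B k))
      rw [hF, hB, ← mul_assoc, ← pow_succ', hF', pow_succ', Module.End.mul_apply]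
    exact LinearMap.congr_fun this d
  have f2 : ∀ v d, F v (y * d) = w (F v d) := by
    intro v d
    have : F v ∘ₗ lm y c2 = w ∘ₗ F v := B.ext fun k => by
      show F v (y * B k) = w (F v (B k))
      rw [hF, hB, b2_y_mon h, mul_assoc, ← pow_succ, al, map_smul, hF', hwt, pow_succ',
        Module.End.mul_apply]
    exact LinearMap.congr_fun this d
  have f3 : ∀ (g : D) (s : Module.End C V), (∀ v d, F v (g * d) = s (F v d)) →
      ∀ (i : ℕ) v d, F v (g ^ i * d) = (s ^ i) (F v d) := by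
    intro g s hs i
    induction i with
    | zero => simp
    | succ i ih => intro v d; rw [pow_succ', mul_assoc, hs, ih, pow_succ', Module.End.mul_apply]
  have f4 : ∀ v d d', F v (d * d') = F (F v d') d := by
    intro v d d'
    have : F v ∘ₗ rm d' = F (F v d') := B.ext fun k => by
      show F v (B k * d') = F (F v d') (B k)
      rw [hF, hB, mul_assoc, f3 θ t f1, f3 y w f2]
    exact LinearMap.congr_fun this d
  have f5 : ∀ v v', F (v + v') = F v + F v' := fun v v' => B.ext fun k => by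
    simp only [LinearMap.add_apply, hF, map_add]
  have f6 : F 0 = 0 := B.ext fun k => by simp only [hF, map_zero, LinearMap.zero_apply]
  letI : Module D V :=
    { smul := fun d v => F v d
      one_smul := fun v => by
        have := hF' v 0 0
        show F v 1 = v
        simpa using this
      mul_smul := fun d d' v => f4 v d d'
      smul_zero := fun d => LinearMap.congr_fun f6 d
      smul_add := fun d v v' => LinearMap.congr_fun (f5 v v') d
      add_smul := fun d d' v => map_add (F v) d d'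
      zero_smul := fun v => map_zero (F v) }
  have : IsScalarTower C D V := ⟨fun c d v => (F v).map_smul c d⟩
  have e := Module.finrank_mul_finrank C D V
  rw [Module.finrank_eq_card_basis B] at e
  refine ⟨Module.finrank D V, ?_⟩
  rw [← e]
  simp [sq]

end Basis

section KD

variable {A : DA} {a : ℕ} {ζ : ℂ}

theorem b2_pair_rel (ha : 2 ≤ a) (hζ : IsPrimitiveRoot ζ a) (p : Pair A a ζ) :
    (a : A.L) ≠ 0 ∧ IsPrimitiveRoot (algebraMap ℂ A.L ζ⁻¹) a ∧ p.θ ≠ 0 ∧ p.u ≠ 0 ∧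
      p.u⁻¹ * p.θ = algebraMap ℂ A.L ζ⁻¹ • (p.θ * p.u⁻¹) := by
  have ha0 : a ≠ 0 := by omega
  have hθ : p.θ ≠ 0 := fun h => by
    have := p.hθ
    rw [h, zero_pow ha0, eq_comm, map_eq_zero] at this
    exact p.hΘ this
  have hu : p.u ≠ 0 := fun h => by
    have := p.hu
    rw [h, zero_pow ha0, eq_comm, map_eq_zero] at this
    exact p.hT this
  refine ⟨?_, hζ.inv.map_of_injective (algebraMap ℂ A.L).injective, hθ, hu, ?_⟩
  · rw [← map_natCast (algebraMap ℂ A.L), Ne, map_eq_zero]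
    exact_mod_cast ha0
  · rw [inv_mul_eq_iff_eq_mul₀ hu, mul_smul_comm, ← mul_assoc, p.hc, smul_mul_assoc, smul_smul,
      ← map_mul, inv_mul_cancel₀ (hζ.ne_zero ha0), map_one, one_smul, mul_inv_cancel_right₀ hu]

theorem b2_kdata [NeZero a] (ha : 2 ≤ a) (hζ : IsPrimitiveRoot ζ a) (g : Gad A a ζ) :
    ∃ (K : Type) (_ : CommRing K) (_ : Algebra A.L K) (κ : KData a A.L K),
      κ.ζ = algebraMap ℂ A.L ζ⁻¹ ∧ κ.Θ = g.Θ ∧ κ.T = g.T ∧
      g.φ.map (algebraMap A.L K) = ∏ i : ZMod a, (X - C (κ.b i)) := by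
  obtain ⟨-, hη, hθ, hu, hrel⟩ := b2_pair_rel ha hζ g.toPair
  have ha0 : a ≠ 0 := by omega
  set η := algebraMap ℂ A.L ζ⁻¹ with hηd
  have hη0 : η ≠ 0 := hη.ne_zero ha0
  set f : A.L[X] := X ^ a - C g.Θ with hf
  have hm : f.Monic := monic_X_pow_sub_C _ ha0
  have hd : f.natDegree = a := natDegree_X_pow_sub_C
  set r := AdjoinRoot.root f with hr
  have hra : r ^ a = algebraMap A.L (AdjoinRoot f) g.Θ := by
    have := AdjoinRoot.eval₂_root f
    rw [hf, eval₂_sub, eval₂_X_pow, eval₂_C, sub_eq_zero] at this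
    exact this
  have lift : ∀ (S : Type) [Ring S] [Algebra A.L S] (x : S), x ^ a = algebraMap A.L S g.Θ →
      ∃ ψ : AdjoinRoot f →ₐ[A.L] S, ψ r = x := by
    intro S _ _ x hx
    refine ⟨Ideal.Quotient.liftₐ (Ideal.span {f}) (aeval x) fun q hq => ?_, ?_⟩
    · obtain ⟨q', rfl⟩ := Ideal.mem_span_singleton.1 hq
      rw [map_mul, hf, map_sub, map_pow, aeval_X, aeval_C, hx, sub_self, zero_mul]
    · exact aeval_X x
  let bas : Module.Basis (Fin a) A.L (AdjoinRoot f) :=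
    (AdjoinRoot.powerBasis' hm).basis.reindex (finCongr hd)
  have hbas : ∀ i, bas i = r ^ (i : ℕ) := fun i => by
    simp only [bas, Module.Basis.reindex_apply, PowerBasis.basis_eq_pow]
    rfl
  obtain ⟨ι, hι⟩ := lift A.D g.θ g.hθ
  have inj : Function.Injective ι := by
    rw [injective_iff_map_eq_zero]
    intro x hx
    rw [← bas.sum_repr x] at hx ⊢
    simp only [map_sum, map_smul, hbas, map_pow, hι] at hx
    refine Finset.sum_eq_zero fun i _ => ?_
    have := b2_indep hη (b2cj A.L g.u⁻¹ g.u⁻¹⁻¹) _ (fun i => by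
      rw [map_smul, smul_comm]
      congr 1
      exact (b2_α (inv_ne_zero hu)).2 (b2_y_pow hrel i)) hx i
    rw [(smul_eq_zero.1 this).resolve_right (pow_ne_zero _ hθ), zero_smul]
  have : IsDomain (AdjoinRoot f) := inj.isDomain ι
  have : FiniteDimensional A.L (AdjoinRoot f) := Module.Finite.of_basis bas
  obtain ⟨σ₁, h₁⟩ := lift (AdjoinRoot f) (η • r) (by rw [_root_.smul_pow, hη.pow_eq_one, one_smul, hra])
  obtain ⟨σ₂, h₂⟩ := lift (AdjoinRoot f) (η⁻¹ • r)
    (by rw [_root_.smul_pow, hη.inv.pow_eq_one, one_smul, hra])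
  let σ : AdjoinRoot f ≃ₐ[A.L] AdjoinRoot f := AlgEquiv.ofAlgHom σ₁ σ₂
    (AdjoinRoot.algHom_ext (by
      show σ₁ (σ₂ r) = r
      rw [h₂, map_smul, h₁, smul_smul, inv_mul_cancel₀ hη0, one_smul]))
    (AdjoinRoot.algHom_ext (by
      show σ₂ (σ₁ r) = r
      rw [h₁, map_smul, h₂, smul_smul, mul_inv_cancel₀ hη0, one_smul]))
  let b : ZMod a → AdjoinRoot f := fun i => aeval (η ^ i.val • r) g.b
  have hb : ∀ i : ZMod a, ι (b i) = conjB ζ g.θ g.b (-i).val := by
    intro i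
    have e : η ^ i.val = algebraMap ℂ A.L (ζ ^ (-i).val) := by
      rw [hηd, ← map_pow, inv_pow]
      congr 1
      refine inv_eq_of_mul_eq_one_right ?_
      rw [← pow_add, pow_eq_pow_mod _ hζ.pow_eq_one, ← ZMod.val_add, add_neg_cancel, ZMod.val_zero,
        pow_zero]
    show ι (aeval (η ^ i.val • r) g.b) = aeval (algebraMap ℂ A.L (ζ ^ (-i).val) • g.θ) g.b
    rw [← aeval_algHom_apply, map_smul, hι, e]
  have unit : ∀ i j, i ≠ j → IsUnit (b i - b j) := by
    intro i j hij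
    refine FiniteDimensional.isUnit A.L (sub_ne_zero.2 fun e => hij ?_)
    have e' := congrArg ι e
    rw [hb, hb] at e'
    exact neg_injective (ZMod.val_injective a (g.inj _ _ (ZMod.val_lt _) (ZMod.val_lt _) e'))
  have σb : ∀ i, σ (b i) = b (i + 1) := by
    intro i
    have : Fact (1 < a) := ⟨by omega⟩
    show σ₁ (aeval (η ^ i.val • r) g.b) = aeval (η ^ (i + 1).val • r) g.b
    rw [← aeval_algHom_apply, map_smul, h₁, smul_smul, ← pow_succ, ZMod.val_add, ZMod.val_one,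
      ← pow_eq_pow_mod _ hη.pow_eq_one]
  refine ⟨AdjoinRoot f, inferInstance, inferInstance,
    { ζ := η, hζ := hη, θ := r, Θ := g.Θ, hΘ := g.hΘ, θ_pow := hra, T := g.T, hT := g.hT, σ := σ,
      σθ := h₁, bas := bas, bas_eq := hbas, b := b, σb := σb, unit := unit }, rfl, rfl, rfl, ?_⟩
  show _ = ∏ i : ZMod a, (X - C (b i))
  refine eq_of_monic_of_dvd_of_natDegree_le (monic_prod_of_monic _ _ fun i _ => monic_X_sub_C _)
    (g.monic.map _) ?_ ?_
  · refine Finset.prod_dvd_of_coprime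
      (fun i _ j _ hij => isCoprime_X_sub_C_of_isUnit_sub (unit i j hij)) fun i _ => ?_
    rw [dvd_iff_isRoot, IsRoot.def, eval_map_algebraMap]
    apply inj
    rw [← aeval_algHom_apply, hb, g.root, map_zero]
  · rw [g.monic.natDegree_map, g.deg, natDegree_finsetProd_X_sub_C_eq_card, Finset.card_univ,
      ZMod.card]

end KD

end Crest.Agent.R181.Mc
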