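import Crest.Agent.R181.McUl
import Crest.Agent.R181.McPoint
import Crest.Agent.R181.McCtx
import Crest.Agent.R181.NCDefs
import Crest.Agent.R181.McBindAux1
import Crest.Agent.R181.McBindAux2

/-! Row 181 (route 2): the binding lemma over an arbitrary skew field. -/

set_option autoImplicit false

namespace Crest.Agent.R181.Mc

open MvPolynomial

/-- radical membership can be tested on points in algebraically closed fields -/
theorem mem_radical_of_points {R : Type} [CommRing R] (J : Ideal R) (g : R)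
    (h : ∀ (Ω : Type) [Field Ω] [IsAlgClosed Ω] (f : R →+* Ω), (∀ p ∈ J, f p = 0) → f g = 0) :
    g ∈ J.radical := by
  rw [Ideal.radical_eq_sInf, Submodule.mem_sInf]
  rintro P ⟨hJ, hP⟩
  have := hP
  let f : R →+* AlgebraicClosure (FractionRing (R ⧸ P)) :=
    (algebraMap (FractionRing (R ⧸ P)) _).comp
      ((algebraMap (R ⧸ P) (FractionRing (R ⧸ P))).comp (Ideal.Quotient.mk P))
  have hf : ∀ x, f x = 0 ↔ x ∈ P := by
    intro x
    change algebraMap (FractionRing (R ⧸ P)) (AlgebraicClosure (FractionRing (R ⧸ P)))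
      (algebraMap (R ⧸ P) (FractionRing (R ⧸ P)) (Ideal.Quotient.mk P x)) = 0 ↔ _
    rw [map_eq_zero_iff _ (RingHom.injective _),
      map_eq_zero_iff _ (IsFractionRing.injective (R ⧸ P) (FractionRing (R ⧸ P))),
      Ideal.Quotient.eq_zero_iff_mem]
  exact (hf g).1 (h _ f fun p hp => (hf p).2 (hJ hp))

section Core

variable {a : ℕ} [NeZero a] {L K : Type} [Field L] [CommRing K] [Algebra L K]
  (κ : KData a L K) (D : Type) [DivisionRing D] [Algebra L D]

/-- A rank one Ulrich module, in coordinates. -/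
structure UlOut where
  D' : Type
  [rD : DivisionRing D']
  f : D →+* D'
  φ : Inv κ →+* D'
  w : Fin 2 ⊕ (Mset a × Fin a) → Fin 2 → D'
  φ_comm : ∀ q x, φ q * x = x * φ q
  φ_alg : ∀ l : L, φ (cL κ l) = f (algebraMap L D l)
  φ_NS : φ ⟨NS κ, NS_mem κ⟩ ≠ 0
  w_inl : ∀ ε, w (Sum.inl ε) = Pi.single ε 1
  comm : ∀ d α ε, Commute (f d) (w α ε)
  manin : Manin w
  lin : ∀ g : Fin 2 ⊕ (Mset a × Fin a) → Inv κ, ∑ α, (g α : Br κ) * tvar κ α = 0 →
    ∀ ε, ∑ α, φ (g α) * w α ε = 0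
  quad : ∀ g : Fin 2 ⊕ (Mset a × Fin a) → Fin 2 ⊕ (Mset a × Fin a) → Inv κ,
    ∑ α, ∑ β, (g α β : Br κ) * (tvar κ α * tvar κ β) = 0 →
    ∀ ε ε', ∑ α, ∑ β, φ (g α β) * (w α ε * w β ε' + w α ε' * w β ε) = 0

attribute [instance] UlOut.rD

/-- `D'` is the opposite of the endomorphism ring of the hull. -/
theorem exists_ulOut (ha : 2 ≤ a) (hD : Div a D κ.ζ κ.Θ κ.T) : Nonempty (UlOut κ D) := by
  obtain ⟨R, i1, i2, f, φ, w, h, h1, h2, h3, h4, h5, h6, h7, h8⟩ := b1_main ha hD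
  exact ⟨{ D' := R, rD := DivisionRing.ofIsUnitOrEqZero h, f := f, φ := φ, w := w,
           φ_comm := h1, φ_alg := h2, φ_NS := h3, w_inl := h4, comm := h5, manin := h6,
           lin := h7, quad := h8 }⟩

end Core

/-- the centraliser of a pair is a skew field -/
noncomputable instance centDivisionRing {A : DA} {a : ℕ} {ζ : ℂ} (p : Pair A a ζ) :
    DivisionRing p.cent :=
  DivisionRing.ofIsUnitOrEqZero (fun x => by
    by_cases hx : x = 0
    · exact Or.inr hx
    · left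
      have hx' : (x : A.D) ≠ 0 := fun h => hx (Subtype.ext h)
      have hmem : (x : A.D)⁻¹ ∈ p.cent := by
        intro g hg
        have h1 : g * (x : A.D) = (x : A.D) * g := x.2 g hg
        exact (Commute.inv_right₀ h1).eq
      exact ⟨⟨x, ⟨(x : A.D)⁻¹, hmem⟩, Subtype.ext (mul_inv_cancel₀ hx'),
        Subtype.ext (inv_mul_cancel₀ hx')⟩, rfl⟩)

/-- a vector space over the centraliser with operators `t, w` is a vector space over `A.D`, which has
dimension `a ^ 2` over the centraliser -/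
theorem div_of_pair {A : DA} {a : ℕ} (ha : 2 ≤ a) {ζ : ℂ} (hζ : IsPrimitiveRoot ζ a) (p : Pair A a ζ) :
    Div a p.cent (algebraMap ℂ A.L ζ⁻¹) p.Θ p.T := by
  obtain ⟨h1, h2, -, hu, h5⟩ := b2_pair_rel ha hζ p
  refine b2_div h1 h2 p.hΘ p.hT h5 p.hθ (by rw [inv_pow, p.hu, map_inv₀]) p.cent.val fun x => ?_
  constructor
  · rintro ⟨c, rfl⟩
    exact ⟨c.2 p.θ (by simp), (Commute.inv_left₀ (c.2 p.u (by simp))).eq⟩
  · rintro ⟨e1, e2⟩
    refine ⟨⟨x, ?_⟩, rfl⟩
    rintro g (rfl | rfl)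
    · simpa using (Commute.inv_left₀ e2).eq
    · exact e1

theorem exists_kdata {A : DA} {a : ℕ} [NeZero a] (ha : 2 ≤ a) {ζ : ℂ} (hζ : IsPrimitiveRoot ζ a)
    (g : Gad A a ζ) :
    ∃ (K : Type) (_ : CommRing K) (_ : Algebra A.L K) (κ : KData a A.L K),
      κ.ζ = algebraMap ℂ A.L ζ⁻¹ ∧ κ.Θ = g.Θ ∧ κ.T = g.T ∧
      g.φ.map (algebraMap A.L K) = ∏ i : ZMod a, (Polynomial.X - Polynomial.C (κ.b i)) :=
  b2_kdata ha hζ g

theorem b3_point {a : ℕ} [NeZero a] (ha : 2 ≤ a) {L K : Type} [Field L] [CharZero L] [CommRing K]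
    [Algebra L K] (κ : KData a L K) {D : Type} [DivisionRing D] [Algebra L D] (O : UlOut κ D)
    (φ : Polynomial L)
    (hφ : φ.map (algebraMap L K) = ∏ i : ZMod a, (Polynomial.X - Polynomial.C (κ.b i)))
    {L' : Type} [Field L'] [Algebra L' O.D'] (φ' : Inv κ →+* L')
    (hφ' : ∀ q, algebraMap L' O.D' (φ' q) = O.φ q) {Ω : Type} [Field Ω] [IsAlgClosed Ω]
    (F : MvPolynomial (Fin 2 ⊕ (Mset a × Fin a)) L' →+* Ω) (hF : ∀ p ∈ rel2 L' O.w, F p = 0) :
    F (X (Sum.inr (y0 ha)) ^ a - C (φ' (cL κ κ.T)) *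
        bform (φ.map (φ'.comp (cL κ))) a (X (Sum.inl 0)) (X (Sum.inl 1))) = 0 ∧
      (F (X (Sum.inl 0)) = 0 → F (X (Sum.inl 1)) = 0 → ∀ k, F (X (Sum.inr k)) = 0) := by
  let ψ : Inv κ →+* Ω := (F.comp C).comp φ'
  have hψ : ∀ q, ψ q = F (C (φ' q)) := fun _ => rfl
  have hpt : IsPt κ ψ fun α => F (X α) := by
    constructor
    · intro g hg
      have h1 : lf (fun α => φ' (g α)) ∈ rel2 L' O.w := by
        refine Ideal.subset_span (Or.inl ⟨fun α => φ' (g α), fun ε => ?_, rfl⟩)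
        simp only [Algebra.smul_def, hφ']
        exact O.lin g hg ε
      have h2 : F (∑ α, C (φ' (g α)) * X α) = 0 := hF _ h1
      simpa only [map_sum, map_mul, hψ] using h2
    · intro g hg
      have h1 : (∑ α, ∑ β, C (φ' (g α β)) * (X α * X β) :
          MvPolynomial (Fin 2 ⊕ (Mset a × Fin a)) L') ∈ rel2 L' O.w := by
        refine Ideal.subset_span (Or.inr ⟨fun α β => φ' (g α β), fun ε ε' => ?_, rfl⟩)
        simp only [Algebra.smul_def, hφ']
        exact O.quad g hg ε ε'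
      have h2 := hF _ h1
      simpa only [map_sum, map_mul, hψ] using h2
  have hN : ψ ⟨NS κ, NS_mem κ⟩ ≠ 0 := by
    have h1 : φ' ⟨NS κ, NS_mem κ⟩ ≠ 0 := by
      intro h0
      apply O.φ_NS
      rw [← hφ', h0, map_zero]
    exact (map_ne_zero_iff (F.comp C) (RingHom.injective _)).2 h1
  obtain ⟨h1, h2⟩ := hpt.bind ha hN φ hφ
  refine ⟨?_, h2⟩
  rw [map_sub, map_pow, map_mul, h1, hψ, sub_eq_zero]
  congr 1
  change _ = F (aeval ![X (Sum.inl 0), X (Sum.inl 1)] ((φ.map (φ'.comp (cL κ))).homogenize a))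
  rw [Polynomial.homogenize_map, map_aeval, coe_eval₂Hom, eval₂_map]
  congr 1
  funext i
  fin_cases i <;> rfl

theorem b3_aux {A : DA} {a : ℕ} [NeZero a] (ha : 2 ≤ a) {ζ : ℂ} (g : Gad A a ζ) {K : Type}
    [CommRing K] [Algebra A.L K] (κ : KData a A.L K) (hT : κ.T = g.T)
    (hφ : g.φ.map (algebraMap A.L K) = ∏ i : ZMod a, (Polynomial.X - Polynomial.C (κ.b i)))
    (O : UlOut κ g.toPair.cent) (L' : Type) [Field L'] [Algebra L' O.D'] (φ' : Inv κ →+* L')
    (hφ' : ∀ q, algebraMap L' O.D' (φ' q) = O.φ q) : Nonempty (BindOut g) := by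
  have : CharZero A.L := charZero_of_injective_algebraMap (algebraMap ℂ A.L).injective
  let _ : Algebra ℂ L' := ((φ'.comp (cL κ)).comp (algebraMap ℂ A.L)).toAlgebra
  let l : A.L →ₐ[ℂ] L' := { φ'.comp (cL κ) with commutes' := fun _ => rfl }
  let A' : DA := { L := L', D := O.D' }
  have hw : binFam (fun k => O.w (Sum.inr k)) = O.w := by
    funext α
    cases α with
    | inl ε => exact (O.w_inl ε).symm
    | inr k => rfl
  refine ⟨{
    A' := A'
    f := { l := l, d := O.f, hl := fun r => ((hφ' (cL κ r)).trans (O.φ_alg r)).symm }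
    κ := Mset a × Fin a
    w := fun k => O.w (Sum.inr k)
    y := y0 ha
    comm := fun z k ε => O.comm z _ ε
    manin := by rw [hw]; exact O.manin
    rel := ?_
    fib := ?_ }⟩
  · refine mem_radical_of_points _ _ fun Ω _ _ F hF => ?_
    have h := (b3_point ha κ O g.φ hφ φ' hφ' F (fun p hp => hF p (by rw [hw]; exact hp))).1
    rw [hT] at h
    exact h
  · intro k
    refine mem_radical_of_points _ _ fun Ω _ _ F hF => ?_
    refine (b3_point ha κ O g.φ hφ φ' hφ' F (fun p hp => hF p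
      (Ideal.mem_sup_left (by rw [hw]; exact hp)))).2 ?_ ?_ k
    · exact hF _ (Ideal.mem_sup_right (Ideal.subset_span (Or.inl rfl)))
    · exact hF _ (Ideal.mem_sup_right (Ideal.subset_span (Or.inr rfl)))

/-- assembly: `L'` is the centre of `D'` -/
theorem bindOut_of_ulOut {A : DA} {a : ℕ} [NeZero a] (ha : 2 ≤ a) {ζ : ℂ} (g : Gad A a ζ) {K : Type}
    [CommRing K] [Algebra A.L K] (κ : KData a A.L K) (hT : κ.T = g.T)
    (hφ : g.φ.map (algebraMap A.L K) = ∏ i : ZMod a, (Polynomial.X - Polynomial.C (κ.b i)))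
    (O : UlOut κ g.toPair.cent) : Nonempty (BindOut g) := by
  let _ : Algebra (Subring.center O.D') O.D' := (Subring.center O.D').subtype.toAlgebra'
    fun c x => (Subring.mem_center_iff.1 c.2 x).symm
  exact b3_aux ha g κ hT hφ O (Subring.center O.D')
    (O.φ.codRestrict (Subring.center O.D') fun q =>
      Subring.mem_center_iff.2 fun x => (O.φ_comm q x).symm) fun _ => rfl

theorem bindStmt {a : ℕ} (ha : 2 ≤ a) {ζ : ℂ} (hζ : IsPrimitiveRoot ζ a) :
    BindStmt (fun _ => True) a ζ := by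
  intro A _ g
  haveI : NeZero a := ⟨by omega⟩
  obtain ⟨K, i1, i2, κ, h1, h2, h3, h4⟩ := exists_kdata ha hζ g
  have hD : Div a g.toPair.cent κ.ζ κ.Θ κ.T := by
    rw [h1, h2, h3]
    exact div_of_pair ha hζ g.toPair
  obtain ⟨O⟩ := exists_ulOut κ g.toPair.cent ha hD
  obtain ⟨B⟩ := bindOut_of_ulOut ha g κ h3 h4 O
  exact ⟨B, trivial⟩

end Crest.Agent.R181.Mc
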