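import Crest.Agent.R181.NCDefs

/-! Row 181 (route 2): skew field of fractions and the symbol pair in it. -/

set_option autoImplicit false

namespace Crest.Agent.R181.Mc

open nonZeroDivisors OreLocalization

theorem MsSym2_frac (R : Type) [Ring R] [IsDomain R] [IsNoetherianRing R] :
    ∃ (D' : Type) (_ : DivisionRing D') (i : R →+* D'), Function.Injective i ∧
      ∀ x : D', ∃ r s : R, s ≠ 0 ∧ x = (i s)⁻¹ * i r := by
  obtain ⟨h⟩ := nonempty_oreSet_of_strongRankCondition (R := R)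
  have hinj : Function.Injective (numeratorRingHom : R →+* R[R⁰⁻¹]) :=
    numeratorHom_inj (S := R⁰) fun x hx => hx.1
  refine ⟨R[R⁰⁻¹], inferInstance, numeratorRingHom, hinj, fun x => ?_⟩
  induction x using OreLocalization.ind with
  | _ r s =>
    have hs : (s : R) ≠ 0 := nonZeroDivisors.coe_ne_zero s
    refine ⟨r, s, hs, ?_⟩
    have h1 : (numeratorRingHom (s : R) : R[R⁰⁻¹]) ≠ 0 := (map_ne_zero_iff _ hinj).2 hs
    rw [eq_inv_mul_iff_mul_eq₀ h1]
    exact OreLocalization.mul_cancel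

theorem MsSym2_pow {R : Type} [Ring R] {w u θ : R} (h1 : Commute w θ) (h2 : Commute w u)
    (h : u * θ = w * (θ * u)) (n : ℕ) :
    u * θ ^ n = w ^ n * (θ ^ n * u) ∧ u ^ n * θ = w ^ n * (θ * u ^ n) := by
  induction n with
  | zero => simp
  | succ n ih =>
    constructor
    · calc u * θ ^ (n + 1) = (u * θ ^ n) * θ := by rw [pow_succ, mul_assoc]
        _ = w ^ n * (θ ^ n * (w * (θ * u))) := by rw [ih.1, mul_assoc, mul_assoc, h]
        _ = w ^ n * ((θ ^ n * w) * (θ * u)) := by simp only [mul_assoc]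
        _ = _ := by
          rw [← (h1.pow_right n).eq]
          simp only [pow_succ, mul_assoc]
    · calc u ^ (n + 1) * θ = u * (u ^ n * θ) := by rw [pow_succ', mul_assoc]
        _ = (u * w ^ n) * (θ * u ^ n) := by rw [ih.2, mul_assoc]
        _ = w ^ n * ((u * θ) * u ^ n) := by
          rw [← (h2.pow_left n).eq]
          simp only [mul_assoc]
        _ = _ := by
          rw [h, pow_succ w, pow_succ' u]
          simp only [mul_assoc]

theorem MsSym2_sym {a : ℕ} {ζ : ℂ} (hζ : IsPrimitiveRoot ζ a) (A : DA)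
    (R : Type) [Ring R] [IsDomain R] [IsNoetherianRing R] (i : A.D →+* R) (θ u : R)
    (hθ : θ ≠ 0) (hu : u ≠ 0) (cθ : ∀ d, Commute (i d) θ) (cu : ∀ d, Commute (i d) u)
    (hc : u * θ = i (algebraMap A.L A.D (algebraMap ℂ A.L ζ)) * (θ * u))
    (hcl : Subring.closure (Set.range i ∪ {θ, u}) = ⊤) :
    ∃ (A' : DA) (f : DA.Hom A A') (p : Pair A' a ζ), True ∧
      ∀ z, Commute (f.d z) p.u ∧ Commute (f.d z) p.θ := by
  obtain ⟨D', _, j, hj, hfr⟩ := MsSym2_frac R
  have cen : ∀ x : R, (∀ d, Commute x (i d)) → Commute x θ → Commute x u →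
      j x ∈ Subring.center D' := by
    intro x h1 h2 h3
    have h4 : Subring.closure (Set.range i ∪ {θ, u}) ≤ Subring.centralizer {x} := by
      rw [Subring.closure_le]
      rintro y (⟨d, rfl⟩ | rfl | rfl) _ rfl
      exacts [h1 d, h2, h3]
    have h5 : ∀ r, Commute (j x) (j r) := fun r =>
      Commute.map (h4 (by rw [hcl]; trivial : r ∈ _) x rfl) j
    rw [Subring.mem_center_iff]
    intro y
    obtain ⟨r, s, -, rfl⟩ := hfr y
    exact ((h5 s).inv_right₀.mul_right (h5 r)).eq.symm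
  let l : A.L →+* Subring.center D' :=
    ((j.comp i).comp (algebraMap A.L A.D)).codRestrict _ fun r =>
      cen _ (fun d => Commute.map (Algebra.commutes r d) i) (cθ _) (cu _)
  let _ : Algebra ℂ (Subring.center D') := (l.comp (algebraMap ℂ A.L)).toAlgebra
  have hw : i (algebraMap A.L A.D (algebraMap ℂ A.L ζ)) ^ a = 1 := by
    rw [← map_pow, ← map_pow, ← map_pow, hζ.pow_eq_one, map_one, map_one, map_one]
  obtain ⟨e1, e2⟩ := MsSym2_pow (cθ _) (cu _) hc a
  rw [hw, one_mul] at e1 e2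
  have mT : j (u ^ a) ∈ Subring.center D' :=
    cen _ (fun d => ((cu d).pow_right a).symm) e2 ((Commute.refl u).pow_left a)
  have mΘ : j (θ ^ a) ∈ Subring.center D' :=
    cen _ (fun d => ((cθ d).pow_right a).symm) ((Commute.refl θ).pow_left a) e1.symm
  refine ⟨{ L := Subring.center D', D := D' }, ⟨⟨l, fun _ => rfl⟩, j.comp i, fun _ => rfl⟩,
    ⟨j u, j θ, ⟨_, mT⟩, ⟨_, mΘ⟩, fun h => ?_, fun h => ?_, (map_pow j u a).symm,
      (map_pow j θ a).symm, ?_⟩, trivial, fun z => ⟨(cu z).map j, (cθ z).map j⟩⟩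
  · exact pow_ne_zero a hu ((map_eq_zero_iff j hj).1 (congrArg Subtype.val h))
  · exact pow_ne_zero a hθ ((map_eq_zero_iff j hj).1 (congrArg Subtype.val h))
  · change j u * j θ = j (i (algebraMap A.L A.D (algebraMap ℂ A.L ζ))) * (j θ * j u)
    rw [← map_mul, hc, map_mul, map_mul]

end Crest.Agent.R181.Mc
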