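import Crest.Agent.R181.McStd

/-! Row 181 (route 2): the quantum plane over a skew field. -/

set_option autoImplicit false

namespace Crest.Agent.R181.Mc

open Polynomial

/-- a skew monoid algebra over a domain is a domain -/
theorem qp_domain {k G : Type} [Ring k] [IsDomain k] [Monoid G] [UniqueProds G]
    [MulSemiringAction G k] (hinj : ∀ (g : G) (b : k), g • b = 0 → b = 0) :
    IsDomain (SkewMonoidAlgebra k G) := by
  classical
  have hz : NoZeroDivisors (SkewMonoidAlgebra k G) := by
    refine ⟨fun {f g} hfg => ?_⟩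
    by_contra hne
    rw [not_or] at hne
    have hf : f.support.Nonempty := by
      rw [Finset.nonempty_iff_ne_empty]
      exact fun h => hne.1 (SkewMonoidAlgebra.support_eq_empty.1 h)
    have hg : g.support.Nonempty := by
      rw [Finset.nonempty_iff_ne_empty]
      exact fun h => hne.2 (SkewMonoidAlgebra.support_eq_empty.1 h)
    obtain ⟨a0, ha, b0, hb, h⟩ := UniqueProds.uniqueMul_of_nonempty hf hg
    have e : (f * g).coeff (a0 * b0) = f.coeff a0 * a0 • g.coeff b0 := by
      rw [SkewMonoidAlgebra.coeff_mul, SkewMonoidAlgebra.sum_def']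
      simp only [SkewMonoidAlgebra.sum_def']
      rw [← Finset.sum_product']
      refine (Finset.sum_eq_single (a0, b0) ?_ ?_).trans (if_pos rfl)
      · intro ab hab hne'
        rw [Finset.mem_product] at hab
        exact if_neg fun he => hne' (Prod.ext (h hab.1 hab.2 he).1 (h hab.1 hab.2 he).2)
      · intro hn
        exact absurd (Finset.mem_product.2 ⟨ha, hb⟩) hn
    rw [hfg] at e
    rcases mul_eq_zero.1 e.symm with h1 | h1
    · exact SkewMonoidAlgebra.mem_support_iff.1 ha h1
    · exact SkewMonoidAlgebra.mem_support_iff.1 hb (hinj _ _ h1)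
  exact NoZeroDivisors.to_isDomain _

section noeth

variable {D R : Type} [DivisionRing D] [Ring R] (i : D →+* R) {θ u : R} {q : D}

theorem qp_upow (hu : ∀ d, Commute (i d) u) (h : u * θ = i q * (θ * u)) (n : ℕ) :
    u ^ n * θ = i (q ^ n) * (θ * u ^ n) := by
  induction n with
  | zero => simp
  | succ n ih =>
    calc u ^ (n + 1) * θ = u * (u ^ n * θ) := by rw [pow_succ', mul_assoc]
      _ = i (q ^ n) * ((u * θ) * u ^ n) := by
        rw [ih, ← mul_assoc, ← (hu _).eq]
        simp only [mul_assoc]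
      _ = i (q ^ (n + 1)) * (θ * u ^ (n + 1)) := by
        rw [h, pow_succ q, map_mul, pow_succ' u]
        simp only [mul_assoc]

theorem qp_thpow (hθ : ∀ d, Commute (i d) θ) (h : u * θ = i q * (θ * u)) (n : ℕ) :
    u * θ ^ n = i (q ^ n) * (θ ^ n * u) := by
  induction n with
  | zero => simp
  | succ n ih =>
    calc u * θ ^ (n + 1) = (u * θ ^ n) * θ := by rw [pow_succ, mul_assoc]
      _ = i (q ^ n) * (θ ^ n * (u * θ)) := by
        rw [ih]
        simp only [mul_assoc]
      _ = i (q ^ (n + 1)) * (θ ^ (n + 1) * u) := by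
        rw [h, pow_succ q, map_mul, pow_succ θ, ← mul_assoc (θ ^ n), ← ((hθ q).pow_right n).eq]
        simp only [mul_assoc]

theorem qp_noeth {a : ℕ} (ha : 1 ≤ a) (hq : q ^ a = 1) (hθ : ∀ d, Commute (i d) θ)
    (hu : ∀ d, Commute (i d) u) (h : u * θ = i q * (θ * u))
    (hc : Subring.closure (Set.range i ∪ {θ, u}) = ⊤) : IsNoetherianRing R := by
  let _ : Module D R := Module.compHom R i
  have hs : ∀ (d : D) (x : R), d • x = i d * x := fun _ _ => rfl
  have c1 : Commute (u ^ a) θ := by
    have := qp_upow i hu h a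
    rwa [hq, map_one, one_mul] at this
  let M : ℕ → ℕ → R := fun p r => (θ ^ a) ^ p * (u ^ a) ^ r
  have hM : ∀ p r d, Commute (i d) (M p r) := fun p r d =>
    (((hθ d).pow_right a).pow_right p).mul_right (((hu d).pow_right a).pow_right r)
  let X : (Fin 2 →₀ ℕ) → Module.End D R := fun w =>
    { toFun := fun x => M (w 0) (w 1) * x
      map_add' := fun x y => mul_add _ _ _
      map_smul' := fun d x => by
        rw [RingHom.id_apply, hs, hs, ← mul_assoc, ← (hM _ _ d).eq, mul_assoc] }
  have hXa : ∀ w x, X w x = (θ ^ a) ^ (w 0) * (u ^ a) ^ (w 1) * x := fun _ _ => rfl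
  have hX : IsMon X := by
    refine ⟨LinearMap.ext fun x => ?_, fun v w => LinearMap.ext fun x => ?_⟩
    · rw [hXa]
      simp
    · rw [Module.End.mul_apply, hXa, hXa, hXa, Finsupp.add_apply, Finsupp.add_apply, pow_add,
        pow_add]
      have c2 : Commute ((u ^ a) ^ (v 1)) ((θ ^ a) ^ (w 0)) :=
        ((c1.pow_right a).pow_right _).pow_left _
      simp only [mul_assoc]
      rw [← mul_assoc ((u ^ a) ^ (v 1)) ((θ ^ a) ^ (w 0)), c2.eq, mul_assoc]
  let m : Fin (a * a) → R := fun j =>
    θ ^ ((finProdFinEquiv.symm j).1 : ℕ) * u ^ ((finProdFinEquiv.symm j).2 : ℕ)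
  let S : Submodule D R := Submodule.span D (Set.range fun p : ℕ × ℕ => θ ^ p.1 * u ^ p.2)
  have hS : ∀ x : R, ∀ y ∈ S, x * y ∈ S := by
    intro x
    have hx : x ∈ Subring.closure (Set.range i ∪ {θ, u}) := hc ▸ Subring.mem_top x
    induction hx using Subring.closure_induction with
    | mem x hx =>
      intro y hy
      rcases hx with ⟨d, rfl⟩ | rfl | rfl
      · exact S.smul_mem d hy
      · induction hy using Submodule.span_induction with
        | mem y hy =>
          obtain ⟨p, rfl⟩ := hy
          exact Submodule.subset_span ⟨(p.1 + 1, p.2), by simp only [pow_succ', mul_assoc]⟩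
        | zero => rw [mul_zero]; exact S.zero_mem
        | add y z _ _ h1 h2 => rw [mul_add]; exact S.add_mem h1 h2
        | smul d y _ h1 =>
          rw [hs, ← mul_assoc, ← (hθ d).eq, mul_assoc]
          exact S.smul_mem d h1
      · induction hy using Submodule.span_induction with
        | mem y hy =>
          obtain ⟨p, rfl⟩ := hy
          have e : x * (θ ^ p.1 * x ^ p.2) = (q ^ p.1) • (θ ^ p.1 * x ^ (p.2 + 1)) := by
            rw [hs, ← mul_assoc, qp_thpow i hθ h, pow_succ' x]
            simp only [mul_assoc]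
          rw [e]
          exact S.smul_mem _ (Submodule.subset_span ⟨(p.1, p.2 + 1), rfl⟩)
        | zero => rw [mul_zero]; exact S.zero_mem
        | add y z _ _ h1 h2 => rw [mul_add]; exact S.add_mem h1 h2
        | smul d y _ h1 =>
          rw [hs, ← mul_assoc, ← (hu d).eq, mul_assoc]
          exact S.smul_mem d h1
    | zero => intro y _; rw [zero_mul]; exact S.zero_mem
    | one => intro y hy; rwa [one_mul]
    | add x z _ _ h1 h2 => intro y hy; rw [add_mul]; exact S.add_mem (h1 y hy) (h2 y hy)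
    | neg x _ h1 => intro y hy; rw [neg_mul]; exact S.neg_mem (h1 y hy)
    | mul x z _ _ h1 h2 => intro y hy; rw [mul_assoc]; exact h1 _ (h2 y hy)
  have hm : Gens X m ⊤ := by
    refine eq_top_iff.2 fun x _ => ?_
    have h1 : x ∈ S := by
      have := hS x 1 (Submodule.subset_span ⟨(0, 0), by simp⟩)
      rwa [mul_one] at this
    refine (Submodule.span_le.2 ?_ : S ≤ _) h1
    rintro _ ⟨⟨k, l⟩, rfl⟩
    refine Submodule.subset_span ⟨(finProdFinEquiv (⟨k % a, Nat.mod_lt _ ha⟩, ⟨l % a, Nat.mod_lt _ ha⟩),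
      Finsupp.single 0 (k / a) + Finsupp.single 1 (l / a)), ?_⟩
    show X _ (θ ^ ((finProdFinEquiv.symm (finProdFinEquiv _)).1 : ℕ) *
      u ^ ((finProdFinEquiv.symm (finProdFinEquiv _)).2 : ℕ)) = θ ^ k * u ^ l
    rw [Equiv.symm_apply_apply, hXa]
    have e0 : (Finsupp.single (0 : Fin 2) (k / a) + Finsupp.single (1 : Fin 2) (l / a) :
      Fin 2 →₀ ℕ) 0 = k / a := by simp
    have e1 : (Finsupp.single (0 : Fin 2) (k / a) + Finsupp.single (1 : Fin 2) (l / a) :
      Fin 2 →₀ ℕ) 1 = l / a := by simp
    rw [e0, e1]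
    show (θ ^ a) ^ (k / a) * (u ^ a) ^ (l / a) * (θ ^ (k % a) * u ^ (l % a)) = θ ^ k * u ^ l
    have c2 : Commute ((u ^ a) ^ (l / a)) (θ ^ (k % a)) := (c1.pow_right _).pow_left _
    rw [mul_assoc, ← mul_assoc ((u ^ a) ^ (l / a)), c2.eq, mul_assoc, ← mul_assoc, ← pow_mul,
      ← pow_mul, ← pow_add, ← pow_add, Nat.div_add_mod, Nat.div_add_mod]
  refine monotone_stabilizes_iff_noetherian.1 fun f => ?_
  let N : ℕ →o Submodule D R :=
    ⟨fun n => { carrier := f n
                add_mem' := fun h1 h2 => (f n).add_mem h1 h2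
                zero_mem' := (f n).zero_mem
                smul_mem' := fun d x hx => (f n).smul_mem (i d) hx },
      fun n n' hn x hx => f.monotone hn hx⟩
  obtain ⟨k₀, hk⟩ := acc hX m hm N fun k w x hx => (f k).smul_mem (M (w 0) (w 1)) hx
  refine ⟨k₀, fun n hn => SetLike.ext fun x => ?_⟩
  exact (SetLike.ext_iff.1 (hk n hn) x).symm

end noeth

theorem qp_exists {D : Type} [DivisionRing D] {a : ℕ} (ha : 1 ≤ a) (q : D)
    (hq0 : ∀ d, Commute d q) (hq : q ^ a = 1) :
    ∃ (R : Type) (_ : Ring R) (_ : IsDomain R) (_ : IsNoetherianRing R) (i : D →+* R) (θ u : R),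
      θ ≠ 0 ∧ u ≠ 0 ∧ (∀ d, Commute (i d) θ) ∧ (∀ d, Commute (i d) u) ∧
      u * θ = i q * (θ * u) ∧ Subring.closure (Set.range i ∪ {θ, u}) = ⊤ := by
  have hc : ∀ d : D, Commute (C d : D[X]) (C q * X) := fun d =>
    ((hq0 d).map C).mul_right (commute_X _).symm
  let φ : D[X] →+* D[X] := eval₂RingHom' C (C q * X) hc
  have φC : ∀ d, φ (C d) = C d := fun d => eval₂_C _ _
  have φX : φ X = C q * X := eval₂_X _ _
  have φnC : ∀ (n : ℕ) d, (φ ^ n) (C d) = C d := by
    intro n d
    induction n with
    | zero => rfl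
    | succ n ih => rw [pow_succ, RingHom.mul_def, RingHom.comp_apply, φC, ih]
  have φnX : ∀ n : ℕ, (φ ^ n) X = C (q ^ n) * X := by
    intro n
    induction n with
    | zero => simp
    | succ n ih =>
      rw [pow_succ, RingHom.mul_def, RingHom.comp_apply, φX, map_mul, φnC, ih, ← mul_assoc, ← C_mul,
        pow_succ' q]
  have φa : φ ^ a = 1 := by
    refine Polynomial.ringHom_ext (fun d => φnC a d) ?_
    rw [φnX, hq, C_1, one_mul]
    rfl
  have φinj : ∀ (n : ℕ) p, (φ ^ n) p = 0 → p = 0 := by
    intro n p hp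
    have h1 : φ ^ (n * (a - 1)) * φ ^ n = 1 := by
      rw [← pow_add, ← Nat.mul_succ, Nat.succ_eq_add_one, Nat.sub_add_cancel ha, mul_comm, pow_mul,
        φa, one_pow]
    have h2 : (φ ^ (n * (a - 1)) * φ ^ n) p = p := by rw [h1]; rfl
    rw [RingHom.mul_def, RingHom.comp_apply, hp, map_zero] at h2
    exact h2.symm
  let _ : MulSemiringAction (Multiplicative ℕ) D[X] :=
    MulSemiringAction.compHom D[X] (powersHom (D[X] →+* D[X]) φ)
  let R := SkewMonoidAlgebra D[X] (Multiplicative ℕ)
  let j : D[X] →+* R := SkewMonoidAlgebra.singleOneRingHom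
  have hj : ∀ p, j p = SkewMonoidAlgebra.single 1 p := fun _ => rfl
  let u : R := SkewMonoidAlgebra.single (Multiplicative.ofAdd 1) 1
  have hmul : ∀ (g g' : Multiplicative ℕ) (p p' : D[X]),
      (SkewMonoidAlgebra.single g p * SkewMonoidAlgebra.single g' p' : R) =
        SkewMonoidAlgebra.single (g * g') (p * (φ ^ g.toAdd) p') :=
    fun _ _ _ _ => SkewMonoidAlgebra.single_mul_single
  have hdom : IsDomain R := qp_domain fun g b hb => φinj _ _ hb
  have hθ : ∀ d, Commute ((j.comp C) d) (j X) := fun d => ((commute_X (C d)).symm).map j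
  have huj : ∀ p, u * j p = j (φ p) * u := by
    intro p
    rw [hj, hj, hmul, hmul]
    simp only [one_mul, mul_one, toAdd_ofAdd, pow_one, map_one]
  have hu : ∀ d, Commute ((j.comp C) d) u := fun d => by
    show j (C d) * u = u * j (C d)
    rw [huj, φC]
  have hrel : u * j X = (j.comp C) q * (j X * u) := by
    rw [huj, φX, map_mul, mul_assoc]
    rfl
  have hcl : Subring.closure (Set.range (j.comp C) ∪ {j X, u}) = ⊤ := by
    refine (Subring.eq_top_iff' _).2 fun x => ?_
    have h1 : ∀ p, j p ∈ Subring.closure (Set.range (j.comp C) ∪ {j X, u}) := by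
      intro p
      induction p using Polynomial.induction_on with
      | C d => exact Subring.subset_closure (Or.inl ⟨d, rfl⟩)
      | add p r h1 h2 => rw [map_add]; exact Subring.add_mem _ h1 h2
      | monomial n d h1 =>
        rw [pow_succ, ← mul_assoc, map_mul]
        exact Subring.mul_mem _ h1 (Subring.subset_closure (Or.inr (Or.inl rfl)))
    have h2 : ∀ n : ℕ, u ^ n = SkewMonoidAlgebra.single (Multiplicative.ofAdd n) 1 := by
      intro n
      induction n with
      | zero => rfl
      | succ n ih =>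
        rw [pow_succ, ih, hmul]
        simp only [map_one, mul_one, ofAdd_add]
    induction x using SkewMonoidAlgebra.induction_on with
    | zero => exact Subring.zero_mem _
    | single g p =>
      have e : (SkewMonoidAlgebra.single g p : R) = j p * u ^ g.toAdd := by
        rw [h2, hj, hmul]
        simp
      rw [e]
      have h3 : u ∈ Subring.closure (Set.range (j.comp C) ∪ {j X, u}) :=
        Subring.subset_closure (Or.inr (Or.inr rfl))
      exact Subring.mul_mem _ (h1 p) (Subring.pow_mem _ h3 _)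
    | add f g h3 h4 => exact Subring.add_mem _ h3 h4
  refine ⟨R, inferInstance, hdom, qp_noeth (j.comp C) ha hq hθ hu hrel hcl, j.comp C, j X, u, ?_, ?_,
    hθ, hu, hrel, hcl⟩
  · rw [hj, Ne, SkewMonoidAlgebra.single_eq_zero]
    exact X_ne_zero
  · exact fun h => one_ne_zero (SkewMonoidAlgebra.single_eq_zero.1 h)

end Crest.Agent.R181.Mc
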