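import Crest.Agent.R181.McStd
import Crest.Agent.R181.MsSymAuxQ
import Crest.Agent.R181.NCDefs
import Crest.Agent.R181.MsSymAux2

/-! Row 181 (route 2): adjoining a free symbol pair to an arbitrary skew field. -/

set_option autoImplicit false

namespace Crest.Agent.R181.Mc

/-- A left noetherian domain has a skew field of left fractions. -/
theorem exists_frac (R : Type) [Ring R] [IsDomain R] [IsNoetherianRing R] :
    ∃ (D' : Type) (_ : DivisionRing D') (i : R →+* D'), Function.Injective i ∧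
      ∀ x : D', ∃ r s : R, s ≠ 0 ∧ x = (i s)⁻¹ * i r :=
  MsSym2_frac R

/-- The quantum plane over a skew field is a noetherian domain. -/
theorem exists_qplane {L D : Type} [Field L] [DivisionRing D] [Algebra L D] {a : ℕ} (ha : 1 ≤ a)
    (ζ : L) (hζ : ζ ^ a = 1) :
    ∃ (R : Type) (_ : Ring R) (_ : IsDomain R) (_ : IsNoetherianRing R) (i : D →+* R) (θ u : R),
      θ ≠ 0 ∧ u ≠ 0 ∧ (∀ d, Commute (i d) θ) ∧ (∀ d, Commute (i d) u) ∧
      u * θ = i (algebraMap L D ζ) * (θ * u) ∧
      Subring.closure (Set.range i ∪ {θ, u}) = ⊤ :=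
  qp_exists ha (algebraMap L D ζ) (fun d => (Algebra.commutes ζ d).symm)
    (by rw [← map_pow, hζ, map_one])

theorem symStmt {a : ℕ} (ha : 2 ≤ a) {ζ : ℂ} (hζ : IsPrimitiveRoot ζ a) :
    SymStmt (fun _ => True) a ζ := by
  intro A _
  obtain ⟨R, _, _, _, i, θ, u, h1, h2, h3, h4, h5, h6⟩ :=
    exists_qplane (D := A.D) (a := a) (by omega) (algebraMap ℂ A.L ζ)
      (by rw [← map_pow, hζ.pow_eq_one, map_one])
  exact MsSym2_sym hζ A R i θ u h1 h2 h3 h4 h5 h6

end Crest.Agent.R181.Mc
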