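import Crest.Agent.R181.NCRel

/-! Row 181: evaluation of a stage in `D ⊗ ℂ[x]` (task NCEv). -/

set_option autoImplicit false

namespace Crest.Agent.R181

open MvPolynomial
open scoped TensorProduct

/-- `D ⊗ ℂ[x]` is a domain. -/
theorem noZeroDivisors_tensor (D : Type) [DivisionRing D] [Algebra ℂ D] (n : ℕ) :
    NoZeroDivisors (D ⊗[ℂ] MvPolynomial (Fin n) ℂ) := by
  let φ : D ⊗[ℂ] MvPolynomial (Fin n) ℂ →ₐ[ℂ] AddMonoidAlgebra D (Fin n →₀ ℕ) :=
    Algebra.TensorProduct.lift AddMonoidAlgebra.singleZeroAlgHom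
      (AddMonoidAlgebra.mapAlgHom (Fin n →₀ ℕ) (Algebra.ofId ℂ D)) (fun d p => by
        induction p using AddMonoidAlgebra.induction_linear with
        | zero => simp
        | add x y hx hy => rw [map_add]; exact hx.add_right hy
        | single m r =>
          rw [AddMonoidAlgebra.mapAlgHom_single, AddMonoidAlgebra.singleZeroAlgHom_apply]
          exact AddMonoidAlgebra.single_commute_single (AddCommute.all _ _)
            (Algebra.commutes r d).symm)
  let ψ : AddMonoidAlgebra D (Fin n →₀ ℕ) →ₐ[ℂ] D ⊗[ℂ] MvPolynomial (Fin n) ℂ :=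
    AddMonoidAlgebra.liftNCAlgHom Algebra.TensorProduct.includeLeft
      ((Algebra.TensorProduct.includeRight :
        MvPolynomial (Fin n) ℂ →ₐ[ℂ] D ⊗[ℂ] MvPolynomial (Fin n) ℂ).toMonoidHom.comp
          (AddMonoidAlgebra.of ℂ (Fin n →₀ ℕ))) (fun d m => by
        simp [Commute, SemiconjBy])
  have h : ∀ u, ψ (φ u) = u := by
    intro u
    induction u using TensorProduct.induction_on with
    | zero => simp
    | add x y hx hy => rw [map_add, map_add, hx, hy]
    | tmul d p =>
      induction p using AddMonoidAlgebra.induction_linear with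
      | zero => simp
      | add x y hx hy => rw [TensorProduct.tmul_add, map_add, map_add, hx, hy]
      | single m r =>
        have e1 : φ (d ⊗ₜ[ℂ] AddMonoidAlgebra.single m r) =
            AddMonoidAlgebra.single m (r • d) := by
          simp only [φ, Algebra.TensorProduct.lift_tmul, AddMonoidAlgebra.mapAlgHom_single,
            AddMonoidAlgebra.singleZeroAlgHom_apply, AddMonoidAlgebra.single_mul_single, zero_add]
          rw [Algebra.smul_def, Algebra.commutes]; rfl
        have e2 : ψ (AddMonoidAlgebra.single m (r • d)) =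
            (r • d) ⊗ₜ[ℂ] AddMonoidAlgebra.single m 1 := by
          simp [ψ, TensorProduct.smul_tmul', Algebra.TensorProduct.tmul_mul_tmul]
        rw [e1, e2, TensorProduct.smul_tmul]
        simp
  exact Function.Injective.noZeroDivisors φ (Function.LeftInverse.injective h) (map_zero φ)
    (map_mul φ)

/-- The evaluation homomorphism; it kills the radical of the relations. -/
theorem exists_ev {L D ι : Type} [Field L] [Algebra ℂ L] [DivisionRing D] [Algebra L D]
    [Algebra ℂ D] [IsScalarTower ℂ L D] [Fintype ι] {n : ℕ} (c : ι → Fin n → D) (hc : Manin c) :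
    ∃ ev : MvPolynomial ι L →+* D ⊗[ℂ] MvPolynomial (Fin n) ℂ,
      (∀ r : L, ev (C r) = algebraMap L D r ⊗ₜ[ℂ] 1) ∧
      (∀ i, ev (X i) = ∑ k, c i k ⊗ₜ[ℂ] (X k : MvPolynomial (Fin n) ℂ)) ∧
      ∀ p ∈ (rel2 L c).radical, ev p = 0 := by
  classical
  let w : ι → D ⊗[ℂ] MvPolynomial (Fin n) ℂ :=
    fun i => ∑ k, c i k ⊗ₜ[ℂ] (X k : MvPolynomial (Fin n) ℂ)
  have hmul : ∀ i i', w i * w i' =
      ∑ k, ∑ k', (c i k * c i' k') ⊗ₜ[ℂ] (X k * X k' : MvPolynomial (Fin n) ℂ) := by
    intro i i'
    simp only [w, Finset.sum_mul_sum, Algebra.TensorProduct.tmul_mul_tmul]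
  have hmul' : ∀ i i', w i * w i' =
      ∑ k, ∑ k', (c i k' * c i' k) ⊗ₜ[ℂ] (X k * X k' : MvPolynomial (Fin n) ℂ) := by
    intro i i'
    rw [hmul, Finset.sum_comm]
    exact Finset.sum_congr rfl fun k _ => Finset.sum_congr rfl fun k' _ => by rw [mul_comm (X k')]
  have htwo : ∀ i i', (2 : ℂ) • (w i * w i') = ∑ k, ∑ k',
      (c i k * c i' k' + c i k' * c i' k) ⊗ₜ[ℂ] (X k * X k' : MvPolynomial (Fin n) ℂ) := by
    intro i i'
    rw [two_smul]
    conv_lhs => enter [1]; rw [hmul]
    rw [hmul', ← Finset.sum_add_distrib]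
    refine Finset.sum_congr rfl fun k _ => ?_
    rw [← Finset.sum_add_distrib]
    exact Finset.sum_congr rfl fun k' _ => (TensorProduct.add_tmul _ _ _).symm
  have hcomm : ∀ i i', w i * w i' = w i' * w i := by
    intro i i'
    apply smul_right_injective _ (two_ne_zero : (2 : ℂ) ≠ 0)
    simp only [htwo, hc i i']
  let R : Subalgebra L (D ⊗[ℂ] MvPolynomial (Fin n) ℂ) := Algebra.adjoin L (Set.range w)
  have : IsMulCommutative R := Algebra.isMulCommutative_adjoin L (by
    rintro _ ⟨i, rfl⟩ _ ⟨i', rfl⟩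
    exact hcomm i i')
  let : CommRing R := { (inferInstance : Ring R) with mul_comm := mul_comm' }
  let ev : MvPolynomial ι L →ₐ[L] D ⊗[ℂ] MvPolynomial (Fin n) ℂ :=
    R.val.comp (aeval fun i => (⟨w i, Algebra.subset_adjoin ⟨i, rfl⟩⟩ : R))
  have hX : ∀ i, ev (X i) = w i := fun i => by simp [ev]
  have hCm : ∀ (r : L) (p : MvPolynomial ι L), ev (C r * p) = r • ev p := fun r p => by
    rw [← smul_eq_C_mul, map_smul]
  refine ⟨ev.toRingHom, fun r => ?_, hX, fun p hp => ?_⟩
  · exact ev.commutes r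
  · have hker : rel2 L c ≤ RingHom.ker ev.toRingHom := by
      refine Ideal.span_le.2 ?_
      rintro p (⟨t, ht, rfl⟩ | ⟨q, hq, rfl⟩)
      · show ev (lf t) = 0
        simp only [lf, map_sum, hCm, hX, w, Finset.smul_sum, TensorProduct.smul_tmul']
        rw [Finset.sum_comm]
        refine Finset.sum_eq_zero fun k _ => ?_
        rw [← TensorProduct.sum_tmul, ht k, TensorProduct.zero_tmul]
      · show ev (∑ i, ∑ i', C (q i i') * (X i * X i')) = 0
        apply smul_right_injective _ (two_ne_zero : (2 : ℂ) ≠ 0)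
        simp only [map_sum, hCm, map_mul, hX, Finset.smul_sum, smul_zero,
          smul_comm (2 : ℂ) (q _ _), htwo, TensorProduct.smul_tmul']
        have e : ∀ F : ι → ι → Fin n → Fin n → D ⊗[ℂ] MvPolynomial (Fin n) ℂ,
            ∑ i, ∑ i', ∑ k, ∑ k', F i i' k k' = ∑ k, ∑ k', ∑ i, ∑ i', F i i' k k' := by
          intro F
          calc ∑ i, ∑ i', ∑ k, ∑ k', F i i' k k' = ∑ i, ∑ k, ∑ k', ∑ i', F i i' k k' := by
                refine Finset.sum_congr rfl fun i _ => ?_
                rw [Finset.sum_comm]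
                exact Finset.sum_congr rfl fun k _ => Finset.sum_comm
            _ = _ := by
                rw [Finset.sum_comm]
                exact Finset.sum_congr rfl fun k _ => Finset.sum_comm
        rw [e]
        refine Finset.sum_eq_zero fun k _ => Finset.sum_eq_zero fun k' _ => ?_
        simp only [← TensorProduct.sum_tmul]
        rw [hq k k', TensorProduct.zero_tmul]
    obtain ⟨m, hm⟩ := hp
    have h0 : ev.toRingHom p ^ m = 0 := by rw [← map_pow]; exact hker hm
    have := noZeroDivisors_tensor D n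
    exact eq_zero_of_pow_eq_zero h0

end Crest.Agent.R181
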