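import Crest.Agent.R181.NCDefs
import Crest.Agent.R181.LPPMain

/-! Row 181: `n` commuting forms generating an ideal of finite colength are independent
(task NCIndep). -/

set_option autoImplicit false

namespace Crest.Agent.R181

open MvPolynomial
open scoped TensorProduct

/-- Monomials in `n` variables outgrow the monomials in `n - 1` variables. -/
theorem nci_count {n : ℕ} (i0 : Fin n) (m c : ℕ)
    (h : ∀ t, Set.ncard {μ : Fin n →₀ ℕ | μ.degree = m + t} ≤
      Set.ncard {μ : Fin n →₀ ℕ | μ.degree = t ∧ μ i0 = 0} * c) : False := by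
  classical
  set K := n * c + 1 with hK
  set t := n * K with ht
  set A : Set (Fin n →₀ ℕ) := {μ | μ.degree = t ∧ μ i0 = 0} with hA
  set B : Set (Fin n →₀ ℕ) := {μ | μ.degree = m + t} with hB
  have hBfin : B.Finite := Finsupp.finite_of_degree_eq _
  have hk : ∀ μ : Fin n →₀ ℕ, ∃ k : Fin n, μ ∈ A → K ≤ μ k := by
    intro μ
    by_contra hc
    push Not at hc
    have h1 : μ.degree = t := (hc i0).1.1
    have h2 : ∑ k, μ k < ∑ _k : Fin n, K :=
      Finset.sum_lt_sum_of_nonempty ⟨i0, Finset.mem_univ _⟩ fun k _ => (hc k).2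
    rw [Finsupp.degree_eq_sum] at h1
    simp only [Finset.sum_const, Finset.card_univ, Fintype.card_fin, smul_eq_mul] at h2
    omega
  choose k hk using hk
  have hle : ∀ μ ∈ A, ∀ j < K, Finsupp.single (k μ) j ≤ μ := fun μ hμ j hj =>
    Finsupp.single_le_iff.mpr (hj.le.trans (hk μ hμ))
  let f : (Fin n →₀ ℕ) × ℕ → (Fin n →₀ ℕ) × Fin n := fun p =>
    (p.1 - Finsupp.single (k p.1) p.2 + Finsupp.single i0 (p.2 + m), k p.1)
  have h1 : (A ×ˢ (Set.Iio K)).ncard ≤ (B ×ˢ (Set.univ : Set (Fin n))).ncard := by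
    refine Set.ncard_le_ncard_of_injOn f ?_ ?_ (hBfin.prod Set.finite_univ)
    · rintro ⟨μ, j⟩ ⟨hμ, hj⟩
      refine ⟨?_, Set.mem_univ _⟩
      have h2 := congrArg Finsupp.degree (tsub_add_cancel_of_le (hle μ hμ j hj))
      rw [map_add, Finsupp.degree_single, hμ.1] at h2
      change Finsupp.degree (μ - Finsupp.single (k μ) j + Finsupp.single i0 (j + m)) = m + t
      rw [map_add, Finsupp.degree_single]
      omega
    · rintro ⟨μ, j⟩ ⟨hμ, hj⟩ ⟨μ', j'⟩ ⟨hμ', hj'⟩ he
      have e1 : μ - Finsupp.single (k μ) j + Finsupp.single i0 (j + m) =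
          μ' - Finsupp.single (k μ') j' + Finsupp.single i0 (j' + m) := congrArg Prod.fst he
      have e2 : k μ = k μ' := congrArg Prod.snd he
      have e3 := congrArg (fun ν : Fin n →₀ ℕ => ν i0) e1
      have z1 : μ i0 = 0 := hμ.2
      have z2 : μ' i0 = 0 := hμ'.2
      simp only [Finsupp.add_apply, Finsupp.tsub_apply, Finsupp.single_eq_same, z1, z2,
        Nat.zero_sub, zero_add] at e3
      have e4 : j = j' := by omega
      subst e4
      have e5 := add_right_cancel e1
      have e6 : μ = μ' := by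
        rw [← tsub_add_cancel_of_le (hle μ hμ j hj), e5, e2,
          tsub_add_cancel_of_le (hle μ' hμ' j hj')]
      rw [e6]
  rw [Set.ncard_prod, Set.ncard_prod, Set.ncard_univ, Nat.card_eq_fintype_card,
    Fintype.card_fin, Set.ncard_Iio_nat] at h1
  have h2 : B.ncard ≤ A.ncard * c := h t
  have h3 : A.ncard = 0 := by
    have h4 : B.ncard * n ≤ A.ncard * c * n := Nat.mul_le_mul_right _ h2
    have h5 : A.ncard * K = A.ncard * c * n + A.ncard := by rw [hK]; ring
    omega
  have h4 : 0 < B.ncard :=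
    (Set.ncard_pos hBfin).mpr ⟨Finsupp.single i0 (m + t), Finsupp.degree_single _ _⟩
  rw [h3] at h2
  omega

section

variable {n : ℕ} {D : Type} [DivisionRing D] [Algebra ℂ D]

theorem nci_pD_mul (b : Fin n → Fin n → D) (d : ℕ) (i : Fin n) (r : RD n D) :
    pD n D (d + 1) (r * alpha b i) = pD n D d r * alpha b i := by
  have : pD n D (d + 1) ∘ₗ rmul (alpha b i) = rmul (alpha b i) ∘ₗ pD n D d := by
    refine (BD n D).ext fun μ => ?_
    have h1 : BD n D μ ∈ HD n D μ.degree := basis_mem_mon _ rfl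
    rw [LinearMap.comp_apply, LinearMap.comp_apply, pD_of_mem (alpha_mem_HD b _ i _ h1),
      pD_of_mem h1]
    by_cases h : μ.degree = d
    · rw [if_pos h, if_pos (by rw [h])]
    · rw [if_neg h, if_neg (by omega), map_zero]
  exact LinearMap.congr_fun this r

theorem nci_step (b : Fin n → Fin n → D) (s : Set (Fin n)) (d : ℕ) (W : Submodule D (RD n D))
    (hW : ∀ i ∈ s, ∀ r ∈ HD n D d, r * alpha b i ∈ W)
    (hJ : ∀ μ : Fin n →₀ ℕ, μ.degree = d + 1 → BD n D μ ∈ Ideal.span (alpha b '' s)) :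
    HD n D (d + 1) ≤ W := by
  have key : ∀ u ∈ Ideal.span (alpha b '' s), ∀ r : RD n D, pD n D (d + 1) (r * u) ∈ W := by
    intro u hu
    induction hu using Submodule.span_induction with
    | mem x hx =>
      obtain ⟨i, hi, rfl⟩ := hx
      intro r
      rw [nci_pD_mul]
      exact hW i hi _ (keep_mem_mon' _ _ r)
    | zero => intro r; rw [mul_zero, map_zero]; exact W.zero_mem
    | add x y _ _ hx hy => intro r; rw [mul_add, map_add]; exact W.add_mem (hx r) (hy r)
    | smul a x _ hx => intro r; rw [smul_eq_mul, ← mul_assoc]; exact hx _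
  rw [HD_def, mon_def, Submodule.span_le]
  rintro _ ⟨μ, hμ, rfl⟩
  have h1 := key _ (hJ μ hμ) 1
  have h2 : BD n D μ ∈ HD n D (d + 1) := basis_mem_mon _ hμ
  rwa [one_mul, pD_of_mem h2, if_pos rfl] at h1

theorem nci_mem (J : Ideal (RD n D)) (e : Fin n → ℕ)
    (h : ∀ k : Fin n, ((1 : D) ⊗ₜ[ℂ] (X k : MvPolynomial (Fin n) ℂ)) ^ e k ∈ J)
    (μ : Fin n →₀ ℕ) (hμ : ∑ k, e k < μ.degree) : BD n D μ ∈ J := by
  rw [Finsupp.degree_eq_sum] at hμ
  obtain ⟨k, -, hk⟩ := Finset.exists_lt_of_sum_lt hμ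
  have h1 : μ = μ - Finsupp.single k (e k) + Finsupp.single k (e k) :=
    (tsub_add_cancel_of_le (Finsupp.single_le_iff.mpr hk.le)).symm
  have h2 : BD n D μ = BD n D (μ - Finsupp.single k (e k)) *
      ((1 : D) ⊗ₜ[ℂ] (X k : MvPolynomial (Fin n) ℂ)) ^ e k := by
    rw [BD_apply, BD_apply, Algebra.TensorProduct.tmul_pow, one_pow, ← iota_apply, ← iota_mul,
      ← monomial_add_single, ← h1]
  rw [h2]
  exact J.mul_mem_left _ (h k)

end

theorem linearIndependent_alpha {n : ℕ} {D : Type} [DivisionRing D] [Algebra ℂ D]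
    (b : Fin n → Fin n → D) (hcomm : ∀ j k, Commute (alpha b j) (alpha b k))
    (h : ∀ k : Fin n, ∃ e : ℕ, ((1 : D) ⊗ₜ[ℂ] (X k : MvPolynomial (Fin n) ℂ)) ^ e ∈
      Ideal.span (Set.range (alpha b))) :
    LinearIndependent D (alpha b) := by
  classical
  rw [linearIndependent_iff_notMem_span]
  intro i0 hi0
  choose e he using h
  obtain ⟨pw, hpw0, hpw⟩ := exists_pw (alpha b) hcomm
  have hJ : Ideal.span (Set.range (alpha b)) ≤ Ideal.span (alpha b '' (Set.univ \ {i0})) := by
    rw [Ideal.span_le]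
    rintro _ ⟨i, rfl⟩
    by_cases hi : i = i0
    · subst hi
      exact Submodule.span_subset_span D (RD n D) _ hi0
    · exact Ideal.subset_span ⟨i, ⟨Set.mem_univ _, hi⟩, rfl⟩
  set m := ∑ k, e k with hm
  let g : (Fin n →₀ ℕ) × (Fin n →₀ ℕ) → RD n D := fun p => BD n D p.2 * pw p.1
  have hle : ∀ t, HD n D (m + t) ≤ Submodule.span D (g ''
      ({μ : Fin n →₀ ℕ | μ.degree = t ∧ μ i0 = 0} ×ˢ {ν : Fin n →₀ ℕ | ν.degree = m})) := by
    intro t
    induction t with
    | zero =>
      rw [HD_def, mon_def]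
      refine Submodule.span_mono ?_
      rintro _ ⟨ν, hν, rfl⟩
      exact ⟨(0, ν), ⟨⟨map_zero _, rfl⟩, hν⟩, by simp [g, hpw0]⟩
    | succ t ih =>
      refine nci_step b (Set.univ \ {i0}) (m + t) _ (fun i hi r hr => ?_) fun μ hμ => ?_
      · have h1 := Submodule.mem_map_of_mem (f := rmul (alpha b i)) (ih hr)
        rw [Submodule.map_span] at h1
        refine Submodule.span_mono ?_ h1
        rintro _ ⟨_, ⟨⟨μ, ν⟩, ⟨⟨hμ, hμ0⟩, hν⟩, rfl⟩, rfl⟩
        refine ⟨(μ + Finsupp.single i 1, ν), ⟨⟨?_, ?_⟩, hν⟩, ?_⟩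
        · have hμ' : μ.degree = t := hμ
          change (μ + Finsupp.single i 1).degree = t + 1
          rw [map_add, hμ', Finsupp.degree_single]
        · have hμ' : μ i0 = 0 := hμ0
          have hi' : i0 ≠ i := fun h => hi.2 h.symm
          change (μ + Finsupp.single i 1 : Fin n →₀ ℕ) i0 = 0
          rw [Finsupp.add_apply, hμ', Finsupp.single_eq_of_ne hi', add_zero]
        · simp only [g, hpw, rmul_apply, mul_assoc]
      · exact hJ (nci_mem _ e he μ (by omega))
  refine nci_count i0 m (Set.ncard {ν : Fin n →₀ ℕ | ν.degree = m}) fun t => ?_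
  have hfin : ({μ : Fin n →₀ ℕ | μ.degree = t ∧ μ i0 = 0} ×ˢ
      {ν : Fin n →₀ ℕ | ν.degree = m}).Finite :=
    ((Finsupp.finite_of_degree_eq t).subset fun μ hμ => hμ.1).prod
      (Finsupp.finite_of_degree_eq m)
  rw [← Set.ncard_prod]
  refine le_trans ?_ (Set.ncard_image_le (f := g) hfin)
  have hB : {μ : Fin n →₀ ℕ | μ.degree = m + t}.Finite := Finsupp.finite_of_degree_eq _
  let _ := hB.fintype
  let _ := (hfin.image g).fintype
  rw [Set.ncard_eq_toFinset_card', Set.ncard_eq_toFinset_card', Set.toFinset_card,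
    Set.toFinset_card]
  refine linearIndependent_le_span_aux'
    (fun μ : {μ : Fin n →₀ ℕ | μ.degree = m + t} => BD n D μ)
    ((BD n D).linearIndependent.comp _ Subtype.val_injective) _ ?_
  rintro _ ⟨μ, rfl⟩
  exact hle t (basis_mem_mon _ μ.2)

end Crest.Agent.R181
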