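import Crest.Agent.R181.NCLevel
import Crest.Agent.R181.NCEv
import Crest.Agent.R181.NCIndep

/-! Row 181: noncommutative coordinates from the three oracles (task NCMain). -/

set_option autoImplicit false

namespace Crest.Agent.R181

open MvPolynomial
open scoped TensorProduct

namespace NCMainAux

/-- the initial stage -/
noncomputable def st0 (n : ℕ) : St n where
  A := DA.base
  ι := Fin n
  c := fun k => Pi.single k 1
  manin := by
    intro i i' k k'
    have h : ∀ u v : ℂ, u * v = v * u := fun u v => mul_comm u v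
    rw [add_comm]
    exact congrArg₂ (· + ·) (h _ _) (h _ _)
  x := id
  hx := fun _ => rfl

theorem st0_px {n : ℕ} (g : MvPolynomial (Fin n) ℂ) : (st0 n).px g = g := by
  change rename id (MvPolynomial.map (RingHom.id ℂ) g) = g
  rw [MvPolynomial.map_id, rename_id_apply]

theorem st0_inv {n : ℕ} (a : Fin n → ℕ) (f : Fin n → MvPolynomial (Fin n) ℂ)
    (h : ∀ i, X i ∈ (Ideal.span (Set.range f)).radical) :
    (st0 n).Inv a f (fun _ _ => 0) n := by
  refine ⟨fun i => ?_, fun i hi => absurd i.2 (not_lt.2 hi)⟩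
  refine Ideal.radical_mono (I := Ideal.span (Set.range f)) ?_ (h i)
  refine le_trans (Ideal.span_mono ?_) le_sup_right
  rintro _ ⟨k, rfl⟩
  exact ⟨k, k.2, (st0_px _).symm⟩

theorem final {n : ℕ} (a : Fin n → ℕ) (I : Ideal (MvPolynomial (Fin n) ℂ))
    (f : Fin n → MvPolynomial (Fin n) ℂ) (hfI : ∀ i, f i ∈ I) (M : St n)
    (y : Fin n → M.ι → M.A.L) (hI : M.Inv a f y 0) : NCCoord.{0} n a I := by
  let _ : Algebra ℂ M.A.D := Algebra.compHom M.A.D (algebraMap ℂ M.A.L)
  have _ : IsScalarTower ℂ M.A.L M.A.D := IsScalarTower.of_algebraMap_eq fun _ => rfl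
  obtain ⟨ev, hC, hX, hrel⟩ := exists_ev (L := M.A.L) M.c M.manin
  let b : Fin n → Fin n → M.A.D := fun j k => ∑ i, y j i • M.c i k
  have hlf : ∀ j, ev (lf (y j)) = alpha b j := by
    intro j
    unfold lf alpha
    rw [map_sum]
    simp only [map_mul, hC, hX, Finset.mul_sum, Algebra.TensorProduct.tmul_mul_tmul, one_mul]
    rw [Finset.sum_comm]
    refine Finset.sum_congr rfl fun k _ => ?_
    rw [TensorProduct.sum_tmul]
    refine Finset.sum_congr rfl fun i _ => ?_
    rw [Algebra.smul_def]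
  have hx : ∀ k, ev (X (M.x k)) = (1 : M.A.D) ⊗ₜ[ℂ] (X k : MvPolynomial (Fin n) ℂ) := by
    intro k
    rw [hX, M.hx, Finset.sum_eq_single k]
    · rw [Pi.single_eq_same]
    · intro k' _ hk
      rw [Pi.single_eq_of_ne hk, TensorProduct.zero_tmul]
    · intro h
      exact absurd (Finset.mem_univ k) h
  have hpx : ∀ g, ev (M.px g) = (1 : M.A.D) ⊗ₜ[ℂ] g := by
    intro g
    unfold St.px
    induction g using MvPolynomial.induction_on with
    | C r =>
      rw [map_C, rename_C, hC, ← IsScalarTower.algebraMap_apply, Algebra.algebraMap_eq_smul_one,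
        TensorProduct.smul_tmul, ← Algebra.algebraMap_eq_smul_one, algebraMap_eq]
    | add p q hp hq => rw [map_add, map_add, map_add, hp, hq, TensorProduct.tmul_add]
    | mul_X p k hp =>
      rw [map_mul, map_mul, map_mul, hp, map_X, rename_X, hx,
        Algebra.TensorProduct.tmul_mul_tmul, one_mul]
  have hcomm : ∀ j k, Commute (alpha b j) (alpha b k) := by
    intro j k
    rw [← hlf, ← hlf]
    exact (Commute.all _ _).map ev
  have hrad : ∀ J : Ideal (M.A.D ⊗[ℂ] MvPolynomial (Fin n) ℂ), M.rel.radical ≤ J.comap ev := by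
    intro J p hp
    rw [Ideal.mem_comap, hrel p hp]
    exact J.zero_mem
  refine ⟨M.A.D, inferInstance, inferInstance, b, linearIndependent_alpha b hcomm fun k => ?_,
    hcomm, fun j => ?_⟩
  · obtain ⟨e, he⟩ := hI.1 (M.x k)
    refine ⟨e, ?_⟩
    rw [← hx, ← map_pow, ← Ideal.mem_comap]
    refine (show M.lev f y 0 0 ≤ _ from ?_) he
    refine sup_le (sup_le (Ideal.le_radical.trans (hrad _)) (Ideal.span_le.2 ?_))
      (Ideal.span_le.2 ?_)
    · rintro _ ⟨i, -, rfl⟩
      rw [SetLike.mem_coe, Ideal.mem_comap, hlf]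
      exact Ideal.subset_span ⟨i, rfl⟩
    · rintro _ ⟨i, hi, -⟩
      exact absurd hi (Nat.not_lt_zero _)
  · rw [← hlf, ← map_pow, ← Ideal.mem_comap]
    refine (show M.rel.radical ⊔ M.lev f y (j.val + 1) n ≤ _ from ?_) (hI.2 j (Nat.zero_le _))
    refine sup_le (hrad _) (sup_le (sup_le (Ideal.le_radical.trans (hrad _)) (Ideal.span_le.2 ?_))
      (Ideal.span_le.2 ?_))
    · rintro _ ⟨i, hi, rfl⟩
      rw [SetLike.mem_coe, Ideal.mem_comap, hlf]
      exact Ideal.subset_span (Or.inr ⟨i, hi, rfl⟩)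
    · rintro _ ⟨i, -, rfl⟩
      rw [SetLike.mem_coe, Ideal.mem_comap, hpx]
      exact Ideal.subset_span (Or.inl ⟨f i, hfI i, rfl⟩)

end NCMainAux

theorem exists_NC_of (P : DA → Prop) (hP : P DA.base)
    (hO : ∀ (a : ℕ) (ζ : ℂ), 2 ≤ a → IsPrimitiveRoot ζ a →
      A1Stmt P a ζ ∧ SymStmt P a ζ ∧ BindStmt P a ζ)
    (n : ℕ) (a : Fin n → ℕ) (ha : Monotone a) (ha2 : ∀ i, 2 ≤ a i)
    (I : Ideal (MvPolynomial (Fin n) ℂ)) (f : Fin n → MvPolynomial (Fin n) ℂ)
    (hf : ∀ i, (f i).IsHomogeneous (a i)) (hfI : ∀ i, f i ∈ I)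
    (hreg : RingTheory.Sequence.IsRegular (MvPolynomial (Fin n) ℂ) (List.ofFn f)) :
    NCCoord.{0} n a I := by
  have key : ∀ d j : ℕ, j + d = n →
      ∃ (M : St n) (y : Fin n → M.ι → M.A.L), P M.A ∧ M.Inv a f y j := by
    intro d
    induction d with
    | zero =>
      intro j hj
      obtain rfl : j = n := hj
      exact ⟨NCMainAux.st0 j, fun _ _ => 0, hP, NCMainAux.st0_inv a f
        (X_mem_radical_of_regular a (fun i => lt_of_lt_of_le two_pos (ha2 i)) f hf hreg)⟩
    | succ d ih =>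
      intro j hj
      obtain ⟨M, y, hM, hI⟩ := ih (j + 1) (by omega)
      have hjn : j < n := by omega
      have hζ := Complex.isPrimitiveRoot_exp (a ⟨j, hjn⟩)
        (by have := ha2 ⟨j, hjn⟩; omega)
      obtain ⟨h1, hS, hB⟩ := hO _ _ (ha2 ⟨j, hjn⟩) hζ
      exact level_step a ha ha2 f hf ⟨j, hjn⟩ hζ h1 hS hB M hM y hI
  obtain ⟨M, y, -, hI⟩ := key n 0 (zero_add n)
  exact NCMainAux.final a I f hfI M y hI

end Crest.Agent.R181
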