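import Crest.Agent.R181.MaTr
import Crest.Agent.R181.McBind
import Crest.Agent.R181.MsSym
import Crest.Agent.R181.NCMain
import Crest.Agent.R181.LPPFinal

/-! Row 181 (route 2): noncommutative coordinates from `A1Strong`. -/

set_option autoImplicit false

namespace Crest.Agent.R181.Mc

theorem exists_NC_of_strong (h : ∀ (a : ℕ) (ζ : ℂ), 2 ≤ a → IsPrimitiveRoot ζ a → A1Strong a ζ)
    (n : ℕ) (a : Fin n → ℕ) (ha : Monotone a) (ha2 : ∀ i, 2 ≤ a i)
    (I : Ideal (MvPolynomial (Fin n) ℂ)) (f : Fin n → MvPolynomial (Fin n) ℂ)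
    (hf : ∀ i, (f i).IsHomogeneous (a i)) (hfI : ∀ i, f i ∈ I)
    (hreg : RingTheory.Sequence.IsRegular (MvPolynomial (Fin n) ℂ) (List.ofFn f)) :
    NCCoord.{0} n a I :=
  exists_NC_of (fun _ => True) trivial
    (fun a ζ h2 hζ => ⟨a1Stmt_of_strong (h a ζ h2 hζ), symStmt h2 hζ, bindStmt h2 hζ⟩)
    n a ha ha2 I f hf hfI hreg

end Crest.Agent.R181.Mc
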