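import Mathlib

/-! Row 181 (route 2): automorphisms of `L[X] / p` induced by the torus and by permutations. -/

set_option autoImplicit false

namespace Crest.Agent.R181.Mc.MaS3

open MvPolynomial

variable {L : Type} [Field L] {σ Y : Type} [AddCommGroup Y]

theorem dom_zero {R : Type} [Semiring R] [IsDomain R] {r x : R} (hr : r ≠ 0) (h : r * x = 0) :
    x = 0 :=
  mul_left_cancel₀ hr (h.trans (mul_zero r).symm)

/-- the scaling of the variables -/
noncomputable def sc (w : σ → Y) (t : L) (lam : Y →+ ℤ) : MvPolynomial σ L →ₐ[L] MvPolynomial σ L :=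
  aeval fun j => (t ^ lam (w j)) • (X j : MvPolynomial σ L)

theorem sc_X (w : σ → Y) (t : L) (lam : Y →+ ℤ) (j : σ) :
    sc w t lam (X j) = (t ^ lam (w j)) • (X j : MvPolynomial σ L) := aeval_X _ j

theorem sc_monomial (w : σ → Y) {t : L} (ht : t ≠ 0) (lam : Y →+ ℤ) (d : σ →₀ ℕ) :
    sc w t lam (monomial d 1) = (t ^ lam (Finsupp.weight w d)) • monomial d (1 : L) := by
  induction d using Finsupp.induction_linear with
  | zero =>
    rw [map_zero, map_zero, zpow_zero, one_smul]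
    exact map_one _
  | add d d' hd hd' =>
    have e : (monomial (d + d') (1 : L) : MvPolynomial σ L) = monomial d 1 * monomial d' 1 := by
      rw [monomial_mul, one_mul]
    rw [e, map_mul, hd, hd', map_add, map_add, zpow_add₀ ht, smul_mul_smul_comm]
  | single j k =>
    rw [← X_pow_eq_monomial, map_pow, sc_X, smul_pow, Finsupp.weight_single, map_nsmul,
      ← zpow_natCast, ← zpow_mul, nsmul_eq_mul, mul_comm]

theorem sc_hom (w : σ → Y) {t : L} (ht : t ≠ 0) (lam : Y →+ ℤ) {g : MvPolynomial σ L} {y : Y}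
    (hg : IsWeightedHomogeneous w g y) : sc w t lam g = (t ^ lam y) • g := by
  conv_lhs => rw [g.as_sum]
  conv_rhs => rw [g.as_sum]
  rw [map_sum, Finset.smul_sum]
  refine Finset.sum_congr rfl fun d hd => ?_
  have e : (monomial d (coeff d g) : MvPolynomial σ L) = coeff d g • monomial d 1 := by
    rw [smul_monomial, smul_eq_mul, mul_one]
  rw [e, map_smul, sc_monomial w ht, hg (mem_support_iff.1 hd), smul_comm]

theorem sc_mem (w : σ → Y) {t : L} (ht : t ≠ 0) (lam : Y →+ ℤ) {p : Ideal (MvPolynomial σ L)}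
    (hp : ∀ y, ∀ g ∈ p, weightedHomogeneousComponent w y g ∈ p) {g : MvPolynomial σ L}
    (hg : g ∈ p) : sc w t lam g ∈ p := by
  rw [← sum_weightedHomogeneousComponent w g,
    finsum_eq_sum _ (weightedHomogeneousComponent_finsupp (w := w) g), map_sum]
  refine Ideal.sum_mem _ fun y _ => ?_
  rw [sc_hom w ht lam (weightedHomogeneousComponent_isWeightedHomogeneous y g), smul_eq_C_mul]
  exact p.mul_mem_left _ (hp y g hg)

theorem sc_comp (w : σ → Y) {t : L} (ht : t ≠ 0) (lam : Y →+ ℤ) :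
    (sc w t lam).comp (sc w t (-lam)) = AlgHom.id L _ := by
  ext1 j
  rw [AlgHom.comp_apply, sc_X, map_smul, sc_X, smul_smul, ← zpow_add₀ ht, AddMonoidHom.neg_apply,
    neg_add_cancel, zpow_zero, one_smul]
  rfl

/-- a pair of mutually inverse maps preserving `p` gives an automorphism of the quotient -/
theorem exists_equiv {R : Type} [CommRing R] [Algebra L R] (p : Ideal R) (f g : R →ₐ[L] R)
    (hf : ∀ x ∈ p, f x ∈ p) (hg : ∀ x ∈ p, g x ∈ p) (hfg : ∀ x, f (g x) = x)
    (hgf : ∀ x, g (f x) = x) :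
    ∃ ρ : (R ⧸ p) ≃ₐ[L] (R ⧸ p), ∀ x, ρ (Ideal.Quotient.mk p x) = Ideal.Quotient.mk p (f x) := by
  refine ⟨AlgEquiv.ofAlgHom (Ideal.quotientMapₐ p f fun x hx => hf x hx)
    (Ideal.quotientMapₐ p g fun x hx => hg x hx) ?_ ?_, fun x => rfl⟩
  · refine AlgHom.ext fun x => ?_
    obtain ⟨x, rfl⟩ := Ideal.Quotient.mk_surjective x
    exact congrArg (Ideal.Quotient.mk p) (hfg x)
  · refine AlgHom.ext fun x => ?_
    obtain ⟨x, rfl⟩ := Ideal.Quotient.mk_surjective x
    exact congrArg (Ideal.Quotient.mk p) (hgf x)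

theorem exists_sc (w : σ → Y) {t : L} (ht : t ≠ 0) (lam : Y →+ ℤ) {p : Ideal (MvPolynomial σ L)}
    (hp : ∀ y, ∀ g ∈ p, weightedHomogeneousComponent w y g ∈ p) :
    ∃ ρ : (MvPolynomial σ L ⧸ p) ≃ₐ[L] (MvPolynomial σ L ⧸ p),
      ∀ j, ρ (Ideal.Quotient.mk p (X j)) = (t ^ lam (w j)) • Ideal.Quotient.mk p (X j) := by
  obtain ⟨ρ, hρ⟩ := exists_equiv p (sc w t lam) (sc w t (-lam)) (fun _ => sc_mem w ht lam hp)
    (fun _ => sc_mem w ht (-lam) hp) (fun x => DFunLike.congr_fun (sc_comp w ht lam) x)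
    (fun x => by
      have := DFunLike.congr_fun (sc_comp w ht (-lam)) x
      rwa [neg_neg] at this)
  refine ⟨ρ, fun j => ?_⟩
  rw [hρ, sc_X]
  exact map_smul (Ideal.Quotient.mkₐ L p) _ _

theorem rename_pow_mem (τ : Equiv.Perm σ) {p : Ideal (MvPolynomial σ L)}
    (hp : ∀ g ∈ p, rename τ g ∈ p) (k : ℕ) : ∀ g ∈ p, rename (τ ^ k : Equiv.Perm σ) g ∈ p := by
  induction k with
  | zero =>
    intro g hg
    rw [pow_zero, Equiv.Perm.coe_one, rename_id]
    exact hg
  | succ k ih =>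
    intro g hg
    rw [pow_succ', Equiv.Perm.coe_mul, ← rename_rename]
    exact hp _ (ih g hg)

theorem exists_rename [Finite σ] (τ : σ ≃ σ) {p : Ideal (MvPolynomial σ L)}
    (hp : ∀ g ∈ p, rename τ g ∈ p) :
    ∃ ρ : (MvPolynomial σ L ⧸ p) ≃ₐ[L] (MvPolynomial σ L ⧸ p),
      ∀ j, ρ (Ideal.Quotient.mk p (X j)) = Ideal.Quotient.mk p (X (τ j)) := by
  have h1 : 0 < orderOf (τ : Equiv.Perm σ) := orderOf_pos _
  have h2 : ((τ : Equiv.Perm σ) ^ (orderOf (τ : Equiv.Perm σ) - 1) : Equiv.Perm σ) = τ.symm := by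
    refine eq_inv_of_mul_eq_one_left ?_
    rw [← pow_succ, Nat.sub_add_cancel h1, pow_orderOf_eq_one]
  have h3 := rename_pow_mem τ hp (orderOf (τ : Equiv.Perm σ) - 1)
  rw [h2] at h3
  obtain ⟨ρ, hρ⟩ := exists_equiv p (rename τ) (rename τ.symm) hp h3
    (fun x => by rw [rename_rename, Equiv.self_comp_symm, rename_id]; rfl)
    (fun x => by rw [rename_rename, Equiv.symm_comp_self, rename_id]; rfl)
  exact ⟨ρ, fun j => by rw [hρ, rename_X]⟩

end Crest.Agent.R181.Mc.MaS3
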