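import Crest.Agent.R181.MaAm
import Crest.Agent.R181.KPoly
import Crest.Agent.R181.MaSimpleAux3
import Crest.Agent.R181.MaSimpleAux2

/-! Row 181 (route 2): the simple lemma over an arbitrary skew field. -/

set_option autoImplicit false

namespace Crest.Agent.R181.Mc

open MvPolynomial
open scoped TensorProduct

/-- The numerical and geometric input of stage A1. -/
structure Model (L : Type) [Field L] (N a : ℕ) [NeZero a] (σ Y : Type) [Fintype σ] [DecidableEq σ]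
    [AddCommGroup Y] (w : σ → Y) (n h c : ℕ) where
  E : K.Eqs L w n h c
  S : K.Sym Y N a
  hc : N + h + 1 ≤ c
  hw1 : ∀ j, S.x0 (w j) = 1
  τ : Fin N → σ ≃ σ
  hτ : ∀ m j, w (τ m j) = S.s m (w j)
  hw : ∀ j m, ∑ i, S.x m i (w j) = 0
  hw0 : ∀ m i, S.x m i E.w0 = 0
  hpos : 0 < S.x0 E.w0
  p : Ideal (MvPolynomial σ L)
  hp : ∀ y, ∀ g ∈ p, weightedHomogeneousComponent w y g ∈ p
  hF : ∀ k, E.F k ∈ p
  hreg : ∀ (k : Fin h) (g : MvPolynomial σ L),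
    E.F k * g ∈ Ideal.span {g | ∃ i : Fin h, i.val < k ∧ g = E.F i} →
    ∀ Δ ∈ E.𝒟, ∃ r : ℕ, Δ ^ r * g ∈ Ideal.span {g | ∃ i : Fin h, i.val < k ∧ g = E.F i}
  hsat : ∀ g ∈ p, ∀ Δ ∈ E.𝒟, ∃ r : ℕ, Δ ^ r * g ∈ Ideal.span (Set.range E.F)
  o : (Fin N → ZMod a) → Y
  ho : ∀ μ m, ∑ i, S.x m i (o μ) = 1
  hos : ∀ m μ, S.s m (o μ) = o (μ + Pi.single m 1)
  sepY : ∀ y : Y, y ≠ 0 → ∃ lam : Y →+ ℤ, lam y ≠ 0

variable {L : Type} [Field L] {N a : ℕ} [NeZero a] {σ Y : Type} [Fintype σ] [DecidableEq σ]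
  [AddCommGroup Y] {w : σ → Y} {n h c : ℕ} (𝓜 : Model L N a σ Y w n h c)
  (D : Type) [DivisionRing D] [Algebra L D]

namespace Model

/-- the graded module `D ⊗ R` -/
noncomputable abbrev G0 : K.GM D L w (D ⊗[L] MvPolynomial σ L) :=
  (K.poly L w 𝓜.S.x0 𝓜.hw1).bc D

/-- the ambient graded module -/
noncomputable abbrev G : K.GM D L w ((Fin N → ZMod a) → D ⊗[L] MvPolynomial σ L) :=
  (𝓜.G0 D).pi (Fin N → ZMod a) 𝓜.o

/-- the quotient map `D ⊗ R → D ⊗ R / p` -/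
noncomputable def q : D ⊗[L] MvPolynomial σ L →ₐ[L] D ⊗[L] (MvPolynomial σ L ⧸ 𝓜.p) :=
  Algebra.TensorProduct.map (AlgHom.id L D) (Ideal.Quotient.mkₐ L 𝓜.p)

/-- `D ⊗ p` -/
noncomputable abbrev P : Submodule D (D ⊗[L] MvPolynomial σ L) :=
  (𝓜.p.restrictScalars L).baseChange D

/-- the preimage of a submodule -/
noncomputable def pre
    (M : Submodule (D ⊗[L] (MvPolynomial σ L ⧸ 𝓜.p))
      ((Fin N → ZMod a) → D ⊗[L] (MvPolynomial σ L ⧸ 𝓜.p))) :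
    Submodule D ((Fin N → ZMod a) → D ⊗[L] MvPolynomial σ L) where
  carrier := {x | (fun μ => 𝓜.q D (x μ)) ∈ M}
  add_mem' := by
    intro x y hx hy
    have h := M.add_mem hx hy
    show (fun μ => 𝓜.q D (x μ + y μ)) ∈ M
    simp only [map_add]
    exact h
  zero_mem' := by
    show (fun _ => 𝓜.q D 0) ∈ M
    simp only [map_zero]
    exact M.zero_mem
  smul_mem' := by
    intro d x hx
    have h := M.smul_mem (d ⊗ₜ[L] 1) hx
    have e : ∀ z : D ⊗[L] MvPolynomial σ L,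
        𝓜.q D (d • z) = (d ⊗ₜ[L] (1 : MvPolynomial σ L ⧸ 𝓜.p)) * 𝓜.q D z := by
      intro z
      have e1 : d • z = (d ⊗ₜ[L] (1 : MvPolynomial σ L)) * z := by
        induction z using TensorProduct.induction_on with
        | zero => simp
        | tmul x y => simp [TensorProduct.smul_tmul']
        | add x y h1 h2 => rw [smul_add, mul_add, h1, h2]
      rw [e1, map_mul]
      simp [q]
    show (fun μ => 𝓜.q D (d • x μ)) ∈ M
    simp only [e]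
    exact h

theorem mem_pre (M : Submodule (D ⊗[L] (MvPolynomial σ L ⧸ 𝓜.p))
      ((Fin N → ZMod a) → D ⊗[L] (MvPolynomial σ L ⧸ 𝓜.p)))
    (x : (Fin N → ZMod a) → D ⊗[L] MvPolynomial σ L) :
    x ∈ 𝓜.pre D M ↔ (fun μ => 𝓜.q D (x μ)) ∈ M := Iff.rfl

theorem q_surjective : Function.Surjective (𝓜.q D) :=
  Algebra.TensorProduct.map_surjective _ _ Function.surjective_id
    (Ideal.Quotient.mkₐ_surjective L 𝓜.p)

theorem q_eq_zero_iff (z : D ⊗[L] MvPolynomial σ L) : 𝓜.q D z = 0 ↔ z ∈ 𝓜.P D := by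
  have hex : Function.Exact (𝓜.p.restrictScalars L).subtype
      (Ideal.Quotient.mkₐ L 𝓜.p).toLinearMap := by
    intro r
    constructor
    · intro h0
      exact ⟨⟨r, Ideal.Quotient.eq_zero_iff_mem.1 h0⟩, rfl⟩
    · rintro ⟨s, rfl⟩
      exact Ideal.Quotient.eq_zero_iff_mem.2 s.2
  exact lTensor_exact D hex (Ideal.Quotient.mkₐ_surjective L 𝓜.p) z

theorem pre_bot : 𝓜.pre D ⊥ = Submodule.pi Set.univ fun _ => 𝓜.P D := by
  ext x
  rw [mem_pre, Submodule.mem_bot, Submodule.mem_pi, funext_iff]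
  exact forall_congr' fun μ => by
    rw [Pi.zero_apply, q_eq_zero_iff]
    simp only [Set.mem_univ, true_imp_iff]

include 𝓜 in
theorem ms1_hc : h ≤ c := by have := 𝓜.hc; omega

theorem ms1_ρ (g : MvPolynomial σ L) (z : D ⊗[L] MvPolynomial σ L) :
    (𝓜.G0 D).ρ g z = ((1 : D) ⊗ₜ[L] g) * z := by
  rw [K.GM.bc_ρ]
  induction z using TensorProduct.induction_on with
  | zero => simp
  | tmul d r => rw [LinearMap.baseChange_tmul, K.poly_ρ]; simp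
  | add x y h1 h2 => rw [map_add, mul_add, h1, h2]

theorem ms1_π (y : Y) (d : D) (r : MvPolynomial σ L) :
    (𝓜.G0 D).π y (d ⊗ₜ[L] r) = d ⊗ₜ[L] weightedHomogeneousComponent w y r := by
  rw [K.GM.bc_π, LinearMap.baseChange_tmul, K.poly_π]

theorem ms1_qF (k : Fin h) (z : D ⊗[L] MvPolynomial σ L) :
    𝓜.q D ((𝓜.G0 D).ρ (𝓜.E.F k) z) = 0 := by
  rw [ms1_ρ, map_mul, (𝓜.q_eq_zero_iff D _).2
    (Submodule.tmul_mem_baseChange_of_mem _ (𝓜.hF k))]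
  exact zero_mul (𝓜.q D z)

theorem ms1_good : (𝓜.G0 D).Good (𝓜.P D) :=
  K.GM.good_bc _ D (K.poly_good _ _ 𝓜.hp)

theorem ms1_mul (y y' : Y) (r s : D ⊗[L] MvPolynomial σ L) :
    (𝓜.G0 D).π y r * (𝓜.G0 D).π y' s = (𝓜.G0 D).π (y + y') (r * (𝓜.G0 D).π y' s) := by
  induction r using TensorProduct.induction_on with
  | zero => simp
  | add a b h1 h2 => rw [map_add, add_mul, add_mul, map_add, h1, h2]
  | tmul d r =>
    induction s using TensorProduct.induction_on with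
    | zero => simp
    | add a b h1 h2 => rw [map_add, mul_add, mul_add, map_add, h1, h2]
    | tmul d' s =>
      have h1 := (K.poly L w 𝓜.S.x0 𝓜.hw1).hom_ρ
        (weightedHomogeneousComponent_isWeightedHomogeneous (w := w) y' s) y r
      rw [K.poly_ρ, K.poly_ρ, K.poly_π, K.poly_π] at h1
      rw [ms1_π, ms1_π, Algebra.TensorProduct.tmul_mul_tmul, Algebra.TensorProduct.tmul_mul_tmul,
        ms1_π, mul_comm _ (weightedHomogeneousComponent w y' s), h1, mul_comm r]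

/-- every vector is the sum of its homogeneous components -/
theorem ms1_sum (x : (Fin N → ZMod a) → D ⊗[L] MvPolynomial σ L) :
    ∃ T : Finset Y, ∀ T', T ⊆ T' → ∑ y ∈ T', (𝓜.G D).π y x = x := by
  classical
  let Q : AddSubmonoid ((Fin N → ZMod a) → D ⊗[L] MvPolynomial σ L) :=
    { carrier := {x | ∃ T : Finset Y, ∀ T', T ⊆ T' → ∑ y ∈ T', (𝓜.G D).π y x = x}
      zero_mem' := ⟨∅, fun T' _ => by simp⟩
      add_mem' := by
        rintro u v ⟨T, hT⟩ ⟨S, hS⟩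
        refine ⟨T ∪ S, fun T' h' => ?_⟩
        simp only [map_add, Finset.sum_add_distrib]
        rw [hT T' (Finset.subset_union_left.trans h'), hS T' (Finset.subset_union_right.trans h')] }
  have hom : ∀ y u, (𝓜.G D).π y u = u → u ∈ Q := by
    intro y u hu
    refine ⟨{y}, fun T' h' => ?_⟩
    rw [Finset.sum_eq_single y, hu]
    · intro y' _ hy'
      rw [← hu, (𝓜.G D).π_ne y' y u hy']
    · intro hy
      exact absurd (h' (Finset.mem_singleton_self y)) hy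
  change x ∈ Q
  rw [← Finset.univ_sum_single x]
  refine Q.sum_mem fun μ _ => ?_
  induction x μ using TensorProduct.induction_on with
  | zero => rw [Pi.single_zero]; exact Q.zero_mem
  | add a b h1 h2 => rw [Pi.single_add]; exact Q.add_mem h1 h2
  | tmul d r =>
    induction r using MvPolynomial.induction_on' with
    | add p q h1 h2 => rw [TensorProduct.tmul_add, Pi.single_add]; exact Q.add_mem h1 h2
    | monomial u c =>
      refine hom (Finsupp.weight w u + 𝓜.o μ) _ ?_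
      funext k
      rw [K.GM.pi_π]
      by_cases hk : k = μ
      · subst hk
        rw [Pi.single_eq_same, add_sub_cancel_right, ms1_π,
          weightedHomogeneousComponent_of_mem
            ((mem_weightedHomogeneousSubmodule L w _ _).2
              (isWeightedHomogeneous_monomial w u c rfl)), if_pos rfl]
      · rw [Pi.single_eq_of_ne hk, map_zero]

/-- the multiplicity of `D ⊗ R / p` -/
theorem e_P : (𝓜.G0 D).e 𝓜.S.x0 h (𝓜.P D) ⊤ = 𝓜.S.x0 𝓜.E.w0 ^ h * h.factorial := by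
  rw [← K.poly_e 𝓜.S.x0 𝓜.hw1 𝓜.E (by have := 𝓜.hc; omega) 𝓜.hreg 𝓜.hp 𝓜.hF 𝓜.hsat]
  show K.lam _ (K.GM.Kp _ _ _) = K.lam _ (K.GM.Kp _ _ _)
  rw [← K.GM.Kp_bc _ D, Submodule.baseChange_top]

theorem e_top : (𝓜.G D).e 𝓜.S.x0 h (𝓜.pre D ⊥) ⊤ =
    𝓜.S.x0 𝓜.E.w0 ^ h * h.factorial * (a : ℤ) ^ N := by
  have hmem := 𝓜.E.Kp_mem 𝓜.ms1_hc (𝓜.ms1_good D) (𝓜.G0 D).good_top le_top
    fun k m _ => (𝓜.q_eq_zero_iff D _).1 (𝓜.ms1_qF D k m)
  rw [pre_bot, ← e_P 𝓜 D, ← Submodule.pi_top Set.univ]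
  show K.lam _ (K.GM.Kp _ _ _) = K.lam _ (K.GM.Kp _ _ _) * _
  rw [K.GM.Kp_pi _ _ (𝓜.ms1_good D) (𝓜.G0 D).good_top le_top, Finset.sum_mul, map_sum,
    Finset.sum_congr rfl fun k _ => K.lam_pw_z_mul _ _ _ hmem]
  simp [mul_comm]

/-- a homogeneous vector outside a saturated graded submodule gives full multiplicity -/
theorem e_ge [IsDomain (D ⊗[L] (MvPolynomial σ L ⧸ 𝓜.p))]
    (A B : Submodule (D ⊗[L] (MvPolynomial σ L ⧸ 𝓜.p))
      ((Fin N → ZMod a) → D ⊗[L] (MvPolynomial σ L ⧸ 𝓜.p))) (hAB : A < B)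
    (hA : (𝓜.G D).Good (𝓜.pre D A)) (hB : (𝓜.G D).Good (𝓜.pre D B))
    (hsat : ∀ r : D ⊗[L] (MvPolynomial σ L ⧸ 𝓜.p), r ≠ 0 → ∀ x, r • x ∈ A → x ∈ A) :
    𝓜.S.x0 𝓜.E.w0 ^ h * h.factorial ≤ (𝓜.G D).e 𝓜.S.x0 h (𝓜.pre D A) (𝓜.pre D B) := by
  obtain ⟨b, hbB, hbA⟩ := SetLike.exists_of_lt hAB
  choose x hx using fun μ => 𝓜.q_surjective D (b μ)
  obtain rfl : b = fun μ => 𝓜.q D (x μ) := funext fun μ => (hx μ).symm
  obtain ⟨v, hv⟩ : ∃ v, (𝓜.G D).π v x ∉ 𝓜.pre D A := by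
    by_contra h0
    push Not at h0
    obtain ⟨T, hT⟩ := 𝓜.ms1_sum D x
    exact hbA (show x ∈ 𝓜.pre D A from hT T le_rfl ▸ Submodule.sum_mem _ fun y _ => h0 y)
  have hvB : (𝓜.G D).π v x ∈ 𝓜.pre D B := hB.gr v x hbB
  let f : D ⊗[L] MvPolynomial σ L →ₗ[D] ((Fin N → ZMod a) → D ⊗[L] MvPolynomial σ L) :=
    { toFun := fun r μ => r * (𝓜.G D).π v x μ
      map_add' := fun r s => funext fun μ => add_mul _ _ _
      map_smul' := fun d r => funext fun μ => smul_mul_assoc _ _ _ }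
  have hf : ∀ r μ, f r μ = r * (𝓜.G D).π v x μ := fun _ _ => rfl
  have hq : ∀ r, (fun μ => 𝓜.q D (f r μ)) = 𝓜.q D r • fun μ => 𝓜.q D ((𝓜.G D).π v x μ) :=
    fun r => funext fun μ => map_mul _ _ _
  rw [← e_P 𝓜 D]
  refine 𝓜.E.e_ge 𝓜.ms1_hc 𝓜.S.x0 𝓜.hw1 (f := f) (v := v) (fun y r => ?_) (fun g r => ?_) hA hB
    (fun z hz => hAB.le hz) (fun k m _ => ?_) (fun r => ?_) ?_
  · funext μ
    rw [K.GM.pi_π, hf, hf, K.GM.pi_π, ms1_mul, add_sub_assoc]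
  · funext μ
    rw [K.GM.pi_ρ, hf, hf, ms1_ρ, ms1_ρ, mul_assoc]
  · rw [mem_pre]
    convert A.zero_mem using 1
    funext μ
    rw [K.GM.pi_ρ, ms1_qF, Pi.zero_apply]
  · rw [mem_pre, hq]
    exact B.smul_mem _ hvB
  · ext r
    rw [Submodule.mem_comap, mem_pre, hq, ← q_eq_zero_iff]
    constructor
    · intro h1
      by_contra h2
      exact hv (hsat _ h2 _ h1)
    · intro h1
      rw [h1]
      convert A.zero_mem using 1
      funext μ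
      exact zero_mul (𝓜.q D ((𝓜.G D).π v x μ))

/-- the operator of a symmetry -/
noncomputable def act (g : Sym L (MvPolynomial σ L ⧸ 𝓜.p) (Fin N → ZMod a))
    (x : (Fin N → ZMod a) → D ⊗[L] (MvPolynomial σ L ⧸ 𝓜.p)) :
    (Fin N → ZMod a) → D ⊗[L] (MvPolynomial σ L ⧸ 𝓜.p) :=
  fun m => ((g.c (g.π.symm m) : Lˣ) : L) •
    Algebra.TensorProduct.map (AlgHom.id L D) g.ρ.toAlgHom (x (g.π.symm m))

/-- the torus element attached to `lam` -/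
def IsTor (lam : Y →+ ℤ) (g : Sym L (MvPolynomial σ L ⧸ 𝓜.p) (Fin N → ZMod a)) : Prop :=
  g.π = 1 ∧ (∀ j, g.ρ (Ideal.Quotient.mk 𝓜.p (X j)) =
      ((2 : L) ^ lam (w j)) • Ideal.Quotient.mk 𝓜.p (X j)) ∧
    ∀ μ, ((g.c μ : Lˣ) : L) = (2 : L) ^ lam (𝓜.o μ)

/-- a lift of the `m`-th cyclic shift -/
def IsShift (m : Fin N) (g : Sym L (MvPolynomial σ L ⧸ 𝓜.p) (Fin N → ZMod a)) : Prop :=
  (∀ μ, g.π μ = μ + Pi.single m 1) ∧
    ∀ j, g.ρ (Ideal.Quotient.mk 𝓜.p (X j)) = Ideal.Quotient.mk 𝓜.p (X (𝓜.τ m j))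

/-- the lift of `act g` to the ambient module -/
noncomputable def ms2_hat (g : Sym L (MvPolynomial σ L ⧸ 𝓜.p) (Fin N → ZMod a))
    (φ : MvPolynomial σ L →ₐ[L] MvPolynomial σ L) :
    Module.End D ((Fin N → ZMod a) → D ⊗[L] MvPolynomial σ L) :=
  LinearMap.pi fun m => (((g.c (g.π.symm m) : Lˣ) : L) • φ.toLinearMap).baseChange D ∘ₗ
    LinearMap.proj (g.π.symm m)

theorem ms2_hat_apply (g : Sym L (MvPolynomial σ L ⧸ 𝓜.p) (Fin N → ZMod a))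
    (φ : MvPolynomial σ L →ₐ[L] MvPolynomial σ L)
    (x : (Fin N → ZMod a) → D ⊗[L] MvPolynomial σ L) (m : Fin N → ZMod a) :
    𝓜.ms2_hat D g φ x m =
      (((g.c (g.π.symm m) : Lˣ) : L) • φ.toLinearMap).baseChange D (x (g.π.symm m)) := rfl

theorem ms2_G_π (y : Y) (x : (Fin N → ZMod a) → D ⊗[L] MvPolynomial σ L) (m : Fin N → ZMod a) :
    (𝓜.G D).π y x m = (weightedHomogeneousComponent w (y - 𝓜.o m)).baseChange D (x m) := rfl

theorem ms2_q_tmul (d : D) (r : MvPolynomial σ L) :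
    𝓜.q D (d ⊗ₜ[L] r) = d ⊗ₜ[L] Ideal.Quotient.mk 𝓜.p r := rfl

theorem ms2_hat_mem
    (M : Submodule (D ⊗[L] (MvPolynomial σ L ⧸ 𝓜.p))
      ((Fin N → ZMod a) → D ⊗[L] (MvPolynomial σ L ⧸ 𝓜.p)))
    (g : Sym L (MvPolynomial σ L ⧸ 𝓜.p) (Fin N → ZMod a))
    (φ : MvPolynomial σ L →ₐ[L] MvPolynomial σ L)
    (hφ : ∀ j, g.ρ (Ideal.Quotient.mk 𝓜.p (X j)) = Ideal.Quotient.mk 𝓜.p (φ (X j)))
    (hM : ∀ x ∈ M, 𝓜.act D g x ∈ M) : ∀ x ∈ 𝓜.pre D M, 𝓜.ms2_hat D g φ x ∈ 𝓜.pre D M := by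
  intro x hx
  have h1 : g.ρ.toAlgHom.comp (Ideal.Quotient.mkₐ L 𝓜.p) = (Ideal.Quotient.mkₐ L 𝓜.p).comp φ :=
    MvPolynomial.algHom_ext hφ
  have h2 : ∀ r, g.ρ (Ideal.Quotient.mk 𝓜.p r) = Ideal.Quotient.mk 𝓜.p (φ r) :=
    fun r => AlgHom.congr_fun h1 r
  have h3 : ∀ (e : L) (z : D ⊗[L] MvPolynomial σ L),
      𝓜.q D ((e • φ.toLinearMap).baseChange D z) =
        e • Algebra.TensorProduct.map (AlgHom.id L D) g.ρ.toAlgHom (𝓜.q D z) := by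
    intro e z
    induction z using TensorProduct.induction_on with
    | zero => simp
    | tmul d r =>
      rw [LinearMap.baseChange_tmul, LinearMap.smul_apply, TensorProduct.tmul_smul, map_smul,
        ms2_q_tmul, ms2_q_tmul, Algebra.TensorProduct.map_tmul]
      exact congrArg (fun t => e • d ⊗ₜ[L] t) (h2 r).symm
    | add x y hx hy => simp only [map_add, hx, hy, smul_add]
  have h4 := hM _ hx
  rw [mem_pre]
  convert h4 using 1
  funext m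
  exact h3 _ _

theorem ms2_deg {y : Y} {B : Submodule D ((Fin N → ZMod a) → D ⊗[L] MvPolynomial σ L)}
    (hy : (𝓜.G D).hf B y ≠ 0) : ∃ μ, ∃ u : σ →₀ ℕ, y = 𝓜.o μ + Finsupp.weight w u := by
  by_contra h
  apply hy
  have : B.map ((𝓜.G D).π y) = ⊥ := by
    rw [eq_bot_iff]
    rintro _ ⟨x, -, rfl⟩
    rw [Submodule.mem_bot]
    funext μ
    exact ms2_zero w (fun u hu => h ⟨μ, u, by rw [← hu]; abel⟩) _
  show ((Module.finrank D (B.map ((𝓜.G D).π y)) : ℕ) : ℤ) = 0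
  rw [this, finrank_bot]
  rfl

theorem ms2_period (m : Fin N) (μ : Fin N → ZMod a) (u : σ →₀ ℕ) :
    (𝓜.S.s m)^[a * orderOf (𝓜.τ m)] (𝓜.o μ + Finsupp.weight w u) =
      𝓜.o μ + Finsupp.weight w u := by
  have h1 : ∀ k : ℕ, (𝓜.S.s m)^[k] (𝓜.o μ) = 𝓜.o (μ + k • Pi.single m 1) := by
    intro k
    induction k with
    | zero => simp
    | succ k ih => rw [Function.iterate_succ_apply', ih, 𝓜.hos, succ_nsmul, add_assoc]
  have h2 : ∀ (k : ℕ) j, (𝓜.S.s m)^[k] (w j) = w ((𝓜.τ m ^ k) j) := by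
    intro k j
    induction k with
    | zero => simp
    | succ k ih => rw [Function.iterate_succ_apply', ih, ← 𝓜.hτ, pow_succ', Equiv.Perm.mul_apply]
  let Z : AddSubmonoid Y :=
    { carrier := {y | (𝓜.S.s m)^[a * orderOf (𝓜.τ m)] y = y}
      add_mem' := fun {x y} hx hy => by
        show _ = _
        rw [iterate_map_add, hx, hy]
      zero_mem' := iterate_map_zero _ _ }
  have h3 : 𝓜.o μ ∈ Z := by
    show _ = _
    rw [h1]
    congr 1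
    funext i
    simp [mul_assoc]
  have h4 : Finsupp.weight w u ∈ Z := by
    refine ms2_weight_ind w Z (fun j => ?_) u
    show _ = _
    rw [h2, mul_comm, pow_mul, pow_orderOf_eq_one, one_pow]
    rfl
  exact Z.add_mem h3 h4

/-- torus stable submodules are graded -/
theorem good_pre [CharZero L]
    (M : Submodule (D ⊗[L] (MvPolynomial σ L ⧸ 𝓜.p))
      ((Fin N → ZMod a) → D ⊗[L] (MvPolynomial σ L ⧸ 𝓜.p)))
    (hM : ∀ lam, ∃ g, 𝓜.IsTor lam g ∧ ∀ x ∈ M, 𝓜.act D g x ∈ M) : (𝓜.G D).Good (𝓜.pre D M) := by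
  classical
  constructor
  · intro g x hx
    have h := M.smul_mem ((1 : D) ⊗ₜ[L] Ideal.Quotient.mk 𝓜.p g) hx
    rw [mem_pre]
    convert h using 1
    funext μ
    show 𝓜.q D ((LinearMap.mul L _ g).baseChange D (x μ)) =
      ((1 : D) ⊗ₜ[L] Ideal.Quotient.mk 𝓜.p g) * 𝓜.q D (x μ)
    have e1 : (LinearMap.mul L _ g).baseChange D (x μ) = ((1 : D) ⊗ₜ[L] g) * x μ := by
      induction x μ using TensorProduct.induction_on with
      | zero => simp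
      | tmul d r => simp
      | add x y hx hy => rw [map_add, mul_add, hx, hy]
    rw [e1, map_mul, ms2_q_tmul]
  · choose g hg hgM using hM
    refine ms2_sep (𝓜.G D).π (𝓜.pre D M) (𝓜.G D).π_self (𝓜.G D).π_ne ?_ ?_
      (fun lam x => 𝓜.ms2_hat D (g lam) (ms2_tor L w lam) x)
      (fun lam y => algebraMap L D ((2 : L) ^ lam y)) ?_ ?_ ?_
    · intro x hx
      funext μ
      obtain ⟨s, -, hs⟩ := ms2_dec w (x μ)
      rw [← hs]
      refine Finset.sum_eq_zero fun y _ => ?_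
      have := congrFun (hx (y + 𝓜.o μ)) μ
      rwa [ms2_G_π, add_sub_cancel_right] at this
    · intro x
      choose s hs _ using fun μ => ms2_dec w (x μ)
      refine ⟨Finset.univ.biUnion fun μ => (s μ).image (· + 𝓜.o μ), fun y hy => ?_⟩
      funext μ
      refine hs μ _ fun h => hy ?_
      exact Finset.mem_biUnion.2 ⟨μ, Finset.mem_univ _,
        Finset.mem_image.2 ⟨_, h, sub_add_cancel _ _⟩⟩
    · intro lam y x
      funext μ
      obtain ⟨h1, -, h3⟩ := hg lam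
      rw [ms2_G_π, ms2_hat_apply, ms2_tor_π, Pi.smul_apply, ms2_G_π, h3, h1,
        ← zpow_add₀ two_ne_zero, ← map_add]
      show algebraMap L D (2 ^ lam (𝓜.o μ + (y - 𝓜.o μ))) • _ = _
      rw [add_sub_cancel]
      rfl
    · intro lam
      refine 𝓜.ms2_hat_mem D M _ _ (fun j => ?_) (hgM lam)
      rw [(hg lam).2.1, ms2_tor_X]
      exact (map_smul (Ideal.Quotient.mkₐ L 𝓜.p) _ _).symm
    · intro y y' hy
      obtain ⟨lam, hlam⟩ := 𝓜.sepY (y - y') (sub_ne_zero.2 hy)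
      refine ⟨lam, fun h => hlam ?_⟩
      have h1 := (algebraMap L D).injective h
      have h2 : ((2 : ℚ) ^ lam y) = (2 : ℚ) ^ lam y' := by
        apply (algebraMap ℚ L).injective
        simpa using h1
      rw [map_sub, sub_eq_zero]
      exact zpow_right_injective₀ (by norm_num) (by norm_num) h2

/-- shift stable graded submodules have invariant Hilbert functions -/
theorem inv_pre
    (M : Submodule (D ⊗[L] (MvPolynomial σ L ⧸ 𝓜.p))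
      ((Fin N → ZMod a) → D ⊗[L] (MvPolynomial σ L ⧸ 𝓜.p)))
    (hG : (𝓜.G D).Good (𝓜.pre D M))
    (hM : ∀ m, ∃ g, 𝓜.IsShift m g ∧ ∀ x ∈ M, 𝓜.act D g x ∈ M) :
    𝓜.S.Inv ((𝓜.G D).hf (𝓜.pre D M)) := by
  constructor
  · intro m
    obtain ⟨g, ⟨h1, h2⟩, h3⟩ := hM m
    set T := 𝓜.ms2_hat D g (rename (𝓜.τ m)) with hT
    have hmem : ∀ x ∈ 𝓜.pre D M, T x ∈ 𝓜.pre D M :=
      𝓜.ms2_hat_mem D M g _ (fun j => by rw [h2, rename_X]) h3
    have hπ : ∀ y x, (𝓜.G D).π (𝓜.S.s m y) (T x) = T ((𝓜.G D).π y x) := by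
      intro y x
      funext μ
      obtain ⟨μ, rfl⟩ := g.π.surjective μ
      rw [ms2_G_π, hT, ms2_hat_apply, ms2_hat_apply, ms2_G_π, Equiv.symm_apply_apply, h1,
        ← 𝓜.hos, ← map_sub]
      exact ms2_ren_π w _ _ (𝓜.hτ m) _ _ _
    have hinj : Function.Injective T := by
      rw [injective_iff_map_eq_zero]
      intro x hx
      funext μ
      have := congrFun hx (g.π μ)
      rw [hT, ms2_hat_apply, Equiv.symm_apply_apply] at this
      exact ms2_ren_inj _ _ _ this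
    have hle : ∀ y, (𝓜.G D).hf (𝓜.pre D M) y ≤ (𝓜.G D).hf (𝓜.pre D M) (𝓜.S.s m y) := by
      intro y
      have := K.GM.KGM2_fin (𝓜.G D) (𝓜.pre D M) (𝓜.S.s m y)
      have e1 := (Submodule.equivMapOfInjective T hinj
        ((𝓜.pre D M).map ((𝓜.G D).π y))).finrank_eq
      have e2 : ((𝓜.pre D M).map ((𝓜.G D).π y)).map T ≤
          (𝓜.pre D M).map ((𝓜.G D).π (𝓜.S.s m y)) := by
        rintro _ ⟨_, ⟨x, hx, rfl⟩, rfl⟩
        exact ⟨T x, hmem x hx, hπ y x⟩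
      have e3 := Submodule.finrank_mono e2
      show ((Module.finrank D ((𝓜.pre D M).map ((𝓜.G D).π y)) : ℕ) : ℤ) ≤
        (Module.finrank D ((𝓜.pre D M).map ((𝓜.G D).π (𝓜.S.s m y))) : ℕ)
      omega
    have hk : 0 < a * orderOf (𝓜.τ m) := Nat.mul_pos (NeZero.pos a) (orderOf_pos _)
    intro y
    by_cases hy : (𝓜.G D).hf (𝓜.pre D M) y = 0
    · by_contra hne
      rw [hy] at hne
      obtain ⟨μ, u, hu⟩ := 𝓜.ms2_deg D hne
      have h4 := 𝓜.ms2_period m μ u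
      rw [← hu, ← Function.iterate_succ_apply, Function.iterate_succ_apply'] at h4
      exact hne ((ms2_cyc hle hk ((𝓜.S.s m).injective h4)).trans hy)
    · obtain ⟨μ, u, rfl⟩ := 𝓜.ms2_deg D hy
      exact ms2_cyc hle hk (𝓜.ms2_period m μ u)
  · intro y hy m
    obtain ⟨μ, u, rfl⟩ := 𝓜.ms2_deg D hy
    have h1 : Finsupp.weight w u ∈ AddMonoidHom.mker (∑ i, 𝓜.S.x m i) :=
      ms2_weight_ind w _ (fun j => by
        rw [AddMonoidHom.mem_mker, AddMonoidHom.finsetSum_apply]; exact 𝓜.hw j m) u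
    rw [AddMonoidHom.mem_mker, AddMonoidHom.finsetSum_apply] at h1
    simp only [map_add, Finset.sum_add_distrib, 𝓜.ho, h1, add_zero]

theorem mas3_F (k : Fin h) (z : D ⊗[L] MvPolynomial σ L) :
    𝓜.q D ((𝓜.G0 D).ρ (𝓜.E.F k) z) = 0 := by
  induction z using TensorProduct.induction_on with
  | zero => rw [map_zero, map_zero]
  | tmul d g =>
    change d ⊗ₜ[L] Ideal.Quotient.mk 𝓜.p (𝓜.E.F k * g) = 0
    rw [Ideal.Quotient.eq_zero_iff_mem.2 (𝓜.p.mul_mem_right g (𝓜.hF k)), TensorProduct.tmul_zero]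
  | add x y hx hy => rw [map_add, map_add, hx, hy, add_zero]

theorem mas3_act_zero (g : Sym L (MvPolynomial σ L ⧸ 𝓜.p) (Fin N → ZMod a)) :
    𝓜.act D g 0 = 0 := by
  funext m
  change ((g.c (g.π.symm m) : Lˣ) : L) •
    Algebra.TensorProduct.map (AlgHom.id L D) g.ρ.toAlgHom 0 = 0
  rw [map_zero, smul_zero]

/-- The simple lemma. -/
theorem simple [CharZero L] [IsDomain (D ⊗[L] (MvPolynomial σ L ⧸ 𝓜.p))] {J : Type}
    (Γ : J → Sym L (MvPolynomial σ L ⧸ 𝓜.p) (Fin N → ZMod a))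
    (hT : ∀ lam, ∃ γ, 𝓜.IsTor lam (Γ γ)) (hS : ∀ m, ∃ γ, 𝓜.IsShift m (Γ γ))
    (M : Submodule (D ⊗[L] (MvPolynomial σ L ⧸ 𝓜.p))
      ((Fin N → ZMod a) → D ⊗[L] (MvPolynomial σ L ⧸ 𝓜.p)))
    (hM : ∀ γ, ∀ x ∈ M, 𝓜.act D (Γ γ) x ∈ M)
    (hsat : ∀ r : D ⊗[L] (MvPolynomial σ L ⧸ 𝓜.p), r ≠ 0 → ∀ x, r • x ∈ M → x ∈ M) :
    M = ⊥ ∨ M = ⊤ := by
  by_contra hne
  obtain ⟨hb, ht⟩ := not_or.1 hne
  have hbot : ∀ γ, ∀ x ∈ (⊥ : Submodule (D ⊗[L] (MvPolynomial σ L ⧸ 𝓜.p))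
      ((Fin N → ZMod a) → D ⊗[L] (MvPolynomial σ L ⧸ 𝓜.p))), 𝓜.act D (Γ γ) x ∈
      (⊥ : Submodule (D ⊗[L] (MvPolynomial σ L ⧸ 𝓜.p))
      ((Fin N → ZMod a) → D ⊗[L] (MvPolynomial σ L ⧸ 𝓜.p))) := by
    intro γ x hx
    rw [(Submodule.mem_bot _).1 hx, mas3_act_zero]
    exact Submodule.zero_mem _
  have g0 : (𝓜.G D).Good (𝓜.pre D ⊥) := 𝓜.good_pre D ⊥ fun lam => by
    obtain ⟨γ, hγ⟩ := hT lam
    exact ⟨Γ γ, hγ, hbot γ⟩
  have g1 : (𝓜.G D).Good (𝓜.pre D M) := 𝓜.good_pre D M fun lam => by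
    obtain ⟨γ, hγ⟩ := hT lam
    exact ⟨Γ γ, hγ, hM γ⟩
  have etop : 𝓜.pre D ⊤ = ⊤ := eq_top_iff.2 fun x _ => (𝓜.mem_pre D ⊤ x).2 Submodule.mem_top
  have g2 : (𝓜.G D).Good (𝓜.pre D ⊤) := by
    rw [etop]
    exact (𝓜.G D).good_top
  have i0 := 𝓜.inv_pre D ⊥ g0 fun m => by
    obtain ⟨γ, hγ⟩ := hS m
    exact ⟨Γ γ, hγ, hbot γ⟩
  have i1 := 𝓜.inv_pre D M g1 fun m => by
    obtain ⟨γ, hγ⟩ := hS m
    exact ⟨Γ γ, hγ, hM γ⟩
  have hle : 𝓜.pre D ⊥ ≤ 𝓜.pre D M := fun x hx =>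
    (𝓜.mem_pre D M x).2 (bot_le (a := M) ((𝓜.mem_pre D ⊥ x).1 hx))
  have e1 := 𝓜.e_ge D ⊥ M (bot_lt_iff_ne_bot.2 hb) g0 g1 fun r hr x hx => by
    rw [Submodule.mem_bot] at hx ⊢
    funext μ
    have h1 : r * x μ = 0 := congrFun hx μ
    exact MaS3.dom_zero (R := D ⊗[L] (MvPolynomial σ L ⧸ 𝓜.p)) (r := r) (x := x μ) hr h1
  have e2 := 𝓜.e_ge D M ⊤ (lt_top_iff_ne_top.2 ht) g1 g2 hsat
  rw [etop] at e2
  have e3 := K.GM.e_add 𝓜.S.x0 h g0 g1 (𝓜.G D).good_top hle le_top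
  rw [𝓜.e_top D] at e3
  have hinv : 𝓜.S.Inv ((𝓜.G D).H (𝓜.pre D ⊥) (𝓜.pre D M)) := by
    refine ⟨fun m y => ?_, fun y hy => ?_⟩
    · rw [K.GM.H_apply, K.GM.H_apply, i0.inv, i1.inv]
    · rw [K.GM.H_apply] at hy
      by_cases h1 : (𝓜.G D).hf (𝓜.pre D M) y = 0
      · refine i0.supp y fun h2 => hy ?_
        rw [h1, h2, sub_zero]
      · exact i1.supp y h1
  have hd := 𝓜.E.dvd_e 𝓜.S 𝓜.hc 𝓜.τ 𝓜.hτ 𝓜.hw 𝓜.hw0 g0 g1 hle
    (fun k x _ => (𝓜.mem_pre D ⊥ _).2 ((Submodule.mem_bot _).2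
      (funext fun μ => 𝓜.mas3_F D k (x μ)))) hinv
  have hκ : (0 : ℤ) < 𝓜.S.x0 𝓜.E.w0 ^ h * h.factorial :=
    mul_pos (pow_pos 𝓜.hpos h) (by exact_mod_cast h.factorial_pos)
  have h4 := Int.le_of_dvd (hκ.trans_le e1) hd
  linarith

/-- existence of the torus elements -/
theorem exists_tor [CharZero L] (lam : Y →+ ℤ) : ∃ g, 𝓜.IsTor lam g := by
  obtain ⟨ρ, hρ⟩ := MaS3.exists_sc w (two_ne_zero (α := L)) lam 𝓜.hp
  exact ⟨⟨ρ, 1, fun μ => Units.mk0 ((2 : L) ^ lam (𝓜.o μ)) (zpow_ne_zero _ two_ne_zero)⟩,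
    rfl, hρ, fun _ => rfl⟩

/-- existence of the shifts, with prescribed constants -/
theorem exists_shift (m : Fin N) (hp : ∀ g ∈ 𝓜.p, rename (𝓜.τ m) g ∈ 𝓜.p)
    (cst : (Fin N → ZMod a) → Lˣ) : ∃ g, 𝓜.IsShift m g ∧ g.c = cst := by
  obtain ⟨ρ, hρ⟩ := MaS3.exists_rename (𝓜.τ m) hp
  exact ⟨⟨ρ, Equiv.addRight (Pi.single m 1), cst⟩, ⟨fun _ => rfl, hρ⟩, rfl⟩

end Model

end Crest.Agent.R181.Mc
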