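import Mathlib

/-!
Row 181: the abstract rank machine.

An additive, integer valued function `Φ` on a class of noetherian modules, bounded on the quotients of each
module, gives the Sylvester rank function `d V = max Φ (V / N)`.  For `O` with `d O = 1` we build a module `U`
(a direct limit) whose endomorphism ring is a skew field.
-/

set_option autoImplicit false

namespace Crest.Agent.R181.Mach

/-- Input of the machine. -/
structure Setup (A : Type) [Ring A] where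
  Adm : ∀ (V : Type) [AddCommGroup V] [Module A V], Prop
  Φ : ∀ (V : Type) [AddCommGroup V] [Module A V], ℤ
  adm_equiv : ∀ {V W : Type} [AddCommGroup V] [Module A V] [AddCommGroup W] [Module A W],
    (V ≃ₗ[A] W) → Adm V → Adm W
  adm_sub : ∀ {V : Type} [AddCommGroup V] [Module A V], Adm V → ∀ N : Submodule A V, Adm N
  adm_quot : ∀ {V : Type} [AddCommGroup V] [Module A V], Adm V → ∀ N : Submodule A V, Adm (V ⧸ N)
  adm_prod : ∀ {V W : Type} [AddCommGroup V] [Module A V] [AddCommGroup W] [Module A W],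
    Adm V → Adm W → Adm (V × W)
  noeth : ∀ {V : Type} [AddCommGroup V] [Module A V], Adm V → IsNoetherian A V
  Φ_equiv : ∀ {V W : Type} [AddCommGroup V] [Module A V] [AddCommGroup W] [Module A W],
    (V ≃ₗ[A] W) → Φ V = Φ W
  Φ_add : ∀ {V : Type} [AddCommGroup V] [Module A V], Adm V →
    ∀ N : Submodule A V, Φ V = Φ N + Φ (V ⧸ N)
  bdd : ∀ {V : Type} [AddCommGroup V] [Module A V], Adm V →
    ∃ B : ℤ, ∀ N : Submodule A V, Φ (V ⧸ N) ≤ B

variable {A : Type} [Ring A] (S : Setup A)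

namespace Setup

/-- The rank function: the largest value of `Φ` on a quotient. -/
noncomputable def d (V : Type) [AddCommGroup V] [Module A V] : ℤ :=
  sSup (Set.range fun N : Submodule A V => S.Φ (V ⧸ N))

/-- The largest submodule of rank zero. -/
noncomputable def tau (V : Type) [AddCommGroup V] [Module A V] : Submodule A V :=
  sSup {K : Submodule A V | S.d K = 0}

/-- The maps which become invertible. -/
def Sig {M M' : Type} [AddCommGroup M] [Module A M] [AddCommGroup M'] [Module A M']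
    (s : M →ₗ[A] M') : Prop :=
  S.d (M' ⧸ LinearMap.range s) = 0 ∧ S.d M = S.d M'

variable {S}
variable {V W : Type} [AddCommGroup V] [Module A V] [AddCommGroup W] [Module A W]

theorem Φ_subsingleton (hV : S.Adm V) [Subsingleton V] : S.Φ V = 0 := by
  have h := S.Φ_add hV ⊤
  rw [S.Φ_equiv (Submodule.topEquiv : (⊤ : Submodule A V) ≃ₗ[A] V),
    S.Φ_equiv (LinearEquiv.ofSubsingleton (R := A) (V ⧸ (⊤ : Submodule A V)) V)] at h
  omega

theorem adm_surj (hV : S.Adm V) (f : V →ₗ[A] W) (hf : Function.Surjective f) : S.Adm W := by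
  exact S.adm_equiv (f.quotKerEquivOfSurjective hf) (S.adm_quot hV _)

theorem adm_inj (hW : S.Adm W) (f : V →ₗ[A] W) (hf : Function.Injective f) : S.Adm V := by
  exact S.adm_equiv (LinearEquiv.ofInjective f hf).symm (S.adm_sub hW _)

theorem adm_pi (hV : S.Adm V) (m : ℕ) : S.Adm (Fin m → V) := by
  induction m with
  | zero => exact adm_inj hV 0 (Function.injective_of_subsingleton _)
  | succ m ih => exact S.adm_equiv (Fin.consLinearEquiv A (fun _ => V)) (S.adm_prod hV ih)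

/-- additivity in the form of a short exact sequence -/
theorem Φ_exact {V' : Type} [AddCommGroup V'] [Module A V'] (hV : S.Adm V) (f : V' →ₗ[A] V) (g : V →ₗ[A] W)
    (hf : Function.Injective f) (hg : Function.Surjective g) (hfg : Function.Exact f g) :
    S.Φ V = S.Φ V' + S.Φ W := by
  rw [S.Φ_add hV (LinearMap.ker g), S.Φ_equiv (g.quotKerEquivOfSurjective hg),
    S.Φ_equiv (LinearEquiv.ofInjective f hf), hfg.linearMap_ker_eq]

theorem Φ_prod (hV : S.Adm V) (hW : S.Adm W) : S.Φ (V × W) = S.Φ V + S.Φ W := by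
  exact Φ_exact (S.adm_prod hV hW) (LinearMap.inl A V W) (LinearMap.snd A V W)
    LinearMap.inl_injective LinearMap.snd_surjective Function.Exact.inl_snd

theorem Φ_quot_le_d (hV : S.Adm V) (N : Submodule A V) : S.Φ (V ⧸ N) ≤ S.d V := by
  obtain ⟨B, hB⟩ := S.bdd hV
  exact le_csSup ⟨B, by rintro _ ⟨K, rfl⟩; exact hB K⟩ ⟨N, rfl⟩

theorem Φ_le_d (hV : S.Adm V) : S.Φ V ≤ S.d V := by
  rw [← S.Φ_equiv (Submodule.quotEquivOfEqBot (⊥ : Submodule A V) rfl)]
  exact Φ_quot_le_d hV _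

theorem exists_d (hV : S.Adm V) : ∃ N : Submodule A V, S.Φ (V ⧸ N) = S.d V := by
  obtain ⟨B, hB⟩ := S.bdd hV
  exact Int.csSup_mem (Set.range_nonempty fun N : Submodule A V => S.Φ (V ⧸ N))
    ⟨B, by rintro _ ⟨K, rfl⟩; exact hB K⟩

theorem d_nonneg (hV : S.Adm V) : 0 ≤ S.d V := by
  rw [← Φ_subsingleton (S.adm_quot hV ⊤)]
  exact Φ_quot_le_d hV _

theorem d_le (hV : S.Adm V) {B : ℤ} (h : ∀ N : Submodule A V, S.Φ (V ⧸ N) ≤ B) : S.d V ≤ B := by
  obtain ⟨N, hN⟩ := exists_d hV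
  exact hN ▸ h N

theorem Φ_le_d_of_surj (hV : S.Adm V) (f : V →ₗ[A] W) (hf : Function.Surjective f) :
    S.Φ W ≤ S.d V := by
  rw [← S.Φ_equiv (f.quotKerEquivOfSurjective hf)]
  exact Φ_quot_le_d hV _

theorem d_subsingleton (hV : S.Adm V) [Subsingleton V] : S.d V = 0 := by
  obtain ⟨N, hN⟩ := exists_d hV
  rw [← hN, Φ_subsingleton (S.adm_quot hV N)]

theorem d_surj (hV : S.Adm V) (f : V →ₗ[A] W) (hf : Function.Surjective f) : S.d W ≤ S.d V := by
  exact d_le (adm_surj hV f hf) fun N =>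
    Φ_le_d_of_surj hV (N.mkQ ∘ₗ f) (N.mkQ_surjective.comp hf)

theorem d_equiv (hV : S.Adm V) (e : V ≃ₗ[A] W) : S.d V = S.d W := by
  exact le_antisymm (d_surj (S.adm_equiv e hV) e.symm.toLinearMap e.symm.surjective)
    (d_surj hV e.toLinearMap e.surjective)

theorem d_le_add (hV : S.Adm V) (hW : S.Adm W) (f : V →ₗ[A] W) :
    S.d W ≤ S.d V + S.d (W ⧸ LinearMap.range f) := by
  refine d_le hW fun N => ?_
  rw [S.Φ_add (S.adm_quot hW N) (LinearMap.range (N.mkQ ∘ₗ f))]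
  refine add_le_add (Φ_le_d_of_surj hV _ (LinearMap.surjective_rangeRestrict _)) ?_
  refine Φ_le_d_of_surj (S.adm_quot hW _)
    ((LinearMap.range f).liftQ ((LinearMap.range (N.mkQ ∘ₗ f)).mkQ ∘ₗ N.mkQ) ?_) ?_
  · rintro _ ⟨v, rfl⟩
    exact (Submodule.Quotient.mk_eq_zero _).2 ⟨v, rfl⟩
  · intro q
    obtain ⟨w, rfl⟩ := ((LinearMap.range (N.mkQ ∘ₗ f)).mkQ_surjective.comp N.mkQ_surjective) q
    exact ⟨Submodule.Quotient.mk w, rfl⟩

theorem d_prod (hV : S.Adm V) (hW : S.Adm W) : S.d (V × W) = S.d V + S.d W := by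
  refine le_antisymm ?_ ?_
  · refine (d_le_add hV (S.adm_prod hV hW) (LinearMap.inl A V W)).trans (add_le_add le_rfl ?_)
    refine d_surj hW ((LinearMap.range (LinearMap.inl A V W)).mkQ ∘ₗ LinearMap.inr A V W) ?_
    intro q
    obtain ⟨⟨v, w⟩, rfl⟩ := Submodule.mkQ_surjective _ q
    exact ⟨w, (Submodule.Quotient.eq _).2 ⟨-v, by simp⟩⟩
  · obtain ⟨N, hN⟩ := exists_d hV
    obtain ⟨N', hN'⟩ := exists_d hW
    rw [← hN, ← hN', ← Φ_prod (S.adm_quot hV N) (S.adm_quot hW N')]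
    exact Φ_le_d_of_surj (S.adm_prod hV hW) (N.mkQ.prodMap N'.mkQ)
      (N.mkQ_surjective.prodMap N'.mkQ_surjective)

theorem d_pi (hV : S.Adm V) (m : ℕ) : S.d (Fin m → V) = m * S.d V := by
  induction m with
  | zero => simpa using d_subsingleton (adm_pi hV 0)
  | succ m ih =>
    rw [← d_equiv (S.adm_prod hV (adm_pi hV m)) (Fin.consLinearEquiv A (fun _ => V)),
      d_prod hV (adm_pi hV m), ih]
    push_cast
    ring

theorem d_sup_eq_zero (hV : S.Adm V) {K K' : Submodule A V} (hK : S.d K = 0) (hK' : S.d K' = 0) :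
    S.d ↥(K ⊔ K') = 0 := by
  refine le_antisymm ?_ (d_nonneg (S.adm_sub hV _))
  have h := d_prod (S.adm_sub hV K) (S.adm_sub hV K')
  rw [hK, hK', add_zero] at h
  rw [← h]
  refine d_surj (S.adm_prod (S.adm_sub hV K) (S.adm_sub hV K'))
    ((Submodule.inclusion le_sup_left).coprod (Submodule.inclusion le_sup_right)) ?_
  rintro ⟨x, hx⟩
  obtain ⟨y, hy, z, hz, rfl⟩ := Submodule.mem_sup.1 hx
  exact ⟨(⟨y, hy⟩, ⟨z, hz⟩), rfl⟩

theorem Φ_quot_map (hV : S.Adm V) (K : Submodule A V) (K' : Submodule A K) :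
    S.Φ (V ⧸ K'.map K.subtype) = S.Φ (K ⧸ K') + S.Φ (V ⧸ K) := by
  have h1 := S.Φ_add hV (K'.map K.subtype)
  have h2 := S.Φ_add hV K
  have h3 := S.Φ_add (S.adm_sub hV K) K'
  have h4 := S.Φ_equiv (Submodule.equivSubtypeMap K K')
  omega

theorem le_tau_of_le (hV : S.Adm V) {K : Submodule A V} (hK : S.d V ≤ S.Φ (V ⧸ K)) :
    K ≤ S.tau V := by
  refine le_sSup (le_antisymm (d_le (S.adm_sub hV K) fun K' => ?_) (d_nonneg (S.adm_sub hV K)))
  have h1 := Φ_quot_map hV K K'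
  have h2 := Φ_quot_le_d hV (K'.map K.subtype)
  omega

theorem d_tau (hV : S.Adm V) : S.d (S.tau V) = 0 := by
  have := S.noeth hV
  obtain ⟨M, hM, hmax⟩ := (set_has_maximal_iff_noetherian.2 this)
    {K : Submodule A V | S.d K = 0} ⟨⊥, d_subsingleton (S.adm_sub hV ⊥)⟩
  have h : S.tau V = M := by
    refine le_antisymm (sSup_le fun K hK => ?_) (le_sSup hM)
    by_contra hKM
    exact hmax _ (d_sup_eq_zero hV hM hK) (left_lt_sup.2 hKM)
  rw [h]
  exact hM

theorem Φ_quot_tau (hV : S.Adm V) : S.Φ (V ⧸ S.tau V) = S.d V := by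
  refine le_antisymm (Φ_quot_le_d hV _) ?_
  obtain ⟨K, hK⟩ := exists_d hV
  have hle : K ≤ S.tau V := le_tau_of_le hV hK.ge
  have h1 := Φ_quot_map hV (S.tau V) (K.comap (S.tau V).subtype)
  rw [Submodule.map_comap_subtype, inf_eq_right.2 hle, hK] at h1
  have h2 := Φ_quot_le_d (S.adm_sub hV (S.tau V)) (K.comap (S.tau V).subtype)
  rw [d_tau hV] at h2
  omega

theorem d_quot_tau (hV : S.Adm V) : S.d (V ⧸ S.tau V) = S.d V := by
  refine le_antisymm (d_surj hV _ (S.tau V).mkQ_surjective) ?_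
  rw [← Φ_quot_tau hV]
  exact Φ_le_d (S.adm_quot hV _)

/-- nonzero submodules of `V / tau V` have positive `Φ` -/
theorem pos_quot_tau (hV : S.Adm V) (N : Submodule A (V ⧸ S.tau V)) (hN : N ≠ ⊥) : 1 ≤ S.Φ N := by
  by_contra hlt
  have h1 := S.Φ_add (S.adm_quot hV (S.tau V)) N
  rw [Φ_quot_tau hV, ← S.Φ_equiv ((N.mkQ ∘ₗ (S.tau V).mkQ).quotKerEquivOfSurjective
    (N.mkQ_surjective.comp (S.tau V).mkQ_surjective))] at h1
  have hle : LinearMap.ker (N.mkQ ∘ₗ (S.tau V).mkQ) ≤ S.tau V := le_tau_of_le hV (by omega)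
  refine hN ((Submodule.eq_bot_iff _).2 fun x hx => ?_)
  obtain ⟨v, rfl⟩ := (S.tau V).mkQ_surjective x
  exact (Submodule.Quotient.mk_eq_zero _).2 (hle ((Submodule.Quotient.mk_eq_zero _).2 hx))

end Setup

/-- The output of the machine. -/
structure IsHull (O : Type) [AddCommGroup O] [Module A O] (U : Type) [AddCommGroup U] [Module A U]
    (u : O →ₗ[A] U) : Prop where
  u_ne : u ≠ 0
  adm_fg : ∀ N : Submodule A U, N.FG → S.Adm N
  pos : ∀ N : Submodule A U, N.FG → N ≠ ⊥ → 1 ≤ S.Φ N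
  exh : ∀ N : Submodule A U, N.FG →
    ∃ E : Submodule A U, E.FG ∧ N ≤ E ∧ LinearMap.range u ≤ E ∧ S.Φ E = 1
  ext : ∀ {M M' : Type} [AddCommGroup M] [Module A M] [AddCommGroup M'] [Module A M'],
    S.Adm M → S.Adm M' → ∀ s : M →ₗ[A] M', S.Sig s → ∀ φ : M →ₗ[A] U,
      ∃ ψ : M' →ₗ[A] U, ψ ∘ₗ s = φ

variable {S}

namespace Hull

open Setup

/-- The building blocks of the hull. -/
structure Good (S : Setup A) (E : Type) [AddCommGroup E] [Module A E] : Prop where
  adm : S.Adm E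
  pos : ∀ K : Submodule A E, K ≠ ⊥ → 1 ≤ S.Φ K
  one : S.Φ E = 1

section
variable {E E' M M' : Type} [AddCommGroup E] [Module A E] [AddCommGroup E'] [Module A E']
  [AddCommGroup M] [Module A M] [AddCommGroup M'] [Module A M']

theorem Good.zero_of_d (hE : Good S E) (hM : S.Adm M) (h0 : S.d M = 0) (f : M →ₗ[A] E) :
    f = 0 := by
  by_contra hf
  have hK : LinearMap.range f ≠ ⊥ := fun h => hf (LinearMap.range_eq_bot.1 h)
  have h1 := hE.pos _ hK
  have h2 := Φ_le_d (S.adm_sub hE.adm (LinearMap.range f))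
  have h3 := d_surj hM f.rangeRestrict f.surjective_rangeRestrict
  omega

theorem Good.Φ_nonneg (hE : Good S E) (K : Submodule A E) : 0 ≤ S.Φ K := by
  by_cases hK : K = ⊥
  · subst hK
    exact (Φ_subsingleton (S.adm_sub hE.adm ⊥)).ge
  · have := hE.pos K hK
    omega

theorem Good.d_eq (hE : Good S E) : S.d E = 1 := by
  refine le_antisymm (d_le hE.adm fun N => ?_) ?_
  · have h1 := S.Φ_add hE.adm N
    have h2 := hE.Φ_nonneg N
    have h3 := hE.one
    omega
  · have := Φ_le_d hE.adm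
    have h3 := hE.one
    omega

theorem Good.d_quot (hE : Good S E) {K : Submodule A E} (hK : K ≠ ⊥) : S.d (E ⧸ K) = 0 := by
  refine le_antisymm (d_le (S.adm_quot hE.adm K) fun N => ?_) (d_nonneg (S.adm_quot hE.adm K))
  have hex : Function.Exact (N.comap K.mkQ).subtype (N.mkQ ∘ₗ K.mkQ) := by
    intro x
    simp only [LinearMap.coe_comp, Function.comp_apply, Submodule.mkQ_apply,
      Submodule.Quotient.mk_eq_zero, Submodule.coe_subtype, Subtype.range_coe_subtype,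
      Set.mem_ofPred_eq, Submodule.mem_comap]
  have h1 := Φ_exact hE.adm (N.comap K.mkQ).subtype (N.mkQ ∘ₗ K.mkQ) Subtype.val_injective
    (N.mkQ_surjective.comp K.mkQ_surjective) hex
  have hne : N.comap K.mkQ ≠ ⊥ := by
    intro h
    apply hK
    refine le_bot_iff.1 (h ▸ fun x hx => ?_)
    simp only [Submodule.mem_comap, Submodule.mkQ_apply, (Submodule.Quotient.mk_eq_zero K).2 hx,
      zero_mem]
  have h2 := hE.pos _ hne
  have h3 := hE.one
  omega

theorem Good.zero_of_comp (hE : Good S E) (hM' : S.Adm M') (s : M →ₗ[A] M')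
    (hs : S.d (M' ⧸ LinearMap.range s) = 0) (ψ : M' →ₗ[A] E) (h : ψ ∘ₗ s = 0) : ψ = 0 := by
  have hle : LinearMap.range s ≤ LinearMap.ker ψ := LinearMap.range_le_ker_iff.2 h
  have h0 := hE.zero_of_d (S.adm_quot hM' _) hs ((LinearMap.range s).liftQ ψ hle)
  rw [← (LinearMap.range s).liftQ_mkQ ψ hle, h0, LinearMap.zero_comp]

theorem Good.uniq (hE : Good S E) (hE' : Good S E') (s : M →ₗ[A] E) (hs : s ≠ 0)
    (f g : E →ₗ[A] E') (h : f ∘ₗ s = g ∘ₗ s) : f = g := by
  have hK : LinearMap.range s ≠ ⊥ := fun h => hs (LinearMap.range_eq_bot.1 h)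
  exact sub_eq_zero.1 (hE'.zero_of_comp hE.adm s (hE.d_quot hK) (f - g)
    (by rw [LinearMap.sub_comp, h, sub_self]))

theorem Good.inj (hE : Good S E) (hE' : Good S E') (f : E →ₗ[A] E') (hf : f ≠ 0) :
    Function.Injective f := by
  rw [← LinearMap.ker_eq_bot]
  by_contra hK
  apply hf
  refine hE'.zero_of_comp hE.adm (LinearMap.ker f).subtype ?_ f (LinearMap.comp_ker_subtype f)
  rw [Submodule.range_subtype]
  exact hE.d_quot hK

theorem Good.equiv (hE : Good S E) (e : E ≃ₗ[A] E') : Good S E' where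
  adm := S.adm_equiv e hE.adm
  pos K hK := by
    have h1 : K.map (e.symm : E' →ₗ[A] E) ≠ ⊥ := by
      intro h
      refine hK (le_bot_iff.1 fun x hx => ?_)
      have hx' : e.symm x ∈ K.map (e.symm : E' →ₗ[A] E) := ⟨x, hx, rfl⟩
      rw [h, Submodule.mem_bot] at hx'
      exact (Submodule.mem_bot A).2 (e.symm.injective (by rw [hx', map_zero]))
    rw [S.Φ_equiv (e.symm.submoduleMap K)]
    exact hE.pos _ h1
  one := by rw [← S.Φ_equiv e, hE.one]

theorem good_quot_tau (hM : S.Adm M) (h1 : S.d M = 1) : Good S (M ⧸ S.tau M) where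
  adm := S.adm_quot hM _
  pos := pos_quot_tau hM
  one := by rw [Φ_quot_tau hM, h1]

/-- The pushout lemma. -/
theorem Good.pushout (hE : Good S E) (hM : S.Adm M) (hM' : S.Adm M') (s : M →ₗ[A] M')
    (hs : S.Sig s) (g : M →ₗ[A] E) :
    ∃ (F : Type) (_ : AddCommGroup F) (_ : Module A F) (j : E →ₗ[A] F) (h : M' →ₗ[A] F),
      Good S F ∧ j ≠ 0 ∧ h ∘ₗ s = j ∘ₗ g := by
  obtain ⟨hs0, hs1⟩ := hs
  set R : Submodule A (E × M') := LinearMap.range (g.prod (-s)) with hR
  have hEM : S.Adm (E × M') := S.adm_prod hE.adm hM'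
  have hP : S.Adm ((E × M') ⧸ R) := S.adm_quot hEM R
  set i : E →ₗ[A] (E × M') ⧸ R := R.mkQ ∘ₗ LinearMap.inl A E M' with hi
  set k : M' →ₗ[A] (E × M') ⧸ R := R.mkQ ∘ₗ LinearMap.inr A E M' with hk
  have hik : k ∘ₗ s = i ∘ₗ g := by
    ext m
    simp only [hi, hk, LinearMap.coe_comp, Function.comp_apply, LinearMap.coe_inr,
      LinearMap.coe_inl, Submodule.mkQ_apply]
    rw [Submodule.Quotient.eq]
    refine ⟨-m, ?_⟩
    ext <;> simp
  have hsum : ∀ x : (E × M') ⧸ R, ∃ e m, x = i e + k m := by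
    intro x
    obtain ⟨⟨e, m⟩, rfl⟩ := R.mkQ_surjective x
    refine ⟨e, m, ?_⟩
    simp only [hi, hk, LinearMap.coe_comp, Function.comp_apply, LinearMap.coe_inr,
      LinearMap.coe_inl, ← map_add, Prod.mk_add_mk, add_zero, zero_add]
  -- a quotient of the pushout killing `E` has rank zero
  have key : ∀ {Q : Type} [AddCommGroup Q] [Module A Q] (q : ((E × M') ⧸ R) →ₗ[A] Q),
      Function.Surjective q → q ∘ₗ i = 0 → S.d Q ≤ 0 := by
    intro Q _ _ q hq hqi
    have hle : LinearMap.range s ≤ LinearMap.ker (q ∘ₗ k) := by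
      rw [LinearMap.range_le_ker_iff, LinearMap.comp_assoc, hik, ← LinearMap.comp_assoc, hqi,
        LinearMap.zero_comp]
    have hsurj : Function.Surjective ((LinearMap.range s).liftQ (q ∘ₗ k) hle) := by
      intro y
      obtain ⟨x, rfl⟩ := hq y
      obtain ⟨e, m, rfl⟩ := hsum x
      refine ⟨Submodule.Quotient.mk m, ?_⟩
      have : q (i e) = 0 := LinearMap.congr_fun hqi e
      simp only [Submodule.liftQ_apply, LinearMap.coe_comp, Function.comp_apply, map_add, this,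
        zero_add]
    have := d_surj (S.adm_quot hM' _) _ hsurj
    omega
  have hd : S.d ((E × M') ⧸ R) = 1 := by
    have h1 := d_le_add hE.adm hP i
    have h2 := key (LinearMap.range i).mkQ (Submodule.mkQ_surjective _)
      (LinearMap.range_mkQ_comp i)
    have h3 := d_le_add hM hEM (g.prod (-s))
    have h4 := d_prod hE.adm hM'
    have h5 := hE.d_eq
    rw [← hR] at h3
    omega
  have hF := good_quot_tau hP hd
  refine ⟨_, _, _, (S.tau _).mkQ ∘ₗ i, (S.tau _).mkQ ∘ₗ k, hF, fun h0 => ?_, ?_⟩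
  · have h1 := key (S.tau _).mkQ (Submodule.mkQ_surjective _) h0
    have h2 := hF.d_eq
    omega
  · rw [LinearMap.comp_assoc, hik]
    rfl

end

/-- The index type of the direct limit. -/
structure Idx (S : Setup A) (O : Type) [AddCommGroup O] [Module A O] : Type where
  n : ℕ
  N : Submodule A (Fin n → A)
  s : O →ₗ[A] (Fin n → A) ⧸ N
  good : Good S ((Fin n → A) ⧸ N)
  ne : s ≠ 0

variable {O : Type} [AddCommGroup O] [Module A O]

/-- The module of an index. -/
abbrev Idx.E (i : Idx S O) : Type := (Fin i.n → A) ⧸ i.N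

theorem exists_idx {E : Type} [AddCommGroup E] [Module A E] (hE : Good S E) (s : O →ₗ[A] E)
    (hs : s ≠ 0) : ∃ (i : Idx S O) (e : E ≃ₗ[A] i.E), (e : E →ₗ[A] i.E) ∘ₗ s = i.s := by
  have := S.noeth hE.adm
  obtain ⟨n, f, hf⟩ := Module.Finite.exists_fin' A E
  let e := (f.quotKerEquivOfSurjective hf).symm
  refine ⟨⟨n, LinearMap.ker f, (e : E →ₗ[A] _) ∘ₗ s, hE.equiv e, fun h => hs ?_⟩, e, rfl⟩
  ext x
  exact e.injective (by simpa using LinearMap.congr_fun h x)

instance : Preorder (Idx S O) where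
  le i j := ∃ f : i.E →ₗ[A] j.E, f ∘ₗ i.s = j.s
  le_refl i := ⟨LinearMap.id, LinearMap.id_comp _⟩
  le_trans i j k := by
    rintro ⟨f, hf⟩ ⟨g, hg⟩
    exact ⟨g ∘ₗ f, by rw [LinearMap.comp_assoc, hf, hg]⟩

/-- The transition maps. -/
noncomputable def tr (i j : Idx S O) (h : i ≤ j) : i.E →ₗ[A] j.E :=
  Classical.choose (show ∃ f : i.E →ₗ[A] j.E, f ∘ₗ i.s = j.s from h)

theorem tr_spec (i j : Idx S O) (h : i ≤ j) : tr i j h ∘ₗ i.s = j.s :=
  Classical.choose_spec (show ∃ f : i.E →ₗ[A] j.E, f ∘ₗ i.s = j.s from h)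

theorem tr_eq {i j : Idx S O} (h : i ≤ j) (f : i.E →ₗ[A] j.E) (hf : f ∘ₗ i.s = j.s) :
    tr i j h = f :=
  i.good.uniq j.good i.s i.ne _ _ ((tr_spec i j h).trans hf.symm)

theorem tr_inj {i j : Idx S O} (h : i ≤ j) : Function.Injective (tr i j h) :=
  i.good.inj j.good _ fun h0 => j.ne (by rw [← tr_spec i j h, h0, LinearMap.zero_comp])

instance : DirectedSystem (fun i : Idx S O => i.E) (tr · · ·) where
  map_self i x := by rw [tr_eq le_rfl LinearMap.id (LinearMap.id_comp _)]; rfl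
  map_map k j i hij hjk x := by
    rw [tr_eq (hij.trans hjk) (tr j k hjk ∘ₗ tr i j hij)
      (by rw [LinearMap.comp_assoc, tr_spec, tr_spec])]
    rfl

/-- The pushout lemma inside the index type. -/
theorem exists_ge {M M' : Type} [AddCommGroup M] [Module A M] [AddCommGroup M'] [Module A M']
    (i : Idx S O) (hM : S.Adm M) (hM' : S.Adm M') (s : M →ₗ[A] M') (hs : S.Sig s)
    (g : M →ₗ[A] i.E) :
    ∃ (k : Idx S O) (hik : i ≤ k) (h : M' →ₗ[A] k.E), h ∘ₗ s = tr i k hik ∘ₗ g := by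
  obtain ⟨F, _, _, j, h, hF, hj, hjh⟩ := i.good.pushout hM hM' s hs g
  have hinj := i.good.inj hF j hj
  have hne : j ∘ₗ i.s ≠ 0 := fun h0 => i.ne (by
    ext x
    exact hinj (by simpa using LinearMap.congr_fun h0 x))
  obtain ⟨k, e, he⟩ := exists_idx hF (j ∘ₗ i.s) hne
  have hf : ((e : F →ₗ[A] k.E) ∘ₗ j) ∘ₗ i.s = k.s := by rw [LinearMap.comp_assoc, he]
  refine ⟨k, ⟨_, hf⟩, (e : F →ₗ[A] k.E) ∘ₗ h, ?_⟩
  rw [tr_eq _ _ hf, LinearMap.comp_assoc, hjh, LinearMap.comp_assoc]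

theorem directed (hO : S.Adm O) (h1 : S.d O = 1) : IsDirectedOrder (Idx S O) := by
  refine ⟨fun i j => ?_⟩
  have hsig : S.Sig j.s :=
    ⟨j.good.d_quot fun h => j.ne (LinearMap.range_eq_bot.1 h), by rw [h1, j.good.d_eq]⟩
  obtain ⟨k, hik, h, hh⟩ := exists_ge i hO j.good.adm j.s hsig i.s
  exact ⟨k, hik, h, by rw [hh, tr_spec]⟩

theorem nonempty (hO : S.Adm O) (h1 : S.d O = 1) : Nonempty (Idx S O) := by
  have hG := good_quot_tau hO h1
  have hne : (S.tau O).mkQ ≠ 0 := by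
    intro h
    have : Subsingleton (O ⧸ S.tau O) := ⟨fun x y => by
      obtain ⟨x, rfl⟩ := (S.tau O).mkQ_surjective x
      obtain ⟨y, rfl⟩ := (S.tau O).mkQ_surjective y
      rw [h]; rfl⟩
    have h2 := Φ_subsingleton hG.adm
    have h3 := hG.one
    omega
  obtain ⟨i, -⟩ := exists_idx hG _ hne
  exact ⟨i⟩

theorem isHull_of (hO : S.Adm O) (h1 : S.d O = 1) (i₀ : Idx S O) {U : Type} [AddCommGroup U]
    [Module A U] (ι : ∀ i : Idx S O, i.E →ₗ[A] U)
    (hf : ∀ i j (h : i ≤ j) x, ι j (tr i j h x) = ι i x) (hinj : ∀ i, Function.Injective (ι i))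
    (hex : ∀ x, ∃ i y, ι i y = x) : IsHull S O U (ι i₀ ∘ₗ i₀.s) := by
  have := directed hO h1
  have hfc : ∀ i j (h : i ≤ j), ι j ∘ₗ tr i j h = ι i := fun i j h =>
    LinearMap.ext (hf i j h)
  have hmono : ∀ i j, i ≤ j → LinearMap.range (ι i) ≤ LinearMap.range (ι j) := by
    rintro i j h _ ⟨x, rfl⟩
    exact ⟨_, hf i j h x⟩
  have hu : ∀ i, ι i ∘ₗ i.s = ι i₀ ∘ₗ i₀.s := by
    intro i
    obtain ⟨k, hik, hjk⟩ := exists_ge_ge i i₀
    rw [← hfc i k hik, ← hfc i₀ k hjk, LinearMap.comp_assoc, LinearMap.comp_assoc, tr_spec,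
      tr_spec]
  have hgood : ∀ i, Good S (LinearMap.range (ι i)) := fun i =>
    i.good.equiv (LinearEquiv.ofInjective _ (hinj i))
  have hfg : ∀ N : Submodule A U, N.FG → ∃ i, N ≤ LinearMap.range (ι i) := by
    intro N hN
    refine Submodule.fg_induction (motive := fun N _ => ∃ i, N ≤ LinearMap.range (ι i))
      ?_ ?_ N hN
    · intro x
      obtain ⟨i, y, rfl⟩ := hex x
      exact ⟨i, (Submodule.span_singleton_le_iff_mem _ _).2 ⟨y, rfl⟩⟩
    · rintro N₁ N₂ - - ⟨i, hi⟩ ⟨j, hj⟩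
      obtain ⟨k, hik, hjk⟩ := exists_ge_ge i j
      exact ⟨k, sup_le (hi.trans (hmono i k hik)) (hj.trans (hmono j k hjk))⟩
  refine ⟨fun h0 => i₀.ne ?_, ?_, ?_, ?_, ?_⟩
  · ext x
    exact hinj i₀ (by simpa using LinearMap.congr_fun h0 x)
  · intro N hN
    obtain ⟨i, hi⟩ := hfg N hN
    exact Setup.adm_inj (hgood i).adm (Submodule.inclusion hi) (Submodule.inclusion_injective hi)
  · intro N hN hne
    obtain ⟨i, hi⟩ := hfg N hN
    rw [← S.Φ_equiv (Submodule.submoduleOfEquivOfLe hi)]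
    refine (hgood i).pos _ fun h => hne (le_bot_iff.1 fun x hx => ?_)
    have : (⟨x, hi hx⟩ : LinearMap.range (ι i)) ∈ N.submoduleOf (LinearMap.range (ι i)) := hx
    rw [h] at this
    exact congrArg Subtype.val ((Submodule.mem_bot A).1 this)
  · intro N hN
    obtain ⟨i, hi⟩ := hfg N hN
    have := S.noeth (hgood i).adm
    refine ⟨LinearMap.range (ι i), Module.Finite.iff_fg.1 inferInstance, hi, ?_, (hgood i).one⟩
    rw [← hu i]
    exact LinearMap.range_comp_le_range _ _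
  · intro M M' _ _ _ _ hM hM' s hs φ
    have := S.noeth hM
    obtain ⟨i, hi⟩ := hfg (LinearMap.range φ) (Module.Finite.iff_fg.1 inferInstance)
    let g : M →ₗ[A] i.E := (LinearEquiv.ofInjective _ (hinj i)).symm ∘ₗ
      φ.codRestrict (LinearMap.range (ι i)) fun x => hi ⟨x, rfl⟩
    have hg : ι i ∘ₗ g = φ := by
      ext x
      exact congrArg Subtype.val ((LinearEquiv.ofInjective _ (hinj i)).apply_symm_apply
        ⟨φ x, hi ⟨x, rfl⟩⟩)
    obtain ⟨k, hik, h, hh⟩ := exists_ge i hM hM' s hs g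
    exact ⟨ι k ∘ₗ h, by rw [LinearMap.comp_assoc, hh, ← LinearMap.comp_assoc, hfc, hg]⟩

end Hull

open Hull in
/-- Existence of the hull: direct limit over the directed preorder of all `(E, s : O → E)` with `E` a
quotient of some `Fin n → A`, admissible, all nonzero submodules of positive `Φ`, `Φ E = 1`, `s ≠ 0`. -/
theorem exists_hull {O : Type} [AddCommGroup O] [Module A O] (hO : S.Adm O) (h1 : S.d O = 1) :
    ∃ (U : Type) (_ : AddCommGroup U) (_ : Module A U) (u : O →ₗ[A] U), IsHull S O U u := by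
  classical
  have := directed hO h1
  obtain ⟨i₀⟩ := nonempty hO h1
  have : Nonempty (Idx S O) := ⟨i₀⟩
  refine ⟨Module.DirectLimit (fun i : Idx S O => i.E) tr,
    Module.DirectLimit.addCommGroup (fun i : Idx S O => i.E) tr,
    Module.DirectLimit.module (fun i : Idx S O => i.E) tr, _,
    @isHull_of A _ S O _ _ hO h1 i₀ _
      (Module.DirectLimit.addCommGroup (fun i : Idx S O => i.E) tr)
      (Module.DirectLimit.module (fun i : Idx S O => i.E) tr)
      (Module.DirectLimit.of A (Idx S O) (fun i => i.E) tr)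
      (fun i j h x => Module.DirectLimit.of_f) (fun i x y hxy => ?_)
      Module.DirectLimit.exists_of⟩
  obtain ⟨j, hij, h⟩ := Module.DirectLimit.exists_eq_of_of_eq hxy
  exact tr_inj hij h

namespace IsHull

variable {O : Type} [AddCommGroup O] [Module A O] {U : Type} [AddCommGroup U] [Module A U]
  {u : O →ₗ[A] U}
variable {M M' : Type} [AddCommGroup M] [Module A M] [AddCommGroup M'] [Module A M']

theorem fg_range (hM : S.Adm M) (φ : M →ₗ[A] U) : (LinearMap.range φ).FG := by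
  have := S.noeth hM
  exact Submodule.fg_range φ

theorem pos_sub (H : IsHull S O U u) {E : Submodule A U} (hE : E.FG) (K : Submodule A E)
    (hK : K ≠ ⊥) : 1 ≤ S.Φ K := by
  have := S.noeth (H.adm_fg E hE)
  rw [S.Φ_equiv (Submodule.equivMapOfInjective E.subtype E.subtype_injective K)]
  refine H.pos _ ((IsNoetherian.noetherian K).map _) fun h => hK ?_
  exact Submodule.map_injective_of_injective E.subtype_injective (h.trans (Submodule.map_bot _).symm)

theorem d_eq_one (H : IsHull S O U u) {E : Submodule A U} (hE : E.FG) (h1 : S.Φ E = 1) :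
    S.d E = 1 := by
  have hA := H.adm_fg E hE
  refine le_antisymm (Setup.d_le hA fun N => ?_) (h1.ge.trans (Setup.Φ_le_d hA))
  have h2 := S.Φ_add hA N
  by_cases hN : N = ⊥
  · subst hN
    rw [Setup.Φ_subsingleton (S.adm_sub hA ⊥)] at h2
    omega
  · have := H.pos_sub hE N hN
    omega

theorem d_quot (H : IsHull S O U u) {E : Submodule A U} (hE : E.FG) (h1 : S.Φ E = 1)
    (K : Submodule A E) (hK : K ≠ ⊥) : S.d (E ⧸ K) = 0 := by
  have hA := H.adm_fg E hE
  refine le_antisymm (Setup.d_le (S.adm_quot hA K) fun N => ?_) (Setup.d_nonneg (S.adm_quot hA K))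
  rw [← S.Φ_equiv ((N.mkQ ∘ₗ K.mkQ).quotKerEquivOfSurjective
    (N.mkQ_surjective.comp K.mkQ_surjective))]
  have h2 := S.Φ_add hA (LinearMap.ker (N.mkQ ∘ₗ K.mkQ))
  have h3 := H.pos_sub hE (LinearMap.ker (N.mkQ ∘ₗ K.mkQ)) fun h => hK (le_bot_iff.1 (h ▸ by
    intro x hx
    rw [LinearMap.mem_ker, LinearMap.comp_apply, K.mkQ_apply,
      (Submodule.Quotient.mk_eq_zero K).2 hx, map_zero]))
  omega

theorem d_cod (H : IsHull S O U u) {E : Submodule A U} (hE : E.FG) (h1 : S.Φ E = 1)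
    {φ : M →ₗ[A] U} (hφ : φ ≠ 0) (h : ∀ x, φ x ∈ E) :
    S.d (E ⧸ LinearMap.range (φ.codRestrict E h)) = 0 :=
  H.d_quot hE h1 _ fun h0 => hφ (by
    rw [← φ.subtype_comp_codRestrict E h, LinearMap.range_eq_bot.1 h0, LinearMap.comp_zero])

theorem eq_zero (H : IsHull S O U u) (hM : S.Adm M) (h0 : S.d M = 0) (φ : M →ₗ[A] U) : φ = 0 := by
  by_contra h
  have h1 := H.pos _ (fg_range hM φ) fun h' => h (LinearMap.range_eq_bot.1 h')
  have h2 := Setup.Φ_le_d (H.adm_fg _ (fg_range hM φ))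
  have h3 := Setup.d_surj hM φ.rangeRestrict φ.surjective_rangeRestrict
  omega

theorem uniq (H : IsHull S O U u) (hM' : S.Adm M') (s : M →ₗ[A] M')
    (hs : S.d (M' ⧸ LinearMap.range s) = 0) (ψ : M' →ₗ[A] U) (h : ψ ∘ₗ s = 0) : ψ = 0 := by
  have hk : LinearMap.range s ≤ LinearMap.ker ψ := LinearMap.range_le_ker_iff.2 h
  rw [← (LinearMap.range s).liftQ_mkQ ψ hk,
    H.eq_zero (S.adm_quot hM' _) hs ((LinearMap.range s).liftQ ψ hk), LinearMap.zero_comp]

/-- maps out of a good submodule are determined by their values on the image of `u` -/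
theorem ext_good (H : IsHull S O U u) {E : Submodule A U} (hE : E.FG) (h1 : S.Φ E = 1)
    (hu : ∀ x, u x ∈ E) {ψ ψ' : E →ₗ[A] U} (h : ∀ x, ψ ⟨u x, hu x⟩ = ψ' ⟨u x, hu x⟩) : ψ = ψ' :=
  sub_eq_zero.1 (H.uniq (H.adm_fg E hE) _ (H.d_cod hE h1 H.u_ne hu) _
    (LinearMap.ext fun x => sub_eq_zero.2 (h x)))

theorem exh' (H : IsHull S O U u) (N : Submodule A U) (hN : N.FG) :
    ∃ E : Submodule A U, E.FG ∧ N ≤ E ∧ (∀ x, u x ∈ E) ∧ S.Φ E = 1 := by
  obtain ⟨E, h1, h2, h3, h4⟩ := H.exh N hN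
  exact ⟨E, h1, h2, fun x => h3 ⟨x, rfl⟩, h4⟩

theorem end_eq_zero (H : IsHull S O U u) (c : Module.End A U) (h : c ∘ₗ u = 0) : c = 0 := by
  refine LinearMap.ext fun x => ?_
  obtain ⟨E, hE, hle, hu, hE1⟩ := H.exh' _ (Submodule.fg_span_singleton x)
  exact LinearMap.congr_fun (H.ext_good hE hE1 hu (ψ := c ∘ₗ E.subtype) (ψ' := 0)
    fun y => LinearMap.congr_fun h y) ⟨x, hle (Submodule.mem_span_singleton_self x)⟩

theorem exists_end (H : IsHull S O U u) (hO : S.Adm O) (h1 : S.d O = 1) (φ : O →ₗ[A] U) :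
    ∃ c : Module.End A U, c ∘ₗ u = φ := by
  have hex : ∀ E : Submodule A U, E.FG → S.Φ E = 1 → ∀ hu : ∀ x, u x ∈ E,
      ∃ ψ : E →ₗ[A] U, ∀ x, ψ ⟨u x, hu x⟩ = φ x := fun E hE hE1 hu => by
    obtain ⟨ψ, hψ⟩ := H.ext hO (H.adm_fg E hE) (u.codRestrict E hu)
      ⟨H.d_cod hE hE1 H.u_ne hu, h1.trans (H.d_eq_one hE hE1).symm⟩ φ
    exact ⟨ψ, fun x => LinearMap.congr_fun hψ x⟩
  choose ψ hψ using hex
  have hcomp : ∀ (E E' : Submodule A U) hE hE1 hu hE' hE1' hu' (h : E ≤ E') (x : U) (hx : x ∈ E),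
      ψ E hE hE1 hu ⟨x, hx⟩ = ψ E' hE' hE1' hu' ⟨x, h hx⟩ :=
    fun E E' hE hE1 hu hE' hE1' hu' h x hx =>
      LinearMap.congr_fun (H.ext_good hE hE1 hu (ψ := ψ E hE hE1 hu)
        (ψ' := ψ E' hE' hE1' hu' ∘ₗ Submodule.inclusion h)
        fun y => (hψ E hE hE1 hu y).trans (hψ E' hE' hE1' hu' y).symm) ⟨x, hx⟩
  have hval : ∀ x : U, ∃ y : U, ∀ E hE hE1 hu (hx : x ∈ E), ψ E hE hE1 hu ⟨x, hx⟩ = y := by
    intro x
    obtain ⟨E, hE, hle, hu, hE1⟩ := H.exh' _ (Submodule.fg_span_singleton x)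
    refine ⟨ψ E hE hE1 hu ⟨x, hle (Submodule.mem_span_singleton_self x)⟩,
      fun E' hE' hE1' hu' hx => ?_⟩
    obtain ⟨F, hF, hle', huF, hF1⟩ := H.exh' _ (hE.sup hE')
    exact (hcomp E' F _ _ _ hF hF1 huF (le_sup_right.trans hle') x hx).trans
      (hcomp E F _ _ _ hF hF1 huF (le_sup_left.trans hle') x _).symm
  choose c hc using hval
  refine ⟨{ toFun := c, map_add' := fun x y => ?_, map_smul' := fun a x => ?_ },
    LinearMap.ext fun x => ?_⟩
  · obtain ⟨E, hE, hle, hu, hE1⟩ := H.exh' _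
      ((Submodule.fg_span_singleton x).sup (Submodule.fg_span_singleton y))
    have hx := hle (Submodule.mem_sup_left (Submodule.mem_span_singleton_self x))
    have hy := hle (Submodule.mem_sup_right (Submodule.mem_span_singleton_self y))
    rw [← hc x E hE hE1 hu hx, ← hc y E hE hE1 hu hy, ← hc (x + y) E hE hE1 hu (E.add_mem hx hy),
      ← map_add]
    rfl
  · obtain ⟨E, hE, hle, hu, hE1⟩ := H.exh' _ (Submodule.fg_span_singleton x)
    have hx := hle (Submodule.mem_span_singleton_self x)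
    rw [← hc x E hE hE1 hu hx, ← hc (a • x) E hE hE1 hu (E.smul_mem a hx), RingHom.id_apply,
      ← map_smul]
    rfl
  · obtain ⟨E, hE, -, hu, hE1⟩ := H.exh' _ Submodule.fg_bot
    exact (hc (u x) E hE hE1 hu (hu x)).symm.trans (hψ E hE hE1 hu x)

/-- maps out of a good submodule extend to endomorphisms -/
theorem exists_ext (H : IsHull S O U u) (hO : S.Adm O) (h1 : S.d O = 1) {E : Submodule A U}
    (hE : E.FG) (hE1 : S.Φ E = 1) (hu : ∀ x, u x ∈ E) (ψ : E →ₗ[A] U) :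
    ∃ c : Module.End A U, c ∘ₗ E.subtype = ψ := by
  obtain ⟨c, hc⟩ := H.exists_end hO h1 (ψ ∘ₗ u.codRestrict E hu)
  exact ⟨c, H.ext_good hE hE1 hu fun x => LinearMap.congr_fun hc x⟩

theorem exists_left_inv (H : IsHull S O U u) (hO : S.Adm O) (h1 : S.d O = 1)
    (c : Module.End A U) (hc : c ≠ 0) : ∃ c' : Module.End A U, c' * c = 1 := by
  obtain ⟨E, hE, hle, hu, hE1⟩ := H.exh' _ (fg_range hO (c ∘ₗ u))
  have hf : ∀ x, (c ∘ₗ u) x ∈ E := fun x => hle ⟨x, rfl⟩
  obtain ⟨ψ, hψ⟩ := H.ext hO (H.adm_fg E hE) ((c ∘ₗ u).codRestrict E hf)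
    ⟨H.d_cod hE hE1 (fun h => hc (H.end_eq_zero c h)) hf, h1.trans (H.d_eq_one hE hE1).symm⟩ u
  obtain ⟨c', hc'⟩ := H.exists_ext hO h1 hE hE1 hu ψ
  refine ⟨c', sub_eq_zero.1 (H.end_eq_zero _ (LinearMap.ext fun x => sub_eq_zero.2 ?_))⟩
  exact (LinearMap.congr_fun hc' ⟨_, hf x⟩).trans (LinearMap.congr_fun hψ x)

/-- The endomorphism ring of the hull is a skew field. -/
theorem isUnit_of_ne_zero (H : IsHull S O U u) (hO : S.Adm O) (h1 : S.d O = 1)
    (c : Module.End A U) (hc : c ≠ 0) : IsUnit c := by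
  obtain ⟨c', h'⟩ := H.exists_left_inv hO h1 c hc
  obtain ⟨c'', h''⟩ := H.exists_left_inv hO h1 c' fun h => hc (by
    rw [← one_mul c, ← h', h, zero_mul, zero_mul])
  have h3 : c'' = c := by rw [← mul_one c'', ← h', ← mul_assoc, h'', one_mul]
  exact ⟨⟨c, c', h3 ▸ h'', h'⟩, rfl⟩

theorem nontrivial_end (H : IsHull S O U u) : Nontrivial (Module.End A U) := by
  refine ⟨1, 0, fun h => H.u_ne (LinearMap.ext fun x => ?_)⟩
  exact LinearMap.congr_fun h (u x)

/-- `dim Hom (M, U) ≤ d M`. -/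
theorem card_le_d (H : IsHull S O U u) (hO : S.Adm O) (h1 : S.d O = 1) (hM : S.Adm M) (m : ℕ)
    (φ : Fin m → (M →ₗ[A] U))
    (hφ : ∀ c : Fin m → Module.End A U, ∑ i, c i ∘ₗ φ i = 0 → ∀ i, c i = 0) :
    (m : ℤ) ≤ S.d M := by
  obtain ⟨E, hE, hle, hu, hE1⟩ := H.exh' _ (Submodule.fg_iSup _ fun i => fg_range hM (φ i))
  have hφE : ∀ i x, φ i x ∈ E := fun i x => hle (Submodule.mem_iSup_of_mem i ⟨x, rfl⟩)
  have hA := H.adm_fg E hE
  have hd := H.d_eq_one hE hE1
  have hP := Setup.adm_pi hA m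
  have := S.noeth hP
  let f : M →ₗ[A] (Fin m → E) := LinearMap.pi fun i => (φ i).codRestrict E (hφE i)
  have key : ∀ R : Submodule A (Fin m → E), LinearMap.range f ≤ R → S.d ((Fin m → E) ⧸ R) = 0 := by
    intro R
    induction R using IsNoetherian.induction with
    | hgt R ih =>
    intro hR
    have hQ := S.adm_quot hP R
    by_cases hk : ∀ k, LinearMap.range (LinearMap.single A (fun _ : Fin m => E) k) ≤ R
    · have hT : R = ⊤ := top_le_iff.1 ((LinearMap.iSup_range_single A _).ge.trans (iSup_le hk))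
      have : Subsingleton ((Fin m → E) ⧸ R) := Submodule.Quotient.subsingleton_iff.2 hT
      refine le_antisymm (Setup.d_le hQ fun N => ?_) (Setup.d_nonneg hQ)
      have : Subsingleton (((Fin m → E) ⧸ R) ⧸ N) := N.mkQ_surjective.subsingleton
      exact (Setup.Φ_subsingleton (S.adm_quot hQ N)).le
    obtain ⟨k, hk⟩ := not_forall.1 hk
    let s : E →ₗ[A] (Fin m → E) ⧸ R := R.mkQ ∘ₗ LinearMap.single A (fun _ : Fin m => E) k
    have hJ : R ⊔ LinearMap.range (LinearMap.single A (fun _ : Fin m => E) k) ≤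
        LinearMap.ker ((LinearMap.range s).mkQ ∘ₗ R.mkQ) := by
      refine sup_le (fun x hx => ?_) ?_
      · rw [LinearMap.mem_ker, LinearMap.comp_apply, R.mkQ_apply,
          (Submodule.Quotient.mk_eq_zero R).2 hx, map_zero]
      · rintro _ ⟨x, rfl⟩
        exact (Submodule.Quotient.mk_eq_zero _).2 ⟨x, rfl⟩
    have h2 := Setup.d_surj (S.adm_quot hP _) (Submodule.liftQ _ _ hJ) (by
      refine Function.Surjective.of_comp (g := Submodule.mkQ _) ?_
      exact (LinearMap.range s).mkQ_surjective.comp R.mkQ_surjective)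
    rw [ih _ (left_lt_sup.2 hk) (hR.trans le_sup_left)] at h2
    have h3 := le_antisymm h2 (Setup.d_nonneg (S.adm_quot hQ _))
    have h4 := Setup.d_le_add hA hQ s
    have h5 := Setup.d_nonneg hQ
    by_contra h6
    obtain ⟨ψ, hψ⟩ := H.ext hA hQ s ⟨h3, by omega⟩ E.subtype
    choose c hc using fun i => H.exists_ext hO h1 hE hE1 hu
      (ψ ∘ₗ R.mkQ ∘ₗ LinearMap.single A (fun _ : Fin m => E) i)
    have h7 := hφ c (LinearMap.ext fun x => by
      have h8 : ∀ i, c i (φ i x) = ψ (R.mkQ (Pi.single i (f x i))) := fun i =>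
        LinearMap.congr_fun (hc i) ⟨φ i x, hφE i x⟩
      simp only [LinearMap.sum_apply, LinearMap.comp_apply, h8, LinearMap.zero_apply]
      rw [← map_sum, ← map_sum, Finset.univ_sum_single, R.mkQ_apply,
        (Submodule.Quotient.mk_eq_zero R).2 (hR ⟨x, rfl⟩), map_zero]) k
    refine H.u_ne (LinearMap.ext fun x => ?_)
    have h9 := (LinearMap.congr_fun (hc k) ⟨u x, hu x⟩).trans (LinearMap.congr_fun hψ ⟨u x, hu x⟩)
    rw [h7] at h9
    exact h9.symm
  have h2 := Setup.d_le_add hM hP f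
  rw [key _ le_rfl, Setup.d_pi hA, hd] at h2
  omega

end IsHull

end Crest.Agent.R181.Mach
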