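import Mathlib

/-!
Row 181 (route 2): proofs for `cnt_finite`, `cnt_main` of `McCount.lean`.
-/

set_option autoImplicit false

namespace Crest.Agent.R181.Mc.CntAux

open Finset

/-- number of monomials of degree `j` in `s` variables -/
def g (s : ℕ) (j : ℤ) : ℤ := if j < 0 then 0 else (Nat.multichoose s j.toNat : ℤ)

theorem g_step (s : ℕ) (j : ℤ) : g (s + 1) (j + 1) - g (s + 1) j = g s (j + 1) := by
  unfold g
  rcases lt_trichotomy j (-1) with h | h | h
  · rw [if_pos (by omega), if_pos (by omega), if_pos (by omega)]; simp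
  · subst h; simp
  · obtain ⟨n, rfl⟩ := Int.eq_ofNat_of_zero_le (show 0 ≤ j by omega)
    rw [if_neg (by omega), if_neg (by omega), if_neg (by omega)]
    have h1 : ((n : ℤ) + 1).toNat = n + 1 := by omega
    rw [h1, Int.toNat_natCast, Nat.multichoose_succ_succ]
    push_cast; ring

theorem diff_g (e : ℕ) : ∀ (s : ℕ) (d j : ℤ), s ≤ e + 1 → d + 1 ≤ j →
    (fwdDiff (1 : ℤ))^[e] (fun j => g s (j - d)) j = if s = e + 1 then 1 else 0 := by
  induction e with
  | zero =>
    intro s d j hs hj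
    obtain ⟨n, hn⟩ := Int.eq_ofNat_of_zero_le (show 0 ≤ j - d - 1 by omega)
    have h1 : (j - d).toNat = n + 1 := by omega
    simp only [Function.iterate_zero, id]
    unfold g
    rw [if_neg (by omega), h1]
    interval_cases s
    · simp
    · simp
  | succ e ih =>
    intro s d j hs hj
    rw [Function.iterate_succ_apply]
    rcases s with _ | s
    · have h : fwdDiff (1 : ℤ) (fun j => g 0 (j - d)) =
          (fun j => g 0 (j - (d - 1))) + (-1 : ℤ) • (fun j => g 0 (j - d)) := by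
        funext x
        simp only [fwdDiff, Pi.add_apply, Pi.smul_apply, smul_eq_mul]
        rw [show x + 1 - d = x - (d - 1) by ring]; ring
      rw [h, fwdDiff_iter_add, fwdDiff_iter_const_smul]
      simp only [Pi.add_apply, Pi.smul_apply, smul_eq_mul]
      rw [ih 0 (d - 1) j (by omega) (by omega), ih 0 d j (by omega) hj]
      simp
    · have h : fwdDiff (1 : ℤ) (fun j => g (s + 1) (j - d)) = (fun j => g s (j - (d - 1))) := by
        funext x
        simp only [fwdDiff]
        rw [show x + 1 - d = (x - d) + 1 by ring, g_step, show x - d + 1 = x - (d - 1) by ring]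
      rw [h, ih s (d - 1) j (by omega) (by omega)]
      by_cases hs' : s = e + 1
      · simp [hs']
      · rw [if_neg hs', if_neg (by omega)]

theorem exists_bound {σ : Type} [Fintype σ] (U : Set (σ →₀ ℕ)) (hU : IsUpperSet U) :
    ∃ M : ℕ, ∀ u v : σ →₀ ℕ, u ∈ U → (∀ x, min (u x) M ≤ v x) → v ∈ U := by
  classical
  have hpwo := Set.isPWO_of_wellQuasiOrderedLE U
  have hfin : {x | Minimal (· ∈ U) x}.Finite :=
    (setOfPred_minimal_antichain _).finite_of_partiallyWellOrderedOn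
      (hpwo.mono (setOfPred_minimal_subset _))
  refine ⟨hfin.toFinset.sup fun z => ∑ x, z x, fun u v hu huv => ?_⟩
  obtain ⟨z, hz, hz'⟩ := hpwo.exists_le_minimal hu
  refine hU (show z ≤ v from fun x => ?_) hz'.1
  have h1 : z x ≤ u x := hz x
  have h2 : z x ≤ ∑ x, z x := Finset.single_le_sum (f := fun x => z x) (fun _ _ => Nat.zero_le _) (mem_univ x)
  have h3 : ∑ x, z x ≤ hfin.toFinset.sup fun z => ∑ x, z x :=
    Finset.le_sup (f := fun z : σ →₀ ℕ => ∑ x, z x) (hfin.mem_toFinset.2 hz')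
  exact le_trans (le_min h1 (h2.trans h3)) (huv x)

variable {τ : Type} [Fintype τ]

/-- the exponent with first two entries `a`, `b` and the rest `κ` -/
noncomputable def mk (a b : ℕ) (κ : τ → ℕ) : Fin 2 ⊕ τ →₀ ℕ :=
  Finsupp.equivFunOnFinite.symm (Sum.elim ![a, b] κ)

@[simp] theorem mk_0 (a b : ℕ) (κ : τ → ℕ) : mk a b κ (Sum.inl 0) = a := rfl
@[simp] theorem mk_1 (a b : ℕ) (κ : τ → ℕ) : mk a b κ (Sum.inl 1) = b := rfl
@[simp] theorem mk_r (a b : ℕ) (κ : τ → ℕ) (t : τ) : mk a b κ (Sum.inr t) = κ t := rfl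

omit [Fintype τ] in
theorem ext3 {u v : Fin 2 ⊕ τ →₀ ℕ} (h0 : u (Sum.inl 0) = v (Sum.inl 0))
    (h1 : u (Sum.inl 1) = v (Sum.inl 1)) (h2 : ∀ t, u (Sum.inr t) = v (Sum.inr t)) : u = v := by
  ext x
  rcases x with x | t
  · fin_cases x
    · exact h0
    · exact h1
  · exact h2 t

omit [Fintype τ] in
theorem all3 {P : Fin 2 ⊕ τ → Prop} (h0 : P (Sum.inl 0)) (h1 : P (Sum.inl 1))
    (h2 : ∀ t, P (Sum.inr t)) : ∀ x, P x := by
  intro x
  rcases x with x | t
  · fin_cases x
    · exact h0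
    · exact h1
  · exact h2 t

open Classical in
/-- the finite set counted -/
noncomputable def T (U : Set (Fin 2 ⊕ τ →₀ ℕ)) (k j : ℤ) : Finset (Fin 2 ⊕ τ →₀ ℕ) :=
  ((univ : Finset (Fin 2 ⊕ τ)).finsuppAntidiag (k + j).toNat).filter fun u =>
    u ∉ U ∧ ((u (Sum.inl 0) + u (Sum.inl 1) : ℕ) : ℤ) = k ∧ ((∑ t, u (Sum.inr t) : ℕ) : ℤ) = j

theorem mem_T (U : Set (Fin 2 ⊕ τ →₀ ℕ)) (k j : ℤ) (u : Fin 2 ⊕ τ →₀ ℕ) :
    u ∈ T U k j ↔
      u ∉ U ∧ ((u (Sum.inl 0) + u (Sum.inl 1) : ℕ) : ℤ) = k ∧ ((∑ t, u (Sum.inr t) : ℕ) : ℤ) = j := by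
  classical
  unfold T
  rw [mem_filter, and_iff_right_iff_imp]
  rintro ⟨-, h1, h2⟩
  rw [mem_finsuppAntidiag]
  refine ⟨?_, subset_univ _⟩
  rw [Fintype.sum_sum_type, Fin.sum_univ_two]
  omega

theorem finite_aux (U : Set (Fin 2 ⊕ τ →₀ ℕ)) (k j : ℤ) :
    Finite {u : Fin 2 ⊕ τ →₀ ℕ // u ∉ U ∧ ((u (Sum.inl 0) + u (Sum.inl 1) : ℕ) : ℤ) = k ∧
      ((∑ t, u (Sum.inr t) : ℕ) : ℤ) = j} := by
  refine Finite.of_injective (β := T U k j) (fun u => ⟨u.1, (mem_T U k j u.1).2 u.2⟩) ?_
  intro u v h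
  exact Subtype.ext (congrArg (fun x : T U k j => x.1) h)

theorem card_aux (U : Set (Fin 2 ⊕ τ →₀ ℕ)) (k j : ℤ) :
    Nat.card {u : Fin 2 ⊕ τ →₀ ℕ // u ∉ U ∧ ((u (Sum.inl 0) + u (Sum.inl 1) : ℕ) : ℤ) = k ∧
      ((∑ t, u (Sum.inr t) : ℕ) : ℤ) = j} = (T U k j).card :=
  Nat.subtype_card _ (mem_T U k j)

open Classical in
theorem fiber_card (U : Set (Fin 2 ⊕ τ →₀ ℕ)) (M : ℕ)
    (hM : ∀ u v : Fin 2 ⊕ τ →₀ ℕ, u ∈ U → (∀ x, min (u x) M ≤ v x) → v ∈ U)
    (k a : ℕ) (ha : a ≤ k) (μ : τ → ℕ) (hμ : ∀ t, μ t ≤ M) (j : ℤ) :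
    ((((T U k j).filter fun u =>
        (u (Sum.inl 0), fun t => min (u (Sum.inr t)) M) = (a, μ)).card : ℕ) : ℤ) =
      if mk a (k - a) μ ∈ U then 0 else
        g (univ.filter fun t => μ t = M).card (j - (∑ t, μ t : ℕ)) := by
  split_ifs with hmem
  · rw [Nat.cast_eq_zero, card_eq_zero, filter_eq_empty_iff]
    intro u hu h
    rw [mem_T] at hu
    obtain ⟨h1, h2, -⟩ := hu
    rw [Prod.mk.injEq] at h
    obtain ⟨h3, h4⟩ := h
    refine h1 (hM _ _ hmem (all3 ?_ ?_ fun t => ?_))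
    · simp only [mk_0]; omega
    · simp only [mk_1]; omega
    · have := congrFun h4 t
      simp only [mk_r] at this ⊢; omega
  · unfold g
    split_ifs with hj
    · rw [Nat.cast_eq_zero, card_eq_zero, filter_eq_empty_iff]
      intro u hu h
      rw [mem_T] at hu
      obtain ⟨-, -, h2⟩ := hu
      rw [Prod.mk.injEq] at h
      obtain ⟨-, h4⟩ := h
      have : ∑ t, μ t ≤ ∑ t, u (Sum.inr t) := sum_le_sum fun t _ => by
        have := congrFun h4 t
        omega
      omega
    · rw [Nat.cast_inj, ← card_finsuppAntidiag_nat_eq_multichoose]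
      refine card_nbij' (fun u => Finsupp.equivFunOnFinite.symm fun t => u (Sum.inr t) - μ t)
        (fun κ => mk a (k - a) fun t => μ t + κ t) ?_ ?_ ?_ ?_
      · intro u hu
        rw [coe_filter] at hu
        obtain ⟨hu, h⟩ := hu
        rw [mem_T] at hu
        obtain ⟨-, -, h2⟩ := hu
        rw [Prod.mk.injEq] at h
        obtain ⟨-, h4⟩ := h
        have h5 : ∀ t, min (u (Sum.inr t)) M = μ t := fun t => congrFun h4 t
        rw [mem_coe, mem_finsuppAntidiag']
        constructor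
        · rw [Finsupp.sum_fintype _ _ (fun _ => rfl)]
          simp only [Finsupp.equivFunOnFinite_symm_apply_apply]
          have : ∑ t, (u (Sum.inr t) - μ t) + ∑ t, μ t = ∑ t, u (Sum.inr t) := by
            rw [← sum_add_distrib]
            refine sum_congr rfl fun t _ => ?_
            have := h5 t; omega
          omega
        · intro t ht
          rw [Finsupp.mem_support_iff] at ht
          simp only [Finsupp.equivFunOnFinite_symm_apply_apply] at ht
          rw [mem_filter]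
          have := h5 t
          exact ⟨mem_univ _, by omega⟩
      · intro κ hκ
        rw [mem_coe, mem_finsuppAntidiag'] at hκ
        obtain ⟨h1, h2⟩ := hκ
        rw [Finsupp.sum_fintype _ _ (fun _ => rfl)] at h1
        have h3 : ∀ t, min (μ t + κ t) M = μ t := fun t => by
          by_cases h : κ t = 0
          · have := hμ t; omega
          · have := (mem_filter.1 (h2 (Finsupp.mem_support_iff.2 h))).2
            omega
        rw [coe_filter]
        refine ⟨(mem_T _ _ _ _).2 ⟨fun h => hmem (hM _ _ h (all3 ?_ ?_ fun t => ?_)), ?_, ?_⟩, ?_⟩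
        · simp
        · simp
        · simp only [mk_r]; exact (h3 t).le
        · simp only [mk_0, mk_1]; omega
        · simp only [mk_r]; rw [sum_add_distrib, h1]; omega
        · simp only [mk_0, mk_r, Prod.mk.injEq, true_and]
          funext t; exact h3 t
      · intro u hu
        rw [coe_filter] at hu
        obtain ⟨hu, h⟩ := hu
        rw [mem_T] at hu
        obtain ⟨-, h1, -⟩ := hu
        rw [Prod.mk.injEq] at h
        obtain ⟨h3, h4⟩ := h
        refine ext3 ?_ ?_ fun t => ?_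
        · simp only [mk_0]; exact h3.symm
        · simp only [mk_1]; omega
        · have := congrFun h4 t
          simp only [mk_r, Finsupp.equivFunOnFinite_symm_apply_apply] at this ⊢
          omega
      · intro κ _
        ext t
        simp

open Classical in
theorem card_T (U : Set (Fin 2 ⊕ τ →₀ ℕ)) (M : ℕ)
    (hM : ∀ u v : Fin 2 ⊕ τ →₀ ℕ, u ∈ U → (∀ x, min (u x) M ≤ v x) → v ∈ U) (k : ℕ) (j : ℤ) :
    ((T U k j).card : ℤ) =
      ∑ x ∈ range (k + 1) ×ˢ Fintype.piFinset (fun _ : τ => range (M + 1)),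
        if mk x.1 (k - x.1) x.2 ∈ U then 0 else
          g (univ.filter fun t => x.2 t = M).card (j - (∑ t, x.2 t : ℕ)) := by
  rw [card_eq_sum_card_fiberwise (f := fun u : Fin 2 ⊕ τ →₀ ℕ =>
      (u (Sum.inl 0), fun t => min (u (Sum.inr t)) M))
      (t := range (k + 1) ×ˢ Fintype.piFinset (fun _ : τ => range (M + 1)))]
  · push_cast
    refine sum_congr rfl fun x hx => ?_
    rw [mem_product, mem_range, Fintype.mem_piFinset] at hx
    have h := fiber_card U M hM k x.1 (by omega) x.2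
      (fun t => by have := mem_range.1 (hx.2 t); omega) j
    push_cast at h
    convert h using 3
  · intro u hu
    rw [mem_coe, mem_T] at hu
    rw [mem_coe, mem_product, mem_range, Fintype.mem_piFinset]
    refine ⟨by have := hu.2.1; simp only; omega, fun t => ?_⟩
    rw [mem_range]; simp only; omega

open Classical in
theorem diff_T (e : ℕ) (he : Fintype.card τ = e + 1) (U : Set (Fin 2 ⊕ τ →₀ ℕ)) (M : ℕ)
    (hM : ∀ u v : Fin 2 ⊕ τ →₀ ℕ, u ∈ U → (∀ x, min (u x) M ≤ v x) → v ∈ U) (k : ℕ) (j : ℤ)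
    (hj : ((e + 1) * M : ℕ) + 1 ≤ j) :
    (fwdDiff (1 : ℤ))^[e] (fun j => ((T U k j).card : ℤ)) j =
      (((range (k + 1)).filter fun a => mk a (k - a) (fun _ : τ => M) ∉ U).card : ℤ) := by
  have h1 : (fun j => ((T U k j).card : ℤ)) =
      ∑ x ∈ range (k + 1) ×ˢ Fintype.piFinset (fun _ : τ => range (M + 1)),
        (if mk x.1 (k - x.1) x.2 ∈ U then (0 : ℤ) else 1) • fun j : ℤ =>
          g (univ.filter fun t => x.2 t = M).card (j - (∑ t, x.2 t : ℕ)) := by
    funext j
    rw [card_T U M hM k j, Finset.sum_apply]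
    refine sum_congr rfl fun x _ => ?_
    split_ifs <;> simp
  rw [h1, fwdDiff_iter_finsetSum, Finset.sum_apply, sum_product, card_filter]
  push_cast
  refine sum_congr rfl fun a _ => ?_
  rw [sum_eq_single (fun _ : τ => M)]
  · rw [fwdDiff_iter_const_smul, Pi.smul_apply]
    have h2 : (univ.filter fun _ : τ => M = M).card = e + 1 := by
      rw [filter_true_of_mem fun _ _ => rfl, card_univ, he]
    have h3 := diff_g e (univ.filter fun _ : τ => M = M).card ((∑ _ : τ, M : ℕ) : ℤ) j h2.le (by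
      rw [sum_const, card_univ, he, smul_eq_mul]; exact hj)
    rw [if_pos h2] at h3
    push_cast at h3
    rw [h3]
    split_ifs <;> simp
  · intro μ hμ hne
    rw [Fintype.mem_piFinset] at hμ
    rw [fwdDiff_iter_const_smul, Pi.smul_apply]
    have h2 : (univ.filter fun t : τ => μ t = M).card < e + 1 := by
      rw [← he, ← card_univ]
      refine card_lt_card (filter_ssubset.2 ?_)
      by_contra hcon
      push Not at hcon
      exact hne (funext fun t => hcon t (mem_univ t))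
    have h4 : ∑ t, μ t ≤ (e + 1) * M := by
      rw [← he, ← card_univ, ← smul_eq_mul, ← sum_const]
      exact sum_le_sum fun t _ => by have := mem_range.1 (hμ t); omega
    have h3 := diff_g e (univ.filter fun t : τ => μ t = M).card ((∑ t, μ t : ℕ) : ℤ) j h2.le (by
      omega)
    rw [if_neg h2.ne] at h3
    push_cast at h3
    rw [h3, smul_zero]
  · intro h
    exact absurd (Fintype.mem_piFinset.2 fun _ => mem_range.2 (Nat.lt_succ_self M)) h

open Classical in
theorem count_const (W : ℕ → ℕ → Prop) (M : ℕ)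
    (hW : ∀ a b a' b', W a b → min a M ≤ a' → min b M ≤ b' → W a' b') (hM : W M M) (k : ℕ)
    (hk : 2 * M ≤ k) :
    ((range (k + 1)).filter fun a => ¬W a (k - a)).card =
      ((range M).filter fun a => ¬W a M).card + ((range M).filter fun b => ¬W M b).card := by
  have h1 : ((range (k + 1)).filter fun a => ¬W a (k - a)) =
      ((range M).filter fun a => ¬W a M) ∪ ((range M).filter fun b => ¬W M b).image (k - ·) := by
    ext a
    simp only [mem_filter, mem_range, mem_union, mem_image]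
    constructor
    · rintro ⟨h1, h2⟩
      by_cases h : a < M
      · exact Or.inl ⟨h, fun h' => h2 (hW _ _ _ _ h' (by omega) (by omega))⟩
      · refine Or.inr ⟨k - a, ⟨?_, fun h' => h2 (hW _ _ _ _ h' (by omega) (by omega))⟩, by omega⟩
        by_contra hcon
        exact h2 (hW _ _ _ _ hM (by omega) (by omega))
    · rintro (⟨h1, h2⟩ | ⟨b, ⟨h1, h2⟩, rfl⟩)
      · exact ⟨by omega, fun h' => h2 (hW _ _ _ _ h' (by omega) (by omega))⟩
      · exact ⟨by omega, fun h' => h2 (hW _ _ _ _ h' (by omega) (by omega))⟩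
  rw [h1, card_union_of_disjoint, card_image_of_injOn]
  · intro b hb b' hb' h
    simp only [coe_filter, mem_range, Set.mem_ofPred_eq] at hb hb' h
    omega
  · rw [disjoint_left]
    intro a ha ha'
    simp only [mem_filter, mem_range, mem_image] at ha ha'
    obtain ⟨b, ⟨hb, -⟩, rfl⟩ := ha'
    omega

theorem main_aux (e : ℕ) (he : Fintype.card τ = e + 1) (U : Set (Fin 2 ⊕ τ →₀ ℕ))
    (hU : IsUpperSet U) :
    ∃ (r c k₀ j₀ : ℤ), (∀ k j, k₀ ≤ k → j₀ ≤ j →
        (fwdDiff (1 : ℤ))^[e] (fun j => ((T U k j).card : ℤ)) j = r * k + c) ∧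
      ((U = ∅ ∧ r = 1 ∧ c = 1) ∨ (U ≠ ∅ ∧ r = 0 ∧ 0 ≤ c)) ∧
      ((∃ t, Finsupp.single (Sum.inr t) 1 ∈ U) → c = 0) ∧
      (Finsupp.single (Sum.inl 0) 1 ∈ U → Finsupp.single (Sum.inl 1) 1 ∈ U → c = 0) := by
  classical
  obtain ⟨M₀, hM₀⟩ := exists_bound U hU
  obtain ⟨M, hM1, hM⟩ : ∃ M : ℕ, 1 ≤ M ∧
      ∀ u v : Fin 2 ⊕ τ →₀ ℕ, u ∈ U → (∀ x, min (u x) M ≤ v x) → v ∈ U :=
    ⟨M₀ + 1, by omega, fun u v hu h => hM₀ u v hu fun x => by have := h x; omega⟩
  by_cases hE : U = ∅
  · refine ⟨1, 1, 0, ((e + 1) * M : ℕ) + 1, fun k j hk hj => ?_, Or.inl ⟨hE, rfl, rfl⟩, ?_, ?_⟩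
    · obtain ⟨k, rfl⟩ := Int.eq_ofNat_of_zero_le hk
      rw [diff_T e he U M hM k j hj, filter_true_of_mem fun _ _ => by rw [hE]; exact Set.notMem_empty _,
        card_range]
      push_cast; ring
    · rintro ⟨t, ht⟩; rw [hE] at ht; exact absurd ht (Set.notMem_empty _)
    · intro ht; rw [hE] at ht; exact absurd ht (Set.notMem_empty _)
  · obtain ⟨u₀, hu₀⟩ := Set.nonempty_iff_ne_empty.2 hE
    have hW : ∀ a b a' b', mk a b (fun _ : τ => M) ∈ U → min a M ≤ a' → min b M ≤ b' →
        mk a' b' (fun _ : τ => M) ∈ U := fun a b a' b' h h1 h2 =>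
      hM _ _ h (all3 h1 h2 fun t => by simp)
    have hMM : mk M M (fun _ : τ => M) ∈ U :=
      hM _ _ hu₀ (all3 (by simp) (by simp) fun t => by simp)
    refine ⟨0, ((((range M).filter fun a => mk a M (fun _ : τ => M) ∉ U).card +
      ((range M).filter fun b => mk M b (fun _ : τ => M) ∉ U).card : ℕ) : ℤ), (2 * M : ℕ),
      ((e + 1) * M : ℕ) + 1, fun k j hk hj => ?_, Or.inr ⟨hE, rfl, by positivity⟩, ?_, ?_⟩
    · obtain ⟨k, rfl⟩ := Int.eq_ofNat_of_zero_le (show 0 ≤ k by omega)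
      rw [diff_T e he U M hM k j hj, zero_mul, zero_add, Nat.cast_inj]
      have h := count_const (fun a b => mk a b (fun _ : τ => M) ∈ U) M hW hMM k (by omega)
      convert h
    · rintro ⟨t, ht⟩
      have h : ∀ a b, mk a b (fun _ : τ => M) ∈ U := fun a b =>
        hM _ _ ht (all3 (by simp) (by simp) fun t => by simp)
      simp [h]
    · intro h0 h1
      have h2 : ∀ a, mk a M (fun _ : τ => M) ∈ U := fun a =>
        hM _ _ h1 (all3 (by simp) (by simp) fun t => by simp)
      have h3 : ∀ b, mk M b (fun _ : τ => M) ∈ U := fun b =>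
        hM _ _ h0 (all3 (by simp) (by simp) fun t => by simp)
      simp [h2, h3]

end Crest.Agent.R181.Mc.CntAux
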