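import Mathlib

/-! Row 181 (route 2): auxiliary combinatorics for `McCount`. -/

set_option autoImplicit false

namespace Crest.Agent.R181.McB

open Finset

theorem steps {a : ℕ} [NeZero a] (F : ℤ → (ZMod a → ZMod a) → ℤ) (n₀ κ : ℤ) (P : ZMod a → Prop)
    (h : ∀ n lam, n₀ ≤ n → (n : ZMod a) = ∑ i, lam i → ∀ l, P l →
      F (n + 1) (lam + Pi.single l 1) = F n lam + κ) (k : ℕ) :
    ∀ (c : ZMod a → ℕ), ∑ i, c i = k → (∀ i, c i ≠ 0 → P i) → ∀ n lam, n₀ ≤ n →
      (n : ZMod a) = ∑ i, lam i → F (n + k) (lam + fun i => (c i : ZMod a)) = F n lam + κ * k := by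
  induction k with
  | zero =>
    intro c hc _ n lam _ _
    have : ∀ i, c i = 0 := fun i => (sum_eq_zero_iff.1 hc) i (mem_univ _)
    have e : (lam + fun i => (c i : ZMod a)) = lam := by funext i; simp [this]
    simp [e]
  | succ k ih =>
    intro c hc hP n lam hn hl
    obtain ⟨l, -, hl0⟩ := exists_ne_zero_of_sum_ne_zero (s := univ) (f := c) (by omega)
    set c' : ZMod a → ℕ := Function.update c l (c l - 1) with hc'
    have hs : ∑ i, c' i = k := by
      rw [hc', sum_update_of_mem (mem_univ _)]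
      rw [← add_sum_erase _ _ (mem_univ l), ← sdiff_singleton_eq_erase] at hc
      omega
    have h1 := ih c' hs (fun i hi => by
      by_cases e : i = l
      · subst e; exact hP _ hl0
      · rw [hc', Function.update_of_ne e] at hi; exact hP i hi)
      (n + 1) (lam + Pi.single l 1) (by linarith) (by
        simp only [Pi.add_apply, sum_add_distrib, sum_pi_single', mem_univ, if_true]
        push_cast; rw [hl])
    rw [h n lam hn hl l (hP l hl0)] at h1
    have e1 : (lam + Pi.single l 1 + fun i => (c' i : ZMod a)) = lam + fun i => (c i : ZMod a) := by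
      funext i
      by_cases e : i = l
      · subst e
        obtain ⟨j, hj⟩ := Nat.exists_eq_succ_of_ne_zero hl0
        simp [hc', hj]; ring
      · simp [hc', e]
    rw [e1] at h1
    have e2 : n + ((k + 1 : ℕ) : ℤ) = n + 1 + k := by push_cast; ring
    rw [e2, h1]; push_cast; ring

theorem cyc {a : ℕ} [NeZero a] (F : ℤ → (ZMod a → ZMod a) → ℤ) (n₀ κ : ℤ) (l : ZMod a)
    (h : ∀ n lam, n₀ ≤ n → (n : ZMod a) = ∑ i, lam i →
      F (n + 1) (lam + Pi.single l 1) = F n lam + κ) (n : ℤ) (lam : ZMod a → ZMod a) (hn : n₀ ≤ n)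
    (hl : (n : ZMod a) = ∑ i, lam i) : F (n + a) lam = F n lam + κ * a := by
  have := steps F n₀ κ (· = l) (fun n lam h1 h2 l' e => e ▸ h n lam h1 h2) a (Pi.single l a)
    (by simp) (fun i hi => by by_contra e; exact hi (Pi.single_eq_of_ne e _)) n lam hn hl
  have e : (lam + fun i => ((Pi.single l a : ZMod a → ℕ) i : ZMod a)) = lam := by
    funext i
    by_cases e : i = l
    · subst e; simp
    · simp [e]
  rwa [e] at this

theorem reach {a : ℕ} [NeZero a] (F : ℤ → (ZMod a → ZMod a) → ℤ) (n₀ κ : ℤ)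
    (h : ∀ n lam, n₀ ≤ n → (n : ZMod a) = ∑ i, lam i → ∀ l,
      F (n + 1) (lam + Pi.single l 1) = F n lam + κ) (N : ℤ) (mu : ZMod a → ZMod a)
    (hN : n₀ + a ^ 2 ≤ N) (hm : (N : ZMod a) = ∑ i, mu i) :
    F N mu = F n₀ (Pi.single 0 (n₀ : ZMod a)) + κ * (N - n₀) := by
  set lam : ZMod a → ZMod a := Pi.single 0 (n₀ : ZMod a) with hlam
  have hl : (n₀ : ZMod a) = ∑ i, lam i := by simp [hlam]
  set d : ZMod a → ℕ := fun i => (mu i - lam i).val with hd
  have hd1 : ∑ i, d i ≤ a ^ 2 := by
    calc ∑ i, d i ≤ ∑ _i : ZMod a, a := sum_le_sum fun i _ => (ZMod.val_lt _).le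
      _ = a ^ 2 := by simp [sq]
  obtain ⟨r, hr⟩ : ∃ r : ℕ, (r : ℤ) = N - n₀ - (∑ i, d i : ℕ) := by
    refine ⟨(N - n₀ - (∑ i, d i : ℕ)).toNat, Int.toNat_of_nonneg ?_⟩
    have : ((∑ i, d i : ℕ) : ℤ) ≤ (a : ℤ) ^ 2 := by exact_mod_cast hd1
    linarith
  have hr0 : (r : ZMod a) = 0 := by
    have := congrArg (Int.cast : ℤ → ZMod a) hr
    push_cast at this
    rw [this, hm, hl]
    simp [hd, sum_sub_distrib]
  have := steps F n₀ κ (fun _ => True) (fun n lam h1 h2 l _ => h n lam h1 h2 l) (∑ i, d i + r)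
    (d + Pi.single 0 r) (by simp [sum_add_distrib]) (fun _ _ => trivial) n₀ lam le_rfl hl
  have e : (lam + fun i => (((d + Pi.single 0 r : ZMod a → ℕ) i : ℕ) : ZMod a)) = mu := by
    funext i
    by_cases e : i = 0
    · subst e; simp [hd, hr0]
    · simp [hd, e]
  have e2 : ((∑ i, d i + r : ℕ) : ℤ) = N - n₀ := by rw [Nat.cast_add, hr]; ring
  rw [e, e2] at this
  rw [← this]; congr 1; ring

theorem const_of_mixed (a : ℕ) [NeZero a] (ha : 2 ≤ a) (f : ℤ → (ZMod a → ZMod a) → ℤ) (n₀ : ℤ)
    (h1 : ∀ n lam, n₀ ≤ n → (n : ZMod a) = ∑ i, lam i → ∀ i l : ZMod a, i ≠ l →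
      f (n + 2) (lam + Pi.single i 1 + Pi.single l 1) - f (n + 1) (lam + Pi.single l 1) =
        f (n + 1) (lam + Pi.single i 1) - f n lam)
    (h2 : ∀ n lam, f n (lam + 1) = f n lam) :
    ∃ n₁ : ℤ, ∀ n lam lam', n₁ ≤ n → (n : ZMod a) = ∑ i, lam i → (n : ZMod a) = ∑ i, lam' i →
      f n lam = f n lam' := by
  have : Fact (1 < a) := ⟨ha⟩
  set g : ZMod a → ℤ → (ZMod a → ZMod a) → ℤ :=
    fun i n lam => f (n + 1) (lam + Pi.single i 1) - f n lam with hg
  have g1 : ∀ i n lam, n₀ ≤ n → (n : ZMod a) = ∑ i, lam i → ∀ l, l ≠ i →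
      g i (n + 1) (lam + Pi.single l 1) = g i n lam + 0 := by
    intro i n lam hn hl l hli
    have := h1 n lam hn hl i l hli.symm
    simp only [hg, add_zero]
    rw [← this, add_right_comm lam, add_assoc n]
    norm_num
  have g2 : ∀ i n lam, n₀ ≤ n → (n : ZMod a) = ∑ i, lam i → ∀ l,
      g i (n + 1) (lam + Pi.single l 1) = g i n lam + 0 := by
    intro i n lam hn hl l
    by_cases hli : l = i
    swap
    · exact g1 i n lam hn hl l hli
    subst hli
    obtain ⟨l', hl'⟩ := exists_ne l
    have a1 := cyc (g l) n₀ 0 l' (fun n lam h h' => g1 l n lam h h' l' hl') n lam hn hl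
    have a2 := steps (g l) n₀ 0 (· ≠ l) (g1 l) (a - 1) (fun j => if j = l then 0 else 1)
      (by simp [sum_ite, filter_ne', card_erase_of_mem]) (fun j hj e => hj (if_pos e))
      (n + 1) (lam + Pi.single l 1) (by linarith) (by
        simp only [Pi.add_apply, sum_add_distrib, sum_pi_single', mem_univ, if_true]
        push_cast; rw [hl])
    have e1 : (lam + Pi.single l 1 + fun j => (((if j = l then 0 else 1 : ℕ)) : ZMod a)) = lam + 1 := by
      funext j
      by_cases e : j = l
      · subst e; simp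
      · simp [e]
    have e2 : n + 1 + ((a - 1 : ℕ) : ℤ) = n + a := by
      rw [Nat.cast_sub (by omega)]; push_cast; ring
    rw [e1, e2] at a2
    have a3 : g l (n + a) (lam + 1) = g l (n + a) lam := by
      simp only [hg]
      rw [add_right_comm lam, h2, h2]
    linarith
  set c : ZMod a → ℤ := fun i => g i n₀ (Pi.single 0 (n₀ : ZMod a)) with hc
  have g3 : ∀ i n lam, n₀ + a ^ 2 ≤ n → (n : ZMod a) = ∑ i, lam i →
      f (n + 1) (lam + Pi.single i 1) = f n lam + c i := by
    intro i n lam hn hl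
    have := reach (g i) n₀ 0 (g2 i) n lam hn hl
    simp only [hg, hc] at this ⊢
    linarith
  have g4 : ∀ i, c i = c 0 := by
    intro i
    have hl : (((n₀ + a ^ 2 : ℤ)) : ZMod a) =
        ∑ j, (Pi.single 0 ((n₀ + a ^ 2 : ℤ) : ZMod a) : ZMod a → ZMod a) j := by simp
    have a1 := cyc f _ _ i (g3 i) _ _ le_rfl hl
    have a2 := cyc f _ _ 0 (g3 0) _ _ le_rfl hl
    have : (c i - c 0) * a = 0 := by linarith
    rcases mul_eq_zero.1 this with h | h
    · linarith
    · have : a = 0 := by exact_mod_cast h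
      omega
  have g5 := reach f (n₀ + a ^ 2) (c 0) fun n lam hn hl l => g4 l ▸ g3 l n lam hn hl
  exact ⟨n₀ + a ^ 2 + a ^ 2, fun n lam lam' hn hl hl' => by rw [g5 n lam hn hl, g5 n lam' hn hl']⟩

theorem card_sum_eq (a : ℕ) [NeZero a] (x : ZMod a) :
    (Finset.univ.filter fun lam : ZMod a → ZMod a => x = ∑ i, lam i).card = a ^ (a - 1) := by
  have h1 : ∀ y : ZMod a, (univ.filter fun lam : ZMod a → ZMod a => ∑ i, lam i = y).card =
      (univ.filter fun lam : ZMod a → ZMod a => x = ∑ i, lam i).card := by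
    intro y
    refine card_bij' (fun lam _ => lam + Pi.single 0 (x - y)) (fun lam _ => lam - Pi.single 0 (x - y))
      ?_ ?_ ?_ ?_
    · intro lam h
      simp only [mem_filter, mem_univ, true_and] at h ⊢
      simp [sum_add_distrib, h]
    · intro lam h
      simp only [mem_filter, mem_univ, true_and] at h ⊢
      simp [sum_sub_distrib, ← h]
    · intro lam _; simp
    · intro lam _; simp
  have h2 := card_eq_sum_card_fiberwise (s := (univ : Finset (ZMod a → ZMod a))) (t := univ)
    (f := fun lam => ∑ i, lam i) (fun _ _ => mem_coe.2 (mem_univ _))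
  simp only [h1, sum_const, card_univ, Fintype.card_fun, ZMod.card, smul_eq_mul] at h2
  have ha : 0 < a := Nat.pos_of_ne_zero (NeZero.ne a)
  refine Nat.eq_of_mul_eq_mul_left ha ?_
  rw [← h2, ← pow_succ']
  congr 1; omega

theorem sum_id_zmod (a : ℕ) [NeZero a] : ∑ i : ZMod a, i = ((a.choose 2 : ℕ) : ZMod a) := by
  rw [Nat.choose_two_right, ← sum_range_id, Nat.cast_sum]
  refine sum_bij' (fun i _ => i.val) (fun i _ => (i : ZMod a)) ?_ ?_ ?_ ?_ ?_
  · intro i _; exact mem_range.2 (ZMod.val_lt i)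
  · intro i _; exact mem_univ _
  · intro i _; simp
  · intro i hi; exact ZMod.val_cast_of_lt (mem_range.1 hi)
  · intro i _; simp

theorem sum_box (a : ℕ) [NeZero a] :
    ∑ c ∈ Finset.univ.filter (fun c : ZMod a → Fin a =>
        ((∑ i, (c i : ℕ) : ℕ) : ZMod a) = ((a.choose 2 : ℕ) : ZMod a)), ((∑ i, (c i : ℕ) : ℕ) : ℤ) =
      (a : ℤ) ^ (a - 1) * (a.choose 2 : ℕ) ∧
    (Finset.univ.filter (fun c : ZMod a → Fin a =>
        ((∑ i, (c i : ℕ) : ℕ) : ZMod a) = ((a.choose 2 : ℕ) : ZMod a))).card = a ^ (a - 1) := by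
  set S := Finset.univ.filter (fun c : ZMod a → Fin a =>
        ((∑ i, (c i : ℕ) : ℕ) : ZMod a) = ((a.choose 2 : ℕ) : ZMod a)) with hS
  have hcard : S.card = a ^ (a - 1) := by
    rw [← card_sum_eq a ((a.choose 2 : ℕ) : ZMod a)]
    refine card_bij' (fun c _ i => ((c i : ℕ) : ZMod a)) (fun lam _ i => ⟨(lam i).val, ZMod.val_lt _⟩)
      ?_ ?_ ?_ ?_
    · intro c h
      simp only [hS, mem_filter, mem_univ, true_and] at h ⊢
      rw [← h, Nat.cast_sum]
    · intro lam h
      simp only [hS, mem_filter, mem_univ, true_and] at h ⊢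
      rw [h, Nat.cast_sum]; simp
    · intro c _
      funext i
      exact Fin.ext (ZMod.val_cast_of_lt (c i).2)
    · intro lam _
      funext i; simp
  refine ⟨?_, hcard⟩
  have h2 : 2 * a.choose 2 = a * (a - 1) := by
    rw [Nat.choose_two_right, Nat.mul_div_cancel' (Nat.even_mul_pred_self a).two_dvd]
  have hrev : ∀ c : ZMod a → Fin a, ∑ i, ((c i).rev : ℕ) + ∑ i, (c i : ℕ) = 2 * a.choose 2 := by
    intro c
    rw [h2, ← sum_add_distrib]
    calc ∑ i, (((c i).rev : ℕ) + c i) = ∑ _i : ZMod a, (a - 1) :=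
          sum_congr rfl fun i _ => by have := (c i).2; rw [Fin.val_rev]; omega
      _ = _ := by simp
  have hmem : ∀ c ∈ S, (fun i => (c i).rev) ∈ S := by
    intro c h
    simp only [hS, mem_filter, mem_univ, true_and] at h ⊢
    have := congrArg (Nat.cast : ℕ → ZMod a) (hrev c)
    rw [Nat.cast_add, h, two_mul, Nat.cast_add] at this
    exact add_right_cancel this
  have h3 : ∑ c ∈ S, ((∑ i, (c i : ℕ) : ℕ) : ℤ) = ∑ c ∈ S, ((∑ i, ((c i).rev : ℕ) : ℕ) : ℤ) := by
    refine sum_bij' (fun c _ i => (c i).rev) (fun c _ i => (c i).rev) hmem hmem ?_ ?_ ?_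
    · intro c _; simp
    · intro c _; simp
    · intro c _; simp
  have h4 : ∑ c ∈ S, ((∑ i, ((c i).rev : ℕ) : ℕ) : ℤ) + ∑ c ∈ S, ((∑ i, (c i : ℕ) : ℕ) : ℤ) =
      (a : ℤ) ^ (a - 1) * (2 * (a.choose 2 : ℕ)) := by
    rw [← sum_add_distrib]
    calc _ = ∑ _c ∈ S, (2 * (a.choose 2 : ℕ) : ℤ) :=
          sum_congr rfl fun c _ => by exact_mod_cast hrev c
      _ = _ := by rw [sum_const, hcard]; simp
  linarith

theorem ms {ι Ω : Type} [Fintype ι] [DecidableEq ι] [CommMonoid Ω] (a : ℕ) (π : (ι → ℕ) → Ω)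
    (h : ∀ c₁ c₂ c₃ c₄ : ι → ℕ, ∑ i, c₁ i = a → ∑ i, c₂ i = a → ∑ i, c₃ i = a → ∑ i, c₄ i = a →
      c₁ + c₂ = c₃ + c₄ → π c₁ * π c₂ = π c₃ * π c₄) (t : Multiset (ι → ℕ)) :
    ∀ s : Multiset (ι → ℕ), s.card = t.card → (∀ u ∈ s, ∑ i, u i = a) → (∀ u ∈ t, ∑ i, u i = a) →
      s.sum = t.sum → (s.map π).prod = (t.map π).prod := by
  induction t using Multiset.induction_on with
  | empty => intro s hs _ _ _; rw [Multiset.card_eq_zero.1 hs]
  | cons v t ih =>
    have key : ∀ (d : ℕ) (u : ι → ℕ) (s : Multiset (ι → ℕ)), ∑ i, (v i - u i) = d → s.card = t.card →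
        (∀ w ∈ u ::ₘ s, ∑ i, w i = a) → (∀ w ∈ v ::ₘ t, ∑ i, w i = a) →
        (u ::ₘ s).sum = (v ::ₘ t).sum → ((u ::ₘ s).map π).prod = ((v ::ₘ t).map π).prod := by
      intro d
      induction d with
      | zero =>
        intro u s hd hc hs ht e
        have h1 : ∀ i, v i ≤ u i := fun i => by
          have := (sum_eq_zero_iff.1 hd) i (mem_univ _); omega
        have h2 : v = u := by
          funext i
          exact (sum_eq_sum_iff_of_le (fun i _ => h1 i)).1 (by
            rw [hs u (Multiset.mem_cons_self _ _), ht v (Multiset.mem_cons_self _ _)]) i (mem_univ _)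
        subst h2
        simp only [Multiset.sum_cons, add_right_inj] at e
        simp only [Multiset.map_cons, Multiset.prod_cons]
        rw [ih s hc (fun w hw => hs w (Multiset.mem_cons_of_mem hw))
          (fun w hw => ht w (Multiset.mem_cons_of_mem hw)) e]
      | succ d ihd =>
        intro u s hd hc hs ht e
        have hu := hs u (Multiset.mem_cons_self _ _)
        have hv := ht v (Multiset.mem_cons_self _ _)
        obtain ⟨p, -, hp⟩ := exists_ne_zero_of_sum_ne_zero (s := univ) (f := fun i => v i - u i)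
          (by omega)
        have hp' : u p < v p := by omega
        obtain ⟨q, hq⟩ : ∃ q, v q < u q := by
          by_contra hn
          push Not at hn
          have := sum_lt_sum (s := univ) (fun i _ => hn i) ⟨p, mem_univ _, hp'⟩
          omega
        have hpq : p ≠ q := by rintro rfl; omega
        obtain ⟨w, hw, hwp⟩ : ∃ w ∈ s, w p ≠ 0 := by
          by_contra hn
          push Not at hn
          have e1 := congrFun e p
          simp only [Multiset.sum_cons, Pi.add_apply] at e1
          have : s.sum p = 0 := by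
            rw [Pi.multiset_sum_apply]
            exact Multiset.sum_eq_zero fun x hx => by
              obtain ⟨w, hw, rfl⟩ := Multiset.mem_map.1 hx
              exact hn w hw
          omega
        obtain ⟨s', rfl⟩ := Multiset.exists_cons_of_mem hw
        have hw' := hs w (Multiset.mem_cons_of_mem (Multiset.mem_cons_self _ _))
        obtain ⟨u0, hu0⟩ : ∃ u0, u = u0 + Pi.single q 1 :=
          ⟨Function.update u q (u q - 1), by
            funext i; by_cases e : i = q
            · subst e; simp; omega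
            · simp [e]⟩
        obtain ⟨w0, hw0⟩ : ∃ w0, w = w0 + Pi.single p 1 :=
          ⟨Function.update w p (w p - 1), by
            funext i; by_cases e : i = p
            · subst e; simp; omega
            · simp [e]⟩
        have s1 : ∑ i, (u0 + Pi.single p 1 : ι → ℕ) i = a := by
          rw [← hu, hu0]; simp [sum_add_distrib]
        have s2 : ∑ i, (w0 + Pi.single q 1 : ι → ℕ) i = a := by
          rw [← hw', hw0]; simp [sum_add_distrib]
        have s3 : u + w = (u0 + Pi.single p 1) + (w0 + Pi.single q 1) := by rw [hu0, hw0]; abel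
        have s4 : ∑ i, (v i - (u0 + Pi.single p 1 : ι → ℕ) i) = d := by
          have : ∑ i, (v i - u i) =
              ∑ i, ((v i - (u0 + Pi.single p 1 : ι → ℕ) i) + (Pi.single p 1 : ι → ℕ) i) := by
            refine sum_congr rfl fun i _ => ?_
            have a1 := congrFun hu0 i
            have a2 := congrFun hu0 p
            have a3 := congrFun hu0 q
            by_cases e1 : i = p
            · subst e1; simp [hpq] at a1 ⊢; omega
            · by_cases e2 : i = q
              · subst e2; simp [e1] at a1 ⊢; omega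
              · simp [e1, e2] at a1 ⊢; omega
          rw [sum_add_distrib] at this
          simp only [sum_pi_single', mem_univ, if_true] at this
          omega
        have := ihd (u0 + Pi.single p 1) ((w0 + Pi.single q 1) ::ₘ s') s4 (by simpa using hc)
          (fun x hx => by
            simp only [Multiset.mem_cons] at hx
            rcases hx with rfl | rfl | hx
            · exact s1
            · exact s2
            · exact hs x (Multiset.mem_cons_of_mem (Multiset.mem_cons_of_mem hx))) ht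
          (by rw [← e]; simp only [Multiset.sum_cons, ← add_assoc, s3])
        rw [← this]
        simp only [Multiset.map_cons, Multiset.prod_cons, ← mul_assoc]
        rw [h _ _ _ _ hu hw' s1 s2 s3]
    intro s hc hs ht e
    obtain ⟨u, hu⟩ : ∃ u, u ∈ s := Multiset.card_pos_iff_exists_mem.1 (by rw [hc]; simp)
    obtain ⟨s', rfl⟩ := Multiset.exists_cons_of_mem hu
    exact key _ u s' rfl (by simpa using hc) hs ht e

theorem veronese {ι Ω : Type} [Fintype ι] [DecidableEq ι] [CommMonoid Ω] (a : ℕ) (π : (ι → ℕ) → Ω)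
    (h : ∀ c₁ c₂ c₃ c₄ : ι → ℕ, ∑ i, c₁ i = a → ∑ i, c₂ i = a → ∑ i, c₃ i = a → ∑ i, c₄ i = a →
      c₁ + c₂ = c₃ + c₄ → π c₁ * π c₂ = π c₃ * π c₄)
    (c : ι → ℕ) (hc : ∑ i, c i = a) : π c ^ a = ∏ i, π (Pi.single i a) ^ c i := by
  have := ms a π h (∑ i, Multiset.replicate (c i) (Pi.single i a)) (Multiset.replicate a c)
    (by simp [hc]) (fun u hu => by rw [Multiset.eq_of_mem_replicate hu, hc])
    (fun u hu => by
      obtain ⟨i, -, hi⟩ := Multiset.mem_sum.1 hu
      rw [Multiset.eq_of_mem_replicate hi]; simp)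
    (by
      rw [Multiset.sum_sum]
      funext j
      simp [Pi.single_apply, mul_comm])
  have e : Multiset.map π (∑ i, Multiset.replicate (c i) (Pi.single i a)) =
      ∑ i, Multiset.map π (Multiset.replicate (c i) (Pi.single i a)) :=
    map_sum (Multiset.mapAddMonoidHom π) _ _
  rw [e, Multiset.prod_sum] at this
  simpa using this

end Crest.Agent.R181.McB
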