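import Mathlib
import Crest.Agent.R181.McCountAux1
import Crest.Agent.R181.McCountB

/-!
Row 181 (route 2): counting monomials outside an upper set, and two combinatorial lemmas.
-/

set_option autoImplicit false

namespace Crest.Agent.R181.Mc

variable {τ : Type} [Fintype τ]

/-- number of monomials outside `U` with degree `k` in the first two variables and `j` in the others -/
noncomputable def cnt (U : Set (Fin 2 ⊕ τ →₀ ℕ)) (k j : ℤ) : ℕ :=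
  Nat.card {u : Fin 2 ⊕ τ →₀ ℕ // u ∉ U ∧ ((u (Sum.inl 0) + u (Sum.inl 1) : ℕ) : ℤ) = k ∧
    ((∑ t, u (Sum.inr t) : ℕ) : ℤ) = j}

theorem cnt_finite (U : Set (Fin 2 ⊕ τ →₀ ℕ)) (k j : ℤ) :
    Finite {u : Fin 2 ⊕ τ →₀ ℕ // u ∉ U ∧ ((u (Sum.inl 0) + u (Sum.inl 1) : ℕ) : ℤ) = k ∧
      ((∑ t, u (Sum.inr t) : ℕ) : ℤ) = j} :=
  CntAux.finite_aux U k j

/-- The top difference in the second degree is eventually `k + 1` (for `U = ∅`) or a constant `c ≥ 0`.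
With `U' = ` projection of `U` to the first two exponents, for `j ≥ j₀` the difference is the number of
`p ∉ U'` of degree `k`. -/
theorem cnt_main (e : ℕ) (he : Fintype.card τ = e + 1) (U : Set (Fin 2 ⊕ τ →₀ ℕ)) (hU : IsUpperSet U) :
    ∃ (r c k₀ j₀ : ℤ), (∀ k j, k₀ ≤ k → j₀ ≤ j →
        (fwdDiff (1 : ℤ))^[e] (fun j => (cnt U k j : ℤ)) j = r * k + c) ∧
      ((U = ∅ ∧ r = 1 ∧ c = 1) ∨ (U ≠ ∅ ∧ r = 0 ∧ 0 ≤ c)) ∧
      ((∃ t, Finsupp.single (Sum.inr t) 1 ∈ U) → c = 0) ∧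
      (Finsupp.single (Sum.inl 0) 1 ∈ U → Finsupp.single (Sum.inl 1) 1 ∈ U → c = 0) := by
  have h : ∀ k j, cnt U k j = (CntAux.T U k j).card := fun k j => CntAux.card_aux U k j
  simp only [h]
  exact CntAux.main_aux e he U hU

/-- Step A, combinatorial part: mixed differences vanish and `f` is periodic under the all-ones vector. -/
theorem const_of_mixed (a : ℕ) [NeZero a] (ha : 2 ≤ a) (f : ℤ → (ZMod a → ZMod a) → ℤ) (n₀ : ℤ)
    (h1 : ∀ n lam, n₀ ≤ n → (n : ZMod a) = ∑ i, lam i → ∀ i l : ZMod a, i ≠ l →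
      f (n + 2) (lam + Pi.single i 1 + Pi.single l 1) - f (n + 1) (lam + Pi.single l 1) =
        f (n + 1) (lam + Pi.single i 1) - f n lam)
    (h2 : ∀ n lam, f n (lam + 1) = f n lam) :
    ∃ n₁ : ℤ, ∀ n lam lam', n₁ ≤ n → (n : ZMod a) = ∑ i, lam i → (n : ZMod a) = ∑ i, lam' i →
      f n lam = f n lam' :=
  McB.const_of_mixed a ha f n₀ h1 h2

theorem card_sum_eq (a : ℕ) [NeZero a] (x : ZMod a) :
    (Finset.univ.filter fun lam : ZMod a → ZMod a => x = ∑ i, lam i).card = a ^ (a - 1) :=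
  McB.card_sum_eq a x

theorem sum_id_zmod (a : ℕ) [NeZero a] : ∑ i : ZMod a, i = ((a.choose 2 : ℕ) : ZMod a) :=
  McB.sum_id_zmod a

/-- the mean of `|c|` over the box, restricted to the class of `a (a - 1) / 2` -/
theorem sum_box (a : ℕ) [NeZero a] :
    ∑ c ∈ Finset.univ.filter (fun c : ZMod a → Fin a =>
        ((∑ i, (c i : ℕ) : ℕ) : ZMod a) = ((a.choose 2 : ℕ) : ZMod a)), ((∑ i, (c i : ℕ) : ℕ) : ℤ) =
      (a : ℤ) ^ (a - 1) * (a.choose 2 : ℕ) ∧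
    (Finset.univ.filter (fun c : ZMod a → Fin a =>
        ((∑ i, (c i : ℕ) : ℕ) : ZMod a) = ((a.choose 2 : ℕ) : ZMod a))).card = a ^ (a - 1) :=
  McB.sum_box a

/-- Veronese lemma: the quadratic relations imply `π c ^ a = ∏ π (a e_i) ^ c i`. -/
theorem veronese {ι Ω : Type} [Fintype ι] [DecidableEq ι] [CommMonoid Ω] (a : ℕ) (π : (ι → ℕ) → Ω)
    (h : ∀ c₁ c₂ c₃ c₄ : ι → ℕ, ∑ i, c₁ i = a → ∑ i, c₂ i = a → ∑ i, c₃ i = a → ∑ i, c₄ i = a →
      c₁ + c₂ = c₃ + c₄ → π c₁ * π c₂ = π c₃ * π c₄)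
    (c : ι → ℕ) (hc : ∑ i, c i = a) : π c ^ a = ∏ i, π (Pi.single i a) ^ c i :=
  McB.veronese a π h c hc

end Crest.Agent.R181.Mc
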