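import Mathlib

/-!
Row 181 (route 2): the algebra `R[X_t : t] / (X_t ^ a - g_t)` and its monomial basis.
-/

set_option autoImplicit false

namespace Crest.Agent.R181.Mc

open MvPolynomial

variable {R : Type} [CommRing R] {τ : Type}

/-- the ideal of the relations `X_t ^ a = g_t` -/
noncomputable def kumIdeal (a : ℕ) (g : τ → R) : Ideal (MvPolynomial τ R) :=
  Ideal.span (Set.range fun t => (X t : MvPolynomial τ R) ^ a - C (g t))

/-- `R[X_t : t] / (X_t ^ a - g_t)` -/
abbrev Kum (a : ℕ) (g : τ → R) : Type := MvPolynomial τ R ⧸ kumIdeal a g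

/-- the class of `X_t` -/
noncomputable def Kum.x (a : ℕ) (g : τ → R) (t : τ) : Kum a g := Ideal.Quotient.mk _ (X t)

theorem Kum.x_pow (a : ℕ) (g : τ → R) (t : τ) : Kum.x a g t ^ a = algebraMap R (Kum a g) (g t) := by
  have : algebraMap R (Kum a g) (g t) = Ideal.Quotient.mk _ (C (g t)) := rfl
  rw [this, Kum.x, ← map_pow, Ideal.Quotient.eq]
  exact Ideal.subset_span ⟨t, rfl⟩

/-- universal property -/
noncomputable def Kum.lift (a : ℕ) (g : τ → R) {E : Type} [CommRing E] (f : R →+* E) (y : τ → E)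
    (h : ∀ t, y t ^ a = f (g t)) : Kum a g →+* E :=
  Ideal.Quotient.lift _ (eval₂Hom f y) (by
    intro p hp
    refine Submodule.span_induction (p := fun p _ => eval₂Hom f y p = 0) ?_ (map_zero _) ?_ ?_ hp
    · rintro _ ⟨t, rfl⟩
      simp [h t]
    · intro p q _ _ h1 h2
      rw [map_add, h1, h2, add_zero]
    · intro p q _ h1
      rw [smul_eq_mul, map_mul, h1, mul_zero])

theorem Kum.lift_x (a : ℕ) (g : τ → R) {E : Type} [CommRing E] (f : R →+* E) (y : τ → E)
    (h : ∀ t, y t ^ a = f (g t)) (t : τ) : Kum.lift a g f y h (Kum.x a g t) = y t := by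
  rw [Kum.lift, Kum.x, Ideal.Quotient.lift_mk, eval₂Hom_X']

theorem Kum.lift_algebraMap (a : ℕ) (g : τ → R) {E : Type} [CommRing E] (f : R →+* E) (y : τ → E)
    (h : ∀ t, y t ^ a = f (g t)) (r : R) : Kum.lift a g f y h (algebraMap R (Kum a g) r) = f r := by
  have : algebraMap R (Kum a g) r = Ideal.Quotient.mk _ (C r) := rfl
  rw [this, Kum.lift, Ideal.Quotient.lift_mk, eval₂Hom_C]

theorem Kum.hom_ext (a : ℕ) (g : τ → R) {E : Type} [Ring E] (f₁ f₂ : Kum a g →+* E)
    (h1 : ∀ r, f₁ (algebraMap R (Kum a g) r) = f₂ (algebraMap R (Kum a g) r))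
    (h2 : ∀ t, f₁ (Kum.x a g t) = f₂ (Kum.x a g t)) : f₁ = f₂ := by
  refine Ideal.Quotient.ringHom_ext (RingHom.ext fun p => ?_)
  simp only [RingHom.comp_apply]
  induction p using MvPolynomial.induction_on with
  | C r => exact h1 r
  | add p q hp hq => rw [map_add, map_add, map_add, hp, hq]
  | mul_X p t hp =>
    rw [map_mul, map_mul, map_mul, hp]
    exact congrArg _ (h2 t)

namespace McKum

open Classical in
/-- reduction of the exponents modulo `a` -/
noncomputable def red (a : ℕ) (ha : 1 ≤ a) [Fintype τ] (g : τ → R) :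
    MvPolynomial τ R →ₗ[R] ((τ → Fin a) → R) :=
  (basisMonomials τ R).constr R fun u =>
    Pi.single (fun t => (⟨u t % a, Nat.mod_lt _ ha⟩ : Fin a)) (∏ t, g t ^ (u t / a))

open Classical in
theorem red_monomial (a : ℕ) (ha : 1 ≤ a) [Fintype τ] (g : τ → R) (u : τ →₀ ℕ) (r : R) :
    red a ha g (monomial u r) =
      r • Pi.single (fun t => (⟨u t % a, Nat.mod_lt _ ha⟩ : Fin a)) (∏ t, g t ^ (u t / a)) := by
  have : monomial u r = r • basisMonomials τ R u := by
    rw [coe_basisMonomials, smul_monomial, smul_eq_mul, mul_one]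
  rw [this, map_smul, red, Module.Basis.constr_basis]

theorem red_gen (a : ℕ) (ha : 1 ≤ a) [Fintype τ] (g : τ → R) (t : τ) (q : MvPolynomial τ R) :
    red a ha g (q * (X t ^ a - C (g t))) = 0 := by
  classical
  induction q using MvPolynomial.induction_on' with
  | add p q hp hq => rw [add_mul, map_add, hp, hq, add_zero]
  | monomial u r =>
    rw [mul_sub, map_sub, X_pow_eq_monomial, monomial_mul, C_apply, monomial_mul, mul_one, add_zero,
      red_monomial, red_monomial, sub_eq_zero]
    have h1 : (fun s => (⟨(u + Finsupp.single t a : τ →₀ ℕ) s % a, Nat.mod_lt _ ha⟩ : Fin a)) =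
        fun s => (⟨u s % a, Nat.mod_lt _ ha⟩ : Fin a) := by
      funext s
      apply Fin.ext
      simp only [Finsupp.add_apply, Finsupp.single_apply]
      split_ifs
      · exact Nat.add_mod_right _ _
      · rfl
    have h2 : ∏ s, g s ^ ((u + Finsupp.single t a : τ →₀ ℕ) s / a) =
        g t * ∏ s, g s ^ (u s / a) := by
      have : ∀ s, g s ^ ((u + Finsupp.single t a : τ →₀ ℕ) s / a) =
          (if t = s then g s else 1) * g s ^ (u s / a) := by
        intro s
        simp only [Finsupp.add_apply, Finsupp.single_apply]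
        split_ifs
        · rw [Nat.add_div_right _ ha, pow_succ']
        · rw [add_zero, one_mul]
      simp only [this, Finset.prod_mul_distrib, Finset.prod_ite_eq, Finset.mem_univ, if_true]
    rw [h1, h2, mul_smul, ← smul_eq_mul (g t), Pi.single_smul']

theorem red_ideal (a : ℕ) (ha : 1 ≤ a) [Fintype τ] (g : τ → R) {p : MvPolynomial τ R}
    (hp : p ∈ kumIdeal a g) : red a ha g p = 0 := by
  have : ∀ q, red a ha g (q * p) = 0 := by
    refine Submodule.span_induction (p := fun p _ => ∀ q, red a ha g (q * p) = 0) ?_ ?_ ?_ ?_ hp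
    · rintro _ ⟨t, rfl⟩ q
      exact red_gen a ha g t q
    · intro q
      rw [mul_zero, map_zero]
    · intro p p' _ _ h1 h2 q
      rw [mul_add, map_add, h1, h2, add_zero]
    · intro r p _ h1 q
      rw [smul_eq_mul, ← mul_assoc, h1]
  simpa using this 1

theorem mk_monomial (a : ℕ) [Fintype τ] (g : τ → R) (u : τ →₀ ℕ) :
    Ideal.Quotient.mk (kumIdeal a g) (monomial u 1) = ∏ t, Kum.x a g t ^ u t := by
  rw [monomial_eq, C_1, one_mul, Finsupp.prod_fintype _ _ (fun _ => pow_zero _), map_prod]
  simp only [map_pow, Kum.x]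

end McKum

/-- the reduced monomials form a basis -/
theorem Kum.exists_basis (a : ℕ) (ha : 1 ≤ a) [Fintype τ] (g : τ → R) :
    ∃ b : Module.Basis (τ → Fin a) R (Kum a g), ∀ c, b c = ∏ t, Kum.x a g t ^ (c t : ℕ) := by
  classical
  refine ⟨Module.Basis.mk (v := fun c : τ → Fin a => ∏ t, Kum.x a g t ^ (c t : ℕ)) ?_ ?_,
    fun c => Module.Basis.mk_apply _ _ c⟩
  · rw [Fintype.linearIndependent_iff]
    intro l hl c
    let e : (τ → Fin a) → (τ →₀ ℕ) := fun c => Finsupp.equivFunOnFinite.symm fun t => (c t : ℕ)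
    have he : ∀ c t, e c t = c t := fun _ _ => rfl
    have h1 : ∑ c, l c • monomial (e c) (1 : R) ∈ kumIdeal a g := by
      rw [← Ideal.Quotient.eq_zero_iff_mem, ← Ideal.Quotient.mkₐ_eq_mk R, map_sum, ← hl]
      refine Finset.sum_congr rfl fun c _ => ?_
      rw [map_smul, Ideal.Quotient.mkₐ_eq_mk, McKum.mk_monomial]
      rfl
    have h2 := McKum.red_ideal a ha g h1
    rw [map_sum] at h2
    have h3 : ∀ c, McKum.red a ha g (l c • monomial (e c) (1 : R)) = Pi.single c (l c) := by
      intro c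
      rw [map_smul, McKum.red_monomial, one_smul]
      have h4 : (fun t => (⟨e c t % a, Nat.mod_lt _ ha⟩ : Fin a)) = c :=
        funext fun t => Fin.ext (Nat.mod_eq_of_lt (c t).2)
      have h5 : ∏ t, g t ^ (e c t / a) = 1 :=
        Finset.prod_eq_one fun t _ => by rw [he, Nat.div_eq_of_lt (c t).2, pow_zero]
      rw [h4, h5, ← Pi.single_smul', smul_eq_mul, mul_one]
    simp only [h3, Finset.univ_sum_single] at h2
    exact congrFun h2 c
  · intro y _
    obtain ⟨p, rfl⟩ := Ideal.Quotient.mk_surjective y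
    induction p using MvPolynomial.induction_on' with
    | add p q hp hq =>
      rw [map_add]
      exact add_mem (hp trivial) (hq trivial)
    | monomial u r =>
      have h1 : Ideal.Quotient.mk (kumIdeal a g) (monomial u r) =
          (r * ∏ t, g t ^ (u t / a)) • ∏ t, Kum.x a g t ^ (u t % a) := by
        have h2 : monomial u r = C r * monomial u (1 : R) := by rw [C_mul_monomial, mul_one]
        have h3 : Ideal.Quotient.mk (kumIdeal a g) (C r) = algebraMap R (Kum a g) r := rfl
        refine Eq.trans ?_ (Algebra.smul_def (R := R) (A := Kum a g) _ _).symm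
        rw [h2, map_mul, McKum.mk_monomial, h3, map_mul, map_prod, mul_assoc,
          ← Finset.prod_mul_distrib]
        congr 1
        refine Finset.prod_congr rfl fun t _ => ?_
        rw [map_pow, ← Kum.x_pow, ← pow_mul, ← pow_add, Nat.div_add_mod]
      rw [h1]
      exact Submodule.smul_mem _ _
        (Submodule.subset_span ⟨fun t => ⟨u t % a, Nat.mod_lt _ ha⟩, rfl⟩)

end Crest.Agent.R181.Mc
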