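import Mathlib
import Crest.Agent.R181.McKum
import Crest.Agent.R181.McStd

/-!
Row 181 (route 2): definitions for the binding lemma.

`B = K[z, z', S_*, S_i][s, v_i] / (s ^ a = T, v_i ^ a = z - b_i z')`, graded by
(fine degree, `S`-degree, weight), with the cyclic symmetry `σ`.
-/

set_option autoImplicit false

namespace Crest.Agent.R181.Mc

open MvPolynomial
open scoped TensorProduct

/-- degrees: (fine degree, `S`-degree, weight) -/
abbrev Gam (a : ℕ) : Type := ℤ × ℤ × (ZMod a → ZMod a)

/-- cyclic shift of the weights -/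
def rot (a : ℕ) : Gam a ≃+ Gam a where
  toFun γ := (γ.1, γ.2.1, fun i => γ.2.2 (i - 1))
  invFun γ := (γ.1, γ.2.1, fun i => γ.2.2 (i + 1))
  left_inv γ := by simp
  right_inv γ := by simp
  map_add' _ _ := rfl

/-- polynomial variables: `z, z'`, then `S_*` (`none`) and `S_i` -/
abbrev Var (a : ℕ) : Type := Fin 2 ⊕ Option (ZMod a)

/-- degrees of the polynomial variables -/
def degV (a : ℕ) : Var a → Gam a
  | Sum.inl _ => ((a : ℤ), 0, 0)
  | Sum.inr none => (0, 1, 0)
  | Sum.inr (some i) => (0, 1, Pi.single (i + 1) 1 - Pi.single i 1)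

/-- degrees of `s` (`none`) and `v_i` -/
def degT (a : ℕ) : Option (ZMod a) → Gam a
  | none => (0, 0, -1)
  | some i => (1, 0, Pi.single i 1)

/-- shift of the indices -/
def rotO (a : ℕ) : Option (ZMod a) → Option (ZMod a) := Option.map (· + 1)

/-- shift of the polynomial variables -/
def rotV (a : ℕ) : Var a → Var a := Sum.map id (rotO a)

/-- allowed degrees -/
def Ok {a : ℕ} [NeZero a] (γ : Gam a) : Prop := (γ.1 : ZMod a) = ∑ i, γ.2.2 i

/-- The cyclic extension `K = L(θ)` and the conjugate points `b_i`. -/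
structure KData (a : ℕ) (L K : Type) [Field L] [CommRing K] [Algebra L K] where
  ζ : L
  hζ : IsPrimitiveRoot ζ a
  θ : K
  Θ : L
  hΘ : Θ ≠ 0
  θ_pow : θ ^ a = algebraMap L K Θ
  T : L
  hT : T ≠ 0
  σ : K ≃ₐ[L] K
  σθ : σ θ = ζ • θ
  bas : Module.Basis (Fin a) L K
  bas_eq : ∀ i, bas i = θ ^ (i : ℕ)
  b : ZMod a → K
  σb : ∀ i, σ (b i) = b (i + 1)
  unit : ∀ i j, i ≠ j → IsUnit (b i - b j)

/-- Divisibility coming from the division algebra generated by `D`, `θ`, `u`. -/
def Div (a : ℕ) {L : Type} [Field L] (D : Type) [DivisionRing D] [Algebra L D] (ζ Θ T : L) : Prop :=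
  ∀ (V : Type) [AddCommGroup V] [Module D V] [Module.Finite D V] (t w : Module.End D V),
    (∀ v, (t ^ a) v = algebraMap L D Θ • v) → (∀ v, algebraMap L D T • (w ^ a) v = v) →
    (∀ v, w (t v) = algebraMap L D ζ • t (w v)) → a ^ 2 ∣ Module.finrank D V

variable {a : ℕ} {L K : Type} [Field L] [CommRing K] [Algebra L K] (κ : KData a L K)

/-- right hand sides of the relations -/
noncomputable def gK : Option (ZMod a) → MvPolynomial (Var a) K
  | none => C (algebraMap L K κ.T)
  | some i => X (Sum.inl 0) - C (κ.b i) * X (Sum.inl 1)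

/-- the fine ring -/
abbrev Br : Type := Kum a (gK κ)

/-- the structure map from the polynomial ring -/
noncomputable abbrev toB : MvPolynomial (Var a) K →+* Br κ := algebraMap _ _

/-- constants -/
noncomputable def kk : K →+* Br κ := (toB κ).comp C

/-- polynomial variables -/
noncomputable def xv (y : Var a) : Br κ := toB κ (X y)

/-- polynomial monomials -/
noncomputable def mon (u : Var a →₀ ℕ) : Br κ := toB κ (monomial u 1)

/-- `s` and the `v_i` -/
noncomputable def xt (t : Option (ZMod a)) : Br κ := Kum.x a (gK κ) t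

/-- the cyclic symmetry -/
noncomputable def σB : Br κ →+* Br κ :=
  Kum.lift a (gK κ) (eval₂Hom ((kk κ).comp (κ.σ : K →+* K)) fun y => xv κ (rotV a y))
    (fun t => xt κ (rotO a t)) (by
      rintro (_ | i)
      · simp [xt, rotO, Kum.x_pow, gK, kk]
      · simp [xt, rotO, Kum.x_pow, gK, kk, xv, rotV, κ.σb])

/-- the coaction defining the grading -/
noncomputable def ρB : Br κ →+* AddMonoidAlgebra (Br κ) (Gam a) :=
  Kum.lift a (gK κ)
    (eval₂Hom ((AddMonoidAlgebra.singleZeroRingHom).comp (kk κ))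
      fun y => AddMonoidAlgebra.single (degV a y) (xv κ y))
    (fun t => AddMonoidAlgebra.single (degT a t) (xt κ t)) (by
      rintro (_ | i)
      · have h : a • degT a none = 0 := by
          ext j <;> simp [degT]
        simp [AddMonoidAlgebra.single_pow, h, xt, Kum.x_pow, gK, kk]
      · have h : a • degT a (some i) = ((a : ℤ), 0, 0) := by
          ext j <;> simp [degT]
        rw [AddMonoidAlgebra.single_pow, h, xt, Kum.x_pow, gK]
        have h0 : ∀ x : Br κ, (AddMonoidAlgebra.singleZeroRingHom : Br κ →+* AddMonoidAlgebra (Br κ) (Gam a)) x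
            = AddMonoidAlgebra.single 0 x := fun _ => rfl
        simp only [map_sub, map_mul, eval₂Hom_X', eval₂Hom_C, degV, RingHom.comp_apply,
          h0, AddMonoidAlgebra.single_mul_single, zero_add,
          AddMonoidAlgebra.single_sub, xv, kk])

/-- `b` is homogeneous of degree `δ` -/
def Hom (b : Br κ) (δ : Gam a) : Prop := ρB κ b = AddMonoidAlgebra.single δ b

/-- index set of the monomial basis of `B` over `L` -/
abbrev Idx (a : ℕ) : Type := Fin a × (Option (ZMod a) → Fin a) × (Var a →₀ ℕ)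

/-- degree of a polynomial monomial -/
noncomputable def degM (a : ℕ) (u : Var a →₀ ℕ) : Gam a := u.sum fun y n => n • degV a y

variable [NeZero a]

/-- degree of the part `θ ^ r * ∏ x_t ^ c_t` -/
def degC (a : ℕ) [NeZero a] (c : Option (ZMod a) → Fin a) : Gam a := ∑ t, (c t : ℕ) • degT a t

/-- `θ ^ r * ∏ x_t ^ c_t` -/
noncomputable def gen (r : Fin a) (c : Option (ZMod a) → Fin a) : Br κ :=
  kk κ κ.θ ^ (r : ℕ) * ∏ t, xt κ t ^ (c t : ℕ)

/-- the monomial basis of `B` over `L` -/
noncomputable def mono (i : Idx a) : Br κ := mon κ i.2.2 * gen κ i.1 i.2.1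

/-- A ring generated by `D`, `B`, the degree projections and `σ`, with the free modules `F k`
(generator in degree `(a k, 0, 0)`) and the shift of the `S`-degree. -/
structure Ctx (D : Type) [DivisionRing D] [Algebra L D] where
  A : Type
  [ring : Ring A]
  ιD : D →+* A
  ιB : Br κ →+* A
  e : Gam a → A
  σ : A
  comm : ∀ d b, ιD d * ιB b = ιB b * ιD d
  alg : ∀ l : L, ιB (algebraMap L (Br κ) l) = ιD (algebraMap L D l)
  e_mul : ∀ γ γ', e γ * e γ' = if γ = γ' then e γ else 0
  e_D : ∀ γ d, e γ * ιD d = ιD d * e γ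
  e_B : ∀ γ δ b, Hom κ b δ → e (γ + δ) * ιB b = ιB b * e γ
  σ_pow : σ ^ a = 1
  σ_D : ∀ d, σ * ιD d = ιD d * σ
  σ_B : ∀ b, σ * ιB b = ιB (σB κ b) * σ
  σ_e : ∀ γ, σ * e γ = e (rot a γ) * σ
  gen_top : Subring.closure (Set.range ιD ∪ Set.range ιB ∪ Set.range e ∪ {σ}) = ⊤
  sh : A →+* A
  sh_D : ∀ d, sh (ιD d) = ιD d
  sh_B : ∀ b, sh (ιB b) = ιB b
  sh_e : ∀ γ, sh (e γ) = e (γ + (0, 1, 0))
  sh_σ : sh σ = σ
  F : ℤ → Type
  [addF : ∀ k, AddCommGroup (F k)]
  [modF : ∀ k, Module A (F k)]
  one : ∀ k, F k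
  e_one : ∀ k : ℤ, e ((a : ℤ) * k, 0, 0) • one k = one k
  σ_one : ∀ k, σ • one k = one k
  free : ∀ k, ∃ φ : D ⊗[L] Br κ ≃+ F k, ∀ d b, φ (d ⊗ₜ[L] b) = ιD d • ιB b • one k

attribute [instance] Ctx.ring Ctx.addF Ctx.modF

namespace Ctx

variable {κ} {D : Type} [DivisionRing D] [Algebra L D] (C : Ctx κ D)

noncomputable instance modA : Module D C.A := Module.compHom C.A C.ιD

/-- the `D`-module structure of an `A`-module -/
noncomputable abbrev modD (V : Type) [AddCommGroup V] [Module C.A V] : Module D V :=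
  Module.compHom V C.ιD

theorem towD (V : Type) [AddCommGroup V] [Module C.A V] :
    letI := C.modD V; IsScalarTower D C.A V :=
  letI := C.modD V
  ⟨fun d x v => mul_smul (C.ιD d) x v⟩

section WithD

variable (V : Type) [AddCommGroup V] [Module C.A V] [Module D V] [IsScalarTower D C.A V]

theorem smul_eq (d : D) (v : V) : d • v = C.ιD d • v := by
  have h : d • (1 : C.A) = C.ιD d := mul_one (C.ιD d)
  rw [← h, smul_assoc, one_smul]

/-- an element commuting with `D` acts `D`-linearly -/
noncomputable def op (x : C.A) (hx : ∀ d, x * C.ιD d = C.ιD d * x) : Module.End D V where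
  toFun v := x • v
  map_add' := smul_add x
  map_smul' d v := by
    rw [RingHom.id_apply, C.smul_eq V, C.smul_eq V, ← mul_smul, hx, mul_smul]

/-- action of `B` -/
noncomputable def opB (b : Br κ) : Module.End D V := C.op V (C.ιB b) fun d => (C.comm d b).symm

/-- degree projections -/
noncomputable def opE (γ : Gam a) : Module.End D V := C.op V (C.e γ) (C.e_D γ)

/-- action of `σ` -/
noncomputable def opσ : Module.End D V := C.op V C.σ C.σ_D

/-- action of the polynomial monomials -/
noncomputable def opX (u : Var a →₀ ℕ) : Module.End D V := C.opB V (mon κ u)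

/-- the piece of degree `γ` -/
noncomputable def piece (γ : Gam a) : Submodule D V := LinearMap.eqLocus (C.opE V γ) 1

end WithD

variable (V : Type) [AddCommGroup V] [Module C.A V]

/-- dimension of the piece of degree `γ` -/
noncomputable def hdim (γ : Gam a) : ℕ :=
  letI := C.modD V
  haveI := C.towD V
  Module.finrank D (C.piece V γ)

/-- `m` are homogeneous generators over `D[z, z', S]` of degrees `deg` -/
def IsGen {g : ℕ} (m : Fin g → V) (deg : Fin g → Gam a) : Prop :=
  (∀ i, C.e (deg i) • m i = m i ∧ Ok (deg i)) ∧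
    AddSubgroup.closure (Set.range fun p : D × Fin g × (Var a →₀ ℕ) =>
      C.ιD p.1 • C.ιB (mon κ p.2.2) • m p.2.1) = ⊤

/-- admissible modules -/
def Adm : Prop := ∃ (g : ℕ) (m : Fin g → V) (deg : Fin g → Gam a), C.IsGen V m deg

/-- total dimension in fine degree `n` and `S`-degree `j` -/
noncomputable def H (n j : ℤ) : ℕ := ∑ lam : ZMod a → ZMod a, C.hdim V (n, j, lam)

end Ctx

/-- the base point of the fine degrees -/
def nstar (a : ℕ) : ℤ := (a.choose 2 : ℕ) - 2 * (a : ℤ)

namespace Ctx

variable {κ} {D : Type} [DivisionRing D] [Algebra L D] (C : Ctx κ D)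
variable (V : Type) [AddCommGroup V] [Module C.A V]

/-- the top `S`-difference of the Hilbert function is eventually `r k + c` -/
def HD (r c : ℤ) : Prop :=
  ∃ k₀ j₀ : ℤ, ∀ k j, k₀ ≤ k → j₀ ≤ j →
    (fwdDiff (1 : ℤ))^[a] (fun j => (C.H V (nstar a + a * k) j : ℤ)) j = r * k + c

open Classical in
/-- the additive function of the machine -/
noncomputable def Φ : ℤ :=
  if h : ∃ rc : ℤ × ℤ, C.HD V rc.1 rc.2 then -(h.choose.2) / (a : ℤ) ^ (a + 1) else 0

/-- the module with shifted `S`-degree -/
def Sh (_C : Ctx κ D) (V : Type) : Type := V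

instance : AddCommGroup (C.Sh V) := (inferInstance : AddCommGroup V)

noncomputable instance : Module C.A (C.Sh V) := Module.compHom V C.sh

end Ctx

end Crest.Agent.R181.Mc
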