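import Crest.Agent.R181.McHilb
import Crest.Agent.R181.Mach

/-! Row 181 (route 2): integrality, and the set-up of the machine. -/

set_option autoImplicit false

namespace Crest.Agent.R181.Mc.Ctx

variable {a : ℕ} [NeZero a] {L K : Type} [Field L] [CommRing K] [Algebra L K] {κ : KData a L K}
  {D : Type} [DivisionRing D] [Algebra L D] (C : Ctx κ D)

variable {V W : Type} [AddCommGroup V] [Module C.A V] [AddCommGroup W] [Module C.A W]

theorem int1_bij {U U' : Type} [AddCommGroup U] [Module D U] [AddCommGroup U'] [Module D U']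
    (f : U →ₗ[D] U') (A : Submodule D U) (B : Submodule D U') (h1 : ∀ x ∈ A, f x ∈ B)
    (h2 : ∀ x ∈ A, f x = 0 → x = 0) (h3 : ∀ y ∈ B, ∃ x ∈ A, f x = y) :
    Module.finrank D A = Module.finrank D B := by
  refine (LinearEquiv.ofBijective (f.restrict h1) ⟨?_, ?_⟩).finrank_eq
  · rw [injective_iff_map_eq_zero]
    intro x hx
    exact Subtype.ext (h2 x x.2 (congrArg Subtype.val hx))
  · intro y
    obtain ⟨x, hx, e⟩ := h3 y y.2
    exact ⟨⟨x, hx⟩, Subtype.ext e⟩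

theorem int1_rank {U U' : Type} [AddCommGroup U] [Module D U] [AddCommGroup U'] [Module D U']
    (f : U →ₗ[D] U') (A : Submodule D U) [Module.Finite D A] :
    Module.finrank D A =
      Module.finrank D (A.map f) + Module.finrank D ↥(A ⊓ LinearMap.ker f) := by
  have h := (f.domRestrict A).finrank_range_add_finrank_ker
  rw [LinearMap.range_domRestrict, LinearMap.ker_domRestrict,
    ← Submodule.finrank_map_subtype_eq, Submodule.map_comap_subtype] at h
  exact h.symm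

variable (κ) in
/-- the inverse of `s` -/
noncomputable def int1_s : Br κ := algebraMap L (Br κ) κ.T⁻¹ * xt κ none ^ (a - 1)

variable (κ) in
theorem int1_inv : xt κ none * int1_s κ = 1 := by
  have h : xt κ none * xt κ none ^ (a - 1) = xt κ none ^ a := by
    rw [← pow_succ', Nat.sub_add_cancel NeZero.one_le]
  rw [int1_s, mul_left_comm, h, xt_none_pow, ← map_mul, inv_mul_cancel₀ κ.hT, map_one]

theorem int1_cast : ((a - 1 : ℕ) : ZMod a) = -1 := by
  rw [Nat.cast_sub NeZero.one_le]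
  simp

variable (κ) in
theorem int1_hom : Hom κ (int1_s κ) (0, 0, 1) := by
  have h := (hom_algebraMap κ κ.T⁻¹).mul ((hom_xt κ none).pow (a - 1))
  have e : (0 : Gam a) + (a - 1) • degT a none = (0, 0, 1) := by
    refine Prod.ext (by simp [degT]) (Prod.ext (by simp [degT]) (funext fun i => ?_))
    simp [degT, int1_cast]
  rwa [e] at h

variable (κ) in
/-- `z` and `z'` lie in the ideal generated by `v_i` and `v_l` -/
theorem int1_z {i l : ZMod a} (h : i ≠ l) (ε : Fin 2) : ∃ p q : Br κ,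
    Hom κ p ((a - 1) • degT a (some i)) ∧
      xv κ (Sum.inl ε) = xt κ (some i) * p + xt κ (some l) * q := by
  obtain ⟨u, hu⟩ := (κ.unit i l h).exists_right_inv
  have hu' : (kk κ (κ.b i) - kk κ (κ.b l)) * kk κ u = 1 := by
    rw [← map_sub, ← map_mul, hu, map_one]
  have hp : ∀ t, xt κ (some t) * xt κ (some t) ^ (a - 1) =
      xv κ (Sum.inl 0) - kk κ (κ.b t) * xv κ (Sum.inl 1) := fun t => by
    rw [← pow_succ', Nat.sub_add_cancel NeZero.one_le, xt_some_pow]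
  have hh : ∀ c : K, Hom κ (kk κ c * xt κ (some i) ^ (a - 1)) ((a - 1) • degT a (some i)) :=
    fun c => by simpa using (hom_kk κ c).mul ((hom_xt κ (some i)).pow (a - 1))
  fin_cases ε
  · refine ⟨_, kk κ (κ.b i * u) * xt κ (some l) ^ (a - 1), hh (1 - κ.b i * u), ?_⟩
    rw [mul_left_comm, mul_left_comm (xt κ (some l)), hp, hp, map_sub, map_mul, map_one]
    change xv κ (Sum.inl 0) = _
    linear_combination (-(kk κ (κ.b i)) * xv κ (Sum.inl 1)) * hu'
  · refine ⟨_, kk κ u * xt κ (some l) ^ (a - 1), hh (-u), ?_⟩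
    rw [mul_left_comm, mul_left_comm (xt κ (some l)), hp, hp, map_neg]
    change xv κ (Sum.inl 1) = _
    linear_combination (-xv κ (Sum.inl 1)) * hu'

theorem int1_comm (b b' : Br κ) (x : V) : C.ιB b • C.ιB b' • x = C.ιB b' • C.ιB b • x := by
  rw [← mul_smul, ← mul_smul, ← map_mul, ← map_mul, mul_comm]

theorem int1_e {b : Br κ} {δ : Gam a} (hb : Hom κ b δ) (γ : Gam a) (x : V) :
    C.ιB b • C.e γ • x = C.e (γ + δ) • C.ιB b • x := by
  rw [← mul_smul, ← mul_smul, C.e_B γ δ b hb]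

theorem int1_ee (γ : Gam a) (x : V) : C.e γ • C.e γ • x = C.e γ • x := by
  rw [← mul_smul, C.e_mul, if_pos rfl]

section

variable [Module D V] [IsScalarTower D C.A V]

/-- in large fine degree a stable subspace is generated by `v_i, v_l` -/
theorem int1_gen (hV : C.Adm V) {i l : ZMod a} (h : i ≠ l) (N : Submodule D V)
    (hB : ∀ b, ∀ x ∈ N, C.ιB b • x ∈ N) (he : ∀ γ, ∀ x ∈ N, C.e γ • x ∈ N) :
    ∃ n₀ : ℤ, ∀ γ : Gam a, n₀ ≤ γ.1 → ∀ x ∈ N, C.e (γ + degT a (some i)) • x = x →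
      ∃ y ∈ N, ∃ y' ∈ N, C.e γ • y = y ∧
        x = C.ιB (xt κ (some i)) • y + C.ιB (xt κ (some l)) • y' := by
  obtain ⟨n₀, hn⟩ := C.gen_large hV N (fun u => hB _) he
  refine ⟨n₀ + a, fun γ hγ x hx hx' => ?_⟩
  have hd : a • degT a (some i) = ((a : ℤ), 0, 0) := by
    ext j <;> simp [degT]
  have hd' : (a - 1) • degT a (some i) + degT a (some i) = ((a : ℤ), 0, 0) := by
    rw [← succ_nsmul, Nat.sub_add_cancel NeZero.one_le, hd]
  obtain ⟨y, hy, y', hy', e1, e2, e3⟩ := hn (γ - (a - 1) • degT a (some i)) (by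
    have := congrArg Prod.fst hd'
    simp only [degT, Prod.fst_add] at this
    simp only [degT, Prod.fst_sub]
    omega) x hx (by rw [← hd', ← add_assoc, sub_add_cancel]; exact hx')
  obtain ⟨p, q, hp, ez⟩ := int1_z κ h 0
  obtain ⟨p', q', hp', ez'⟩ := int1_z κ h 1
  refine ⟨C.ιB p • y + C.ιB p' • y', N.add_mem (hB _ _ hy) (hB _ _ hy'),
    C.ιB q • y + C.ιB q' • y', N.add_mem (hB _ _ hy) (hB _ _ hy'), ?_, ?_⟩
  · have h1 := C.smul_hom hp e1
    have h2 := C.smul_hom hp' e2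
    rw [sub_add_cancel] at h1 h2
    rw [smul_add, h1, h2]
  · rw [e3, ez, ez']
    simp only [map_add, map_mul, add_smul, mul_smul, smul_add]
    abel

theorem int1_pair (hV : C.Adm V) {i l : ZMod a} (h : i ≠ l) :
    ∃ n₀ : ℤ, ∀ γ : Gam a, n₀ ≤ γ.1 →
      C.hdim V (γ + degT a (some i) + degT a (some l)) + C.hdim V γ =
        C.hdim V (γ + degT a (some i)) + C.hdim V (γ + degT a (some l)) := by
  set vi := C.opB V (xt κ (some i)) with hvi
  set vl := C.opB V (xt κ (some l)) with hvl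
  set R := LinearMap.range vl with hR
  have RB : ∀ b, ∀ x ∈ R, C.ιB b • x ∈ R := by
    rintro b _ ⟨w, rfl⟩
    exact ⟨C.ιB b • w, C.int1_comm _ _ w⟩
  have Re : ∀ γ, ∀ x ∈ R, C.e γ • x ∈ R := by
    rintro γ _ ⟨w, rfl⟩
    refine ⟨C.e (γ - degT a (some l)) • w, ?_⟩
    have := C.int1_e (hom_xt κ (some l)) (γ - degT a (some l)) w
    rwa [sub_add_cancel] at this
  have KB : ∀ t b, ∀ x ∈ LinearMap.ker (C.opB V (xt κ t)),
      C.ιB b • x ∈ LinearMap.ker (C.opB V (xt κ t)) := fun t b x hx => by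
    have hx' : C.ιB (xt κ t) • x = 0 := hx
    change C.ιB (xt κ t) • C.ιB b • x = 0
    rw [C.int1_comm, hx', smul_zero]
  have Ke : ∀ t γ, ∀ x ∈ LinearMap.ker (C.opB V (xt κ t)),
      C.e γ • x ∈ LinearMap.ker (C.opB V (xt κ t)) := fun t γ x hx => by
    have hx' : C.ιB (xt κ t) • x = 0 := hx
    change C.ιB (xt κ t) • C.e γ • x = 0
    rw [C.int1_e (hom_xt κ t), hx', smul_zero]
  obtain ⟨n1, h1⟩ := C.int1_gen hV h (LinearMap.ker vl) (KB _) (Ke _)
  obtain ⟨n2, h2⟩ := C.int1_gen hV h (LinearMap.ker vl ⊓ LinearMap.ker vi)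
    (fun b x hx => ⟨KB _ b x hx.1, KB _ b x hx.2⟩) (fun γ x hx => ⟨Ke _ γ x hx.1, Ke _ γ x hx.2⟩)
  obtain ⟨n3, h3⟩ := C.int1_gen hV h (R.comap vi)
    (fun b x hx => by
      have := RB b _ hx
      change C.ιB (xt κ (some i)) • C.ιB b • x ∈ R
      rw [C.int1_comm]
      exact this)
    (fun γ x hx => by
      change C.ιB (xt κ (some i)) • C.e γ • x ∈ R
      rw [C.int1_e (hom_xt κ (some i))]
      exact Re _ _ hx)
  obtain ⟨n4, h4⟩ := C.int1_gen hV h ⊤ (fun _ _ _ => trivial) (fun _ _ _ => trivial)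
  refine ⟨max (max n1 (n2 + 1)) (max n3 n4), fun γ hγ => ?_⟩
  simp only [max_le_iff] at hγ
  obtain ⟨⟨g1, g2⟩, g3, g4⟩ := hγ
  have d1 : ∀ t : ZMod a, (degT a (some t)).1 = 1 := fun _ => rfl
  -- counting
  have cnt : ∀ δ : Gam a, C.hdim V (δ + degT a (some l)) +
      Module.finrank D ↥(C.piece V δ ⊓ LinearMap.ker vl) =
      C.hdim V δ + Module.finrank D ((C.piece V (δ + degT a (some l))).map R.mkQ) := fun δ => by
    have := C.finite_piece hV δ
    have := C.finite_piece hV (δ + degT a (some l))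
    have a1 := int1_rank vl (C.piece V δ)
    have a2 := int1_rank R.mkQ (C.piece V (δ + degT a (some l)))
    have a3 : C.piece V (δ + degT a (some l)) ⊓ LinearMap.ker R.mkQ = (C.piece V δ).map vl := by
      rw [Submodule.ker_mkQ]
      ext x
      constructor
      · rintro ⟨hx, w, rfl⟩
        refine ⟨C.e δ • w, C.int1_ee δ w, ?_⟩
        exact (C.int1_e (hom_xt κ (some l)) δ w).trans hx
      · rintro ⟨w, hw, rfl⟩
        exact ⟨C.smul_hom (hom_xt κ (some l)) hw, w, rfl⟩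
    rw [a3] at a2
    rw [C.hdim_eq, C.hdim_eq]
    omega
  have k1 : Module.finrank D ↥(C.piece V γ ⊓ LinearMap.ker vl) =
      Module.finrank D ↥(C.piece V (γ + degT a (some i)) ⊓ LinearMap.ker vl) := by
    refine int1_bij vi _ _ (fun x hx => ⟨C.smul_hom (hom_xt κ (some i)) hx.1, KB _ _ x hx.2⟩)
      (fun x hx h0 => ?_) (fun x hx => ?_)
    · obtain ⟨y, hy, y', hy', -, e⟩ := h2 (γ - degT a (some i))
        (by rw [Prod.fst_sub, d1]; omega) x ⟨hx.2, h0⟩ (by rw [sub_add_cancel]; exact hx.1)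
      have e1 : C.ιB (xt κ (some i)) • y = 0 := hy.2
      have e2 : C.ιB (xt κ (some l)) • y' = 0 := hy'.1
      rw [e, e1, e2, add_zero]
    · obtain ⟨y, hy, y', hy', e0, e⟩ := h1 γ g1 x hx.2 hx.1
      have e2 : C.ιB (xt κ (some l)) • y' = 0 := hy'
      rw [e2, add_zero] at e
      exact ⟨y, ⟨e0, hy⟩, e.symm⟩
  have k2 : Module.finrank D ((C.piece V (γ + degT a (some l))).map R.mkQ) =
      Module.finrank D ((C.piece V (γ + degT a (some i) + degT a (some l))).map R.mkQ) := by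
    have ec : γ + degT a (some i) + degT a (some l) = γ + degT a (some l) + degT a (some i) :=
      add_right_comm _ _ _
    rw [ec]
    refine int1_bij (R.mapQ R vi fun x hx => RB _ x hx) _ _ ?_ ?_ ?_
    · rintro _ ⟨x, hx, rfl⟩
      exact ⟨vi x, C.smul_hom (hom_xt κ (some i)) hx, rfl⟩
    · rintro _ ⟨x, hx, rfl⟩ h0
      have h0' : vi x ∈ R := (Submodule.Quotient.mk_eq_zero R).1 h0
      obtain ⟨y, hy, y', -, -, e⟩ := h3 (γ + degT a (some l) - degT a (some i))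
        (by rw [Prod.fst_sub, Prod.fst_add, d1, d1]; omega) x h0'
        (by rw [sub_add_cancel]; exact hx)
      refine (Submodule.Quotient.mk_eq_zero R).2 ?_
      rw [e]
      exact R.add_mem hy ⟨y', rfl⟩
    · rintro _ ⟨x, hx, rfl⟩
      obtain ⟨y, -, y', -, e0, e⟩ := h4 (γ + degT a (some l))
        (by rw [Prod.fst_add, d1]; omega) x trivial hx
      refine ⟨R.mkQ y, ⟨y, e0, rfl⟩, ?_⟩
      change R.mkQ (vi y) = R.mkQ x
      rw [e, map_add, show R.mkQ (C.ιB (xt κ (some l)) • y') = 0 from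
        (Submodule.Quotient.mk_eq_zero R).2 ⟨y', rfl⟩, add_zero]
      rfl
  have c1 := cnt γ
  have c2 := cnt (γ + degT a (some i))
  omega

theorem int1_pow (x : C.A) (hx : ∀ d, x * C.ιD d = C.ιD d * x) {N : Submodule D V}
    (h : ∀ v ∈ N, C.op V x hx v ∈ N) (k : ℕ) (v : N) :
    ((((C.op V x hx).restrict h) ^ k) v : V) = x ^ k • (v : V) := by
  induction k with
  | zero => simp
  | succ k ih =>
    rw [pow_succ', Module.End.mul_apply, pow_succ', mul_smul, ← ih]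
    rfl

end

/-- `s` is invertible -/
theorem hdim_periodic (n j : ℤ) (lam : ZMod a → ZMod a) :
    C.hdim V (n, j, lam + 1) = C.hdim V (n, j, lam) := by
  let _ := C.modD V
  have := C.towD V
  rw [C.hdim_eq, C.hdim_eq]
  refine int1_bij (C.opB V (xt κ none)) _ _ (fun x hx => ?_) (fun x _ h0 => ?_) (fun y hy => ?_)
  · have h := C.smul_hom (hom_xt κ none) hx
    have e : ((n, j, lam + 1) : Gam a) + degT a none = (n, j, lam) := by simp [degT]
    rwa [e] at h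
  · have h0' : C.ιB (xt κ none) • x = 0 := h0
    rw [← one_smul C.A x, ← map_one C.ιB, ← int1_inv κ, mul_comm, map_mul, mul_smul, h0', smul_zero]
  · refine ⟨C.ιB (int1_s κ) • y, ?_, ?_⟩
    · have h := C.smul_hom (int1_hom κ) hy
      have e : ((n, j, lam) : Gam a) + (0, 0, 1) = (n, j, lam + 1) := by simp
      rwa [e] at h
    · change C.ιB (xt κ none) • C.ιB (int1_s κ) • y = y
      rw [← mul_smul, ← map_mul, int1_inv, map_one, one_smul]

/-- mixed differences vanish in large fine degree -/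
theorem hdim_mixed (hV : C.Adm V) (j : ℤ) :
    ∃ n₀ : ℤ, ∀ (n : ℤ) (lam : ZMod a → ZMod a), n₀ ≤ n → ∀ i l : ZMod a, i ≠ l →
      (C.hdim V (n + 2, j, lam + Pi.single i 1 + Pi.single l 1) : ℤ) -
          C.hdim V (n + 1, j, lam + Pi.single l 1) =
        (C.hdim V (n + 1, j, lam + Pi.single i 1) : ℤ) - C.hdim V (n, j, lam) := by
  let _ := C.modD V
  have := C.towD V
  have h : ∀ p : ZMod a × ZMod a, ∃ n₀ : ℤ, p.1 ≠ p.2 → ∀ γ : Gam a, n₀ ≤ γ.1 →
      C.hdim V (γ + degT a (some p.1) + degT a (some p.2)) + C.hdim V γ =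
        C.hdim V (γ + degT a (some p.1)) + C.hdim V (γ + degT a (some p.2)) := fun p => by
    by_cases hp : p.1 = p.2
    · exact ⟨0, fun h => absurd hp h⟩
    · obtain ⟨n₀, hn⟩ := C.int1_pair hV hp
      exact ⟨n₀, fun _ => hn⟩
  choose f hf using h
  obtain ⟨n₀, hn⟩ := Finite.exists_le f
  refine ⟨n₀, fun n lam hl i l hil => ?_⟩
  have key := hf (i, l) hil (n, j, lam) ((hn _).trans hl)
  simp only [degT, Prod.mk_add_mk, add_zero] at key
  rw [show n + 1 + 1 = n + 2 by ring] at key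
  omega

/-- Step B: the weight `(0, 1, ..., a - 1)` -/
theorem dvd_hdim (hD : Div a D κ.ζ κ.Θ κ.T) (hV : C.Adm V) (n j : ℤ) :
    a ^ 2 ∣ C.hdim V (n, j, fun i => i) := by
  let _ := C.modD V
  have := C.towD V
  have := C.finite_piece hV (n, j, fun i => i)
  rw [C.hdim_eq]
  have hσs : C.σ * C.ιB (int1_s κ) = C.ιB (int1_s κ) * C.σ := by
    rw [C.σ_B, int1_s, map_mul, map_pow, σB_algebraMap, σB_xt]
    rfl
  have hw : ∀ d, C.ιB (int1_s κ) * C.σ * C.ιD d = C.ιD d * (C.ιB (int1_s κ) * C.σ) := fun d => by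
    rw [mul_assoc, C.σ_D, ← mul_assoc, ← C.comm, mul_assoc]
  have ht : ∀ d, C.ιB (kk κ κ.θ) * C.ιD d = C.ιD d * C.ιB (kk κ κ.θ) := fun d => (C.comm d _).symm
  have m1 : ∀ v ∈ C.piece V (n, j, fun i => i),
      C.op V _ ht v ∈ C.piece V (n, j, fun i => i) := fun v hv => by
    have h := C.smul_hom (hom_kk κ κ.θ) hv
    rwa [add_zero] at h
  have m2 : ∀ v ∈ C.piece V (n, j, fun i => i),
      C.op V _ hw v ∈ C.piece V (n, j, fun i => i) := fun v hv => by
    have hv' : C.e (n, j, fun i => i) • v = v := hv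
    have h1 : C.e (rot a (n, j, fun i => i)) • C.σ • v = C.σ • v := by
      rw [← mul_smul, ← C.σ_e, mul_smul, hv']
    have h2 := C.smul_hom (int1_hom κ) h1
    have e : rot a (n, j, fun i => i) + (0, 0, 1) = ((n, j, fun i => i) : Gam a) := by
      refine Prod.ext (add_zero _) (Prod.ext (add_zero _) (funext fun i => ?_))
      exact sub_add_cancel i 1
    rw [e, ← mul_smul (C.ιB _)] at h2
    exact h2
  refine hD _ ((C.op V _ ht).restrict m1) ((C.op V _ hw).restrict m2) (fun v => Subtype.ext ?_)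
    (fun v => Subtype.ext ?_) (fun v => Subtype.ext ?_)
  · rw [C.int1_pow, ← map_pow, ← map_pow, κ.θ_pow, kk_algebraMap, C.alg, Submodule.coe_smul,
      C.smul_eq V]
  · rw [Submodule.coe_smul, C.int1_pow, C.smul_eq V, ← C.alg, (Commute.symm hσs).mul_pow, C.σ_pow,
      mul_one, ← mul_smul, ← map_pow, ← map_mul, ← xt_none_pow, ← mul_pow, int1_inv, one_pow,
      map_one, one_smul]
  · rw [Submodule.coe_smul, C.smul_eq V, ← C.alg]
    change (C.ιB (int1_s κ) * C.σ) • C.ιB (kk κ κ.θ) • (v : V) =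
      C.ιB (algebraMap L (Br κ) κ.ζ) • C.ιB (kk κ κ.θ) • (C.ιB (int1_s κ) * C.σ) • (v : V)
    rw [← mul_smul, ← mul_smul, ← mul_smul, mul_assoc, C.σ_B, σB_kk, κ.σθ, Algebra.smul_def,
      map_mul, kk_algebraMap, ← mul_assoc, ← mul_assoc, ← map_mul, ← map_mul, ← map_mul, mul_comm]

theorem i2_hdim_eq_zero (hV : C.Adm V) {γ : Gam a} (h : ¬ Ok γ) : C.hdim V γ = 0 := by
  let _ := C.modD V
  have := C.towD V
  rw [C.hdim_eq, C.piece_eq_bot hV h, finrank_bot]

theorem dvd_H (ha : 2 ≤ a) (hD : Div a D κ.ζ κ.Θ κ.T) (hV : C.Adm V) (j : ℤ) :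
    ∃ k₀ : ℤ, ∀ k, k₀ ≤ k → a ^ (a + 1) ∣ C.H V (nstar a + a * k) j := by
  obtain ⟨n₀, h₀⟩ := C.hdim_mixed hV j
  obtain ⟨n₁, h₁⟩ := const_of_mixed a ha (fun n lam => (C.hdim V (n, j, lam) : ℤ)) n₀
    (fun n lam hn _ i l hil => h₀ n lam hn i l hil)
    (fun n lam => by simp only [C.hdim_periodic])
  refine ⟨|n₁ - nstar a|, fun k hk => ?_⟩
  have hk0 : 0 ≤ k := (abs_nonneg _).trans hk
  have hn : n₁ ≤ nstar a + a * k := by
    have h1 := le_abs_self (n₁ - nstar a)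
    have h2 : (1 : ℤ) ≤ a := by exact_mod_cast (by omega : 1 ≤ a)
    nlinarith
  have hc : ((nstar a + a * k : ℤ) : ZMod a) = ∑ i : ZMod a, i := by
    rw [sum_id_zmod]
    change (((a.choose 2 : ℕ) - 2 * (a : ℤ) + a * k : ℤ) : ZMod a) = _
    push_cast
    simp
  have h2 : C.H V (nstar a + a * k) j =
      a ^ (a - 1) * C.hdim V (nstar a + a * k, j, fun i => i) := by
    change ∑ lam : ZMod a → ZMod a, C.hdim V (nstar a + a * k, j, lam) = _
    rw [← card_sum_eq a ((nstar a + a * k : ℤ) : ZMod a), ← Finset.sum_const_nat (fun _ _ => rfl),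
      Finset.sum_filter]
    refine Finset.sum_congr rfl fun lam _ => ?_
    split_ifs with h
    · exact_mod_cast h₁ _ lam (fun i => i) hn h hc
    · exact C.i2_hdim_eq_zero hV h
  rw [h2, show a + 1 = (a - 1) + 2 by omega, pow_add]
  exact Nat.mul_dvd_mul_left _ (C.dvd_hdim hD hV _ _)

theorem dvd_HD (ha : 2 ≤ a) (hD : Div a D κ.ζ κ.Θ κ.T) (hV : C.Adm V) {r c : ℤ} (h : C.HD V r c) :
    (a : ℤ) ^ (a + 1) ∣ r ∧ (a : ℤ) ^ (a + 1) ∣ c := by
  obtain ⟨k₀, j₀, h⟩ := h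
  choose kf hkf using fun i : ℕ => C.dvd_H ha hD hV (j₀ + i • (1 : ℤ))
  obtain ⟨K, hK⟩ : ∃ K : ℤ, ∀ i ∈ Finset.range (a + 1), kf i ≤ K := by
    obtain ⟨K, hK⟩ := ((Finset.range (a + 1)).image kf).exists_le
    exact ⟨K, fun i hi => hK _ (Finset.mem_image_of_mem _ hi)⟩
  have key : ∀ k, max k₀ K ≤ k → (a : ℤ) ^ (a + 1) ∣ r * k + c := by
    intro k hk
    rw [← h k j₀ ((le_max_left _ _).trans hk) le_rfl, fwdDiff_iter_eq_sum_shift]
    refine Finset.dvd_sum fun i hi => ?_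
    rw [smul_eq_mul]
    refine Dvd.dvd.mul_left ?_ _
    exact_mod_cast hkf i k ((hK i hi).trans ((le_max_right _ _).trans hk))
  have h1 := key _ le_rfl
  have h2 := key (max k₀ K + 1) (by omega)
  have h3 : (a : ℤ) ^ (a + 1) ∣ r := by
    have := dvd_sub h2 h1
    rwa [show r * (max k₀ K + 1) + c - (r * max k₀ K + c) = r by ring] at this
  exact ⟨h3, (dvd_add_right (h3.mul_right _)).1 h1⟩

theorem i2_Φ_of_HD {r c : ℤ} (h : C.HD V r c) : C.Φ V = -c / (a : ℤ) ^ (a + 1) := by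
  have hex : ∃ rc : ℤ × ℤ, C.HD V rc.1 rc.2 := ⟨(r, c), h⟩
  have h1 : C.Φ V = -(hex.choose.2) / (a : ℤ) ^ (a + 1) := dif_pos hex
  rw [h1, (C.HD_unique hex.choose_spec h).2]

theorem Φ_eq (ha : 2 ≤ a) (hD : Div a D κ.ζ κ.Θ κ.T) (hV : C.Adm V) {r c : ℤ} (h : C.HD V r c) :
    C.Φ V * (a : ℤ) ^ (a + 1) = -c := by
  rw [C.i2_Φ_of_HD h]
  exact Int.ediv_mul_cancel (dvd_neg.2 (C.dvd_HD ha hD hV h).2)

theorem Φ_equiv (f : V ≃ₗ[C.A] W) : C.Φ V = C.Φ W := by
  by_cases hex : ∃ rc : ℤ × ℤ, C.HD V rc.1 rc.2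
  · obtain ⟨rc, h⟩ := hex
    rw [C.i2_Φ_of_HD h, C.i2_Φ_of_HD (C.HD_equiv f h)]
  · have hex' : ¬ ∃ rc : ℤ × ℤ, C.HD W rc.1 rc.2 := fun ⟨rc, h⟩ =>
      hex ⟨rc, C.HD_equiv f.symm h⟩
    have h1 : C.Φ V = 0 := dif_neg hex
    have h2 : C.Φ W = 0 := dif_neg hex'
    rw [h1, h2]

theorem Φ_add (ha : 2 ≤ a) (hD : Div a D κ.ζ κ.Θ κ.T) (hV : C.Adm V) (N : Submodule C.A V) :
    C.Φ V = C.Φ N + C.Φ (V ⧸ N) := by
  have hN := C.adm_sub hV N
  have hQ := C.adm_surj hV N.mkQ N.mkQ_surjective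
  obtain ⟨r, c, h, -⟩ := C.exists_HD hN
  obtain ⟨r', c', h', -⟩ := C.exists_HD hQ
  have h1 := C.Φ_eq ha hD hN h
  have h2 := C.Φ_eq ha hD hQ h'
  have h3 := C.Φ_eq ha hD hV (C.HD_add hV N h h')
  have hpos : (a : ℤ) ^ (a + 1) ≠ 0 := pow_ne_zero _ (by exact_mod_cast (by omega : a ≠ 0))
  apply mul_right_cancel₀ hpos
  rw [add_mul, h1, h2, h3]
  ring

theorem Φ_bdd (ha : 2 ≤ a) (hD : Div a D κ.ζ κ.Θ κ.T) (hV : C.Adm V) :
    ∃ B : ℤ, ∀ N : Submodule C.A V, C.Φ (V ⧸ N) ≤ B := by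
  obtain ⟨g, m, deg, hg⟩ := hV
  refine ⟨∑ i, |1 - ((deg i).1 - nstar a) / a|, fun N => ?_⟩
  have hq := C.isGen_quot hg N
  obtain ⟨r, c, h, -, -, hc⟩ := C.exists_HD_gen hq
  have h1 := C.Φ_eq ha hD ⟨g, _, deg, hq⟩ h
  have h2 : (1 : ℤ) ≤ (a : ℤ) ^ (a + 1) := one_le_pow₀ (by exact_mod_cast (by omega : 1 ≤ a))
  have h3 : (0 : ℤ) ≤ ∑ i, |1 - ((deg i).1 - nstar a) / a| :=
    Finset.sum_nonneg fun _ _ => abs_nonneg _
  by_contra h4
  rw [not_le] at h4
  nlinarith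

/-- the input of the machine -/
noncomputable def setup (ha : 2 ≤ a) (hD : Div a D κ.ζ κ.Θ κ.T) : Mach.Setup C.A where
  Adm V _ _ := C.Adm V
  Φ V _ _ := C.Φ V
  adm_equiv f h := C.adm_surj h f.toLinearMap f.surjective
  adm_sub h N := C.adm_sub h N
  adm_quot h N := C.adm_surj h N.mkQ N.mkQ_surjective
  adm_prod h h' := C.adm_prod h h'
  noeth h := C.noeth h
  Φ_equiv f := C.Φ_equiv f
  Φ_add h N := C.Φ_add ha hD h N
  bdd h := C.Φ_bdd ha hD h

/-- a module of rank `r = 0` has `d = 0` -/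
theorem d_eq_zero (ha : 2 ≤ a) (hD : Div a D κ.ζ κ.Θ κ.T) (hV : C.Adm V) {c : ℤ} (h : C.HD V 0 c) :
    (C.setup ha hD).d V = 0 := by
  refine le_antisymm (Mach.Setup.d_le (S := C.setup ha hD) hV fun N => ?_)
    (Mach.Setup.d_nonneg (S := C.setup ha hD) hV)
  change C.Φ (V ⧸ N) ≤ 0
  have hN := C.adm_sub hV N
  have hQ := C.adm_surj hV N.mkQ N.mkQ_surjective
  obtain ⟨r, c₁, h₁, hr, -⟩ := C.exists_HD hN
  obtain ⟨r', c', h', hr', hc'⟩ := C.exists_HD hQ
  have h3 := (C.HD_unique h (C.HD_add hV N h₁ h')).1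
  have h4 := hc' (by omega)
  have h5 := C.Φ_eq ha hD hQ h'
  have h2 : (1 : ℤ) ≤ (a : ℤ) ^ (a + 1) := one_le_pow₀ (by exact_mod_cast (by omega : 1 ≤ a))
  by_contra h6
  rw [not_le] at h6
  nlinarith

end Crest.Agent.R181.Mc.Ctx
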