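import Crest.Agent.R181.McFreeAux1
import Crest.Agent.R181.McInt

/-! Row 181 (route 2): the free modules `F k`. -/

set_option autoImplicit false

namespace Crest.Agent.R181.Mc.Ctx

variable {a : ℕ} [NeZero a] {L K : Type} [Field L] [CommRing K] [Algebra L K] {κ : KData a L K}
  {D : Type} [DivisionRing D] [Algebra L D] (C : Ctx κ D)

/-- the monomials applied to the generator are `D`-independent -/
theorem F_indep (k : ℤ) (s : Finset (Idx a)) (d : Idx a → D)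
    (h : ∑ i ∈ s, C.ιD (d i) • C.ιB (mono κ i) • C.one k = 0) : ∀ i ∈ s, d i = 0 := by
  let _ := C.modD (C.F k)
  have := C.towD (C.F k)
  obtain ⟨e, he⟩ := C.f1_basis k
  refine linearIndependent_iff'.1 e.linearIndependent s d ?_
  simp only [he]
  exact h

/-- ... and span -/
theorem F_span (k : ℤ) (x : C.F k) :
    ∃ (s : Finset (Idx a)) (d : Idx a → D), x = ∑ i ∈ s, C.ιD (d i) • C.ιB (mono κ i) • C.one k := by
  let _ := C.modD (C.F k)
  have := C.towD (C.F k)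
  obtain ⟨e, he⟩ := C.f1_basis k
  refine ⟨(e.repr x).support, e.repr x, ?_⟩
  conv_lhs => rw [← e.linearCombination_repr x, Finsupp.linearCombination_apply, Finsupp.sum]
  simp only [he]
  rfl

theorem F_smul_one_eq_zero (k : ℤ) (b : Br κ) (h : C.ιB b • C.one k = 0) : b = 0 := by
  obtain ⟨bs, hbs⟩ := exists_monoBasis κ
  have h1 : b = ∑ i ∈ (bs.repr b).support, bs.repr b i • mono κ i := by
    conv_lhs => rw [← bs.linearCombination_repr b, Finsupp.linearCombination_apply, Finsupp.sum]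
    simp only [hbs]
  rw [h1, map_sum, Finset.sum_smul] at h
  simp only [C.f1_alg] at h
  have h2 := C.F_indep k _ (fun i => algebraMap L D (bs.repr b i)) h
  rw [h1]
  refine Finset.sum_eq_zero fun i hi => ?_
  rw [(algebraMap L D).injective ((h2 i hi).trans (map_zero _).symm), zero_smul]

/-- universal property -/
theorem F_lift (k : ℤ) {V : Type} [AddCommGroup V] [Module C.A V] (x : V)
    (h1 : C.e ((a : ℤ) * k, 0, 0) • x = x) (h2 : C.σ • x = x) :
    ∃ f : C.F k →ₗ[C.A] V, f (C.one k) = x := by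
  obtain ⟨φ, hφ⟩ := C.free k
  let g : TensorProduct L D (Br κ) →+ V := TensorProduct.liftAddHom
    (AddMonoidHom.mk' (fun d => AddMonoidHom.mk' (fun b => C.ιD d • C.ιB b • x)
      fun b b' => by rw [map_add, add_smul, smul_add])
      fun d d' => AddMonoidHom.ext fun b => by
        show C.ιD (d + d') • C.ιB b • x = C.ιD d • C.ιB b • x + C.ιD d' • C.ιB b • x
        rw [map_add, add_smul])
    fun l d b => by
      show C.ιD (l • d) • C.ιB b • x = C.ιD d • C.ιB (l • b) • x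
      rw [C.f1_alg, C.f1_D, Algebra.smul_def, Algebra.commutes]
  let f : C.F k →+ V := g.comp φ.symm.toAddMonoidHom
  have hf : ∀ d b, f (C.ιD d • C.ιB b • C.one k) = C.ιD d • C.ιB b • x := by
    intro d b
    show g (φ.symm _) = _
    rw [← hφ, φ.symm_apply_apply]
    exact TensorProduct.liftAddHom_tmul _ _ _ _
  have key : ∀ c : C.A, (∀ d i, f (c • C.ιD d • C.ιB (mono κ i) • C.one k) =
      c • C.ιD d • C.ιB (mono κ i) • x) → ∀ v, f (c • v) = c • f v := by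
    intro c hc v
    obtain ⟨s, d, rfl⟩ := C.F_span k v
    rw [Finset.smul_sum, map_sum, map_sum, Finset.smul_sum]
    exact Finset.sum_congr rfl fun i _ => by rw [hc, hf]
  obtain ⟨F, hF⟩ := C.exists_linear f
    (fun d' => key _ fun d i => by rw [C.f1_D, C.f1_D, hf])
    (fun b => key _ fun d i => by rw [C.f1_B, C.f1_B, hf])
    (fun γ => key _ fun d i => by
      rw [C.f1_e γ d (f1_hom_mono i) _ (C.e_one k), C.f1_e γ d (f1_hom_mono i) _ h1]
      split_ifs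
      · exact hf _ _
      · exact map_zero f)
    (key _ fun d i => by rw [C.f1_σ d _ _ (C.σ_one k), C.f1_σ d _ _ h2, hf])
  refine ⟨F, ?_⟩
  have h3 := hf 1 1
  simp only [map_one, one_smul] at h3
  rw [hF, h3]

theorem F_ext (k : ℤ) {V : Type} [AddCommGroup V] [Module C.A V] (f : C.F k →ₗ[C.A] V)
    (h : f (C.one k) = 0) : f = 0 := by
  refine LinearMap.ext fun v => ?_
  obtain ⟨s, d, rfl⟩ := C.F_span k v
  simp only [map_sum, map_smul, h, smul_zero, Finset.sum_const_zero, LinearMap.zero_apply]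

/-- index set of the generators of `F k` over `D[z, z', S]` -/
abbrev f2J (a : ℕ) : Type := Fin a × (Option (ZMod a) → Fin a)

/-- enumeration of the generators -/
noncomputable def f2e (a : ℕ) [NeZero a] : Fin (Fintype.card (f2J a)) ≃ f2J a :=
  (Fintype.equivFin (f2J a)).symm

/-- the generators of `F k` -/
noncomputable def f2m (k : ℤ) (i : Fin (Fintype.card (f2J a))) : C.F k :=
  C.ιB (gen κ (f2e a i).1 (f2e a i).2) • C.one k

/-- their degrees -/
noncomputable def f2deg (a : ℕ) [NeZero a] (k : ℤ) (i : Fin (Fintype.card (f2J a))) : Gam a :=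
  ((a : ℤ) * k, 0, 0) + degC a (f2e a i).2

theorem f2_mono (k : ℤ) (i : Fin (Fintype.card (f2J a))) (u : Var a →₀ ℕ) :
    C.ιB (mon κ u) • C.f2m k i = C.ιB (mono κ ((f2e a i).1, (f2e a i).2, u)) • C.one k := by
  change C.ιB (mon κ u) • C.ιB (gen κ (f2e a i).1 (f2e a i).2) • C.one k =
    C.ιB (mon κ u * gen κ (f2e a i).1 (f2e a i).2) • C.one k
  rw [map_mul, mul_smul]

theorem f2_isGen (k : ℤ) : C.IsGen (C.F k) (C.f2m k) (f2deg a k) := by
  refine ⟨fun i => ⟨C.smul_hom (hom_gen κ _ _) (C.e_one k), Ok.add ?_ (ok_degC _)⟩, ?_⟩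
  · change (((a : ℤ) * k : ℤ) : ZMod a) = ∑ _i : ZMod a, (0 : ZMod a)
    simp
  · refine (AddSubgroup.eq_top_iff' _).2 fun x => ?_
    obtain ⟨s, d, rfl⟩ := C.F_span k x
    refine AddSubgroup.sum_mem _ fun i _ => AddSubgroup.subset_closure ?_
    refine ⟨(d i, (f2e a).symm (i.1, i.2.1), i.2.2), ?_⟩
    change C.ιD (d i) • C.ιB (mon κ i.2.2) • C.f2m k ((f2e a).symm (i.1, i.2.1)) = _
    rw [f2_mono, Equiv.apply_symm_apply]

theorem f2_indep (k : ℤ) (s : Finset (Fin (Fintype.card (f2J a)) × (Var a →₀ ℕ)))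
    (d : Fin (Fintype.card (f2J a)) × (Var a →₀ ℕ) → D)
    (h : ∑ p ∈ s, C.ιD (d p) • C.ιB (mon κ p.2) • C.f2m k p.1 = 0) : ∀ p ∈ s, d p = 0 := by
  let E : Fin (Fintype.card (f2J a)) × (Var a →₀ ℕ) ≃ Idx a :=
    ((f2e a).prodCongr (Equiv.refl _)).trans (Equiv.prodAssoc _ _ _)
  have hE : ∀ p, E p = ((f2e a p.1).1, (f2e a p.1).2, p.2) := fun _ => rfl
  have h' := C.F_indep k (s.map E.toEmbedding) (fun i => d (E.symm i)) (by
    rw [Finset.sum_map, ← h]
    refine Finset.sum_congr rfl fun p _ => ?_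
    rw [f2_mono, Equiv.coe_toEmbedding, Equiv.symm_apply_apply, hE])
  intro p hp
  have := h' (E p) (Finset.mem_map_of_mem _ hp)
  rwa [Equiv.symm_apply_apply] at this

theorem f2_degC_fst (c : Option (ZMod a) → Fin a) :
    (degC a c).1 = ((∑ i, (c (some i) : ℕ) : ℕ) : ℤ) := by
  change (∑ t, (c t : ℕ) • degT a t).1 = _
  rw [Prod.fst_sum, Fintype.sum_option]
  simp [degT]

theorem f2_sum (f : (ZMod a → Fin a) → ℤ) :
    ∑ i, f (fun t => (f2e a i).2 (some t)) = (a : ℤ) * a * ∑ c, f c := by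
  rw [Equiv.sum_comp (f2e a) (fun j : f2J a => f (fun t => j.2 (some t))), Fintype.sum_prod_type]
  simp only [Finset.sum_const, Finset.card_univ, Fintype.card_fin, nsmul_eq_mul]
  rw [mul_assoc]
  congr 1
  rw [← Equiv.sum_comp (Equiv.piOptionEquivProd (β := fun _ : Option (ZMod a) => Fin a)).symm,
    Fintype.sum_prod_type]
  simp

omit [NeZero a] in
theorem f2_dvd_iff (k : ℤ) (n : ℕ) :
    (a : ℤ) ∣ (a : ℤ) * k + n - nstar a ↔ ((n : ℕ) : ZMod a) = ((a.choose 2 : ℕ) : ZMod a) := by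
  rw [← ZMod.intCast_zmod_eq_zero_iff_dvd]
  change (((a : ℤ) * k + n - (((a.choose 2 : ℕ) : ℤ) - 2 * (a : ℤ)) : ℤ) : ZMod a) = 0 ↔ _
  push_cast
  rw [ZMod.natCast_self]
  simp [sub_eq_zero]

theorem adm_F (k : ℤ) : C.Adm (C.F k) :=
  ⟨_, C.f2m k, f2deg a k, C.f2_isGen k⟩

theorem HD_F (k : ℤ) : C.HD (C.F k) ((a : ℤ) ^ (a + 1)) (-((a : ℤ) ^ (a + 1) * (k + 1))) := by
  have h := C.HD_of_basis (C.f2_isGen k) (C.f2_indep k)
  have ha0 : (a : ℤ) ≠ 0 := Int.natCast_ne_zero.2 (NeZero.ne a)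
  have hdeg : ∀ i, (f2deg a k i).1 =
      (a : ℤ) * k + ((∑ t, ((f2e a i).2 (some t) : ℕ) : ℕ) : ℤ) := by
    intro i
    change (a : ℤ) * k + (degC a (f2e a i).2).1 = _
    rw [f2_degC_fst]
  have hpow : (a : ℤ) * a * (a : ℤ) ^ (a - 1) = (a : ℤ) ^ (a + 1) := by
    obtain ⟨b, hb⟩ : ∃ b, a = b + 1 := ⟨a - 1, by have := NeZero.pos a; omega⟩
    have h1 : a - 1 = b := by omega
    rw [h1, show a + 1 = b + 2 by omega]
    ring
  obtain ⟨hs1, hs2⟩ := sum_box a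
  have h1 : (∑ i, if (a : ℤ) ∣ (f2deg a k i).1 - nstar a then (1 : ℤ) else 0) =
      (a : ℤ) ^ (a + 1) := by
    simp only [hdeg, f2_dvd_iff]
    rw [f2_sum (fun c => if ((∑ t, (c t : ℕ) : ℕ) : ZMod a) = ((a.choose 2 : ℕ) : ZMod a)
      then (1 : ℤ) else 0), Finset.sum_boole, hs2, ← hpow]
    push_cast
    rfl
  have h2 : (∑ i, if (a : ℤ) ∣ (f2deg a k i).1 - nstar a then
      1 - ((f2deg a k i).1 - nstar a) / a else 0) = -((a : ℤ) ^ (a + 1) * (k + 1)) := by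
    refine mul_left_cancel₀ ha0 ?_
    rw [Finset.mul_sum]
    have h3 : ∀ i, ((a : ℤ) * if (a : ℤ) ∣ (f2deg a k i).1 - nstar a then
        1 - ((f2deg a k i).1 - nstar a) / a else 0) =
        if ((∑ t, ((f2e a i).2 (some t) : ℕ) : ℕ) : ZMod a) = ((a.choose 2 : ℕ) : ZMod a) then
          (((a.choose 2 : ℕ) : ℤ) - a * (k + 1)) - ((∑ t, ((f2e a i).2 (some t) : ℕ) : ℕ) : ℤ)
        else 0 := by
      intro i
      by_cases hd : (a : ℤ) ∣ (f2deg a k i).1 - nstar a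
      · have hd' := hd
        rw [hdeg, f2_dvd_iff] at hd'
        rw [if_pos hd, if_pos hd', mul_sub, Int.mul_ediv_cancel' hd, hdeg]
        change (a : ℤ) * 1 - (_ - (((a.choose 2 : ℕ) : ℤ) - 2 * (a : ℤ))) = _
        ring
      · have hd' := hd
        rw [hdeg, f2_dvd_iff] at hd'
        rw [if_neg hd, if_neg hd', mul_zero]
    simp only [h3]
    rw [f2_sum (fun c => if ((∑ t, (c t : ℕ) : ℕ) : ZMod a) = ((a.choose 2 : ℕ) : ZMod a)
      then (((a.choose 2 : ℕ) : ℤ) - a * (k + 1)) - ((∑ t, (c t : ℕ) : ℕ) : ℤ) else 0),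
      ← Finset.sum_filter, Finset.sum_sub_distrib, hs1, Finset.sum_const, hs2, ← hpow,
      nsmul_eq_mul]
    push_cast
    ring
  rwa [h1, h2] at h

/-- `F k` is free over the domain `D[z, z', S]` -/
theorem freeVec_F (k : ℤ) (x : C.F k) (hx : x ≠ 0) : C.FreeVec x := by
  classical
  let _ := C.modD (C.F k)
  have := C.towD (C.F k)
  obtain ⟨e, he⟩ := C.f1_basis k
  intro s d h
  by_contra hd
  have hA : (s.filter fun u => d u ≠ 0).Nonempty := by
    push Not at hd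
    obtain ⟨u, h1, h2⟩ := hd
    exact ⟨u, Finset.mem_filter.2 ⟨h1, h2⟩⟩
  have hB : ((e.repr x).support.image fun i => i.2.2).Nonempty :=
    (Finsupp.support_nonempty_iff.2 fun h0 => hx (e.repr.map_eq_zero_iff.1 h0)).image _
  obtain ⟨u₀, hu₀, w₀, hw₀, huq⟩ := UniqueSums.uniqueAdd_of_nonempty hA hB
  obtain ⟨i₀, hi₀, rfl⟩ := Finset.mem_image.1 hw₀
  obtain ⟨hu1, hu2⟩ := Finset.mem_filter.1 hu₀
  have h1 : ∑ u ∈ s, d u • Finsupp.mapDomain (f1_sh u) (e.repr x) = 0 := by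
    rw [← map_zero e.repr, ← h, map_sum]
    refine Finset.sum_congr rfl fun u _ => ?_
    rw [← C.f1_repr_mon he, ← map_smul]
    rfl
  have h2 := DFunLike.congr_fun h1 (f1_sh u₀ i₀)
  rw [Finsupp.finsetSum_apply, Finset.sum_eq_single_of_mem u₀ hu1, Finsupp.smul_apply,
    Finsupp.mapDomain_apply (f1_sh_inj u₀), smul_eq_mul, Finsupp.zero_apply] at h2
  · exact mul_ne_zero hu2 (Finsupp.mem_support_iff.1 hi₀) h2
  · intro u hu hne
    rw [Finsupp.smul_apply, smul_eq_mul]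
    by_contra h3
    obtain ⟨i, hi, h4⟩ := Finset.mem_image.1
      (Finsupp.mapDomain_support (Finsupp.mem_support_iff.2 (right_ne_zero_of_mul h3)))
    exact hne (huq (Finset.mem_filter.2 ⟨hu, left_ne_zero_of_mul h3⟩)
      (Finset.mem_image_of_mem _ hi) (congrArg (fun j : Idx a => j.2.2) h4)).1

/-- `v_i` is injective on `F k` (its `a`-th power is `z - b_i z'`, monic in `z`) -/
theorem v_inj_F (k : ℤ) (i : ZMod a) (x : C.F k) (h : C.ιB (xt κ (some i)) • x = 0) : x = 0 := by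
  let _ := C.modD (C.F k)
  have := C.towD (C.F k)
  obtain ⟨e, he⟩ := C.f1_basis k
  by_contra hx
  obtain ⟨i₀, hi₀, hmax⟩ := Finset.exists_max_image (e.repr x).support
    (fun j => j.2.2 (Sum.inl 0))
    (Finsupp.support_nonempty_iff.2 fun h0 => hx (e.repr.map_eq_zero_iff.1 h0))
  have h1 : C.ιB (xt κ (some i) ^ a) • x = 0 := by
    rw [← pow_sub_one_mul (NeZero.ne a), ← C.f1_BB, h, smul_zero]
  rw [xt_some_pow, map_sub, sub_smul, sub_eq_zero, ← C.f1_BB] at h1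
  have h2 : C.ιB (xv κ (Sum.inl 1)) • x ∈
      Submodule.span D (e '' {j | j.2.2 (Sum.inl 0) ≤ i₀.2.2 (Sum.inl 0)}) := by
    classical
    rw [e.mem_span_image, C.f1_repr_xv he]
    intro j hj
    obtain ⟨j', hj', rfl⟩ := Finset.mem_image.1 (Finsupp.mapDomain_support (Finset.mem_coe.1 hj))
    show (Finsupp.single (Sum.inl 1) 1 + j'.2.2 : Var a →₀ ℕ) (Sum.inl 0) ≤ _
    simpa using hmax j' hj'
  have h3 := C.f1_kk he (fun w => w (Sum.inl 0) ≤ i₀.2.2 (Sum.inl 0)) (κ.b i) _ h2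
  rw [← h1, e.mem_span_image, C.f1_repr_xv he] at h3
  have h4 : (Finsupp.single (Sum.inl 0) 1 + i₀.2.2 : Var a →₀ ℕ) (Sum.inl 0) ≤ i₀.2.2 (Sum.inl 0) :=
    h3 (a := f1_sh (Finsupp.single (Sum.inl 0) 1) i₀) (Finset.mem_coe.2 (Finsupp.mem_support_iff.2 (by
      rw [Finsupp.mapDomain_apply (f1_sh_inj _)]
      exact Finsupp.mem_support_iff.1 hi₀)))
  simp at h4

/-- Koszul relation -/
theorem koszul_F (k : ℤ) (x y : C.F k)
    (h : C.ιB (xv κ (Sum.inl 0)) • x + C.ιB (xv κ (Sum.inl 1)) • y = 0) :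
    ∃ w : C.F k, x = C.ιB (xv κ (Sum.inl 1)) • w ∧ y = -(C.ιB (xv κ (Sum.inl 0)) • w) := by
  let _ := C.modD (C.F k)
  have := C.towD (C.F k)
  obtain ⟨e, he⟩ := C.f1_basis k
  have h1 := congrArg e.repr h
  rw [map_add, map_zero, C.f1_repr_xv he, C.f1_repr_xv he] at h1
  have h2 : ((e.repr x).support : Set (Idx a)) ⊆
      Set.range (f1_sh (Finsupp.single (Sum.inl 1) 1)) := by
    intro j hj
    by_contra h3
    have h4 := DFunLike.congr_fun h1 (f1_sh (Finsupp.single (Sum.inl 0) 1) j)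
    rw [Finsupp.add_apply, Finsupp.mapDomain_apply (f1_sh_inj _), Finsupp.mapDomain_of_notMem_range,
      add_zero] at h4
    · exact Finsupp.mem_support_iff.1 (Finset.mem_coe.1 hj) h4
    · rintro ⟨j', h5⟩
      have h6 : (Finsupp.single (Sum.inl 1) 1 + j'.2.2 : Var a →₀ ℕ) (Sum.inl 1) =
          (Finsupp.single (Sum.inl 0) 1 + j.2.2 : Var a →₀ ℕ) (Sum.inl 1) :=
        congrArg (fun t : Idx a => t.2.2 (Sum.inl 1)) h5
      have h7 : Finsupp.single (Sum.inl 1 : Var a) 1 ≤ j.2.2 := by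
        rw [Finsupp.single_le_iff]
        simp at h6
        omega
      exact h3 ⟨(j.1, j.2.1, j.2.2 - Finsupp.single (Sum.inl 1) 1), by
        show (j.1, j.2.1, _ + (j.2.2 - _)) = j
        rw [add_tsub_cancel_of_le h7]⟩
  have h3 : x = C.ιB (xv κ (Sum.inl 1)) •
      e.repr.symm (Finsupp.comapDomain _ (e.repr x) (f1_sh_inj (Finsupp.single (Sum.inl 1) 1)).injOn) := by
    apply e.repr.injective
    rw [C.f1_repr_xv he, e.repr.apply_symm_apply, Finsupp.mapDomain_comapDomain _ (f1_sh_inj _) _ h2]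
  refine ⟨_, h3, ?_⟩
  set w := e.repr.symm
    (Finsupp.comapDomain _ (e.repr x) (f1_sh_inj (Finsupp.single (Sum.inl 1) 1)).injOn)
  have h4 : C.ιB (xv κ (Sum.inl 1)) • (C.ιB (xv κ (Sum.inl 0)) • w + y) = 0 := by
    rw [smul_add, C.f1_BB, mul_comm, ← C.f1_BB, ← h3, h]
  have h5 := congrArg e.repr h4
  rw [C.f1_repr_xv he, map_zero] at h5
  have h6 := Finsupp.mapDomain_injective (f1_sh_inj _) (h5.trans Finsupp.mapDomain_zero.symm)
  exact eq_neg_of_add_eq_zero_right (e.repr.map_eq_zero_iff.1 h6)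

/-- nonzero submodules have full rank -/
theorem HD_sub_F (ha : 2 ≤ a) (hD : Div a D κ.ζ κ.Θ κ.T) (k : ℤ) (N : Submodule C.A (C.F k))
    (hN : N ≠ ⊥) {r c : ℤ} (h : C.HD N r c) : r = (a : ℤ) ^ (a + 1) := by
  have hF := C.adm_F k
  have hNa := C.adm_sub hF N
  have ha0 : (a : ℤ) ≠ 0 := Int.natCast_ne_zero.2 (NeZero.ne a)
  obtain ⟨x, hxN, hx0⟩ := (Submodule.ne_bot_iff N).1 hN
  obtain ⟨s, hs, hsum⟩ := C.exists_sum hF x
  obtain ⟨γ, hγ, hy0⟩ : ∃ γ ∈ s, C.e γ • x ≠ 0 := by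
    by_contra hcon
    push Not at hcon
    exact hx0 (hsum ▸ Finset.sum_eq_zero hcon)
  have hy : C.e γ • C.e γ • x = C.e γ • x := by
    rw [← mul_smul, C.e_mul, if_pos rfl]
  have hinj : ∀ n : ℕ, C.ιB (xt κ (some 0) ^ n) • C.e γ • x ≠ 0 := by
    intro n
    induction n with
    | zero => rwa [pow_zero, map_one, one_smul]
    | succ n ih =>
      intro h0
      rw [pow_succ', map_mul, mul_smul] at h0
      exact ih (C.v_inj_F k 0 _ h0)
  obtain ⟨n, hn⟩ : ∃ n : ℕ, (n : ℤ) = (nstar a - γ.1) % a :=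
    ⟨_, Int.toNat_of_nonneg (Int.emod_nonneg _ ha0)⟩
  have hfst : (γ + n • degT a (some 0)).1 = γ.1 + n := by
    change γ.1 + n • (1 : ℤ) = _
    rw [nsmul_eq_mul, mul_one]
  have hok : Ok (γ + n • degT a (some 0)) := by
    refine (hs γ hγ).add ?_
    change ((n • (1 : ℤ) : ℤ) : ZMod a) =
      ∑ i, n • (Pi.single (0 : ZMod a) (1 : ZMod a) : ZMod a → ZMod a) i
    rw [← Finset.smul_sum]
    simp
  have hdvd : (a : ℤ) ∣ (γ + n • degT a (some 0)).1 - nstar a := by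
    rw [hfst, hn]
    refine ⟨-((nstar a - γ.1) / a), ?_⟩
    have := Int.emod_add_mul_ediv (nstar a - γ.1) a
    linarith
  let v : N := ⟨C.ιB (xt κ (some 0) ^ n) • C.e γ • x, N.smul_mem _ (N.smul_mem _ hxN)⟩
  have hv : C.e (γ + n • degT a (some 0)) • v = v :=
    Subtype.ext (C.smul_hom ((hom_xt κ (some 0)).pow n) hy)
  have hfree : C.FreeVec v := by
    intro t d ht
    refine C.freeVec_F k _ (hinj n) t d ?_
    have := congrArg N.subtype ht
    rw [map_sum, map_zero] at this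
    exact this
  have h1 : 1 ≤ r := C.HD_free hNa v _ hv hok hdvd hfree h
  obtain ⟨r', c', h', hr', -⟩ := C.exists_HD (C.adm_surj hF N.mkQ N.mkQ_surjective)
  have h2 := (C.HD_unique (C.HD_add hF N h h') (C.HD_F k)).1
  have h3 := Int.le_of_dvd (by omega) (C.dvd_HD ha hD hNa h).1
  omega

theorem Φ_F (ha : 2 ≤ a) (hD : Div a D κ.ζ κ.Θ κ.T) (k : ℤ) : C.Φ (C.F k) = k + 1 := by
  have ha0 : (a : ℤ) ≠ 0 := Int.natCast_ne_zero.2 (NeZero.ne a)
  have h := C.Φ_eq ha hD (C.adm_F k) (C.HD_F k)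
  refine mul_right_cancel₀ (pow_ne_zero (a + 1) ha0) ?_
  rw [h]
  ring

theorem f2_d_quot (ha : 2 ≤ a) (hD : Div a D κ.ζ κ.Θ κ.T) (k : ℤ) (M : Submodule C.A (C.F k))
    (N : Submodule C.A M) (hN : N ≠ ⊥) : (C.setup ha hD).d (M ⧸ N) = 0 := by
  have hM := C.adm_sub (C.adm_F k) M
  have hQ := C.adm_surj hM N.mkQ N.mkQ_surjective
  obtain ⟨r, c, h, -, -⟩ := C.exists_HD (C.adm_sub hM N)
  obtain ⟨r', c', h', -, -⟩ := C.exists_HD hQ
  obtain ⟨x, hxN, hx0⟩ := (Submodule.ne_bot_iff N).1 hN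
  have hx1 : (x : C.F k) ≠ 0 := fun h0 => hx0 (Subtype.ext h0)
  have h1 := C.HD_sub_F ha hD k (N.map M.subtype)
    ((Submodule.ne_bot_iff _).2 ⟨x, ⟨x, hxN, rfl⟩, hx1⟩)
    (C.HD_equiv (Submodule.equivSubtypeMap M N) h)
  have h2 := C.HD_sub_F ha hD k M ((Submodule.ne_bot_iff _).2 ⟨x, x.2, hx1⟩) (C.HD_add hM N h h')
  have h3 : r' = 0 := by omega
  subst h3
  exact C.d_eq_zero ha hD hQ h'

theorem d_quot_F (ha : 2 ≤ a) (hD : Div a D κ.ζ κ.Θ κ.T) (k : ℤ) (N : Submodule C.A (C.F k))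
    (hN : N ≠ ⊥) : (C.setup ha hD).d (C.F k ⧸ N) = 0 := by
  have hF := C.adm_F k
  have hQ := C.adm_surj hF N.mkQ N.mkQ_surjective
  obtain ⟨r, c, h, -, -⟩ := C.exists_HD (C.adm_sub hF N)
  obtain ⟨r', c', h', -, -⟩ := C.exists_HD hQ
  have h1 := C.HD_sub_F ha hD k N hN h
  have h2 := (C.HD_unique (C.HD_add hF N h h') (C.HD_F k)).1
  have h3 : r' = 0 := by omega
  subst h3
  exact C.d_eq_zero ha hD hQ h'

theorem d_sub_F (ha : 2 ≤ a) (hD : Div a D κ.ζ κ.Θ κ.T) (k : ℤ) (M : Submodule C.A (C.F k)) :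
    (C.setup ha hD).d M = max (C.Φ M) 0 := by
  have hM : (C.setup ha hD).Adm M := C.adm_sub (C.adm_F k) M
  refine le_antisymm (Mach.Setup.d_le hM fun N => ?_)
    (max_le (Mach.Setup.Φ_le_d hM) (Mach.Setup.d_nonneg hM))
  by_cases hN : N = ⊥
  · refine le_trans (le_of_eq ?_) (le_max_left _ _)
    exact C.Φ_equiv (Submodule.quotEquivOfEqBot N hN)
  · refine le_trans ?_ (le_max_right _ _)
    rw [← C.f2_d_quot ha hD k M N hN]
    exact Mach.Setup.Φ_le_d ((C.setup ha hD).adm_quot hM N)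

theorem d_F (ha : 2 ≤ a) (hD : Div a D κ.ζ κ.Θ κ.T) (k : ℤ) (hk : -1 ≤ k) :
    (C.setup ha hD).d (C.F k) = k + 1 := by
  have hF : (C.setup ha hD).Adm (C.F k) := C.adm_F k
  rw [Mach.Setup.d_equiv hF (Submodule.topEquiv (R := C.A) (M := C.F k)).symm, C.d_sub_F ha hD k ⊤,
    C.Φ_equiv (Submodule.topEquiv (R := C.A) (M := C.F k)), C.Φ_F ha hD k]
  exact max_eq_left (by omega)

end Crest.Agent.R181.Mc.Ctx
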