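import Crest.Agent.R181.McMod

/-! Row 181 (route 2): coordinates on the free modules `F k`. -/

set_option autoImplicit false

namespace Crest.Agent.R181.Mc.Ctx

open scoped TensorProduct

variable {a : ℕ} [NeZero a] {L K : Type} [Field L] [CommRing K] [Algebra L K] {κ : KData a L K}
  {D : Type} [DivisionRing D] [Algebra L D] (C : Ctx κ D)

/-- shift of the polynomial exponent -/
noncomputable def f1_sh (u : Var a →₀ ℕ) (i : Idx a) : Idx a := (i.1, i.2.1, u + i.2.2)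

omit [NeZero a] in
theorem f1_sh_inj (u : Var a →₀ ℕ) : Function.Injective (f1_sh u) := by
  rintro ⟨r, c, w⟩ ⟨r', c', w'⟩ h
  simp only [f1_sh, Prod.mk.injEq, add_right_inj] at h
  obtain ⟨rfl, rfl, rfl⟩ := h
  rfl

theorem f1_mon_mono (u : Var a →₀ ℕ) (i : Idx a) : mon κ u * mono κ i = mono κ (f1_sh u i) := by
  show mon κ u * (mon κ i.2.2 * gen κ i.1 i.2.1) = mon κ (u + i.2.2) * gen κ i.1 i.2.1
  rw [mon_add, mul_assoc]

theorem f1_hom_mono (i : Idx a) : Hom κ (mono κ i) (degM a i.2.2 + degC a i.2.1) :=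
  (hom_mon κ _).mul (hom_gen κ _ _)

section gen

variable {V : Type} [AddCommGroup V] [Module C.A V]

theorem f1_D (d' d : D) (y : V) : C.ιD d' • C.ιD d • y = C.ιD (d' * d) • y := by
  rw [map_mul, mul_smul]

theorem f1_BB (b' b : Br κ) (y : V) : C.ιB b' • C.ιB b • y = C.ιB (b' * b) • y := by
  rw [map_mul, mul_smul]

theorem f1_B (b' : Br κ) (d : D) (b : Br κ) (y : V) :
    C.ιB b' • C.ιD d • C.ιB b • y = C.ιD d • C.ιB (b' * b) • y := by
  rw [← mul_smul, ← C.comm, mul_smul, C.f1_BB]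

theorem f1_σ (d : D) (b : Br κ) (y : V) (hy : C.σ • y = y) :
    C.σ • C.ιD d • C.ιB b • y = C.ιD d • C.ιB (σB κ b) • y := by
  rw [← mul_smul, C.σ_D, mul_smul, ← mul_smul C.σ, C.σ_B, mul_smul, hy]

open Classical in
theorem f1_e (γ : Gam a) (d : D) {b : Br κ} {δ γ₀ : Gam a} (hb : Hom κ b δ) (y : V)
    (hy : C.e γ₀ • y = y) :
    C.e γ • C.ιD d • C.ιB b • y = if γ = γ₀ + δ then C.ιD d • C.ιB b • y else 0 := by
  rw [← mul_smul, C.e_D, mul_smul]
  split_ifs with h
  · rw [h, C.smul_hom hb hy]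
  · rw [C.e_smul_of_ne h (C.smul_hom hb hy), smul_zero]

theorem f1_alg (l : L) (b : Br κ) (y : V) :
    C.ιB (l • b) • y = C.ιD (algebraMap L D l) • C.ιB b • y := by
  rw [Algebra.smul_def l b, map_mul, C.alg, mul_smul]

end gen

section WithD

variable (k : ℤ) [Module D (C.F k)] [IsScalarTower D C.A (C.F k)]

theorem f1_basis : ∃ e : Module.Basis (Idx a) D (C.F k), ∀ i, e i = C.ιB (mono κ i) • C.one k := by
  obtain ⟨φ, hφ⟩ := C.free k
  obtain ⟨bs, hbs⟩ := exists_monoBasis κ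
  have hlin : ∀ (d : D) (t : D ⊗[L] Br κ), φ (d • t) = d • φ t := by
    intro d t
    induction t using TensorProduct.induction_on with
    | zero => rw [smul_zero, map_zero, smul_zero]
    | tmul d' b =>
      rw [TensorProduct.smul_tmul', smul_eq_mul, hφ, hφ, C.smul_eq (C.F k) d, C.f1_D]
    | add x y hx hy => rw [smul_add, map_add, map_add, hx, hy, smul_add]
  refine ⟨(Algebra.TensorProduct.basis D bs).map (φ.toLinearEquiv hlin), fun i => ?_⟩
  rw [Module.Basis.map_apply, Algebra.TensorProduct.basis_apply, hbs]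
  show φ _ = _
  rw [hφ, map_one, one_smul]

variable {k} {e : Module.Basis (Idx a) D (C.F k)}

theorem f1_repr_mon (he : ∀ i, e i = C.ιB (mono κ i) • C.one k) (u : Var a →₀ ℕ) (x : C.F k) :
    e.repr (C.ιB (mon κ u) • x) = Finsupp.mapDomain (f1_sh u) (e.repr x) := by
  have h : e.repr.toLinearMap ∘ₗ C.opX (C.F k) u =
      Finsupp.lmapDomain D D (f1_sh u) ∘ₗ e.repr.toLinearMap := by
    refine e.ext fun i => ?_
    show e.repr (C.ιB (mon κ u) • e i) = Finsupp.mapDomain (f1_sh u) (e.repr (e i))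
    rw [e.repr_self, Finsupp.mapDomain_single, he, C.f1_BB, f1_mon_mono, ← he, e.repr_self]
  exact LinearMap.congr_fun h x

theorem f1_repr_xv (he : ∀ i, e i = C.ιB (mono κ i) • C.one k) (y : Var a) (x : C.F k) :
    e.repr (C.ιB (xv κ y) • x) = Finsupp.mapDomain (f1_sh (Finsupp.single y 1)) (e.repr x) := by
  rw [← C.f1_repr_mon he, mon_single, pow_one]

/-- constants do not change the polynomial exponent -/
theorem f1_kk (he : ∀ i, e i = C.ιB (mono κ i) • C.one k) (P : (Var a →₀ ℕ) → Prop) (β : K)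
    (x : C.F k) (hx : x ∈ Submodule.span D (e '' {i | P i.2.2})) :
    C.ιB (kk κ β) • x ∈ Submodule.span D (e '' {i | P i.2.2}) := by
  refine (Submodule.span_le.2 ?_ : _ ≤ Submodule.comap (C.opB (C.F k) (kk κ β))
    (Submodule.span D (e '' {i | P i.2.2}))) hx
  rintro _ ⟨⟨r, c, w⟩, hi, rfl⟩
  show C.ιB (kk κ β) • e (r, c, w) ∈ Submodule.span D _
  have h1 : kk κ β * mono κ (r, c, w) =
      ∑ r', κ.bas.repr (β * κ.θ ^ (r : ℕ)) r' • mono κ (r', c, w) := by
    have h2 : kk κ β * mono κ (r, c, w) =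
        kk κ (β * κ.θ ^ (r : ℕ)) * (mon κ w * ∏ t, xt κ t ^ (c t : ℕ)) := by
      show kk κ β * (mon κ w * (kk κ κ.θ ^ (r : ℕ) * ∏ t, xt κ t ^ (c t : ℕ))) = _
      rw [map_mul, map_pow]
      ring
    rw [h2]
    conv_lhs => rw [← κ.bas.sum_repr (β * κ.θ ^ (r : ℕ))]
    rw [map_sum, Finset.sum_mul]
    refine Finset.sum_congr rfl fun r' _ => ?_
    rw [Algebra.smul_def _ (mono κ (r', c, w)), Algebra.smul_def, map_mul, kk_algebraMap, κ.bas_eq,
      map_pow]
    show _ = _ * (mon κ w * (kk κ κ.θ ^ (r' : ℕ) * ∏ t, xt κ t ^ (c t : ℕ)))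
    ring
  rw [he, C.f1_BB, h1, map_sum, Finset.sum_smul]
  refine Submodule.sum_mem _ fun r' _ => ?_
  rw [C.f1_alg, ← C.smul_eq (C.F k), ← he]
  exact Submodule.smul_mem _ _ (Submodule.subset_span ⟨(r', c, w), hi, rfl⟩)

end WithD

end Crest.Agent.R181.Mc.Ctx
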