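import Crest.Agent.R181.McMod
import Crest.Agent.R181.McCount

/-! Row 181 (route 2): the Hilbert function counts standard monomials. -/

set_option autoImplicit false

namespace Crest.Agent.R181.Mc

variable {a : ℕ} [NeZero a]

/-- monomials outside `U` with prescribed first two degrees after a shift by `γ` -/
abbrev McHilb1_T (U : Set (Var a →₀ ℕ)) (γ : Gam a) (n j : ℤ) : Type :=
  {u : Var a →₀ ℕ // u ∉ U ∧ (γ + degM a u).1 = n ∧ (γ + degM a u).2.1 = j}

theorem McHilb1_iff (γ : Gam a) (k j : ℤ) (hd : (a : ℤ) ∣ γ.1 - nstar a) (u : Var a →₀ ℕ) :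
    ((γ + degM a u).1 = nstar a + a * k ∧ (γ + degM a u).2.1 = j) ↔
      (((u (Sum.inl 0) + u (Sum.inl 1) : ℕ) : ℤ) = k - (γ.1 - nstar a) / a ∧
        ((∑ t, u (Sum.inr t) : ℕ) : ℤ) = j - γ.2.1) := by
  obtain ⟨c, hc⟩ := hd
  have ha : (a : ℤ) ≠ 0 := Int.natCast_ne_zero.2 (NeZero.ne a)
  rw [Prod.fst_add, Prod.snd_add, Prod.fst_add, degM_fst, degM_snd, hc, Int.mul_ediv_cancel_left _ ha]
  refine and_congr ⟨fun h => ?_, fun h => ?_⟩ ⟨fun h => by omega, fun h => by omega⟩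
  · refine mul_left_cancel₀ ha ?_
    rw [mul_sub]
    omega
  · rw [h, mul_sub]
    omega

theorem McHilb1_empty (U : Set (Var a →₀ ℕ)) (γ : Gam a) (k j : ℤ)
    (hd : ¬ (a : ℤ) ∣ γ.1 - nstar a) : IsEmpty (McHilb1_T U γ (nstar a + a * k) j) := by
  refine ⟨fun u => hd ?_⟩
  have h := u.2.2.1
  rw [Prod.fst_add, degM_fst] at h
  refine ⟨k - ((u.1 (Sum.inl 0) + u.1 (Sum.inl 1) : ℕ) : ℤ), ?_⟩
  rw [mul_sub]
  omega

theorem McHilb1_finite (U : Set (Var a →₀ ℕ)) (γ : Gam a) (k j : ℤ) :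
    Finite (McHilb1_T U γ (nstar a + a * k) j) := by
  by_cases hd : (a : ℤ) ∣ γ.1 - nstar a
  · have := cnt_finite U (k - (γ.1 - nstar a) / a) (j - γ.2.1)
    exact Finite.of_equiv _
      (Equiv.subtypeEquivRight fun u => and_congr_right fun _ => (McHilb1_iff γ k j hd u).symm)
  · have := McHilb1_empty U γ k j hd
    infer_instance

theorem McHilb1_card (U : Set (Var a →₀ ℕ)) (γ : Gam a) (k j : ℤ) :
    Nat.card (McHilb1_T U γ (nstar a + a * k) j) =
      if (a : ℤ) ∣ γ.1 - nstar a then cnt U (k - (γ.1 - nstar a) / a) (j - γ.2.1) else 0 := by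
  split_ifs with hd
  · exact Nat.card_congr
      (Equiv.subtypeEquivRight fun u => and_congr_right fun _ => McHilb1_iff γ k j hd u)
  · have := McHilb1_empty U γ k j hd
    exact Nat.card_of_isEmpty

theorem McHilb1_sum {g : ℕ} (U : Fin g → Set (Var a →₀ ℕ)) (deg : Fin g → Gam a) (k j : ℤ) :
    ∑ lam : ZMod a → ZMod a, Nat.card {p : {p : Fin g × (Var a →₀ ℕ) // p.2 ∉ U p.1} //
        deg p.1.1 + degM a p.1.2 = (nstar a + a * k, j, lam)} =
      ∑ i, if (a : ℤ) ∣ (deg i).1 - nstar a then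
          cnt (U i) (k - ((deg i).1 - nstar a) / a) (j - (deg i).2.1) else 0 := by
  have hf := fun i => McHilb1_finite (U i) (deg i) k j
  let e : (Σ lam : ZMod a → ZMod a, {p : {p : Fin g × (Var a →₀ ℕ) // p.2 ∉ U p.1} //
        deg p.1.1 + degM a p.1.2 = (nstar a + a * k, j, lam)}) ≃
      Σ i, McHilb1_T (U i) (deg i) (nstar a + a * k) j :=
    { toFun := fun x => ⟨x.2.1.1.1, x.2.1.1.2, x.2.1.2, congrArg Prod.fst x.2.2,
        congrArg (fun y : Gam a => y.2.1) x.2.2⟩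
      invFun := fun x => ⟨(deg x.1 + degM a x.2.1).2.2, ⟨(x.1, x.2.1), x.2.2.1⟩,
        Prod.ext x.2.2.2.1 (Prod.ext x.2.2.2.2 rfl)⟩
      left_inv := by
        rintro ⟨lam, ⟨⟨i, u⟩, h1⟩, h2⟩
        have h3 : (deg i + degM a u).2.2 = lam := congrArg (fun y : Gam a => y.2.2) h2
        subst h3
        rfl
      right_inv := fun x => rfl }
  have hS := Finite.of_equiv _ e.symm
  have hl : ∀ lam : ZMod a → ZMod a, Finite {p : {p : Fin g × (Var a →₀ ℕ) // p.2 ∉ U p.1} //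
        deg p.1.1 + degM a p.1.2 = (nstar a + a * k, j, lam)} := fun lam =>
    Finite.of_injective _ (sigma_mk_injective (β := fun lam : ZMod a → ZMod a =>
      {p : {p : Fin g × (Var a →₀ ℕ) // p.2 ∉ U p.1} //
        deg p.1.1 + degM a p.1.2 = (nstar a + a * k, j, lam)}) (i := lam))
  rw [← Nat.card_sigma, Nat.card_congr e, Nat.card_sigma]
  exact Finset.sum_congr rfl fun i _ => McHilb1_card (U i) (deg i) k j

namespace Ctx

variable {L K : Type} [Field L] [CommRing K] [Algebra L K] {κ : KData a L K}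
  {D : Type} [DivisionRing D] [Algebra L D] (C : Ctx κ D)

variable {V : Type} [AddCommGroup V] [Module C.A V]

theorem McHilb1_H_std {g : ℕ} {m : Fin g → V} {deg : Fin g → Gam a} (h : C.IsGen V m deg) :
    ∃ U : Fin g → Set (Var a →₀ ℕ), (∀ i, IsUpperSet (U i)) ∧
      (∀ i u, C.ιB (mon κ u) • m i = 0 → u ∈ U i) ∧
      (∀ i : Fin g, (i : ℕ) = 0 → (∀ (s : Finset (Var a →₀ ℕ)) (d : (Var a →₀ ℕ) → D),
        ∑ u ∈ s, C.ιD (d u) • C.ιB (mon κ u) • m i = 0 → ∀ u ∈ s, d u = 0) → U i = ∅) ∧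
      ((∀ (s : Finset (Fin g × (Var a →₀ ℕ))) (d : Fin g × (Var a →₀ ℕ) → D),
        ∑ p ∈ s, C.ιD (d p) • C.ιB (mon κ p.2) • m p.1 = 0 → ∀ p ∈ s, d p = 0) → ∀ i, U i = ∅) ∧
      ∀ k j : ℤ, C.H V (nstar a + a * k) j =
        ∑ i, if (a : ℤ) ∣ (deg i).1 - nstar a then
          cnt (U i) (k - ((deg i).1 - nstar a) / a) (j - (deg i).2.1) else 0 := by
  classical
  letI := C.modD V
  haveI := C.towD V
  obtain ⟨h1, h2⟩ := (C.isGen_iff m deg).1 h
  obtain ⟨U, hU, hli, hsp, h0, hfree⟩ := exists_std (C.isMon_opX (V := V)) m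
  refine ⟨U, hU, h0, fun i hi hf => hfree i hi (linearIndependent_iff'.2 hf), fun hf i => ?_,
    fun k j => ?_⟩
  · have hl : LinearIndependent D fun p : Fin g × (Var a →₀ ℕ) => C.opX V p.2 (m p.1) :=
      linearIndependent_iff'.2 hf
    refine Set.eq_empty_of_forall_notMem fun u hu => ?_
    refine hl.notMem_span_image (s := {p | p.2 ∉ U p.1}) (x := (i, u)) (not_not.2 hu) ?_
    have h3 : C.opX V u (m i) ∈ Submodule.span D
        (Set.range fun p : Fin g × (Var a →₀ ℕ) => C.opX V p.2 (m p.1)) :=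
      Submodule.subset_span ⟨(i, u), rfl⟩
    rw [← hsp] at h3
    refine Submodule.span_mono ?_ h3
    rintro _ ⟨p, rfl⟩
    exact ⟨p.1, p.2, rfl⟩
  · rw [← McHilb1_sum U deg k j]
    refine Finset.sum_congr rfl fun lam _ => ?_
    rw [← finrank_piece _ hli (fun p => deg p.1.1 + degM a p.1.2) (nstar a + a * k, j, lam)
      (C.opE V (nstar a + a * k, j, lam)), hsp, show Submodule.span D
        (Set.range fun p : Fin g × (Var a →₀ ℕ) => C.opX V p.2 (m p.1)) = ⊤ from h2, inf_top_eq]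
    · rfl
    · intro p
      have h3 := C.smul_hom (hom_mon κ p.1.2) (h1 p.1.1).1
      split_ifs with h4
      · rw [← h4]
        exact h3
      · exact C.e_smul_of_ne (Ne.symm h4) h3

end Ctx

end Crest.Agent.R181.Mc
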