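import Crest.Agent.R181.McMod
import Crest.Agent.R181.McCount
import Crest.Agent.R181.McHilbAux1

/-! Row 181 (route 2): Hilbert data of admissible modules. -/

set_option autoImplicit false

namespace Crest.Agent.R181.Mc.Ctx

variable {a : ℕ} [NeZero a] {L K : Type} [Field L] [CommRing K] [Algebra L K] {κ : KData a L K}
  {D : Type} [DivisionRing D] [Algebra L D] (C : Ctx κ D)

variable {V W : Type} [AddCommGroup V] [Module C.A V] [AddCommGroup W] [Module C.A W]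

/-- `v` generates a free `D[z, z', S]`-module -/
def FreeVec (v : V) : Prop :=
  ∀ (s : Finset (Var a →₀ ℕ)) (d : (Var a →₀ ℕ) → D),
    ∑ u ∈ s, C.ιD (d u) • C.ιB (mon κ u) • v = 0 → ∀ u ∈ s, d u = 0

/-- The Hilbert function is a sum of counts of standard monomials. -/
theorem H_std {g : ℕ} {m : Fin g → V} {deg : Fin g → Gam a} (h : C.IsGen V m deg) :
    ∃ U : Fin g → Set (Var a →₀ ℕ), (∀ i, IsUpperSet (U i)) ∧
      (∀ i u, C.ιB (mon κ u) • m i = 0 → u ∈ U i) ∧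
      (∀ i : Fin g, (i : ℕ) = 0 → C.FreeVec (m i) → U i = ∅) ∧
      ((∀ (s : Finset (Fin g × (Var a →₀ ℕ))) (d : Fin g × (Var a →₀ ℕ) → D),
        ∑ p ∈ s, C.ιD (d p) • C.ιB (mon κ p.2) • m p.1 = 0 → ∀ p ∈ s, d p = 0) → ∀ i, U i = ∅) ∧
      ∀ k j : ℤ, C.H V (nstar a + a * k) j =
        ∑ i, if (a : ℤ) ∣ (deg i).1 - nstar a then
          cnt (U i) (k - ((deg i).1 - nstar a) / a) (j - (deg i).2.1) else 0 :=
  C.McHilb1_H_std h

theorem HD_unique {r c r' c' : ℤ} (h : C.HD V r c) (h' : C.HD V r' c') : r = r' ∧ c = c' := by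
  obtain ⟨k₀, j₀, h⟩ := h
  obtain ⟨k₁, j₁, h'⟩ := h'
  have e : ∀ k, max k₀ k₁ ≤ k → r * k + c = r' * k + c' := fun k hk =>
    (h k (max j₀ j₁) (le_trans (le_max_left _ _) hk) (le_max_left _ _)).symm.trans
      (h' k (max j₀ j₁) (le_trans (le_max_right _ _) hk) (le_max_right _ _))
  have e1 := e _ le_rfl
  have e2 := e (max k₀ k₁ + 1) (by omega)
  have e3 : r = r' := by linarith
  subst e3
  exact ⟨rfl, by linarith⟩

theorem HD_equiv (f : V ≃ₗ[C.A] W) {r c : ℤ} (h : C.HD V r c) : C.HD W r c := by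
  obtain ⟨k₀, j₀, h⟩ := h
  refine ⟨k₀, j₀, fun k j hk hj => ?_⟩
  rw [← h k j hk hj]
  have e : ∀ n j, C.H W n j = C.H V n j := fun n j =>
    Finset.sum_congr rfl fun lam _ => (C.hdim_equiv f _).symm
  simp only [e]

theorem HD_add (hV : C.Adm V) (N : Submodule C.A V) {r c r' c' : ℤ} (h : C.HD N r c)
    (h' : C.HD (V ⧸ N) r' c') : C.HD V (r + r') (c + c') := by
  obtain ⟨k₀, j₀, h⟩ := h
  obtain ⟨k₁, j₁, h'⟩ := h'
  refine ⟨max k₀ k₁, max j₀ j₁, fun k j hk hj => ?_⟩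
  have e : ∀ n j, C.H V n j = C.H N n j + C.H (V ⧸ N) n j := fun n j => by
    change ∑ lam : ZMod a → ZMod a, C.hdim V (n, j, lam) =
      ∑ lam : ZMod a → ZMod a, C.hdim N (n, j, lam) +
        ∑ lam : ZMod a → ZMod a, C.hdim (V ⧸ N) (n, j, lam)
    rw [← Finset.sum_add_distrib]
    exact Finset.sum_congr rfl fun lam _ => C.hdim_add hV N _
  have e1 := h k j (le_trans (le_max_left _ _) hk) (le_trans (le_max_left _ _) hj)
  have e2 := h' k j (le_trans (le_max_right _ _) hk) (le_trans (le_max_right _ _) hj)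
  rw [fwdDiff_iter_eq_sum_shift] at e1 e2 ⊢
  simp only [e, Nat.cast_add, smul_add, Finset.sum_add_distrib]
  rw [e1, e2]
  ring

theorem McHilb_main {g : ℕ} {m : Fin g → V} {deg : Fin g → Gam a} (h : C.IsGen V m deg) :
    ∃ (U : Fin g → Set (Var a →₀ ℕ)) (r c : Fin g → ℤ),
      (∀ i u, C.ιB (mon κ u) • m i = 0 → u ∈ U i) ∧
      (∀ i : Fin g, (i : ℕ) = 0 → C.FreeVec (m i) → U i = ∅) ∧
      ((∀ (s : Finset (Fin g × (Var a →₀ ℕ))) (d : Fin g × (Var a →₀ ℕ) → D),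
        ∑ p ∈ s, C.ιD (d p) • C.ιB (mon κ p.2) • m p.1 = 0 → ∀ p ∈ s, d p = 0) → ∀ i, U i = ∅) ∧
      (∀ i, (U i = ∅ ∧ r i = 1 ∧ c i = 1) ∨ (U i ≠ ∅ ∧ r i = 0 ∧ 0 ≤ c i)) ∧
      (∀ i, (∃ t, Finsupp.single (Sum.inr t) 1 ∈ U i) → c i = 0) ∧
      (∀ i, Finsupp.single (Sum.inl 0) 1 ∈ U i → Finsupp.single (Sum.inl 1) 1 ∈ U i → c i = 0) ∧
      C.HD V (∑ i, if (a : ℤ) ∣ (deg i).1 - nstar a then r i else 0)
        (∑ i, if (a : ℤ) ∣ (deg i).1 - nstar a then
          c i - r i * (((deg i).1 - nstar a) / a) else 0) := by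
  obtain ⟨U, hU, h1, h2, h3, h4⟩ := C.H_std h
  have hc : Fintype.card (Option (ZMod a)) = a + 1 := by rw [Fintype.card_option, ZMod.card]
  choose r c k₀ j₀ e1 e2 e3 e4 using fun i => cnt_main a hc (U i) (hU i)
  refine ⟨U, r, c, h1, h2, h3, e2, e3, e4, ∑ i, |k₀ i + ((deg i).1 - nstar a) / a|,
    ∑ i, |j₀ i + (deg i).2.1|, fun k j hk hj => ?_⟩
  rw [fwdDiff_iter_eq_sum_shift]
  simp only [h4, Nat.cast_sum, Finset.smul_sum]
  rw [Finset.sum_comm, Finset.sum_mul, ← Finset.sum_add_distrib]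
  refine Finset.sum_congr rfl fun i _ => ?_
  have hk' : k₀ i + ((deg i).1 - nstar a) / a ≤ k :=
    le_trans (le_abs_self _) (le_trans (Finset.single_le_sum
      (f := fun i => |k₀ i + ((deg i).1 - nstar a) / a|) (fun i _ => abs_nonneg _)
      (Finset.mem_univ i)) hk)
  have hj' : j₀ i + (deg i).2.1 ≤ j :=
    le_trans (le_abs_self _) (le_trans (Finset.single_le_sum
      (f := fun i => |j₀ i + (deg i).2.1|) (fun i _ => abs_nonneg _) (Finset.mem_univ i)) hj)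
  by_cases hd : (a : ℤ) ∣ (deg i).1 - nstar a
  · simp only [if_pos hd]
    have e := e1 i (k - ((deg i).1 - nstar a) / a) (j - (deg i).2.1) (by omega) (by omega)
    rw [fwdDiff_iter_eq_sum_shift] at e
    have e' : ∀ l : ℕ, j + l • (1 : ℤ) - (deg i).2.1 = j - (deg i).2.1 + l • (1 : ℤ) :=
      fun l => by ring
    simp only [e']
    rw [e]
    ring
  · simp [if_neg hd]

/-- existence of the Hilbert data, with a bound depending only on the degrees of the generators -/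
theorem exists_HD_gen {g : ℕ} {m : Fin g → V} {deg : Fin g → Gam a} (h : C.IsGen V m deg) :
    ∃ r c : ℤ, C.HD V r c ∧ 0 ≤ r ∧ (r = 0 → 0 ≤ c) ∧
      -c ≤ ∑ i, |1 - ((deg i).1 - nstar a) / a| := by
  obtain ⟨U, r, c, -, -, -, h4, -, -, h7⟩ := C.McHilb_main h
  have hr : ∀ i, 0 ≤ (if (a : ℤ) ∣ (deg i).1 - nstar a then r i else 0) := by
    intro i
    split_ifs
    · rcases h4 i with h | h <;> omega
    · exact le_rfl
  refine ⟨_, _, h7, Finset.sum_nonneg fun i _ => hr i, fun h0 => ?_, ?_⟩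
  · rw [Finset.sum_eq_zero_iff_of_nonneg fun i _ => hr i] at h0
    refine Finset.sum_nonneg fun i hi => ?_
    have := h0 i hi
    split_ifs with hd
    · rw [if_pos hd] at this
      rcases h4 i with h | h
      · omega
      · rw [this, zero_mul, sub_zero]
        exact h.2.2
    · exact le_rfl
  · rw [← Finset.sum_neg_distrib]
    refine Finset.sum_le_sum fun i _ => ?_
    split_ifs with hd
    · rcases h4 i with h | h
      · rw [h.2.1, h.2.2, one_mul]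
        exact neg_le_abs _
      · rw [h.2.1, zero_mul, sub_zero]
        exact le_trans (neg_nonpos.2 h.2.2) (abs_nonneg _)
    · rw [neg_zero]
      exact abs_nonneg _

theorem exists_HD (hV : C.Adm V) : ∃ r c : ℤ, C.HD V r c ∧ 0 ≤ r ∧ (r = 0 → 0 ≤ c) := by
  obtain ⟨g, m, deg, h⟩ := hV
  obtain ⟨r, c, h1, h2, h3, -⟩ := C.exists_HD_gen h
  exact ⟨r, c, h1, h2, h3⟩

theorem HD_killed (hV : C.Adm V) (y : Var a) (hy : ∀ v : V, C.ιB (xv κ y) • v = 0) {r c : ℤ}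
    (h : C.HD V r c) : r = 0 := by
  obtain ⟨g, m, deg, hg⟩ := hV
  obtain ⟨U, r', c', h1, -, -, h4, -, -, h7⟩ := C.McHilb_main hg
  rw [(C.HD_unique h h7).1]
  refine Finset.sum_eq_zero fun i _ => ?_
  have hu : Finsupp.single y 1 ∈ U i := h1 i _ (by rw [mon_single, pow_one]; exact hy _)
  rcases h4 i with h | h
  · rw [h.1] at hu
    exact hu.elim
  · rw [h.2.1, ite_self]

theorem HD_killed_S (hV : C.Adm V) (t : Option (ZMod a))
    (hy : ∀ v : V, C.ιB (xv κ (Sum.inr t)) • v = 0) : C.HD V 0 0 := by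
  obtain ⟨g, m, deg, hg⟩ := hV
  obtain ⟨U, r', c', h1, -, -, h4, h5, -, h7⟩ := C.McHilb_main hg
  have hu : ∀ i, Finsupp.single (Sum.inr t) 1 ∈ U i := fun i =>
    h1 i _ (by rw [mon_single, pow_one]; exact hy _)
  have hr : ∀ i, r' i = 0 := by
    intro i
    rcases h4 i with h | h
    · have := hu i
      rw [h.1] at this
      exact this.elim
    · exact h.2.1
  have hc : ∀ i, c' i = 0 := fun i => h5 i ⟨t, hu i⟩
  simpa [hr, hc] using h7

theorem HD_killed_zz (hV : C.Adm V) (hy : ∀ (ε : Fin 2) (v : V), C.ιB (xv κ (Sum.inl ε)) • v = 0) :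
    C.HD V 0 0 := by
  obtain ⟨g, m, deg, hg⟩ := hV
  obtain ⟨U, r', c', h1, -, -, h4, -, h6, h7⟩ := C.McHilb_main hg
  have hu : ∀ i ε, Finsupp.single (Sum.inl ε) 1 ∈ U i := fun i ε =>
    h1 i _ (by rw [mon_single, pow_one]; exact hy _ _)
  have hr : ∀ i, r' i = 0 := by
    intro i
    rcases h4 i with h | h
    · have := hu i 0
      rw [h.1] at this
      exact this.elim
    · exact h.2.1
  have hc : ∀ i, c' i = 0 := fun i => h6 i (hu i 0) (hu i 1)
  simpa [hr, hc] using h7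

theorem HD_free (hV : C.Adm V) (v : V) (γ : Gam a) (hv : C.e γ • v = v) (hγ : Ok γ)
    (hdvd : (a : ℤ) ∣ γ.1 - nstar a) (hf : C.FreeVec v) {r c : ℤ} (h : C.HD V r c) : 1 ≤ r := by
  obtain ⟨g, m, deg, hg⟩ := hV
  have hg' : C.IsGen V (Fin.cons v m : Fin (g + 1) → V) (Fin.cons γ deg : Fin (g + 1) → Gam a) := by
    refine ⟨fun i => Fin.cases ⟨hv, hγ⟩ (fun i => hg.1 i) i, ?_⟩
    rw [eq_top_iff, ← hg.2]
    refine AddSubgroup.closure_mono ?_
    rintro _ ⟨p, rfl⟩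
    exact ⟨(p.1, p.2.1.succ, p.2.2), rfl⟩
  obtain ⟨U, r', c', -, h2, -, h4, -, -, h7⟩ := C.McHilb_main hg'
  rw [(C.HD_unique h h7).1, Fin.sum_univ_succ]
  have h0 : r' 0 = 1 := by
    rcases h4 0 with h | h
    · exact h.2.1
    · exact (h.1 (h2 0 rfl hf)).elim
  have h1 : 0 ≤ ∑ i : Fin g, if (a : ℤ) ∣ ((Fin.cons γ deg : Fin (g + 1) → Gam a) i.succ).1 - nstar a
      then r' i.succ else 0 := by
    refine Finset.sum_nonneg fun i _ => ?_
    split_ifs
    · rcases h4 i.succ with h | h <;> omega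
    · exact le_rfl
  rw [Fin.cons_zero, if_pos hdvd, h0]
  omega

/-- modules that are free on the given generators -/
theorem HD_of_basis {g : ℕ} {m : Fin g → V} {deg : Fin g → Gam a} (h : C.IsGen V m deg)
    (hf : ∀ (s : Finset (Fin g × (Var a →₀ ℕ))) (d : Fin g × (Var a →₀ ℕ) → D),
        ∑ p ∈ s, C.ιD (d p) • C.ιB (mon κ p.2) • m p.1 = 0 → ∀ p ∈ s, d p = 0) :
    C.HD V (∑ i, if (a : ℤ) ∣ (deg i).1 - nstar a then 1 else 0)
      (∑ i, if (a : ℤ) ∣ (deg i).1 - nstar a then 1 - ((deg i).1 - nstar a) / a else 0) := by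
  obtain ⟨U, r', c', -, -, h3, h4, -, -, h7⟩ := C.McHilb_main h
  have hrc : ∀ i, r' i = 1 ∧ c' i = 1 := by
    intro i
    rcases h4 i with h | h
    · exact h.2
    · exact (h.1 (h3 hf i)).elim
  simpa only [fun i => (hrc i).1, fun i => (hrc i).2, one_mul] using h7

end Crest.Agent.R181.Mc.Ctx
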