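import Mathlib

/-! Row 181 (route 2): averaging over a cyclic symmetry; extension of points along integral
extensions (auxiliary file for `McInv`). -/

set_option autoImplicit false

namespace Crest.Agent.R181.Mc.I2

section av

variable {a : ℕ} {L B : Type} [Field L] [CommRing B] [Algebra L B]

/-- the average over the powers of `σ` -/
noncomputable def av (L : Type) [Field L] [Algebra L B] (a : ℕ) (σ : B →+* B) (x : B) : B :=
  algebraMap L B (a : L)⁻¹ * ∑ i ∈ Finset.range a, σ^[i] x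

theorem geom {ζ : L} (hζ : IsPrimitiveRoot ζ a) (m : ℕ) :
    ∑ i ∈ Finset.range a, (ζ ^ m) ^ i = if a ∣ m then (a : L) else 0 := by
  split_ifs with h
  · rw [(hζ.pow_eq_one_iff_dvd m).2 h]; simp
  · have h1 : ζ ^ m - 1 ≠ 0 := sub_ne_zero.2 fun e => h ((hζ.pow_eq_one_iff_dvd m).1 e)
    have h2 := geom_sum_mul (ζ ^ m) a
    rw [← pow_mul, mul_comm m a, pow_mul, hζ.pow_eq_one, one_pow, sub_self] at h2
    exact (mul_eq_zero.1 h2).resolve_right h1

variable {σ : B →+* B} {ζ : L} {θ : B}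

theorem iter_mul (hL : ∀ l, σ (algebraMap L B l) = algebraMap L B l)
    (hθ : σ θ = algebraMap L B ζ * θ) (m i : ℕ) (x : B) :
    σ^[i] (θ ^ m * x) = algebraMap L B ((ζ ^ m) ^ i) * θ ^ m * σ^[i] x := by
  induction i with
  | zero => simp
  | succ i ih =>
    rw [Function.iterate_succ_apply', Function.iterate_succ_apply', ih, map_mul, map_mul, hL,
      map_pow σ, hθ, mul_pow, pow_succ, map_mul, map_pow _ ζ m]
    ring

theorem σ_av (hL : ∀ l, σ (algebraMap L B l) = algebraMap L B l) {x : B} (hx : σ^[a] x = x) :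
    σ (av L a σ x) = av L a σ x := by
  unfold av
  rw [map_mul, hL, map_sum]
  congr 1
  have h1 := Finset.sum_range_succ (fun i => σ^[i] x) a
  have h2 := Finset.sum_range_succ' (fun i => σ^[i] x) a
  simp only [Function.iterate_succ_apply', Function.iterate_zero_apply] at h2
  rw [hx, h2] at h1
  exact add_right_cancel h1

theorem av_sum {ι : Type} (s : Finset ι) (x : ι → B) :
    av L a σ (∑ j ∈ s, x j) = ∑ j ∈ s, av L a σ (x j) := by
  unfold av
  rw [← Finset.mul_sum, Finset.sum_comm]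
  congr 1
  refine Finset.sum_congr rfl fun i _ => ?_
  rw [← RingHom.coe_pow, map_sum]

theorem av_mem (S : Subring B) (hL : ∀ l, algebraMap L B l ∈ S) (hS : ∀ x ∈ S, σ x ∈ S) {x : B}
    (hx : x ∈ S) : av L a σ x ∈ S := by
  have h : ∀ i, σ^[i] x ∈ S := by
    intro i
    induction i with
    | zero => exact hx
    | succ i ih => rw [Function.iterate_succ_apply']; exact hS _ ih
  exact S.mul_mem (hL _) (S.sum_mem fun i _ => h i)

theorem inv_mul [CharZero L] [NeZero a] :
    algebraMap L B (a : L)⁻¹ * algebraMap L B (a : L) = 1 := by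
  rw [← map_mul, inv_mul_cancel₀ (Nat.cast_ne_zero.2 (NeZero.ne a)), map_one]

theorem av_eigen [CharZero L] [NeZero a] (hζ : IsPrimitiveRoot ζ a)
    (hL : ∀ l, σ (algebraMap L B l) = algebraMap L B l)
    (hθ : σ θ = algebraMap L B ζ * θ) (m : ℕ) {g : B} (hg : σ g = g) :
    av L a σ (θ ^ m * g) = if a ∣ m then θ ^ m * g else 0 := by
  unfold av
  simp only [iter_mul hL hθ, Function.iterate_fixed hg, mul_assoc]
  rw [← Finset.sum_mul, ← map_sum, geom hζ]
  split_ifs with h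
  · rw [← mul_assoc, inv_mul, one_mul]
  · simp

theorem inversion [CharZero L] [NeZero a] (hζ : IsPrimitiveRoot ζ a)
    (hL : ∀ l, σ (algebraMap L B l) = algebraMap L B l)
    (hθ : σ θ = algebraMap L B ζ * θ) {Θ : L} (hΘ : Θ ≠ 0) (hp : θ ^ a = algebraMap L B Θ) (x : B) :
    x = ∑ r : Fin a, algebraMap L B Θ⁻¹ * θ ^ (a - (r : ℕ)) * av L a σ (θ ^ (r : ℕ) * x) := by
  have h1 : ∀ r : Fin a, algebraMap L B Θ⁻¹ * θ ^ (a - (r : ℕ)) * av L a σ (θ ^ (r : ℕ) * x) =
      algebraMap L B (a : L)⁻¹ *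
        ∑ i ∈ Finset.range a, algebraMap L B ((ζ ^ i) ^ (r : ℕ)) * σ^[i] x := by
    intro r
    have h2 : algebraMap L B Θ⁻¹ * θ ^ (a - (r : ℕ)) * θ ^ (r : ℕ) = 1 := by
      rw [mul_assoc, ← pow_add, Nat.sub_add_cancel r.2.le, hp, ← map_mul, inv_mul_cancel₀ hΘ,
        map_one]
    unfold av
    rw [mul_left_comm, Finset.mul_sum (Finset.range a) _ (algebraMap L B Θ⁻¹ * θ ^ (a - (r : ℕ)))]
    congr 1
    refine Finset.sum_congr rfl fun i _ => ?_
    rw [iter_mul hL hθ, ← pow_mul, mul_comm (r : ℕ) i, pow_mul]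
    linear_combination (algebraMap L B ((ζ ^ i) ^ (r : ℕ)) * σ^[i] x) * h2
  simp only [h1]
  rw [← Finset.mul_sum, Finset.sum_comm]
  have h3 : ∀ i ∈ Finset.range a, ∑ r : Fin a, algebraMap L B ((ζ ^ i) ^ (r : ℕ)) * σ^[i] x =
      if i = 0 then algebraMap L B (a : L) * x else 0 := by
    intro i hi
    rw [← Finset.sum_mul, ← map_sum, Fin.sum_univ_eq_sum_range (fun r => (ζ ^ i) ^ r) a, geom hζ]
    by_cases h0 : i = 0
    · subst h0; simp
    · rw [if_neg h0, if_neg fun h => h0 (Nat.eq_zero_of_dvd_of_lt h (Finset.mem_range.1 hi))]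
      simp
  rw [Finset.sum_congr rfl h3, Finset.sum_ite_eq' (Finset.range a) 0,
    if_pos (Finset.mem_range.2 (Nat.pos_of_ne_zero (NeZero.ne a))), ← mul_assoc, inv_mul, one_mul]

end av

/-- points extend along injective integral extensions -/
theorem exists_extend {R S Ω : Type} [CommRing R] [CommRing S] [Algebra R S]
    [Algebra.IsIntegral R S] (hinj : Function.Injective (algebraMap R S)) [Field Ω] [IsAlgClosed Ω]
    (ψ : R →+* Ω) : ∃ ev : S →+* Ω, ∀ q, ev (algebraMap R S q) = ψ q := by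
  have hP : (RingHom.ker ψ).IsPrime := RingHom.ker_isPrime ψ
  obtain ⟨Q, -, hQ, hQP⟩ := Ideal.exists_ideal_over_prime_of_isIntegral (S := S) (RingHom.ker ψ) ⊥
    (by rw [Ideal.comap_bot_of_injective _ hinj]; exact bot_le)
  let ψ' : R ⧸ Q.comap (algebraMap R S) →+* Ω :=
    Ideal.Quotient.lift _ ψ fun r hr => by rwa [hQP] at hr
  have hψ' : Function.Injective ψ' :=
    RingHom.lift_injective_of_ker_le_ideal _ _ (by rw [hQP])
  let _ : Algebra (R ⧸ Q.comap (algebraMap R S)) Ω := ψ'.toAlgebra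
  have : FaithfulSMul (R ⧸ Q.comap (algebraMap R S)) Ω :=
    (faithfulSMul_iff_algebraMap_injective _ _).2 hψ'
  have : FaithfulSMul (R ⧸ Q.comap (algebraMap R S)) (S ⧸ Q) :=
    (faithfulSMul_iff_algebraMap_injective _ _).2 Ideal.algebraMap_quotient_injective
  let φ : (S ⧸ Q) →ₐ[R ⧸ Q.comap (algebraMap R S)] Ω := IsAlgClosed.lift
  refine ⟨(φ : (S ⧸ Q) →+* Ω).comp (Ideal.Quotient.mk Q), fun q => ?_⟩
  exact φ.commutes (Ideal.Quotient.mk _ q)

end Crest.Agent.R181.Mc.I2
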