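import Crest.Agent.R181.McRing
import Crest.Agent.R181.McCount
import Crest.Agent.R181.McInvAux2

/-! Row 181 (route 2): invariants, the new variables, and the binding of points. -/

set_option autoImplicit false

namespace Crest.Agent.R181.Mc

open MvPolynomial

variable {a : ℕ} {L K : Type} [Field L] [CommRing K] [Algebra L K] (κ : KData a L K)

/-- elements all of whose components have fine degree `0` and weight `0` -/
noncomputable def W0 : Subring (Br κ) where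
  carrier := {q | ∀ δ : Gam a, (ρB κ q).coeff δ ≠ 0 → δ.1 = 0 ∧ δ.2.2 = 0}
  zero_mem' := by
    intro δ h
    simp at h
  one_mem' := by
    intro δ h
    rw [map_one, AddMonoidAlgebra.one_def] at h
    by_cases h0 : δ = 0
    · simp [h0]
    · exact absurd (by simp [AddMonoidAlgebra.coeff_single, Ne.symm h0]) h
  add_mem' := by
    intro x y hx hy δ h
    rw [map_add, AddMonoidAlgebra.coeff_add, Finsupp.add_apply] at h
    by_cases h1 : (ρB κ x).coeff δ = 0
    · exact hy δ (by simpa [h1] using h)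
    · exact hx δ h1
  neg_mem' := by
    intro x hx δ h
    exact hx δ (by simpa using h)
  mul_mem' := by
    classical
    intro x y hx hy δ h
    rw [map_mul] at h
    have hm := AddMonoidAlgebra.support_coeff_mul_subset (ρB κ x) (ρB κ y) (Finsupp.mem_support_iff.2 h)
    obtain ⟨δ₁, h1, δ₂, h2, rfl⟩ := Finset.mem_add.1 hm
    obtain ⟨a1, a2⟩ := hx δ₁ (Finsupp.mem_support_iff.1 h1)
    obtain ⟨b1, b2⟩ := hy δ₂ (Finsupp.mem_support_iff.1 h2)
    simp [a1, a2, b1, b2]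

/-- the invariants -/
noncomputable def Inv : Subring (Br κ) := W0 κ ⊓ RingHom.eqLocus (σB κ) (RingHom.id _)

theorem mem_W0_of_hom {q : Br κ} {j : ℤ} (h : Hom κ q (0, j, 0)) : q ∈ W0 κ := by
  classical
  intro δ hδ
  have h' : ρB κ q = AddMonoidAlgebra.single (0, j, 0) q := h
  rw [h', AddMonoidAlgebra.coeff_single, Finsupp.single_apply] at hδ
  split_ifs at hδ with h1
  · subst h1
    exact ⟨rfl, rfl⟩
  · exact absurd rfl hδ

theorem algebraMap_mem_Inv (l : L) : algebraMap L (Br κ) l ∈ Inv κ := by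
  exact ⟨mem_W0_of_hom κ (j := 0) (hom_algebraMap κ l), σB_algebraMap κ l⟩

/-- constants -/
noncomputable def cL : L →+* Inv κ := (algebraMap L (Br κ)).codRestrict (Inv κ) (algebraMap_mem_Inv κ)

variable [NeZero a]

theorem σB_mem_W0 {q : Br κ} (h : q ∈ W0 κ) : σB κ q ∈ W0 κ := by
  rw [← sum_ρB κ q, Finsupp.sum, map_sum]
  refine Subring.sum_mem _ fun δ hδ => ?_
  obtain ⟨h1, h2⟩ := h δ (Finsupp.mem_support_iff.1 hδ)
  have h3 := (hom_ρB κ q δ).σB
  obtain ⟨n, j, w⟩ := δ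
  obtain rfl : n = 0 := h1
  obtain rfl : w = 0 := h2
  exact mem_W0_of_hom κ (j := j) h3

/-- the product of the `S_i` -/
noncomputable def NS : Br κ := ∏ i : ZMod a, xv κ (Sum.inr (some i))

theorem i39_hom_NS : Hom κ (NS κ) (0, ((a : ℕ) : ℤ), 0) := by
  have h := Hom.prod (κ := κ) Finset.univ (x := fun i : ZMod a => xv κ (Sum.inr (some i)))
    (δ := fun i => degV a (Sum.inr (some i))) fun i _ => hom_xv κ _
  have e : ∑ i : ZMod a, degV a (Sum.inr (some i)) = (0, ((a : ℕ) : ℤ), 0) := by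
    refine Prod.ext ?_ (Prod.ext ?_ ?_)
    · rw [Prod.fst_sum]
      exact Finset.sum_const_zero
    · rw [Prod.snd_sum, Prod.fst_sum]
      change ∑ _i : ZMod a, (1 : ℤ) = ((a : ℕ) : ℤ)
      simp [ZMod.card]
    · rw [Prod.snd_sum, Prod.snd_sum]
      change ∑ i : ZMod a, ((Pi.single (i + 1) 1 - Pi.single i 1 : ZMod a → ZMod a)) = 0
      rw [Finset.sum_sub_distrib, sub_eq_zero]
      exact Fintype.sum_equiv (Equiv.addRight (1 : ZMod a)) _ _ fun i => rfl
  rw [e] at h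
  exact h

theorem NS_mem : NS κ ∈ Inv κ := by
  refine ⟨mem_W0_of_hom κ (i39_hom_NS κ), ?_⟩
  change σB κ (∏ i : ZMod a, xv κ (Sum.inr (some i))) = ∏ i : ZMod a, xv κ (Sum.inr (some i))
  rw [map_prod]
  exact Fintype.prod_equiv (Equiv.addRight (1 : ZMod a)) _ _ fun i => σB_xv κ _

theorem NS_ne_zero : NS κ ≠ 0 := by
  classical
  obtain ⟨bs, hbs⟩ := exists_monoBasis κ
  have hm : ∀ s : Finset (ZMod a),
      mon κ (∑ i ∈ s, Finsupp.single (Sum.inr (some i) : Var a) 1) =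
        ∏ i ∈ s, xv κ (Sum.inr (some i)) := by
    intro s
    induction s using Finset.induction_on with
    | empty => rw [Finset.sum_empty, Finset.prod_empty, mon_zero]
    | insert i s hi ih =>
      rw [Finset.sum_insert hi, Finset.prod_insert hi, mon_add, ih, mon_single, pow_one]
  have h := bs.ne_zero (0, 0, ∑ i : ZMod a, Finsupp.single (Sum.inr (some i) : Var a) 1)
  rw [hbs] at h
  intro h0
  apply h
  change mon κ (∑ i : ZMod a, Finsupp.single (Sum.inr (some i) : Var a) 1) * _ = 0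
  rw [hm]
  have h1 : ∏ i : ZMod a, xv κ (Sum.inr (some i)) = 0 := h0
  rw [h1, zero_mul]

theorem hom_NS : Hom κ (NS κ) (0, ((a : ℕ) : ℤ), 0) := by
  exact i39_hom_NS κ

/-- exponents `(ρ, k, c)` of the monomials `s ^ ρ S ^ k v ^ c` of fine degree `a` and weight zero -/
def Mset (a : ℕ) [NeZero a] : Type :=
  {x : Fin a × (ZMod a → Fin a) × (ZMod a → Fin (a + 1)) //
    ∑ i, (x.2.2 i : ℕ) = a ∧ ∀ i : ZMod a,
      ((x.2.2 i : ℕ) : ZMod a) + ((x.2.1 (i - 1) : ℕ) : ZMod a) =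
        ((x.2.1 i : ℕ) : ZMod a) + ((x.1 : ℕ) : ZMod a)}

noncomputable instance : Fintype (Mset a) := by
  classical exact Subtype.fintype _

noncomputable instance : DecidableEq (Mset a) := Classical.decEq _

/-- the coefficient `s ^ ρ S ^ k` -/
noncomputable def xc (x : Mset a) : Br κ :=
  xt κ none ^ (x.1.1 : ℕ) * ∏ i, xv κ (Sum.inr (some i)) ^ (x.1.2.1 i : ℕ)

/-- the monomial `s ^ ρ S ^ k v ^ c` -/
noncomputable def xm (x : Mset a) : Br κ := xc κ x * ∏ i, xt κ (some i) ^ (x.1.2.2 i : ℕ)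

/-- the new variables: `z, z'` and the averages of `θ ^ r s ^ ρ S ^ k v ^ c` -/
noncomputable def tvar : Fin 2 ⊕ (Mset a × Fin a) → Br κ :=
  Sum.elim (fun ε => xv κ (Sum.inl ε)) fun p =>
    algebraMap L (Br κ) (a : L)⁻¹ * ∑ i ∈ Finset.range a, (σB κ)^[i] (kk κ κ.θ ^ (p.2 : ℕ) * xm κ p.1)

/-- the index of `y = s v_0 ⋯ v_{a-1}` -/
def y0 (ha : 2 ≤ a) : Mset a × Fin a :=
  (⟨(⟨1, ha⟩, fun _ => ⟨0, by omega⟩, fun _ => ⟨1, by omega⟩), by simp, by simp⟩, ⟨0, by omega⟩)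

theorem σB_tvar (α : Fin 2 ⊕ (Mset a × Fin a)) : σB κ (tvar κ α) = tvar κ α := by
  rcases α with ε | p
  · exact σB_xv κ (Sum.inl ε)
  · change σB κ (algebraMap L (Br κ) (a : L)⁻¹ *
        ∑ i ∈ Finset.range a, (σB κ)^[i] (kk κ κ.θ ^ (p.2 : ℕ) * xm κ p.1)) =
      algebraMap L (Br κ) (a : L)⁻¹ *
        ∑ i ∈ Finset.range a, (σB κ)^[i] (kk κ κ.θ ^ (p.2 : ℕ) * xm κ p.1)
    generalize kk κ κ.θ ^ (p.2 : ℕ) * xm κ p.1 = y
    rw [map_mul, σB_algebraMap, map_sum]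
    congr 1
    have h1 := Finset.sum_range_succ' (fun i => (σB κ)^[i] y) a
    have h2 := Finset.sum_range_succ (fun i => (σB κ)^[i] y) a
    rw [σB_iterate] at h2
    rw [h2, Function.iterate_zero_apply, add_left_inj] at h1
    rw [h1]
    exact Finset.sum_congr rfl fun i _ => (Function.iterate_succ_apply' _ _ _).symm

theorem i39_hom_xm (x : Mset a) :
    Hom κ (xm κ x) ((a : ℤ), ((∑ i, (x.1.2.1 i : ℕ) : ℕ) : ℤ), 0) := by
  classical
  have h := (((hom_xt κ none).pow (x.1.1 : ℕ)).mul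
    (Hom.prod (κ := κ) Finset.univ
      (x := fun i : ZMod a => xv κ (Sum.inr (some i)) ^ (x.1.2.1 i : ℕ))
      (δ := fun i => (x.1.2.1 i : ℕ) • degV a (Sum.inr (some i)))
      fun i _ => (hom_xv κ _).pow _)).mul
    (Hom.prod (κ := κ) Finset.univ
      (x := fun i : ZMod a => xt κ (some i) ^ (x.1.2.2 i : ℕ))
      (δ := fun i => (x.1.2.2 i : ℕ) • degT a (some i))
      fun i _ => (hom_xt κ _).pow _)
  have e : (x.1.1 : ℕ) • degT a none + ∑ i, (x.1.2.1 i : ℕ) • degV a (Sum.inr (some i)) +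
      ∑ i, (x.1.2.2 i : ℕ) • degT a (some i) =
        ((a : ℤ), ((∑ i, (x.1.2.1 i : ℕ) : ℕ) : ℤ), 0) := by
    refine Prod.ext ?_ (Prod.ext ?_ (funext fun j => ?_))
    · rw [Prod.fst_add, Prod.fst_add, Prod.fst_sum, Prod.fst_sum]
      change (x.1.1 : ℕ) • (0 : ℤ) + ∑ i, (x.1.2.1 i : ℕ) • (0 : ℤ) +
        ∑ i, (x.1.2.2 i : ℕ) • (1 : ℤ) = (a : ℤ)
      have h1 : ((∑ i, (x.1.2.2 i : ℕ) : ℕ) : ℤ) = (a : ℤ) := congrArg Nat.cast x.2.1
      rw [← h1]
      simp
    · rw [Prod.snd_add, Prod.snd_add, Prod.snd_sum, Prod.snd_sum, Prod.fst_add, Prod.fst_add,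
        Prod.fst_sum, Prod.fst_sum]
      change (x.1.1 : ℕ) • (0 : ℤ) + ∑ i, (x.1.2.1 i : ℕ) • (1 : ℤ) +
        ∑ i, (x.1.2.2 i : ℕ) • (0 : ℤ) = ((∑ i, (x.1.2.1 i : ℕ) : ℕ) : ℤ)
      simp
    · rw [Prod.snd_add, Prod.snd_add, Prod.snd_sum, Prod.snd_sum, Prod.snd_add, Prod.snd_add,
        Prod.snd_sum, Prod.snd_sum, Pi.add_apply, Pi.add_apply, Finset.sum_apply,
        Finset.sum_apply]
      change (x.1.1 : ℕ) • (-1 : ZMod a) +
        ∑ i, (x.1.2.1 i : ℕ) • ((Pi.single (i + 1) 1 : ZMod a → ZMod a) j -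
          (Pi.single i 1 : ZMod a → ZMod a) j) +
        ∑ i, (x.1.2.2 i : ℕ) • (Pi.single i 1 : ZMod a → ZMod a) j = 0
      have h1 := x.2.2 j
      simp only [← McRing_single]
      simp only [smul_sub, Finset.sum_sub_distrib, Pi.single_apply, smul_ite,
        smul_zero, Finset.sum_ite_eq, Finset.mem_univ, if_true, nsmul_eq_mul, mul_one, mul_neg]
      linear_combination h1
  rw [e] at h
  exact h

theorem hom_tvar (α : Fin 2 ⊕ (Mset a × Fin a)) :
    ∃ j : ℕ, Hom κ (tvar κ α) ((a : ℤ), (j : ℤ), 0) := by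
  rcases α with ε | p
  · exact ⟨0, hom_xv κ (Sum.inl ε)⟩
  · refine ⟨∑ i, (p.1.1.2.1 i : ℕ), ?_⟩
    have h0 := ((hom_kk κ κ.θ).pow (p.2 : ℕ)).mul (i39_hom_xm κ p.1)
    rw [smul_zero, zero_add] at h0
    have h1 : ∀ i : ℕ, Hom κ ((σB κ)^[i] (kk κ κ.θ ^ (p.2 : ℕ) * xm κ p.1))
        ((a : ℤ), ((∑ i, (p.1.1.2.1 i : ℕ) : ℕ) : ℤ), 0) := by
      intro i
      induction i with
      | zero => exact h0
      | succ i ih =>
        rw [Function.iterate_succ_apply']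
        exact ih.σB
    have h2 := (hom_algebraMap κ (a : L)⁻¹).mul (Hom.sum (Finset.range a) fun i _ => h1 i)
    rw [zero_add] at h2
    exact h2

omit [NeZero a] in
theorem i2_σθ : σB κ (kk κ κ.θ) = algebraMap L (Br κ) κ.ζ * kk κ κ.θ := by
  rw [σB_kk, κ.σθ, Algebra.smul_def, map_mul, kk_algebraMap]

omit [NeZero a] in
theorem i2_θpow : kk κ κ.θ ^ a = algebraMap L (Br κ) κ.Θ := by
  rw [← map_pow, κ.θ_pow, kk_algebraMap]

theorem i2_unit : IsUnit (kk κ κ.θ) := by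
  rw [← isUnit_pow_iff (NeZero.ne a), i2_θpow]
  exact (IsUnit.mk0 _ κ.hΘ).map _

omit [NeZero a] in
theorem i2_θW0 : kk κ κ.θ ∈ W0 κ := mem_W0_of_hom κ (j := 0) (hom_kk κ κ.θ)

/-- eigenspace decomposition -/
theorem W0_decomp [CharZero L] (q : Br κ) (hq : q ∈ W0 κ) :
    ∃ g : Fin a → Inv κ, q = ∑ r : Fin a, kk κ κ.θ ^ (r : ℕ) * (g r : Br κ) := by
  have hLW : ∀ l, algebraMap L (Br κ) l ∈ W0 κ := fun l => (algebraMap_mem_Inv κ l).1
  let G : Fin a → Br κ := fun r => algebraMap L (Br κ) κ.Θ⁻¹ *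
    I2.av L a (σB κ) (kk κ κ.θ ^ (r : ℕ) * (kk κ κ.θ * q))
  have hG : ∀ r, G r ∈ Inv κ := by
    intro r
    refine (Inv κ).mul_mem (algebraMap_mem_Inv κ _) ⟨?_, ?_⟩
    · exact I2.av_mem _ hLW (fun x hx => σB_mem_W0 κ hx)
        ((W0 κ).mul_mem ((W0 κ).pow_mem (i2_θW0 κ) _) ((W0 κ).mul_mem (i2_θW0 κ) hq))
    · exact I2.σ_av (σB_algebraMap κ) (σB_iterate κ _)
  refine ⟨fun r => ⟨G r.rev, hG _⟩, ?_⟩
  have h := I2.inversion κ.hζ (σB_algebraMap κ) (i2_σθ κ) κ.hΘ (i2_θpow κ) (kk κ κ.θ * q)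
  refine (i2_unit κ).mul_left_cancel ?_
  rw [h, Finset.mul_sum, ← Equiv.sum_comp Fin.revPerm]
  refine Finset.sum_congr rfl fun r _ => ?_
  have e : a - ((Fin.revPerm r : Fin a) : ℕ) = (r : ℕ) + 1 := by
    have := r.2
    simp only [Fin.revPerm_apply, Fin.val_rev]
    omega
  rw [e, pow_succ]
  simp only [G, Fin.revPerm_apply]
  ring

/-- independence of the eigenspaces -/
theorem eigen_indep [CharZero L] (g : Fin a → Br κ) (hg : ∀ r, σB κ (g r) = g r)
    (h : ∑ r : Fin a, kk κ κ.θ ^ (r : ℕ) * g r = 0) : ∀ r, g r = 0 := by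
  intro s
  have h1 : I2.av L a (σB κ) (∑ r : Fin a, kk κ κ.θ ^ (a - (s : ℕ) + (r : ℕ)) * g r) = 0 := by
    simp only [pow_add, mul_assoc]
    rw [← Finset.mul_sum, h, mul_zero]
    simp [I2.av]
  rw [I2.av_sum, Finset.sum_eq_single s] at h1
  · rw [I2.av_eigen κ.hζ (σB_algebraMap κ) (i2_σθ κ) _ (hg s), Nat.sub_add_cancel s.2.le,
      if_pos dvd_rfl] at h1
    exact (((i2_unit κ).pow a).mul_right_eq_zero).1 h1
  · intro r _ hr
    rw [I2.av_eigen κ.hζ (σB_algebraMap κ) (i2_σθ κ) _ (hg r), if_neg]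
    rintro ⟨c, hc⟩
    have h2 := r.2
    have h3 := s.2
    apply hr
    ext
    rcases c with _ | _ | c
    · omega
    · omega
    · have : a * (c + 1 + 1) = a * c + 2 * a := by ring
      omega
  · simp

/-- inversion of the averages -/
theorem xm_eq [CharZero L] (x : Mset a) :
    xm κ x = ∑ r : Fin a, algebraMap L (Br κ) κ.Θ⁻¹ * kk κ κ.θ ^ (a - (r : ℕ)) *
      tvar κ (Sum.inr (x, r)) :=
  I2.inversion κ.hζ (σB_algebraMap κ) (i2_σθ κ) κ.hΘ (i2_θpow κ) (xm κ x)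

theorem tvar_y0 [CharZero L] (ha : 2 ≤ a) :
    tvar κ (Sum.inr (y0 ha)) = xm κ (y0 ha).1 := by
  have e : xm κ (y0 ha).1 = xt κ none * ∏ i : ZMod a, xt κ (some i) := by
    change xt κ none ^ 1 * (∏ i : ZMod a, xv κ (Sum.inr (some i)) ^ 0) *
      ∏ i : ZMod a, xt κ (some i) ^ 1 = _
    simp only [pow_one, pow_zero, Finset.prod_const_one, mul_one]
  have h1 : σB κ (xm κ (y0 ha).1) = xm κ (y0 ha).1 := by
    rw [e, map_mul, map_prod, σB_xt]
    congr 1
    exact Fintype.prod_equiv (Equiv.addRight (1 : ZMod a)) _ _ fun i => σB_xt κ _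
  change algebraMap L (Br κ) (a : L)⁻¹ *
    ∑ i ∈ Finset.range a, (σB κ)^[i] (kk κ κ.θ ^ 0 * xm κ (y0 ha).1) = _
  rw [pow_zero, one_mul, Finset.sum_congr rfl fun i _ => Function.iterate_fixed h1 i,
    Finset.sum_const, Finset.card_range, nsmul_eq_mul, ← mul_assoc,
    ← map_natCast (algebraMap L (Br κ)), ← map_mul,
    inv_mul_cancel₀ (Nat.cast_ne_zero.2 (NeZero.ne a)), map_one, one_mul]

/-- every exponent vector `c` of degree `a` occurs -/
theorem exists_Mset (c : ZMod a → ℕ) (hc : ∑ i, c i = a) :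
    ∃ x : Mset a, ∀ i, (x.1.2.2 i : ℕ) = c i := by
  classical
  have hpos : 0 < a := Nat.pos_of_ne_zero (NeZero.ne a)
  have hle : ∀ i, c i < a + 1 := fun i =>
    Nat.lt_succ_of_le (hc ▸ Finset.single_le_sum (f := c) (fun _ _ => Nat.zero_le _)
      (Finset.mem_univ i))
  have hr : ∑ t ∈ Finset.range a, c (t : ZMod a) = a := by
    refine Eq.trans ?_ hc
    refine Finset.sum_nbij' (fun t => (t : ZMod a)) (fun i => i.val) (fun _ _ => Finset.mem_univ _)
      (fun i _ => Finset.mem_range.2 (ZMod.val_lt i))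
      (fun t ht => ZMod.val_cast_of_lt (Finset.mem_range.1 ht))
      (fun i _ => ZMod.natCast_zmod_val i) fun _ _ => rfl
  refine ⟨⟨(⟨0, hpos⟩,
    fun i => ⟨(∑ t ∈ Finset.range (i.val + 1), c (t : ZMod a)) % a, Nat.mod_lt _ hpos⟩,
    fun i => ⟨c i, hle i⟩), hc, fun i => ?_⟩, fun i => rfl⟩
  change ((c i : ℕ) : ZMod a) +
      (((∑ t ∈ Finset.range ((i - 1).val + 1), c (t : ZMod a)) % a : ℕ) : ZMod a) =
    (((∑ t ∈ Finset.range (i.val + 1), c (t : ZMod a)) % a : ℕ) : ZMod a) + ((0 : ℕ) : ZMod a)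
  rw [ZMod.natCast_mod, ZMod.natCast_mod, Finset.sum_range_succ _ i.val, ZMod.natCast_zmod_val,
    Nat.cast_zero, add_zero, Nat.cast_add, add_comm, add_left_inj]
  have hi : i.val = ((i - 1).val + 1) % a := by
    rw [← ZMod.val_natCast, Nat.cast_add, ZMod.natCast_zmod_val, Nat.cast_one, sub_add_cancel]
  have hl := ZMod.val_lt (i - 1)
  rcases Nat.lt_or_ge ((i - 1).val + 1) a with h | h
  · rw [hi, Nat.mod_eq_of_lt h]
  · have h' : (i - 1).val + 1 = a := by omega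
    rw [hi, h', Nat.mod_self, hr, ZMod.natCast_self, Finset.sum_range_zero, Nat.cast_zero]

/-- `σ` permutes the monomials -/
theorem σB_xm (x : Mset a) : ∃ x' : Mset a, σB κ (xm κ x) = xm κ x' := by
  refine ⟨⟨(x.1.1, fun i => x.1.2.1 (i - 1), fun i => x.1.2.2 (i - 1)), ?_,
    fun i => x.2.2 (i - 1)⟩, ?_⟩
  · refine Eq.trans ?_ x.2.1
    exact Fintype.sum_equiv (Equiv.subRight (1 : ZMod a)) _ _ fun i => rfl
  · change σB κ (xt κ none ^ (x.1.1 : ℕ) * (∏ i, xv κ (Sum.inr (some i)) ^ (x.1.2.1 i : ℕ)) *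
        ∏ i, xt κ (some i) ^ (x.1.2.2 i : ℕ)) =
      xt κ none ^ (x.1.1 : ℕ) * (∏ i, xv κ (Sum.inr (some i)) ^ (x.1.2.1 (i - 1) : ℕ)) *
        ∏ i, xt κ (some i) ^ (x.1.2.2 (i - 1) : ℕ)
    rw [map_mul, map_mul, map_pow, σB_xt, map_prod, map_prod]
    congr 1
    · congr 1
      refine Fintype.prod_equiv (Equiv.addRight (1 : ZMod a)) _ _ fun i => ?_
      rw [map_pow, σB_xv, Equiv.coe_addRight, add_sub_cancel_right]
      rfl
    · refine Fintype.prod_equiv (Equiv.addRight (1 : ZMod a)) _ _ fun i => ?_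
      rw [map_pow, σB_xt, Equiv.coe_addRight, add_sub_cancel_right]
      rfl

/-- the subring generated by the invariants, `θ`, `s` and the `S_i` -/
noncomputable def B00 : Subring (Br κ) :=
  Subring.closure ((Inv κ : Set (Br κ)) ∪ {kk κ κ.θ, xt κ none} ∪
    Set.range fun i : ZMod a => xv κ (Sum.inr (some i)))

omit [NeZero a] in
theorem Inv_le_B00 : Inv κ ≤ B00 κ := fun _ h =>
  Subring.subset_closure (Or.inl (Or.inl h))

theorem i2_int_S (i : ZMod a) : IsIntegral (Inv κ) (xv κ (Sum.inr (some i))) := by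
  have ha : 0 < a := Nat.pos_of_ne_zero (NeZero.ne a)
  refine IsIntegral.of_pow ha ?_
  let U : ZMod a → Br κ := fun l => xv κ (Sum.inr (some l)) ^ a
  have hU : ∀ l, U l ∈ W0 κ := by
    intro l
    have h := (hom_xv κ (Sum.inr (some l))).pow a
    have e : a • degV a (Sum.inr (some l)) = ((0 : ℤ), (a : ℤ), (0 : ZMod a → ZMod a)) := by
      ext j <;> simp [degV]
    rw [e] at h
    exact mem_W0_of_hom κ h
  have hσ : ∀ l, σB κ (U l) = U (l + 1) := fun l => by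
    simp only [U, map_pow, σB_xv]; rfl
  let f : Polynomial (Br κ) := ∏ l, (Polynomial.X - Polynomial.C (U l))
  have hf1 : f = (∏ l, (Polynomial.X - Polynomial.C (⟨U l, hU l⟩ : W0 κ))).map (W0 κ).subtype := by
    simp [f, Polynomial.map_prod]
  have hf2 : f.map (σB κ) = f := by
    simp only [f, Polynomial.map_prod, Polynomial.map_sub, Polynomial.map_X, Polynomial.map_C, hσ]
    exact Equiv.prod_comp (Equiv.addRight (1 : ZMod a))
      fun l => Polynomial.X - Polynomial.C (U l)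
  have hc : (↑f.coeffs : Set (Br κ)) ⊆ Inv κ := by
    intro c hc
    obtain ⟨n, -, rfl⟩ := Polynomial.mem_coeffs_iff.1 hc
    refine ⟨?_, ?_⟩
    · rw [hf1, Polynomial.coeff_map]; exact Subtype.property _
    · show σB κ (f.coeff n) = f.coeff n
      rw [← Polynomial.coeff_map, hf2]
  refine ⟨f.toSubring (Inv κ) hc, (Polynomial.monic_toSubring _ _ _).2
    (Polynomial.monic_prod_of_monic _ _ fun l _ => Polynomial.monic_X_sub_C _), ?_⟩
  rw [Polynomial.eval₂_eq_eval_map]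
  have e : (f.toSubring (Inv κ) hc).map (algebraMap (Inv κ) (Br κ)) = f :=
    Polynomial.map_toSubring f (Inv κ) hc
  rw [e]
  simp only [f, Polynomial.eval_prod]
  exact Finset.prod_eq_zero (Finset.mem_univ i) (by simp [U])

theorem i2_int {x : Br κ} (hx : x ∈ B00 κ) : IsIntegral (Inv κ) x := by
  have ha : 0 < a := Nat.pos_of_ne_zero (NeZero.ne a)
  have h : B00 κ ≤ (integralClosure (Inv κ) (Br κ)).toSubring := by
    refine Subring.closure_le.2 ?_
    rintro y ((hy | rfl | rfl) | ⟨i, rfl⟩)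
    · exact isIntegral_algebraMap (x := (⟨y, hy⟩ : Inv κ))
    · refine IsIntegral.of_pow ha ?_
      rw [i2_θpow]
      exact isIntegral_algebraMap (x := (⟨_, algebraMap_mem_Inv κ κ.Θ⟩ : Inv κ))
    · refine IsIntegral.of_pow ha ?_
      rw [xt_none_pow]
      exact isIntegral_algebraMap (x := (⟨_, algebraMap_mem_Inv κ κ.T⟩ : Inv κ))
    · exact i2_int_S κ i
  exact h hx

/-- `B00` is integral over the invariants, so points extend -/
theorem exists_ev {Ω : Type} [Field Ω] [IsAlgClosed Ω] (ψ : Inv κ →+* Ω) :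
    ∃ ev : B00 κ →+* Ω, ∀ q : Inv κ, ev (Subring.inclusion (Inv_le_B00 κ) q) = ψ q := by
  let _ : Algebra (Inv κ) (B00 κ) := (Subring.inclusion (Inv_le_B00 κ)).toAlgebra
  let v : B00 κ →ₐ[Inv κ] Br κ := { (B00 κ).subtype with commutes' := fun _ => rfl }
  have : Algebra.IsIntegral (Inv κ) (B00 κ) :=
    ⟨fun x => (isIntegral_algHom_iff v Subtype.val_injective).1 (i2_int κ x.2)⟩
  exact I2.exists_extend (R := Inv κ) (S := B00 κ) (Subring.inclusion_injective _) ψ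

end Crest.Agent.R181.Mc
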