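import Crest.Agent.R181.McRing

/-! Row 181 (route 2): admissible modules, proofs of the first half of `McMod`. -/

set_option autoImplicit false

namespace Crest.Agent.R181.Mc.Ctx

variable {a : ℕ} [NeZero a] {L K : Type} [Field L] [CommRing K] [Algebra L K] {κ : KData a L K}
  {D : Type} [DivisionRing D] [Algebra L D] (C : Ctx κ D)

section NoD

variable {V W : Type} [AddCommGroup V] [Module C.A V] [AddCommGroup W] [Module C.A W]

theorem m1_e_B {b : Br κ} {δ : Gam a} (hb : Hom κ b δ) (γ : Gam a) (v : V) :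
    C.e (γ + δ) • C.ιB b • v = C.ιB b • C.e γ • v := by
  rw [← mul_smul, C.e_B γ δ b hb, mul_smul]

theorem m1_smul_hom {b : Br κ} {δ γ : Gam a} (hb : Hom κ b δ) {v : V} (hv : C.e γ • v = v) :
    C.e (γ + δ) • C.ιB b • v = C.ιB b • v := by
  rw [C.m1_e_B hb, hv]

theorem m1_e_e (γ : Gam a) (v : V) : C.e γ • C.e γ • v = C.e γ • v := by
  rw [← mul_smul, C.e_mul, if_pos rfl]

theorem m1_e_e_ne {γ γ' : Gam a} (h : γ' ≠ γ) (v : V) : C.e γ' • C.e γ • v = 0 := by
  rw [← mul_smul, C.e_mul, if_neg h, zero_smul]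

theorem m1_e_smul_of_ne {γ γ' : Gam a} (h : γ' ≠ γ) {v : V} (hv : C.e γ • v = v) :
    C.e γ' • v = 0 := by
  rw [← hv, C.m1_e_e_ne h]

theorem m1_e_D (γ : Gam a) (d : D) (v : V) : C.e γ • C.ιD d • v = C.ιD d • C.e γ • v := by
  rw [← mul_smul, C.e_D, mul_smul]

theorem m1_eq_zero {s : Finset (Gam a)} {v : V} (h : ∑ γ ∈ s, C.e γ • v = v) {γ : Gam a}
    (hγ : γ ∉ s) : C.e γ • v = 0 := by
  rw [← h, Finset.smul_sum]
  exact Finset.sum_eq_zero fun γ' h' => C.m1_e_e_ne (fun e : γ = γ' => hγ (e ▸ h')) v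

theorem m1_sum_mono {s t : Finset (Gam a)} (hst : s ⊆ t) {v : V} (h : ∑ γ ∈ s, C.e γ • v = v) :
    ∑ γ ∈ t, C.e γ • v = v := by
  rw [← Finset.sum_subset hst fun γ _ hγ => C.m1_eq_zero h hγ, h]

theorem m1_exists_sum (hV : C.Adm V) (v : V) :
    ∃ s : Finset (Gam a), (∀ γ ∈ s, Ok γ) ∧ ∑ γ ∈ s, C.e γ • v = v := by
  classical
  obtain ⟨g, m, deg, h1, h2⟩ := hV
  have hv : v ∈ AddSubgroup.closure (Set.range fun p : D × Fin g × (Var a →₀ ℕ) =>
      C.ιD p.1 • C.ιB (mon κ p.2.2) • m p.2.1) := by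
    rw [h2]
    trivial
  induction hv using AddSubgroup.closure_induction with
  | mem x hx =>
    obtain ⟨⟨d, i, u⟩, rfl⟩ := hx
    refine ⟨{deg i + degM a u}, ?_, ?_⟩
    · intro γ hγ
      rw [Finset.mem_singleton.1 hγ]
      exact (h1 i).2.add (ok_degM u)
    · rw [Finset.sum_singleton, C.m1_e_D, C.m1_smul_hom (hom_mon κ u) (h1 i).1]
  | zero => exact ⟨∅, by simp, by simp⟩
  | add x y _ _ hx hy =>
    obtain ⟨s, hs1, hs2⟩ := hx
    obtain ⟨t, ht1, ht2⟩ := hy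
    refine ⟨s ∪ t, fun γ hγ => (Finset.mem_union.1 hγ).elim (hs1 γ) (ht1 γ), ?_⟩
    simp only [smul_add, Finset.sum_add_distrib]
    rw [C.m1_sum_mono Finset.subset_union_left hs2, C.m1_sum_mono Finset.subset_union_right ht2]
  | neg x _ hx =>
    obtain ⟨s, hs1, hs2⟩ := hx
    refine ⟨s, hs1, ?_⟩
    simp only [smul_neg, Finset.sum_neg_distrib]
    rw [hs2]

theorem m1_induction {P : C.A → Prop} (h1 : ∀ d, P (C.ιD d)) (h2 : ∀ b, P (C.ιB b))
    (h3 : ∀ γ, P (C.e γ)) (h4 : P C.σ) (hadd : ∀ x y, P x → P y → P (x + y))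
    (hneg : ∀ x, P x → P (-x)) (hmul : ∀ x y, P x → P y → P (x * y)) (x : C.A) : P x := by
  have hx : x ∈ Subring.closure (Set.range C.ιD ∪ Set.range C.ιB ∪ Set.range C.e ∪ {C.σ}) := by
    rw [C.gen_top]
    trivial
  induction hx using Subring.closure_induction with
  | mem x hx =>
    rcases hx with ((⟨d, rfl⟩ | ⟨b, rfl⟩) | ⟨γ, rfl⟩) | hx
    · exact h1 d
    · exact h2 b
    · exact h3 γ
    · rw [Set.mem_singleton_iff.1 hx]
      exact h4
  | zero => exact map_zero C.ιD ▸ h1 0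
  | one => exact map_one C.ιD ▸ h1 1
  | add x y _ _ hx hy => exact hadd x y hx hy
  | neg x _ hx => exact hneg x hx
  | mul x y _ _ hx hy => exact hmul x y hx hy

theorem m1_exists_linear (f : V →+ W) (h1 : ∀ d v, f (C.ιD d • v) = C.ιD d • f v)
    (h2 : ∀ b v, f (C.ιB b • v) = C.ιB b • f v) (h3 : ∀ γ v, f (C.e γ • v) = C.e γ • f v)
    (h4 : ∀ v, f (C.σ • v) = C.σ • f v) : ∃ g : V →ₗ[C.A] W, ∀ v, g v = f v := by
  have key : ∀ x : C.A, ∀ v, f (x • v) = x • f v := by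
    refine C.m1_induction h1 h2 h3 h4 ?_ ?_ ?_
    · intro x y hx hy v
      rw [add_smul, map_add, hx, hy, add_smul]
    · intro x hx v
      rw [neg_smul, map_neg, hx, neg_smul]
    · intro x y hx hy v
      rw [mul_smul, hx, hy, mul_smul]
  exact ⟨{ toFun := f, map_add' := f.map_add, map_smul' := key }, fun _ => rfl⟩

theorem m1_exists_submodule (N : AddSubgroup V) (h1 : ∀ d, ∀ v ∈ N, C.ιD d • v ∈ N)
    (h2 : ∀ b, ∀ v ∈ N, C.ιB b • v ∈ N) (h3 : ∀ γ, ∀ v ∈ N, C.e γ • v ∈ N)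
    (h4 : ∀ v ∈ N, C.σ • v ∈ N) : ∃ N' : Submodule C.A V, ∀ v, v ∈ N' ↔ v ∈ N := by
  have key : ∀ x : C.A, ∀ v ∈ N, x • v ∈ N := by
    refine C.m1_induction h1 h2 h3 h4 ?_ ?_ ?_
    · intro x y hx hy v hv
      rw [add_smul]
      exact N.add_mem (hx v hv) (hy v hv)
    · intro x hx v hv
      rw [neg_smul]
      exact N.neg_mem (hx v hv)
    · intro x y hx hy v hv
      rw [mul_smul]
      exact hx _ (hy v hv)
  exact ⟨{ carrier := N, add_mem' := N.add_mem, zero_mem' := N.zero_mem,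
           smul_mem' := fun x v hv => key x v hv }, fun _ => Iff.rfl⟩

end NoD

theorem m1_hdim_eq {V : Type} [AddCommGroup V] [Module C.A V] [inst : Module D V]
    [IsScalarTower D C.A V] (γ : Gam a) : C.hdim V γ = Module.finrank D (C.piece V γ) := by
  have h : inst = C.modD V := Module.ext' _ _ fun d v => C.smul_eq V d v
  subst h
  rfl

theorem m1_finite_deg (δ γ : Gam a) : {u : Var a →₀ ℕ | δ + degM a u = γ}.Finite := by
  classical
  set B : ℕ := (γ.1 - δ.1).natAbs + (γ.2.1 - δ.2.1).natAbs with hB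
  refine (Set.finite_Iic (Finsupp.equivFunOnFinite.symm fun _ : Var a => B)).subset ?_
  intro u hu
  have hu' : δ + degM a u = γ := hu
  have h1 : δ.1 + (degM a u).1 = γ.1 := congrArg Prod.fst hu'
  have h2 : δ.2.1 + (degM a u).2.1 = γ.2.1 := congrArg (fun x : Gam a => x.2.1) hu'
  rw [degM_fst] at h1
  rw [degM_snd] at h2
  have ha : 1 ≤ a := Nat.one_le_iff_ne_zero.2 (NeZero.ne a)
  have h3 : u (Sum.inl 0) + u (Sum.inl 1) ≤ (γ.1 - δ.1).natAbs := by
    have h4 : γ.1 - δ.1 = ((a * (u (Sum.inl 0) + u (Sum.inl 1)) : ℕ) : ℤ) := by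
      rw [Nat.cast_mul, ← h1]
      ring
    rw [h4, Int.natAbs_natCast]
    exact Nat.le_mul_of_pos_left _ ha
  have h4 : ∑ t, u (Sum.inr t) = (γ.2.1 - δ.2.1).natAbs := by
    have h4 : γ.2.1 - δ.2.1 = ((∑ t, u (Sum.inr t) : ℕ) : ℤ) := by
      rw [← h2]
      ring
    rw [h4, Int.natAbs_natCast]
  intro y
  show u y ≤ B
  rcases y with j | t
  · have : u (Sum.inl j) ≤ u (Sum.inl 0) + u (Sum.inl 1) := by
      fin_cases j
      · exact Nat.le_add_right _ _
      · exact Nat.le_add_left _ _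
    omega
  · have : u (Sum.inr t) ≤ ∑ t, u (Sum.inr t) :=
      Finset.single_le_sum (f := fun t => u (Sum.inr t)) (fun _ _ => Nat.zero_le _) (Finset.mem_univ t)
    omega

section WithD

variable {V : Type} [AddCommGroup V] [Module C.A V] [Module D V] [IsScalarTower D C.A V]

theorem m1_isMon_opX : IsMon (C.opX V) := by
  constructor
  · ext v
    show C.ιB (mon κ 0) • v = v
    rw [mon_zero, map_one, one_smul]
  · intro u w
    ext v
    show C.ιB (mon κ (u + w)) • v = C.ιB (mon κ u) • C.ιB (mon κ w) • v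
    rw [mon_add, map_mul, mul_smul]

theorem m1_isGen_iff {g : ℕ} (m : Fin g → V) (deg : Fin g → Gam a) :
    C.IsGen V m deg ↔ (∀ i, C.e (deg i) • m i = m i ∧ Ok (deg i)) ∧ Gens (C.opX V) m ⊤ := by
  refine and_congr_right fun _ => ⟨fun h => ?_, fun h => ?_⟩
  · refine eq_top_iff.2 fun v _ => ?_
    have hv : v ∈ AddSubgroup.closure (Set.range fun p : D × Fin g × (Var a →₀ ℕ) =>
        C.ιD p.1 • C.ιB (mon κ p.2.2) • m p.2.1) := by
      rw [h]
      trivial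
    refine (AddSubgroup.closure_le (Submodule.span D
      (Set.range fun p : Fin g × (Var a →₀ ℕ) => C.opX V p.2 (m p.1))).toAddSubgroup).2 ?_ hv
    rintro _ ⟨⟨d, i, u⟩, rfl⟩
    show C.ιD d • C.ιB (mon κ u) • m i ∈ Submodule.span D _
    rw [← C.smul_eq V]
    exact Submodule.smul_mem _ _ (Submodule.subset_span ⟨(i, u), rfl⟩)
  · refine eq_top_iff.2 fun v _ => ?_
    have hv : v ∈ Submodule.span D
        (Set.range fun p : Fin g × (Var a →₀ ℕ) => C.opX V p.2 (m p.1)) := by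
      rw [show Submodule.span D _ = ⊤ from h]
      trivial
    have key : ∀ d : D, d • v ∈ AddSubgroup.closure (Set.range fun p : D × Fin g × (Var a →₀ ℕ) =>
        C.ιD p.1 • C.ιB (mon κ p.2.2) • m p.2.1) := by
      induction hv using Submodule.span_induction with
      | mem x hx =>
        obtain ⟨⟨i, u⟩, rfl⟩ := hx
        intro d
        rw [C.smul_eq V]
        exact AddSubgroup.subset_closure ⟨(d, i, u), rfl⟩
      | zero =>
        intro d
        rw [smul_zero]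
        exact zero_mem _
      | add x y _ _ hx hy =>
        intro d
        rw [smul_add]
        exact add_mem (hx trivial d) (hy trivial d)
      | smul c x _ hx =>
        intro d
        rw [← mul_smul]
        exact hx trivial _
    simpa only [one_smul] using key 1

theorem m1_piece_eq_bot (hV : C.Adm V) {γ : Gam a} (h : ¬ Ok γ) : C.piece V γ = ⊥ := by
  refine eq_bot_iff.2 fun v hv => ?_
  obtain ⟨s, hs1, hs2⟩ := C.m1_exists_sum hV v
  have h1 : C.e γ • v = v := hv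
  rw [Submodule.mem_bot, ← h1]
  exact C.m1_eq_zero hs2 fun hγ => h (hs1 γ hγ)

theorem m1_finite_piece (hV : C.Adm V) (γ : Gam a) : Module.Finite D (C.piece V γ) := by
  obtain ⟨g, m, deg, hg⟩ := hV
  obtain ⟨h1, h2⟩ := (C.m1_isGen_iff m deg).1 hg
  set S : Set V := ⋃ i, (fun u => C.opX V u (m i)) '' {u | deg i + degM a u = γ} with hS
  have hfin : S.Finite := Set.finite_iUnion fun i => (m1_finite_deg (deg i) γ).image _
  have : Module.Finite D (Submodule.span D S) := Module.Finite.span_of_finite D hfin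
  refine Submodule.finiteDimensional_of_le (S₂ := Submodule.span D S) fun v hv => ?_
  have h3 : C.opE V γ v = v := hv
  have h4 : v ∈ Submodule.span D
      (Set.range fun p : Fin g × (Var a →₀ ℕ) => C.opX V p.2 (m p.1)) := by
    rw [show Submodule.span D _ = ⊤ from h2]
    trivial
  rw [← h3]
  refine (Submodule.span_le.2 ?_ : _ ≤ Submodule.comap (C.opE V γ) (Submodule.span D S)) h4
  rintro _ ⟨⟨i, u⟩, rfl⟩
  show C.e γ • C.ιB (mon κ u) • m i ∈ Submodule.span D S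
  have h5 := C.m1_smul_hom (hom_mon κ u) (h1 i).1
  by_cases h6 : deg i + degM a u = γ
  · rw [← h6, h5]
    exact Submodule.subset_span (Set.mem_iUnion.2 ⟨i, u, h6, rfl⟩)
  · rw [C.m1_e_smul_of_ne (Ne.symm h6) h5]
    exact zero_mem _

theorem m1_exists_gens_sub (hV : C.Adm V) (N : Submodule D V)
    (hX : ∀ u, ∀ x ∈ N, C.ιB (mon κ u) • x ∈ N) (he : ∀ γ, ∀ x ∈ N, C.e γ • x ∈ N) :
    ∃ (g : ℕ) (m : Fin g → V) (deg : Fin g → Gam a),
      (∀ i, m i ∈ N ∧ C.e (deg i) • m i = m i ∧ Ok (deg i)) ∧ Gens (C.opX V) m N := by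
  obtain ⟨g, m, deg, hg⟩ := id hV
  obtain ⟨-, h2⟩ := (C.m1_isGen_iff m deg).1 hg
  have hs : Submodule.span D {x : V | x ∈ N ∧ ∃ γ, C.e γ • x = x ∧ Ok γ} = N := by
    refine le_antisymm (Submodule.span_le.2 fun x hx => hx.1) fun x hx => ?_
    obtain ⟨s, hs1, hs2⟩ := C.m1_exists_sum hV x
    rw [← hs2]
    exact Submodule.sum_mem _ fun γ hγ =>
      Submodule.subset_span ⟨he γ x hx, γ, C.m1_e_e γ x, hs1 γ hγ⟩
  obtain ⟨g', m', h3, h4⟩ := exists_gens C.m1_isMon_opX m h2 N hX _ hs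
  choose deg' h5 using fun i => (h3 i).2
  exact ⟨g', m', deg', fun i => ⟨(h3 i).1, h5 i⟩, h4⟩

theorem m1_gen_large (hV : C.Adm V) (N : Submodule D V)
    (hX : ∀ u, ∀ x ∈ N, C.ιB (mon κ u) • x ∈ N) (he : ∀ γ, ∀ x ∈ N, C.e γ • x ∈ N) :
    ∃ n₀ : ℤ, ∀ γ : Gam a, n₀ ≤ γ.1 → ∀ x ∈ N, C.e (γ + ((a : ℤ), 0, 0)) • x = x →
      ∃ y ∈ N, ∃ y' ∈ N, C.e γ • y = y ∧ C.e γ • y' = y' ∧
        x = C.ιB (xv κ (Sum.inl 0)) • y + C.ιB (xv κ (Sum.inl 1)) • y' := by
  obtain ⟨g, m, deg, h1, h2⟩ := C.m1_exists_gens_sub hV N hX he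
  obtain ⟨n₀, hn₀⟩ := Finite.exists_le fun i => (deg i).1
  refine ⟨n₀, fun γ hγ x hx hx' => ?_⟩
  set P : Submodule D V := N ⊓ C.piece V γ with hP
  have key : C.opE V (γ + ((a : ℤ), 0, 0)) x ∈
      P.map (C.opB V (xv κ (Sum.inl 0))) ⊔ P.map (C.opB V (xv κ (Sum.inl 1))) := by
    have h4 : x ∈ Submodule.span D
        (Set.range fun p : Fin g × (Var a →₀ ℕ) => C.opX V p.2 (m p.1)) := by
      rw [show Submodule.span D _ = N from h2]
      exact hx
    refine (Submodule.span_le.2 ?_ : _ ≤ Submodule.comap (C.opE V (γ + ((a : ℤ), 0, 0)))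
      (P.map (C.opB V (xv κ (Sum.inl 0))) ⊔ P.map (C.opB V (xv κ (Sum.inl 1))))) h4
    rintro _ ⟨⟨i, u⟩, rfl⟩
    show C.e (γ + ((a : ℤ), 0, 0)) • C.ιB (mon κ u) • m i ∈
      P.map (C.opB V (xv κ (Sum.inl 0))) ⊔ P.map (C.opB V (xv κ (Sum.inl 1)))
    have hj : ∀ j : Fin 2, u (Sum.inl j) ≠ 0 →
        C.e (γ + ((a : ℤ), 0, 0)) • C.ιB (mon κ u) • m i ∈ P.map (C.opB V (xv κ (Sum.inl j))) := by
      intro j hj
      have h5 : Finsupp.single (Sum.inl j : Var a) 1 ≤ u :=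
        Finsupp.single_le_iff.2 (Nat.one_le_iff_ne_zero.2 hj)
      obtain ⟨w, rfl⟩ := exists_add_of_le h5
      refine ⟨C.e γ • C.ιB (mon κ w) • m i, ⟨he _ _ (hX _ _ (h1 i).1), C.m1_e_e γ _⟩, ?_⟩
      rw [mon_add, mon_single, pow_one, map_mul, mul_smul]
      exact (C.m1_e_B (hom_xv κ (Sum.inl j)) γ _).symm
    by_cases h0 : u (Sum.inl 0) = 0
    · by_cases h0' : u (Sum.inl 1) = 0
      · have h6 : γ + ((a : ℤ), 0, 0) ≠ deg i + degM a u := by
          intro h6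
          have h7 : γ.1 + (a : ℤ) = (deg i).1 + (degM a u).1 := congrArg Prod.fst h6
          rw [degM_fst, h0, h0'] at h7
          have ha : 1 ≤ a := Nat.one_le_iff_ne_zero.2 (NeZero.ne a)
          have := hn₀ i
          simp only [add_zero, Nat.cast_zero, mul_zero] at h7
          omega
        rw [C.m1_e_smul_of_ne h6 (C.m1_smul_hom (hom_mon κ u) (h1 i).2.1)]
        exact zero_mem _
      · exact Submodule.mem_sup_right (hj 1 h0')
    · exact Submodule.mem_sup_left (hj 0 h0)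
  obtain ⟨_, ⟨y, hy, rfl⟩, _, ⟨y', hy', rfl⟩, h⟩ := Submodule.mem_sup.1 key
  exact ⟨y, hy.1, y', hy'.1, hy.2, hy'.2, hx'.symm.trans h.symm⟩

end WithD

end Crest.Agent.R181.Mc.Ctx
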