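import Crest.Agent.R181.McRing
import Crest.Agent.R181.McModAux

/-! Row 181 (route 2): admissible modules, basic properties. -/

set_option autoImplicit false

namespace Crest.Agent.R181.Mc.Ctx

variable {a : ℕ} [NeZero a] {L K : Type} [Field L] [CommRing K] [Algebra L K] {κ : KData a L K}
  {D : Type} [DivisionRing D] [Algebra L D] (C : Ctx κ D)

section WithD

variable {V : Type} [AddCommGroup V] [Module C.A V] [Module D V] [IsScalarTower D C.A V]

theorem hdim_eq (γ : Gam a) : C.hdim V γ = Module.finrank D (C.piece V γ) := by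
  exact C.m1_hdim_eq γ

theorem mem_piece (γ : Gam a) (v : V) : v ∈ C.piece V γ ↔ C.e γ • v = v := Iff.rfl

theorem opB_apply (b : Br κ) (v : V) : C.opB V b v = C.ιB b • v := rfl

theorem opX_apply (u : Var a →₀ ℕ) (v : V) : C.opX V u v = C.ιB (mon κ u) • v := rfl

theorem opE_apply (γ : Gam a) (v : V) : C.opE V γ v = C.e γ • v := rfl

theorem opσ_apply (v : V) : C.opσ V v = C.σ • v := rfl

theorem isMon_opX : IsMon (C.opX V) := by
  exact C.m1_isMon_opX

theorem isGen_iff {g : ℕ} (m : Fin g → V) (deg : Fin g → Gam a) :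
    C.IsGen V m deg ↔ (∀ i, C.e (deg i) • m i = m i ∧ Ok (deg i)) ∧ Gens (C.opX V) m ⊤ := by
  exact C.m1_isGen_iff m deg

theorem piece_eq_bot (hV : C.Adm V) {γ : Gam a} (h : ¬ Ok γ) : C.piece V γ = ⊥ := by
  exact C.m1_piece_eq_bot hV h

theorem finite_piece (hV : C.Adm V) (γ : Gam a) : Module.Finite D (C.piece V γ) := by
  exact C.m1_finite_piece hV γ

/-- A subspace stable under the monomials and the projections has finitely many homogeneous generators. -/
theorem exists_gens_sub (hV : C.Adm V) (N : Submodule D V)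
    (hX : ∀ u, ∀ x ∈ N, C.ιB (mon κ u) • x ∈ N) (he : ∀ γ, ∀ x ∈ N, C.e γ • x ∈ N) :
    ∃ (g : ℕ) (m : Fin g → V) (deg : Fin g → Gam a),
      (∀ i, m i ∈ N ∧ C.e (deg i) • m i = m i ∧ Ok (deg i)) ∧ Gens (C.opX V) m N := by
  exact C.m1_exists_gens_sub hV N hX he

/-- In large fine degree such a subspace is generated by `z, z'`. -/
theorem gen_large (hV : C.Adm V) (N : Submodule D V)
    (hX : ∀ u, ∀ x ∈ N, C.ιB (mon κ u) • x ∈ N) (he : ∀ γ, ∀ x ∈ N, C.e γ • x ∈ N) :
    ∃ n₀ : ℤ, ∀ γ : Gam a, n₀ ≤ γ.1 → ∀ x ∈ N, C.e (γ + ((a : ℤ), 0, 0)) • x = x →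
      ∃ y ∈ N, ∃ y' ∈ N, C.e γ • y = y ∧ C.e γ • y' = y' ∧
        x = C.ιB (xv κ (Sum.inl 0)) • y + C.ιB (xv κ (Sum.inl 1)) • y' := by
  exact C.m1_gen_large hV N hX he

end WithD

variable {V W : Type} [AddCommGroup V] [Module C.A V] [AddCommGroup W] [Module C.A W]

theorem smul_hom {b : Br κ} {δ γ : Gam a} (hb : Hom κ b δ) {v : V} (hv : C.e γ • v = v) :
    C.e (γ + δ) • C.ιB b • v = C.ιB b • v := by
  exact C.m1_smul_hom hb hv

theorem e_smul_of_ne {γ γ' : Gam a} (h : γ' ≠ γ) {v : V} (hv : C.e γ • v = v) : C.e γ' • v = 0 := by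
  exact C.m1_e_smul_of_ne h hv

/-- every element of an admissible module is a finite sum of homogeneous elements -/
theorem exists_sum (hV : C.Adm V) (v : V) :
    ∃ s : Finset (Gam a), (∀ γ ∈ s, Ok γ) ∧ ∑ γ ∈ s, C.e γ • v = v := by
  exact C.m1_exists_sum hV v

/-- an additive map compatible with the generators is `A`-linear -/
theorem exists_linear (f : V →+ W) (h1 : ∀ d v, f (C.ιD d • v) = C.ιD d • f v)
    (h2 : ∀ b v, f (C.ιB b • v) = C.ιB b • f v) (h3 : ∀ γ v, f (C.e γ • v) = C.e γ • f v)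
    (h4 : ∀ v, f (C.σ • v) = C.σ • f v) : ∃ g : V →ₗ[C.A] W, ∀ v, g v = f v := by
  exact C.m1_exists_linear f h1 h2 h3 h4

/-- an additive subgroup stable under the generators is an `A`-submodule -/
theorem exists_submodule (N : AddSubgroup V) (h1 : ∀ d, ∀ v ∈ N, C.ιD d • v ∈ N)
    (h2 : ∀ b, ∀ v ∈ N, C.ιB b • v ∈ N) (h3 : ∀ γ, ∀ v ∈ N, C.e γ • v ∈ N)
    (h4 : ∀ v ∈ N, C.σ • v ∈ N) : ∃ N' : Submodule C.A V, ∀ v, v ∈ N' ↔ v ∈ N := by
  exact C.m1_exists_submodule N h1 h2 h3 h4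

theorem m2_isGen_surj {g : ℕ} {m : Fin g → V} {deg : Fin g → Gam a} (h : C.IsGen V m deg)
    (f : V →ₗ[C.A] W) (hf : Function.Surjective f) : C.IsGen W (fun i => f (m i)) deg := by
  refine ⟨fun i => ⟨by rw [← map_smul, (h.1 i).1], (h.1 i).2⟩, ?_⟩
  rw [eq_top_iff]
  intro w _
  obtain ⟨v, rfl⟩ := hf w
  have hv : v ∈ AddSubgroup.closure (Set.range fun p : D × Fin g × (Var a →₀ ℕ) =>
      C.ιD p.1 • C.ιB (mon κ p.2.2) • m p.2.1) := by rw [h.2]; trivial
  induction hv using AddSubgroup.closure_induction with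
  | mem x hx =>
    obtain ⟨p, rfl⟩ := hx
    exact AddSubgroup.subset_closure ⟨p, by simp only [map_smul]⟩
  | zero => rw [map_zero]; exact AddSubgroup.zero_mem _
  | add x y _ _ hx hy => rw [map_add]; exact AddSubgroup.add_mem _ (hx trivial) (hy trivial)
  | neg x _ hx => rw [map_neg]; exact AddSubgroup.neg_mem _ (hx trivial)

theorem adm_surj (hV : C.Adm V) (f : V →ₗ[C.A] W) (hf : Function.Surjective f) : C.Adm W := by
  obtain ⟨g, m, deg, h⟩ := hV
  exact ⟨g, _, deg, C.m2_isGen_surj h f hf⟩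

theorem isGen_quot {g : ℕ} {m : Fin g → V} {deg : Fin g → Gam a} (h : C.IsGen V m deg)
    (N : Submodule C.A V) : C.IsGen (V ⧸ N) (fun i => N.mkQ (m i)) deg := by
  exact C.m2_isGen_surj h N.mkQ N.mkQ_surjective

theorem adm_sub (hV : C.Adm V) (N : Submodule C.A V) : C.Adm N := by
  let _ := C.modD V
  have := C.towD V
  obtain ⟨g, m, deg, hm, hg⟩ := C.exists_gens_sub hV (N.restrictScalars D)
    (fun u x hx => N.smul_mem _ hx) (fun γ x hx => N.smul_mem _ hx)
  refine ⟨g, fun i => ⟨m i, (hm i).1⟩, deg, (C.isGen_iff _ _).2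
    ⟨fun i => ⟨Subtype.ext (hm i).2.1, (hm i).2.2⟩, ?_⟩⟩
  apply Submodule.map_injective_of_injective (f := N.subtype.restrictScalars D) Subtype.val_injective
  rw [Submodule.map_span, ← Set.range_comp, Submodule.map_top]
  refine Eq.trans hg ?_
  ext x
  exact ⟨fun hx => ⟨⟨x, hx⟩, rfl⟩, by rintro ⟨y, rfl⟩; exact y.2⟩

theorem adm_prod (hV : C.Adm V) (hW : C.Adm W) : C.Adm (V × W) := by
  obtain ⟨g, m, deg, h⟩ := hV
  obtain ⟨g', m', deg', h'⟩ := hW
  refine ⟨g + g', Fin.append (fun i => (m i, 0)) (fun i => (0, m' i)), Fin.append deg deg',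
    fun i => ?_, ?_⟩
  · refine Fin.addCases (fun i => ?_) (fun i => ?_) i
    · rw [Fin.append_left, Fin.append_left]
      exact ⟨by rw [Prod.smul_mk, (h.1 i).1, smul_zero], (h.1 i).2⟩
    · rw [Fin.append_right, Fin.append_right]
      exact ⟨by rw [Prod.smul_mk, (h'.1 i).1, smul_zero], (h'.1 i).2⟩
  · rw [eq_top_iff]
    rintro ⟨v, w⟩ -
    rw [← Prod.fst_add_snd (v, w)]
    refine AddSubgroup.add_mem _ ?_ ?_
    · refine (AddSubgroup.mem_comap (f := AddMonoidHom.inl V W)).1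
        (h.2.ge.trans ?_ (AddSubgroup.mem_top v))
      rw [AddSubgroup.closure_le]
      rintro _ ⟨p, rfl⟩
      refine AddSubgroup.subset_closure ⟨(p.1, Fin.castAdd g' p.2.1, p.2.2), ?_⟩
      simp only [Fin.append_left, Prod.smul_mk, smul_zero]
      rfl
    · refine (AddSubgroup.mem_comap (f := AddMonoidHom.inr V W)).1
        (h'.2.ge.trans ?_ (AddSubgroup.mem_top w))
      rw [AddSubgroup.closure_le]
      rintro _ ⟨p, rfl⟩
      refine AddSubgroup.subset_closure ⟨(p.1, Fin.natAdd g p.2.1, p.2.2), ?_⟩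
      simp only [Fin.append_right, Prod.smul_mk, smul_zero]
      rfl

theorem noeth (hV : C.Adm V) : IsNoetherian C.A V := by
  let _ := C.modD V
  have := C.towD V
  obtain ⟨g, m, deg, h⟩ := hV
  rw [← monotone_stabilizes_iff_noetherian]
  intro f
  obtain ⟨k₀, hk⟩ := acc (C.isMon_opX (V := V)) m ((C.isGen_iff m deg).1 h).2
    ⟨fun k => (f k).restrictScalars D, fun i j hij x hx => f.monotone hij hx⟩
    (fun k u x hx => (f k).smul_mem _ hx)
  exact ⟨k₀, fun k hk' => (Submodule.restrictScalars_injective D _ _ (hk k hk')).symm⟩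

theorem hdim_equiv (f : V ≃ₗ[C.A] W) (γ : Gam a) : C.hdim V γ = C.hdim W γ := by
  let _ := C.modD V
  have := C.towD V
  let _ := C.modD W
  have := C.towD W
  rw [C.hdim_eq, C.hdim_eq, ← LinearEquiv.finrank_map_eq (f.restrictScalars D) (C.piece V γ)]
  have : (C.piece V γ).map (f.restrictScalars D : V →ₗ[D] W) = C.piece W γ := by
    ext w
    constructor
    · rintro ⟨v, hv, rfl⟩
      have hv' : C.e γ • v = v := hv
      change C.e γ • f v = f v
      rw [← map_smul, hv']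
    · intro hw
      have hw' : C.e γ • w = w := hw
      refine ⟨f.symm w, ?_, f.apply_symm_apply w⟩
      change C.e γ • f.symm w = f.symm w
      rw [← map_smul, hw']
  rw [this]

theorem hdim_add (hV : C.Adm V) (N : Submodule C.A V) (γ : Gam a) :
    C.hdim V γ = C.hdim N γ + C.hdim (V ⧸ N) γ := by
  let _ := C.modD V
  have := C.towD V
  have := C.finite_piece hV γ
  rw [C.hdim_eq, C.hdim_eq, C.hdim_eq]
  have h := ((N.mkQ.restrictScalars D).domRestrict (C.piece V γ)).finrank_range_add_finrank_ker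
  rw [LinearMap.range_domRestrict, LinearMap.ker_domRestrict,
    ← Submodule.finrank_map_subtype_eq, Submodule.map_comap_subtype] at h
  have h1 : (C.piece V γ).map (N.mkQ.restrictScalars D) = C.piece (V ⧸ N) γ := by
    ext w
    constructor
    · rintro ⟨v, hv, rfl⟩
      have hv' : C.e γ • v = v := hv
      change C.e γ • N.mkQ v = N.mkQ v
      rw [← map_smul, hv']
    · intro hw
      have hw' : C.e γ • w = w := hw
      obtain ⟨v, rfl⟩ := N.mkQ_surjective w
      refine ⟨C.e γ • v, ?_, ?_⟩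
      · change C.e γ • C.e γ • v = C.e γ • v
        rw [← mul_smul, C.e_mul, if_pos rfl]
      · change N.mkQ (C.e γ • v) = N.mkQ v
        rw [map_smul, hw']
  have h2 : C.piece V γ ⊓ LinearMap.ker (N.mkQ.restrictScalars D) =
      (C.piece N γ).map (N.subtype.restrictScalars D) := by
    ext v
    constructor
    · rintro ⟨hv, hv'⟩
      exact ⟨⟨v, (Submodule.Quotient.mk_eq_zero N).1 hv'⟩, Subtype.ext hv, rfl⟩
    · rintro ⟨x, hx, rfl⟩
      exact ⟨congrArg Subtype.val hx, (Submodule.Quotient.mk_eq_zero N).2 x.2⟩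
  rw [h1, h2, ← (Submodule.equivMapOfInjective (N.subtype.restrictScalars D)
    Subtype.val_injective (C.piece N γ)).finrank_eq] at h
  omega

theorem adm_Sh (hV : C.Adm V) : C.Adm (C.Sh V) := by
  obtain ⟨g, m, deg, h⟩ := hV
  refine ⟨g, m, fun i => deg i - (0, 1, 0), fun i => ⟨?_, ?_⟩, ?_⟩
  · change C.sh (C.e (deg i - (0, 1, 0))) • m i = m i
    rw [C.sh_e, sub_add_cancel, (h.1 i).1]
  · have := (h.1 i).2
    change (((deg i).1 - 0 : ℤ) : ZMod a) = ∑ j, ((deg i).2.2 j - 0)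
    simp only [sub_zero]
    exact this
  · refine Eq.trans ?_ h.2
    change AddSubgroup.closure (G := V) (Set.range fun p : D × Fin g × (Var a →₀ ℕ) =>
      C.sh (C.ιD p.1) • C.sh (C.ιB (mon κ p.2.2)) • m p.2.1) = _
    simp only [C.sh_D, C.sh_B]

/-- multiplication by `S_*` as a linear map to the shifted module -/
theorem exists_shMap : ∃ f : V →ₗ[C.A] C.Sh V, ∀ v, f v = (C.ιB (xv κ (Sum.inr none)) • v : V) := by
  refine C.exists_linear (W := C.Sh V)
    (DistribSMul.toAddMonoidHom V (C.ιB (xv κ (Sum.inr none)))) ?_ ?_ ?_ ?_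
  · intro d v
    change C.ιB (xv κ (Sum.inr none)) • C.ιD d • v =
      C.sh (C.ιD d) • (C.ιB (xv κ (Sum.inr none)) • v : V)
    rw [C.sh_D, ← mul_smul, ← mul_smul, C.comm]
  · intro b v
    change C.ιB (xv κ (Sum.inr none)) • C.ιB b • v =
      C.sh (C.ιB b) • (C.ιB (xv κ (Sum.inr none)) • v : V)
    rw [C.sh_B, ← mul_smul, ← mul_smul, ← map_mul, ← map_mul, mul_comm]
  · intro γ v
    change C.ιB (xv κ (Sum.inr none)) • C.e γ • v =
      C.sh (C.e γ) • (C.ιB (xv κ (Sum.inr none)) • v : V)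
    rw [C.sh_e, ← mul_smul, ← mul_smul]
    congr 1
    exact (C.e_B γ _ _ (hom_xv κ (Sum.inr none))).symm
  · intro v
    change C.ιB (xv κ (Sum.inr none)) • C.σ • v =
      C.sh C.σ • (C.ιB (xv κ (Sum.inr none)) • v : V)
    rw [C.sh_σ, ← mul_smul, ← mul_smul, C.σ_B, σB_xv]
    rfl

end Crest.Agent.R181.Mc.Ctx
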