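import Crest.Agent.R181.McDefs

/-! Row 181 (route 2): the fine ring `B`: grading, symmetry, monomial basis. -/

set_option autoImplicit false

namespace Crest.Agent.R181.Mc

open MvPolynomial

variable {a : ℕ} {L K : Type} [Field L] [CommRing K] [Algebra L K] (κ : KData a L K)

theorem mon_zero : mon κ 0 = 1 := by
  change toB κ (monomial 0 1) = 1
  rw [monomial_zero', C_1, map_one]

theorem mon_add (u w : Var a →₀ ℕ) : mon κ (u + w) = mon κ u * mon κ w := by
  change toB κ (monomial (u + w) 1) = toB κ (monomial u 1) * toB κ (monomial w 1)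
  rw [← map_mul, monomial_mul, mul_one]

theorem mon_single (y : Var a) (n : ℕ) : mon κ (Finsupp.single y n) = xv κ y ^ n := by
  change toB κ (monomial (Finsupp.single y n) 1) = toB κ (X y) ^ n
  rw [← map_pow, X_pow_eq_monomial]

theorem kk_algebraMap (l : L) : kk κ (algebraMap L K l) = algebraMap L (Br κ) l := by
  change toB κ (C (algebraMap L K l)) = _
  rw [IsScalarTower.algebraMap_apply L (MvPolynomial (Var a) K) (Br κ)]
  rfl

theorem xt_none_pow : xt κ none ^ a = algebraMap L (Br κ) κ.T := by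
  rw [← kk_algebraMap]
  exact Kum.x_pow a (gK κ) none

theorem xt_some_pow (i : ZMod a) :
    xt κ (some i) ^ a = xv κ (Sum.inl 0) - kk κ (κ.b i) * xv κ (Sum.inl 1) := by
  refine (Kum.x_pow a (gK κ) (some i)).trans ?_
  change toB κ (X (Sum.inl 0) - C (κ.b i) * X (Sum.inl 1)) = _
  rw [map_sub, map_mul]
  rfl

theorem σB_kk (x : K) : σB κ (kk κ x) = kk κ (κ.σ x) := by
  refine (Kum.lift_algebraMap a (gK κ) _ _ _ (C x)).trans ?_
  rw [eval₂Hom_C]
  rfl

theorem σB_xv (y : Var a) : σB κ (xv κ y) = xv κ (rotV a y) := by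
  refine (Kum.lift_algebraMap a (gK κ) _ _ _ (X y)).trans ?_
  rw [eval₂Hom_X']

theorem σB_xt (t : Option (ZMod a)) : σB κ (xt κ t) = xt κ (rotO a t) :=
  Kum.lift_x a (gK κ) _ _ _ t

theorem σB_algebraMap (l : L) : σB κ (algebraMap L (Br κ) l) = algebraMap L (Br κ) l := by
  rw [← kk_algebraMap, σB_kk, AlgEquiv.commutes]

theorem σK_iterate (x : K) : (κ.σ : K → K)^[a] x = x := by
  have h1 : ∀ n : ℕ, (κ.σ ^ n) κ.θ = κ.ζ ^ n • κ.θ := by
    intro n
    induction n with
    | zero => simp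
    | succ n ih => rw [pow_succ', AlgEquiv.mul_apply, ih, map_smul, κ.σθ, smul_smul, pow_succ]
  have h2 : (κ.σ ^ a).toLinearMap = LinearMap.id := by
    refine κ.bas.ext fun i => ?_
    rw [κ.bas_eq, AlgEquiv.toLinearMap_apply, map_pow, h1, κ.hζ.pow_eq_one, one_smul,
      LinearMap.id_apply]
  have h3 : (κ.σ ^ a) x = x := LinearMap.congr_fun h2 x
  rw [AlgEquiv.coe_pow] at h3
  exact h3

theorem McRing_ext {E : Type} [Ring E] (f₁ f₂ : Br κ →+* E) (h1 : ∀ x, f₁ (kk κ x) = f₂ (kk κ x))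
    (h2 : ∀ y, f₁ (xv κ y) = f₂ (xv κ y)) (h3 : ∀ t, f₁ (xt κ t) = f₂ (xt κ t)) : f₁ = f₂ := by
  refine Kum.hom_ext a (gK κ) f₁ f₂ (fun r => ?_) h3
  have h : f₁.comp (toB κ) = f₂.comp (toB κ) := MvPolynomial.ringHom_ext h1 h2
  exact RingHom.congr_fun h r

theorem σB_iterate (x : Br κ) : (σB κ)^[a] x = x := by
  have hO : ∀ (n : ℕ) (t : Option (ZMod a)), (rotO a)^[n] t = Option.map (· + (n : ZMod a)) t := by
    intro n
    induction n with
    | zero => intro t; cases t <;> simp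
    | succ n ih =>
      intro t
      rw [Function.iterate_succ_apply', ih]
      cases t with
      | none => rfl
      | some i =>
        change some (i + n + 1) = some (i + ((n + 1 : ℕ) : ZMod a))
        rw [Nat.cast_succ, add_assoc]
  have hO' : ∀ t, (rotO a)^[a] t = t := by
    intro t
    rw [hO]
    cases t <;> simp
  have hV : ∀ (n : ℕ) (y : Var a), (rotV a)^[n] y = Sum.map id (rotO a)^[n] y := by
    intro n
    induction n with
    | zero => intro y; cases y <;> rfl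
    | succ n ih =>
      intro y
      rw [Function.iterate_succ_apply', ih, Function.iterate_succ']
      cases y <;> rfl
  have h : σB κ ^ a = RingHom.id _ := by
    refine McRing_ext κ _ _ (fun x => ?_) (fun y => ?_) (fun t => ?_)
    · rw [RingHom.coe_pow, RingHom.id_apply,
        ← (Function.Semiconj.iterate_right (fun x => (σB_kk κ x).symm) a) x, σK_iterate]
    · rw [RingHom.coe_pow, RingHom.id_apply,
        ← (Function.Semiconj.iterate_right (fun y => (σB_xv κ y).symm) a) y, hV]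
      cases y with
      | inl j => rfl
      | inr t => rw [Sum.map_inr, hO']
    · rw [RingHom.coe_pow, RingHom.id_apply,
        ← (Function.Semiconj.iterate_right (fun t => (σB_xt κ t).symm) a) t, hO']
  have h' := RingHom.congr_fun h x
  rw [RingHom.coe_pow] at h'
  exact h'

/-- ring homomorphisms out of `B` are determined by the generators -/
theorem Br_hom_ext {E : Type} [Ring E] (f₁ f₂ : Br κ →+* E) (h1 : ∀ x, f₁ (kk κ x) = f₂ (kk κ x))
    (h2 : ∀ y, f₁ (xv κ y) = f₂ (xv κ y)) (h3 : ∀ t, f₁ (xt κ t) = f₂ (xt κ t)) : f₁ = f₂ :=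
  McRing_ext κ f₁ f₂ h1 h2 h3

theorem hom_zero (δ : Gam a) : Hom κ 0 δ := by
  change ρB κ 0 = _
  rw [map_zero, AddMonoidAlgebra.single_zero]

theorem hom_one : Hom κ 1 0 := by
  change ρB κ 1 = _
  rw [map_one, AddMonoidAlgebra.one_def]

theorem hom_kk (x : K) : Hom κ (kk κ x) 0 := by
  refine (Kum.lift_algebraMap a (gK κ) _ _ _ (C x)).trans ?_
  rw [eval₂Hom_C]
  rfl

theorem hom_algebraMap (l : L) : Hom κ (algebraMap L (Br κ) l) 0 := by
  rw [← kk_algebraMap]
  exact hom_kk κ _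

theorem hom_xv (y : Var a) : Hom κ (xv κ y) (degV a y) := by
  refine (Kum.lift_algebraMap a (gK κ) _ _ _ (X y)).trans ?_
  rw [eval₂Hom_X']

theorem hom_xt (t : Option (ZMod a)) : Hom κ (xt κ t) (degT a t) :=
  Kum.lift_x a (gK κ) _ _ _ t

variable {κ} in
theorem Hom.add {x y : Br κ} {δ : Gam a} (hx : Hom κ x δ) (hy : Hom κ y δ) : Hom κ (x + y) δ := by
  change ρB κ (x + y) = _
  rw [map_add, hx, hy, AddMonoidAlgebra.single_add]

variable {κ} in
theorem Hom.mul {x y : Br κ} {δ δ' : Gam a} (hx : Hom κ x δ) (hy : Hom κ y δ') :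
    Hom κ (x * y) (δ + δ') := by
  change ρB κ (x * y) = _
  rw [map_mul, hx, hy, AddMonoidAlgebra.single_mul_single]

variable {κ} in
theorem Hom.pow {x : Br κ} {δ : Gam a} (hx : Hom κ x δ) (n : ℕ) : Hom κ (x ^ n) (n • δ) := by
  change ρB κ (x ^ n) = _
  rw [map_pow, hx, AddMonoidAlgebra.single_pow]

variable {κ} in
theorem Hom.sum {ι : Type} (s : Finset ι) {x : ι → Br κ} {δ : Gam a} (h : ∀ i ∈ s, Hom κ (x i) δ) :
    Hom κ (∑ i ∈ s, x i) δ :=
  Finset.sum_induction x (fun y => Hom κ y δ) (fun _ _ => Hom.add) (hom_zero κ δ) h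

variable {κ} in
theorem Hom.prod {ι : Type} (s : Finset ι) {x : ι → Br κ} {δ : ι → Gam a}
    (h : ∀ i ∈ s, Hom κ (x i) (δ i)) : Hom κ (∏ i ∈ s, x i) (∑ i ∈ s, δ i) := by
  classical
  induction s using Finset.induction_on with
  | empty => exact hom_one κ
  | insert i s hi ih =>
    rw [Finset.prod_insert hi, Finset.sum_insert hi]
    exact (h i (Finset.mem_insert_self _ _)).mul
      (ih fun j hj => h j (Finset.mem_insert_of_mem hj))

theorem McRing_single (i j : ZMod a) :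
    (Pi.single i (1 : ZMod a) : ZMod a → ZMod a) (j - 1) =
      (Pi.single (i + 1) (1 : ZMod a) : ZMod a → ZMod a) j := by
  rw [Pi.single_apply, Pi.single_apply]
  exact if_congr sub_eq_iff_eq_add rfl rfl

theorem McRing_rot_degV (y : Var a) : rot a (degV a y) = degV a (rotV a y) := by
  rcases y with j | _ | i
  · rfl
  · rfl
  · refine Prod.ext rfl (Prod.ext rfl (funext fun j => ?_))
    change (Pi.single (i + 1) (1 : ZMod a) : ZMod a → ZMod a) (j - 1) -
        (Pi.single i (1 : ZMod a) : ZMod a → ZMod a) (j - 1) =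
      (Pi.single (i + 1 + 1) (1 : ZMod a) : ZMod a → ZMod a) j -
        (Pi.single (i + 1) (1 : ZMod a) : ZMod a → ZMod a) j
    rw [McRing_single, McRing_single]

theorem McRing_rot_degT (t : Option (ZMod a)) : rot a (degT a t) = degT a (rotO a t) := by
  rcases t with _ | i
  · rfl
  · exact Prod.ext rfl (Prod.ext rfl (funext fun j => McRing_single i j))

variable {κ} in
theorem Hom.σB {x : Br κ} {δ : Gam a} (hx : Hom κ x δ) : Hom κ (σB κ x) (rot a δ) := by
  let Ψ : AddMonoidAlgebra (Br κ) (Gam a) →+* AddMonoidAlgebra (Br κ) (Gam a) :=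
    (AddMonoidAlgebra.mapDomainRingHom (Br κ) (rot a).toAddMonoidHom).comp
      (AddMonoidAlgebra.mapRingHom (Gam a) (Mc.σB κ))
  have hΨ : ∀ γ y, Ψ (AddMonoidAlgebra.single γ y) =
      AddMonoidAlgebra.single (rot a γ) (Mc.σB κ y) := by
    intro γ y
    change AddMonoidAlgebra.mapDomainRingHom (Br κ) (rot a).toAddMonoidHom
      (AddMonoidAlgebra.mapRingHom (Gam a) (Mc.σB κ) (AddMonoidAlgebra.single γ y)) = _
    rw [AddMonoidAlgebra.mapRingHom_single]
    exact AddMonoidAlgebra.mapDomain_single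
  have h : (ρB κ).comp (Mc.σB κ) = Ψ.comp (ρB κ) := by
    refine Br_hom_ext κ _ _ (fun x => ?_) (fun y => ?_) (fun t => ?_)
    · rw [RingHom.comp_apply, RingHom.comp_apply, hom_kk κ x, hΨ, σB_kk, map_zero]
      exact hom_kk κ _
    · rw [RingHom.comp_apply, RingHom.comp_apply, hom_xv κ y, hΨ, σB_xv, McRing_rot_degV]
      exact hom_xv κ _
    · rw [RingHom.comp_apply, RingHom.comp_apply, hom_xt κ t, hΨ, σB_xt, McRing_rot_degT]
      exact hom_xt κ _
  have h' := RingHom.congr_fun h x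
  rw [RingHom.comp_apply, RingHom.comp_apply, hx, hΨ] at h'
  exact h'

theorem hom_mon (u : Var a →₀ ℕ) : Hom κ (mon κ u) (degM a u) := by
  have h : mon κ u = ∏ y ∈ u.support, xv κ y ^ u y := by
    change toB κ (monomial u 1) = _
    rw [monomial_eq, C_1, one_mul, Finsupp.prod, map_prod]
    exact Finset.prod_congr rfl fun y _ => map_pow _ _ _
  rw [h]
  exact Hom.prod _ fun y _ => (hom_xv κ y).pow _

theorem r2_hom_gen [NeZero a] (r : Fin a) (c : Option (ZMod a) → Fin a) :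
    Hom κ (gen κ r c) (degC a c) := by
  have h := ((hom_kk κ κ.θ).pow (r : ℕ)).mul
    (Hom.prod Finset.univ (x := fun t => xt κ t ^ (c t : ℕ)) (δ := fun t => (c t : ℕ) • degT a t)
      fun t _ => (hom_xt κ t).pow _)
  rw [smul_zero, zero_add] at h
  exact h

theorem r2_basis [NeZero a] : ∃ bs : Module.Basis (Idx a) L (Br κ), ∀ i, bs i = mono κ i := by
  obtain ⟨b, hb⟩ := Kum.exists_basis a (Nat.pos_of_ne_zero (NeZero.ne a)) (gK κ)
  let e : (Fin a × (Var a →₀ ℕ)) × (Option (ZMod a) → Fin a) ≃ Idx a :=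
    (Equiv.prodAssoc _ _ _).trans (Equiv.prodCongr (Equiv.refl _) (Equiv.prodComm _ _))
  refine ⟨((κ.bas.smulTower (basisMonomials (Var a) K)).smulTower b).reindex e, ?_⟩
  rintro ⟨r, c, u⟩
  have he : e.symm (r, c, u) = ((r, u), c) := rfl
  rw [Module.Basis.reindex_apply, he, Module.Basis.smulTower_apply, Module.Basis.smulTower_apply, hb,
    κ.bas_eq, coe_basisMonomials, Algebra.smul_def]
  refine Eq.trans (Algebra.smul_def (R := MvPolynomial (Var a) K) (A := Br κ) _ _) ?_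
  rw [map_mul, algebraMap_eq, map_pow, map_pow]
  show toB κ (C κ.θ) ^ (r : ℕ) * toB κ (monomial u 1) * ∏ t, xt κ t ^ (c t : ℕ) =
    toB κ (monomial u 1) * (toB κ (C κ.θ) ^ (r : ℕ) * ∏ t, xt κ t ^ (c t : ℕ))
  ring

theorem r2_ok_nsmul [NeZero a] {γ : Gam a} (h : Ok γ) (n : ℕ) : Ok (n • γ) := by
  have h1 : (γ.1 : ZMod a) = ∑ i, γ.2.2 i := h
  show (((n • γ.1 : ℤ)) : ZMod a) = ∑ i, n • γ.2.2 i
  rw [← Finset.smul_sum, ← h1, nsmul_eq_mul, nsmul_eq_mul]
  push_cast
  rfl

theorem r2_ok_sum [NeZero a] {ι : Type} (s : Finset ι) {γ : ι → Gam a} (h : ∀ i ∈ s, Ok (γ i)) :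
    Ok (∑ i ∈ s, γ i) := by
  show (((∑ i ∈ s, γ i).1 : ℤ) : ZMod a) = ∑ j, (∑ i ∈ s, γ i).2.2 j
  simp only [Prod.fst_sum, Prod.snd_sum, Finset.sum_apply]
  rw [Finset.sum_comm, Int.cast_sum]
  exact Finset.sum_congr rfl h

theorem r2_degM [NeZero a] (u : Var a →₀ ℕ) : degM a u = ∑ y, u y • degV a y :=
  Finsupp.sum_fintype _ _ fun _ => zero_smul _ _

/-- every coefficient of the coaction is homogeneous -/
theorem hom_ρB [NeZero a] (x : Br κ) (δ : Gam a) : Hom κ ((ρB κ x).coeff δ) δ := by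
  classical
  obtain ⟨bs, hbs⟩ := r2_basis κ
  rw [← bs.linearCombination_repr x, Finsupp.linearCombination_apply, Finsupp.sum, map_sum,
    AddMonoidAlgebra.coeff_sum, Finsupp.finsetSum_apply]
  refine Hom.sum _ fun i _ => ?_
  have h : Hom κ (bs.repr x i • bs i) (0 + (degM a i.2.2 + degC a i.2.1)) := by
    have e : bs.repr x i • bs i = algebraMap L (Br κ) (bs.repr x i) * bs i :=
      Algebra.smul_def (bs.repr x i) (bs i)
    rw [e, hbs]
    exact (hom_algebraMap κ _).mul ((hom_mon κ _).mul (r2_hom_gen κ _ _))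
  rw [show ρB κ (bs.repr x i • bs i) = _ from h, AddMonoidAlgebra.coeff_single, Finsupp.single_apply]
  split_ifs with h1
  · exact h1 ▸ h
  · exact hom_zero κ δ

/-- an element is the sum of its homogeneous components -/
theorem sum_ρB (x : Br κ) : (ρB κ x).coeff.sum (fun _ y => y) = x := by
  let ε : AddMonoidAlgebra (Br κ) (Gam a) →+* Br κ :=
    (AddMonoidAlgebra.lift (Br κ) (Br κ) (Gam a) 1).toRingHom
  have h1 : ∀ δ y, ε (AddMonoidAlgebra.single δ y) = y := fun δ y =>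
    (AddMonoidAlgebra.lift_single _ δ y).trans (mul_one y)
  have h2 : ε.comp (ρB κ) = RingHom.id _ :=
    Br_hom_ext κ _ _ (fun y => (congrArg ε (hom_kk κ y)).trans (h1 _ _))
      (fun y => (congrArg ε (hom_xv κ y)).trans (h1 _ _))
      (fun y => (congrArg ε (hom_xt κ y)).trans (h1 _ _))
  have h3 : ε (ρB κ x) = x := RingHom.congr_fun h2 x
  refine Eq.trans ?_ h3
  refine Eq.trans ?_ (AddMonoidAlgebra.lift_apply (1 : Multiplicative (Gam a) →* Br κ) (ρB κ x)).symm
  exact Finsupp.sum_congr fun _ _ => (mul_one _).symm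

variable [NeZero a]

theorem hom_gen (r : Fin a) (c : Option (ZMod a) → Fin a) : Hom κ (gen κ r c) (degC a c) := by
  exact r2_hom_gen κ r c

theorem ok_degM (u : Var a →₀ ℕ) : Ok (degM a u) := by
  rw [r2_degM]
  refine r2_ok_sum _ fun y _ => r2_ok_nsmul ?_ _
  rcases y with y | _ | i
  · show (((a : ℤ)) : ZMod a) = ∑ _i : ZMod a, (0 : ZMod a)
    simp
  · show (((0 : ℤ)) : ZMod a) = ∑ _i : ZMod a, (0 : ZMod a)
    simp
  · show (((0 : ℤ)) : ZMod a) =
      ∑ j : ZMod a, ((Pi.single (i + 1) 1 - Pi.single i 1 : ZMod a → ZMod a) j)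
    simp

theorem ok_degC (c : Option (ZMod a) → Fin a) : Ok (degC a c) := by
  refine r2_ok_sum _ fun y _ => r2_ok_nsmul ?_ _
  rcases y with _ | i
  · show (((0 : ℤ)) : ZMod a) = ∑ _i : ZMod a, (-1 : ZMod a)
    simp
  · show (((1 : ℤ)) : ZMod a) = ∑ j : ZMod a, ((Pi.single i 1 : ZMod a → ZMod a) j)
    simp

theorem Ok.add {γ δ : Gam a} (h : Ok γ) (h' : Ok δ) : Ok (γ + δ) := by
  have h1 : (γ.1 : ZMod a) = ∑ i, γ.2.2 i := h
  have h2 : (δ.1 : ZMod a) = ∑ i, δ.2.2 i := h'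
  show ((γ.1 + δ.1 : ℤ) : ZMod a) = ∑ i, (γ.2.2 i + δ.2.2 i)
  rw [Finset.sum_add_distrib, ← h1, ← h2, Int.cast_add]

theorem degM_fst (u : Var a →₀ ℕ) :
    (degM a u).1 = (a : ℤ) * ((u (Sum.inl 0) + u (Sum.inl 1) : ℕ) : ℤ) := by
  rw [r2_degM, Prod.fst_sum, Fintype.sum_sum_type, Fin.sum_univ_two, Finset.sum_eq_zero, add_zero]
  · show u (Sum.inl 0) • (a : ℤ) + u (Sum.inl 1) • (a : ℤ) = _
    simp only [nsmul_eq_mul]
    push_cast
    ring
  · rintro (_ | i) - <;> exact nsmul_zero (M := ℤ) _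

theorem degM_snd (u : Var a →₀ ℕ) : (degM a u).2.1 = ((∑ t, u (Sum.inr t) : ℕ) : ℤ) := by
  rw [r2_degM, Prod.snd_sum, Prod.fst_sum, Fintype.sum_sum_type, Finset.sum_eq_zero, zero_add,
    Nat.cast_sum]
  · refine Finset.sum_congr rfl ?_
    rintro (_ | i) - <;> exact (nsmul_eq_mul _ _).trans (mul_one _)
  · intro i _
    exact nsmul_zero (M := ℤ) _

theorem exists_monoBasis : ∃ bs : Module.Basis (Idx a) L (Br κ), ∀ i, bs i = mono κ i := by
  exact r2_basis κ

end Crest.Agent.R181.Mc
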