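import Crest.Agent.R181.McFree

/-! Row 181 (route 2): the dehomogenised action and invariant vectors. -/

set_option autoImplicit false

namespace Crest.Agent.R181.Mc.Ctx

variable {a : ℕ} [NeZero a] {L K : Type} [Field L] [CommRing K] [Algebra L K] {κ : KData a L K}
  {D : Type} [DivisionRing D] [Algebra L D] (C : Ctx κ D)

theorem ul2_ind (P : Br κ → Prop) (h0 : P 0) (hadd : ∀ x y, P x → P y → P (x + y))
    (hh : ∀ x δ, Hom κ x δ → P x) (b : Br κ) : P b := by
  rw [← sum_ρB κ b]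
  exact Finset.sum_induction _ P hadd h0 fun δ _ => hh _ δ (hom_ρB κ b δ)

theorem ul2_shift {E G : Type} [Ring E] [AddCommGroup G] (w : Eˣ) (e : G → E) (g : G)
    (h : ∀ γ, e (γ + g) * w = w * e γ) (n : ℤ) :
    ∀ γ, e (γ + n • g) * ((w ^ n : Eˣ) : E) = ((w ^ n : Eˣ) : E) * e γ := by
  have h' : ∀ γ, e (γ - g) * ((w⁻¹ : Eˣ) : E) = ((w⁻¹ : Eˣ) : E) * e γ := by
    intro γ
    have := h (γ - g)
    rw [sub_add_cancel] at this
    rw [Units.mul_inv_eq_iff_eq_mul, mul_assoc, this, Units.inv_mul_cancel_left]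
  induction n using Int.induction_on with
  | zero => simp
  | succ n ih =>
    intro γ
    rw [add_smul, one_smul, add_comm ((n : ℤ) • g), ← add_assoc, zpow_add_one, Units.val_mul,
      ← mul_assoc, ih, mul_assoc, h, mul_assoc]
  | pred n ih =>
    intro γ
    rw [sub_smul, one_smul, show γ + ((-(n : ℤ)) • g - g) = γ - g + (-(n : ℤ)) • g by abel,
      zpow_sub_one, Units.val_mul, ← mul_assoc, ih, mul_assoc, h', mul_assoc]

theorem ul2_act {U : Type} [AddCommGroup U] [Module C.A U]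
    (hb : Function.Bijective fun x : U => C.ιB (xv κ (Sum.inr none)) • x) :
    ∃ act : Br κ →+* Module.End ℤ U,
      (∀ (b : Br κ) (n : ℤ) (j : ℕ) (lam : ZMod a → ZMod a), Hom κ b (n, (j : ℤ), lam) →
        ∀ x, C.ιB (xv κ (Sum.inr none) ^ j) • act b x = C.ιB b • x) ∧
      (∀ b (c : Module.End C.A U) x, c (act b x) = act b (c x)) ∧
      (∀ b d x, C.ιD d • act b x = act b (C.ιD d • x)) ∧
      (∀ b b' x, C.ιB b' • act b x = act b (C.ιB b' • x)) ∧
      (∀ b x, C.σ • act b x = act (σB κ b) (C.σ • x)) ∧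
      (∀ (b : Br κ) (δ γ : Gam a), Hom κ b δ →
        ∀ x, C.e (γ + (δ.1, 0, δ.2.2)) • act b x = act b (C.e γ • x)) := by
  let μ : C.A →+* Module.End ℤ U := Module.toModuleEnd ℤ U
  have hμ : ∀ r x, μ r x = r • x := fun _ _ => rfl
  obtain ⟨w, hw⟩ : IsUnit (μ (C.ιB (xv κ (Sum.inr none)))) := (Module.End.isUnit_iff _).2 hb
  let g : Multiplicative (Gam a) →* Module.End ℤ U :=
    { toFun := fun δ => ((w ^ (-(Multiplicative.toAdd δ).2.1) : (Module.End ℤ U)ˣ) :
        Module.End ℤ U)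
      map_one' := by simp
      map_mul' := fun δ δ' => by
        rw [toAdd_mul, Prod.snd_add, Prod.fst_add, neg_add, zpow_add, Units.val_mul] }
  have hBB : ∀ b b', Commute (μ (C.ιB b)) (μ (C.ιB b')) := fun b b' =>
    ((Commute.all b b').map C.ιB).map μ
  have hcomm : ∀ b δ, Commute ((μ.comp C.ιB) b) (g δ) := fun b δ =>
    Commute.units_zpow_right (hw ▸ hBB b _) _
  let act : Br κ →+* Module.End ℤ U :=
    (AddMonoidAlgebra.liftNCRingHom (μ.comp C.ιB) g hcomm).comp (ρB κ)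
  have hact : ∀ b δ, Hom κ b δ →
      act b = μ (C.ιB b) * ((w ^ (-δ.2.1) : (Module.End ℤ U)ˣ) : Module.End ℤ U) := by
    intro b δ h
    change AddMonoidAlgebra.liftNCRingHom (μ.comp C.ιB) g hcomm (ρB κ b) = _
    rw [show ρB κ b = AddMonoidAlgebra.single δ b from h, AddMonoidAlgebra.liftNCRingHom_single]
    rfl
  have hT : ∀ T : Module.End ℤ U, (∀ b, Commute T (μ (C.ιB b))) → ∀ b, Commute T (act b) := by
    intro T hTb
    refine ul2_ind _ ?_ (fun x y hx hy => ?_) fun x δ h => ?_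
    · rw [map_zero]
      exact Commute.zero_right _
    · rw [map_add]
      exact hx.add_right hy
    · rw [hact x δ h]
      exact (hTb x).mul_right (Commute.units_zpow_right (hw ▸ hTb _) _)
  refine ⟨act, fun b n j lam h x => ?_, fun b c x => ?_, fun b d x => ?_, fun b b' x => ?_,
    fun b x => ?_, fun b δ γ h x => ?_⟩
  · have e : μ (C.ιB (xv κ (Sum.inr none) ^ j)) * act b = μ (C.ιB b) := by
      rw [hact b _ h, ← mul_assoc, (hBB _ _).eq, mul_assoc, map_pow, map_pow, ← hw,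
        ← Units.val_pow_eq_pow_val, ← Units.val_mul, ← zpow_natCast, ← zpow_add, add_neg_cancel,
        zpow_zero, Units.val_one, mul_one]
    exact LinearMap.congr_fun e x
  · exact LinearMap.congr_fun (hT c.toAddMonoidHom.toIntLinearMap
      (fun b => LinearMap.ext fun y => c.map_smul _ y) b).eq x
  · exact LinearMap.congr_fun (hT (μ (C.ιD d)) (fun b => Commute.map (C.comm d b) μ) b).eq x
  · exact LinearMap.congr_fun (hT (μ (C.ιB b')) (hBB b') b).eq x
  · have hσ : Commute (μ C.σ) w := by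
      rw [hw]
      refine Commute.map ?_ μ
      have := C.σ_B (xv κ (Sum.inr none))
      rw [σB_xv] at this
      exact this
    have e : μ C.σ * act b = act (σB κ b) * μ C.σ := by
      refine ul2_ind (fun b => μ C.σ * act b = act (σB κ b) * μ C.σ) ?_ (fun x y hx hy => ?_)
        (fun x δ h => ?_) b
      · simp only [map_zero, mul_zero, zero_mul]
      · simp only [map_add, mul_add, add_mul, hx, hy]
      · rw [hact x δ h, hact _ _ h.σB, ← mul_assoc, ← map_mul, C.σ_B, map_mul, mul_assoc,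
          (Commute.units_zpow_right hσ _).eq, mul_assoc]
        rfl
    exact LinearMap.congr_fun e x
  · have h1 : ∀ γ : Gam a, μ (C.e (γ + (0, 1, 0))) * w = w * μ (C.e γ) := by
      intro γ
      rw [hw, ← map_mul, ← map_mul]
      exact congrArg μ (C.e_B γ _ _ (hom_xv κ (Sum.inr none)))
    have h2 := ul2_shift w (fun γ => μ (C.e γ)) (0, 1, 0) h1 (-δ.2.1) γ
    have h3 : γ + (δ.1, 0, δ.2.2) = γ + (-δ.2.1) • ((0, 1, 0) : Gam a) + δ := by
      rw [add_assoc]
      congr 1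
      ext <;> simp
    have e : μ (C.e (γ + (δ.1, 0, δ.2.2))) * act b = act b * μ (C.e γ) := by
      rw [hact b δ h, ← mul_assoc, ← map_mul, h3, C.e_B _ _ _ h, map_mul, mul_assoc, h2, mul_assoc]
    exact LinearMap.congr_fun e x

/-- invariant vectors of fine degree `a k` -/
def ul2Inv {U : Type} [AddCommGroup U] [Module C.A U] (k : ℤ) (x : U) : Prop :=
  C.e ((a : ℤ) * k, 0, 0) • x = x ∧ C.σ • x = x

section Inv

variable {C} {U : Type} [AddCommGroup U] [Module C.A U]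

theorem ul2Inv.z {k : ℤ} {x : U} (h : C.ul2Inv k x) (ε : Fin 2) :
    C.ul2Inv (k + 1) (C.ιB (xv κ (Sum.inl ε)) • x) := by
  constructor
  · have := C.smul_hom (hom_xv κ (Sum.inl ε)) h.1
    rwa [show (((a : ℤ) * k, 0, 0) : Gam a) + degV a (Sum.inl ε) = ((a : ℤ) * (k + 1), 0, 0) by
      ext <;> simp [degV, mul_add]] at this
  · rw [← mul_smul, C.σ_B, σB_xv, mul_smul, h.2]
    rfl

theorem ul2Inv.pow {k : ℤ} {x : U} (h : C.ul2Inv k x) (ε : Fin 2) (n : ℕ) :
    C.ul2Inv (k + n) (C.ιB (xv κ (Sum.inl ε) ^ n) • x) := by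
  induction n with
  | zero => simpa using h
  | succ n ih =>
    rw [pow_succ', map_mul, mul_smul, Nat.cast_succ, ← add_assoc]
    exact ih.z ε

theorem ul2Inv.map {k : ℤ} {x : U} (h : C.ul2Inv k x) (c : Module.End C.A U) :
    C.ul2Inv k (c x) :=
  ⟨by rw [← c.map_smul, h.1], by rw [← c.map_smul, h.2]⟩

theorem ul2Inv.sum {k : ℤ} {ι : Type} (s : Finset ι) {x : ι → U} (h : ∀ i ∈ s, C.ul2Inv k (x i)) :
    C.ul2Inv k (∑ i ∈ s, x i) :=
  ⟨by rw [Finset.smul_sum]; exact Finset.sum_congr rfl fun i hi => (h i hi).1,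
    by rw [Finset.smul_sum]; exact Finset.sum_congr rfl fun i hi => (h i hi).2⟩

theorem ul2Inv.neg {k : ℤ} {x : U} (h : C.ul2Inv k x) : C.ul2Inv k (-x) :=
  ⟨by rw [smul_neg, h.1], by rw [smul_neg, h.2]⟩

theorem ul2_kos
    (hk : ∀ k : ℤ, 0 ≤ k → ∀ x y : U, C.ul2Inv k x → C.ul2Inv k y →
      C.ιB (xv κ (Sum.inl 1)) • x = C.ιB (xv κ (Sum.inl 0)) • y →
      ∃ w : U, C.ul2Inv (k - 1) w ∧ x = C.ιB (xv κ (Sum.inl 0)) • w)
    {x : U} (hx : C.ul2Inv 0 x) (k : ℕ) : ∀ y : U, C.ul2Inv k y →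
      C.ιB (xv κ (Sum.inl 1) ^ (k + 1)) • x = C.ιB (xv κ (Sum.inl 0)) • y →
      ∃ w : U, C.ul2Inv (-1) w ∧ x = C.ιB (xv κ (Sum.inl 0)) • w := by
  induction k with
  | zero =>
    intro y hy h
    rw [zero_add, pow_one] at h
    exact hk 0 le_rfl x y hx hy h
  | succ k ih =>
    intro y hy h
    rw [pow_succ', map_mul, mul_smul] at h
    have h1 := hx.pow 1 (k + 1)
    rw [zero_add] at h1
    obtain ⟨w, hw, hw'⟩ := hk _ (Int.natCast_nonneg _) _ y h1 hy h
    rw [Nat.cast_succ, add_sub_cancel_right] at hw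
    exact ih w hw hw'

theorem ul2_indep
    (hk : ∀ k : ℤ, 0 ≤ k → ∀ x y : U, C.ul2Inv k x → C.ul2Inv k y →
      C.ιB (xv κ (Sum.inl 1)) • x = C.ιB (xv κ (Sum.inl 0)) • y →
      ∃ w : U, C.ul2Inv (k - 1) w ∧ x = C.ιB (xv κ (Sum.inl 0)) • w)
    (hn : ∀ x : U, C.ul2Inv (-1) x → x = 0)
    (hz : ∀ x : U, C.ιB (xv κ (Sum.inl 0)) • x = 0 → x = 0) (k : ℕ) :
    ∀ x : ℕ → U, (∀ i, C.ul2Inv 0 (x i)) →
      ∑ i ∈ Finset.range (k + 1),
        C.ιB (xv κ (Sum.inl 0) ^ i * xv κ (Sum.inl 1) ^ (k - i)) • x i = 0 →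
      ∀ i ≤ k, x i = 0 := by
  induction k with
  | zero =>
    intro x _ h i hi
    obtain rfl : i = 0 := Nat.le_zero.1 hi
    simpa using h
  | succ k ih =>
    intro x hx h
    rw [Finset.sum_range_succ'] at h
    set Y := ∑ i ∈ Finset.range (k + 1),
      C.ιB (xv κ (Sum.inl 0) ^ i * xv κ (Sum.inl 1) ^ (k - i)) • x (i + 1) with hY
    have e : ∑ i ∈ Finset.range (k + 1),
        C.ιB (xv κ (Sum.inl 0) ^ (i + 1) * xv κ (Sum.inl 1) ^ (k + 1 - (i + 1))) • x (i + 1) =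
        C.ιB (xv κ (Sum.inl 0)) • Y := by
      rw [hY, Finset.smul_sum]
      refine Finset.sum_congr rfl fun i _ => ?_
      rw [← mul_smul, ← map_mul, Nat.add_sub_add_right, pow_succ', mul_assoc]
    rw [e, pow_zero, one_mul, Nat.sub_zero] at h
    have hYi : C.ul2Inv k Y := by
      refine ul2Inv.sum _ fun i hi => ?_
      have h1 := ((hx (i + 1)).pow 1 (k - i)).pow 0 i
      rw [← mul_smul, ← map_mul] at h1
      have h2 : i ≤ k := Nat.lt_succ_iff.1 (Finset.mem_range.1 hi)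
      rwa [show (0 : ℤ) + ((k - i : ℕ) : ℤ) + i = k by omega] at h1
    obtain ⟨w, hw, hw'⟩ := ul2_kos hk (hx 0) k (-Y) hYi.neg (by
      rw [smul_neg]
      exact eq_neg_of_add_eq_zero_right h)
    have h0 : x 0 = 0 := by rw [hw', hn w hw, smul_zero]
    rw [h0, smul_zero, add_zero] at h
    have h1 := ih (fun i => x (i + 1)) (fun i => hx _) (hz _ h)
    intro i hi
    rcases i with _ | i
    · exact h0
    · exact h1 i (by omega)

end Inv

end Crest.Agent.R181.Mc.Ctx
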