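import Crest.Agent.R181.McFree
import Crest.Agent.R181.McUlAct

/-! Row 181 (route 2): the hull of `F 0` is an Ulrich module. -/

set_option autoImplicit false

namespace Crest.Agent.R181.Mc.Ctx

variable {a : ℕ} [NeZero a] {L K : Type} [Field L] [CommRing K] [Algebra L K] {κ : KData a L K}
  {D : Type} [DivisionRing D] [Algebra L D] (C : Ctx κ D)

/-- The properties of the hull `U` with its distinguished vector `u₀`. -/
structure IsUl (U : Type) [AddCommGroup U] [Module C.A U] (u₀ : U) : Prop where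
  unit : ∀ c : Module.End C.A U, c ≠ 0 → IsUnit c
  e_u : C.e 0 • u₀ = u₀
  σ_u : C.σ • u₀ = u₀
  inj : ∀ b : Br κ, C.ιB b • u₀ = 0 → b = 0
  ev_inj : ∀ c : Module.End C.A U, c u₀ = 0 → c = 0
  ev_surj : ∀ x : U, C.e 0 • x = x → C.σ • x = x → ∃ c : Module.End C.A U, c u₀ = x
  span1 : ∀ x : U, C.e ((a : ℤ), 0, 0) • x = x → C.σ • x = x → ∃ p q : Module.End C.A U,
    x = p (C.ιB (xv κ (Sum.inl 0)) • u₀) + q (C.ιB (xv κ (Sum.inl 1)) • u₀)
  indep : ∀ (k : ℕ) (c : ℕ → Module.End C.A U),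
    ∑ i ∈ Finset.range (k + 1),
      c i (C.ιB (xv κ (Sum.inl 0) ^ i * xv κ (Sum.inl 1) ^ (k - i)) • u₀) = 0 → ∀ i ≤ k, c i = 0
  bij : Function.Bijective fun x : U => C.ιB (xv κ (Sum.inr none)) • x

/-- induction principle for the free modules -/
theorem u1_F_ind (k : ℤ) {P : C.F k → Prop} (h0 : P 0)
    (h1 : ∀ d b, P (C.ιD d • C.ιB b • C.one k)) (hadd : ∀ x y, P x → P y → P (x + y))
    (x : C.F k) : P x := by
  obtain ⟨φ, hφ⟩ := C.free k
  obtain ⟨t, rfl⟩ := φ.surjective x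
  induction t using TensorProduct.induction_on with
  | zero => exact (show φ 0 = 0 from φ.toAddMonoidHom.map_zero) ▸ h0
  | tmul d b => rw [hφ]; exact h1 d b
  | add s t hs ht => exact (show φ (s + t) = φ s + φ t from φ.map_add' s t) ▸ hadd _ _ hs ht

/-- the free modules are all isomorphic over `D` and `B` -/
theorem u1_F_tr (k l : ℤ) : ∃ τ : C.F k ≃+ C.F l,
    ∀ d b, τ (C.ιD d • C.ιB b • C.one k) = C.ιD d • C.ιB b • C.one l := by
  obtain ⟨φ, hφ⟩ := C.free k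
  obtain ⟨φ', hφ'⟩ := C.free l
  refine ⟨φ.symm.trans φ', fun d b => ?_⟩
  rw [← hφ, AddEquiv.trans_apply, φ.symm_apply_apply, hφ']

theorem u1_comm {V : Type} [AddCommGroup V] [Module C.A V] (c : Br κ) (d : D) (b : Br κ) (v : V) :
    C.ιB c • C.ιD d • C.ιB b • v = C.ιD d • C.ιB b • C.ιB c • v := by
  rw [← mul_smul, ← C.comm, mul_smul, ← mul_smul (C.ιB c), ← mul_smul (C.ιB b), ← map_mul,
    ← map_mul, mul_comm c b]

theorem u1_Φ_zero (ha : 2 ≤ a) (hD : Div a D κ.ζ κ.Θ κ.T) {V : Type} [AddCommGroup V]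
    [Module C.A V] (hV : C.Adm V) (h : C.HD V 0 0) : C.Φ V = 0 := by
  have h1 := C.Φ_eq ha hD hV h
  have hpos : (a : ℤ) ^ (a + 1) ≠ 0 := pow_ne_zero _ (Int.natCast_ne_zero.2 (NeZero.ne a))
  rw [neg_zero] at h1
  exact (mul_eq_zero.1 h1).resolve_right hpos

theorem u1_lift_z (k : ℤ) (ε : Fin 2) : ∃ f : C.F k →ₗ[C.A] C.F (k - 1),
    f (C.one k) = C.ιB (xv κ (Sum.inl ε)) • C.one (k - 1) := by
  refine C.F_lift k _ ?_ ?_
  · have h := C.smul_hom (hom_xv κ (Sum.inl ε)) (C.e_one (k - 1))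
    have e : ((((a : ℤ) * (k - 1), 0, 0) : Gam a) + degV a (Sum.inl ε)) = ((a : ℤ) * k, 0, 0) := by
      change (((a : ℤ) * (k - 1) + a, 0 + 0, 0 + 0) : Gam a) = _
      rw [add_zero, add_zero, show (a : ℤ) * (k - 1) + a = a * k by ring]
    rwa [e] at h
  · rw [← mul_smul, C.σ_B, σB_xv, mul_smul, C.σ_one]
    rfl

section Hull

variable {C} {ha : 2 ≤ a} {hD : Div a D κ.ζ κ.Θ κ.T} {U : Type} [AddCommGroup U] [Module C.A U]
  {u : C.F 0 →ₗ[C.A] U}

theorem hull_var_inj (H : Mach.IsHull (C.setup ha hD) (C.F 0) U u) (y : Var a)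
    (hy : rotV a y = y) (x : U) (h : C.ιB (xv κ y) • x = 0) : x = 0 := by
  by_contra hx
  obtain ⟨N, hN⟩ := C.exists_submodule (DistribSMul.toAddMonoidHom U (C.ιB (xv κ y))).ker
    (fun d v hv => by
      have hv' : C.ιB (xv κ y) • v = 0 := hv
      change C.ιB (xv κ y) • C.ιD d • v = 0
      rw [← mul_smul, ← C.comm, mul_smul, hv', smul_zero])
    (fun b v hv => by
      have hv' : C.ιB (xv κ y) • v = 0 := hv
      change C.ιB (xv κ y) • C.ιB b • v = 0
      rw [← mul_smul, ← map_mul, mul_comm, map_mul, mul_smul, hv', smul_zero])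
    (fun γ v hv => by
      have hv' : C.ιB (xv κ y) • v = 0 := hv
      change C.ιB (xv κ y) • C.e γ • v = 0
      rw [← mul_smul, ← C.e_B γ _ _ (hom_xv κ y), mul_smul, hv', smul_zero])
    (fun v hv => by
      have hv' : C.ιB (xv κ y) • v = 0 := hv
      have e := C.σ_B (xv κ y)
      rw [σB_xv, hy] at e
      change C.ιB (xv κ y) • C.σ • v = 0
      rw [← mul_smul, ← e, mul_smul, hv', smul_zero])
  have hfg : (Submodule.span C.A {x}).FG := Submodule.fg_span_singleton x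
  have hle : Submodule.span C.A {x} ≤ N :=
    (Submodule.span_singleton_le_iff_mem _ _).2 ((hN x).2 h)
  have hA : C.Adm (Submodule.span C.A {x}) := H.adm_fg _ hfg
  have h1 := H.pos _ hfg fun h0 => hx (Submodule.span_singleton_eq_bot.1 h0)
  obtain ⟨r, c, hrc, -, -⟩ := C.exists_HD hA
  have hr := C.HD_killed hA y (fun v => Subtype.ext ((hN v.1).1 (hle v.2))) hrc
  subst hr
  have h2 := C.d_eq_zero ha hD hA hrc
  have h3 := Mach.Setup.Φ_le_d (S := C.setup ha hD) hA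
  omega

theorem hull_S_surj (H : Mach.IsHull (C.setup ha hD) (C.F 0) U u) (x : U) :
    ∃ y : U, C.ιB (xv κ (Sum.inr none)) • y = x := by
  obtain ⟨E, hE, hle, -, hE1⟩ := H.exh' _ (Submodule.fg_span_singleton x)
  have hA : C.Adm E := H.adm_fg E hE
  have hS : C.Adm (C.Sh E) := C.adm_Sh hA
  obtain ⟨f, hf⟩ := C.exists_shMap (V := E)
  have hsm : ∀ w : E, C.ιB (xv κ (Sum.inr none)) • (show C.Sh E from w) = f w := by
    intro w
    rw [hf]
    change C.sh (C.ιB (xv κ (Sum.inr none))) • w = _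
    rw [C.sh_B]
  have hinj : Function.Injective f := by
    rw [injective_iff_map_eq_zero]
    intro w hw
    rw [hf] at hw
    exact Subtype.ext (hull_var_inj H (Sum.inr none) rfl w.1 (congrArg Subtype.val hw))
  have hQ : C.Adm (C.Sh E ⧸ LinearMap.range f) :=
    C.adm_surj hS _ (LinearMap.range f).mkQ_surjective
  have hQ0 : C.HD (C.Sh E ⧸ LinearMap.range f) 0 0 := by
    refine C.HD_killed_S hQ none fun q => ?_
    obtain ⟨w, rfl⟩ := (LinearMap.range f).mkQ_surjective q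
    rw [← map_smul, Submodule.mkQ_apply, Submodule.Quotient.mk_eq_zero]
    exact ⟨w, (hsm w).symm⟩
  have hd0 := C.d_eq_zero ha hD hQ hQ0
  have hΦ0 := C.u1_Φ_zero ha hD hQ hQ0
  have hΦ1 : C.Φ E = 1 := hE1
  have hΦ := C.Φ_add ha hD hS (LinearMap.range f)
  rw [hΦ0, ← C.Φ_equiv (LinearEquiv.ofInjective f hinj), hΦ1] at hΦ
  have hdE := H.d_eq_one hE hE1
  have h1 : C.Φ (C.Sh E) ≤ _ := Mach.Setup.Φ_le_d (S := C.setup ha hD) hS
  have h2 := Mach.Setup.d_le_add (S := C.setup ha hD) hA hS f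
  obtain ⟨ψ, hψ⟩ := H.ext hA hS f ⟨hd0, by omega⟩ E.subtype
  have hx : x ∈ E := hle (Submodule.mem_span_singleton_self x)
  refine ⟨ψ (show C.Sh E from (⟨x, hx⟩ : E)), ?_⟩
  rw [← map_smul, hsm]
  exact LinearMap.congr_fun hψ ⟨x, hx⟩

theorem hull_neg (H : Mach.IsHull (C.setup ha hD) (C.F 0) U u) (x : U)
    (h1 : C.e ((a : ℤ) * (-1), 0, 0) • x = x) (h2 : C.σ • x = x) : x = 0 := by
  obtain ⟨f, hf⟩ := C.F_lift (-1) x h1 h2
  have hd := C.d_F ha hD (-1) le_rfl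
  rw [← hf, H.eq_zero (C.adm_F (-1)) (hd.trans (by norm_num)) f, LinearMap.zero_apply]

/-- `(z, z')` is a regular sequence on the invariant part -/
theorem hull_koszul (H : Mach.IsHull (C.setup ha hD) (C.F 0) U u) (k : ℤ) (hk : 0 ≤ k) (x y : U)
    (hx : C.e ((a : ℤ) * k, 0, 0) • x = x) (hx' : C.σ • x = x)
    (hy : C.e ((a : ℤ) * k, 0, 0) • y = y) (hy' : C.σ • y = y)
    (h : C.ιB (xv κ (Sum.inl 1)) • x = C.ιB (xv κ (Sum.inl 0)) • y) :
    ∃ w : U, C.e ((a : ℤ) * (k - 1), 0, 0) • w = w ∧ C.σ • w = w ∧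
      x = C.ιB (xv κ (Sum.inl 0)) • w := by
  choose f hf using fun ε : Fin 2 => C.u1_lift_z k ε
  obtain ⟨g₁, hg₁⟩ := C.F_lift k x hx hx'
  obtain ⟨g₂, hg₂⟩ := C.F_lift k y hy hy'
  obtain ⟨τ, hτ'⟩ := C.u1_F_tr k (k - 1)
  have hτ : ∀ (ε : Fin 2) (p : C.F k), τ (C.ιB (xv κ (Sum.inl ε)) • p) = f ε p := by
    intro ε p
    induction p using C.u1_F_ind k with
    | h0 => rw [smul_zero, map_zero, map_zero]
    | h1 d b =>
      rw [C.u1_comm, ← mul_smul (C.ιB b), ← map_mul, hτ', map_mul, mul_smul, ← hf, map_smul,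
        map_smul]
    | hadd p q hp hq => rw [smul_add, map_add, map_add, hp, hq]
  have hg : ∀ w : C.F k,
      C.ιB (xv κ (Sum.inl 1)) • g₁ w = C.ιB (xv κ (Sum.inl 0)) • g₂ w := by
    intro w
    induction w using C.u1_F_ind k with
    | h0 => rw [map_zero, map_zero, smul_zero, smul_zero]
    | h1 d b =>
      rw [map_smul, map_smul, map_smul, map_smul, hg₁, hg₂, C.u1_comm, C.u1_comm, h]
    | hadd p q hp hq => rw [map_add, map_add, smul_add, smul_add, hp, hq]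
  let F₀ : (C.F k × C.F k) →ₗ[C.A] C.F (k - 1) := (f 0).coprod (f 1)
  let G₀ : (C.F k × C.F k) →ₗ[C.A] U := g₁.coprod g₂
  have hker : LinearMap.ker F₀ ≤ LinearMap.ker G₀ := by
    rintro ⟨p, q⟩ hpq
    have h1 : f 0 p + f 1 q = 0 := hpq
    rw [← hτ, ← hτ, ← map_add, map_eq_zero_iff _ τ.injective] at h1
    obtain ⟨w, h2, h3⟩ := C.koszul_F k p q h1
    change g₁ p + g₂ q = 0
    rw [h2, h3, map_neg, map_smul, map_smul, hg, add_neg_cancel]
  have hz : ∀ (ε : Fin 2) (v : C.F (k - 1)),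
      C.ιB (xv κ (Sum.inl ε)) • v ∈ LinearMap.range (f ε) := by
    intro ε v
    induction v using C.u1_F_ind (k - 1) with
    | h0 => rw [smul_zero]; exact Submodule.zero_mem _
    | h1 d b =>
      rw [C.u1_comm, ← hf]
      exact Submodule.smul_mem _ _ (Submodule.smul_mem _ _ ⟨_, rfl⟩)
    | hadd p q hp hq => rw [smul_add]; exact Submodule.add_mem _ hp hq
  have hF : C.Adm (C.F (k - 1)) := C.adm_F _
  have hM : C.Adm (LinearMap.range F₀) := C.adm_sub hF _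
  have hQ : C.Adm (C.F (k - 1) ⧸ LinearMap.range F₀) :=
    C.adm_surj hF _ (LinearMap.range F₀).mkQ_surjective
  have hQ0 : C.HD (C.F (k - 1) ⧸ LinearMap.range F₀) 0 0 := by
    refine C.HD_killed_zz hQ fun ε q => ?_
    obtain ⟨w, rfl⟩ := (LinearMap.range F₀).mkQ_surjective q
    rw [← map_smul, Submodule.mkQ_apply, Submodule.Quotient.mk_eq_zero]
    obtain ⟨p, hp⟩ := hz ε w
    rw [← hp]
    fin_cases ε
    · exact ⟨(p, 0), (congrArg (f 0 p + ·) (map_zero (f 1))).trans (add_zero _)⟩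
    · exact ⟨(0, p), (congrArg (· + f 1 p) (map_zero (f 0))).trans (zero_add _)⟩
  have hd0 := C.d_eq_zero ha hD hQ hQ0
  have hΦ0 := C.u1_Φ_zero ha hD hQ hQ0
  have hΦ := C.Φ_add ha hD hF (LinearMap.range F₀)
  rw [hΦ0, C.Φ_F ha hD] at hΦ
  have hd1 := C.d_sub_F ha hD (k - 1) (LinearMap.range F₀)
  have hd2 := C.d_F ha hD (k - 1) (by omega)
  obtain ⟨ψ, hψ⟩ := H.ext hM hF (LinearMap.range F₀).subtype
    ⟨by rw [Submodule.range_subtype]; exact hd0, by rw [hd1, hd2]; omega⟩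
    ((LinearMap.ker F₀).liftQ G₀ hker ∘ₗ (F₀.quotKerEquivRange.symm : _ →ₗ[C.A] _))
  refine ⟨ψ (C.one (k - 1)), by rw [← map_smul, C.e_one], by rw [← map_smul, C.σ_one], ?_⟩
  have h1 : F₀ (C.one k, 0) = C.ιB (xv κ (Sum.inl 0)) • C.one (k - 1) := by
    change f 0 (C.one k) + f 1 0 = _
    rw [map_zero, add_zero, hf]
  have h2 : G₀ (C.one k, 0) = x := by
    change g₁ (C.one k) + g₂ 0 = _
    rw [map_zero, add_zero, hg₁]
  have h3 := LinearMap.congr_fun hψ ⟨F₀ (C.one k, 0), LinearMap.mem_range_self _ _⟩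
  rw [LinearMap.comp_apply, LinearMap.comp_apply, LinearEquiv.coe_coe,
    LinearMap.quotKerEquivRange_symm_apply_image, Submodule.mkQ_apply, Submodule.liftQ_apply,
    h2] at h3
  rw [← map_smul, ← h1]
  exact h3.symm

theorem hull_isUl (H : Mach.IsHull (C.setup ha hD) (C.F 0) U u) : C.IsUl U (u (C.one 0)) := by
  have hO : (C.setup ha hD).Adm (C.F 0) := C.adm_F 0
  have h1 : (C.setup ha hD).d (C.F 0) = 1 := by simpa using C.d_F ha hD 0 (by norm_num)
  have h00 : (((a : ℤ) * 0, 0, 0) : Gam a) = 0 := by rw [mul_zero]; rfl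
  have hu0 : C.ul2Inv 0 (u (C.one 0)) :=
    ⟨by rw [← u.map_smul, C.e_one], by rw [← u.map_smul, C.σ_one]⟩
  have hev : ∀ c : Module.End C.A U, c (u (C.one 0)) = 0 → c = 0 := fun c hc =>
    H.end_eq_zero c (C.F_ext 0 _ hc)
  have hind : ∀ (k : ℕ) (c : ℕ → Module.End C.A U),
      ∑ i ∈ Finset.range (k + 1),
        c i (C.ιB (xv κ (Sum.inl 0) ^ i * xv κ (Sum.inl 1) ^ (k - i)) • u (C.one 0)) = 0 →
        ∀ i ≤ k, c i = 0 := by
    intro k c h i hi
    refine hev _ (ul2_indep (C := C)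
      (fun k hk x y hx hy h => ?_) (fun x hx => hull_neg H x hx.1 hx.2)
      (hull_var_inj H (Sum.inl 0) rfl) k (fun i => c i (u (C.one 0))) (fun i => hu0.map _) ?_ i hi)
    · obtain ⟨w, h1, h2, h3⟩ := hull_koszul H k hk x y hx.1 hx.2 hy.1 hy.2 h
      exact ⟨w, ⟨h1, h2⟩, h3⟩
    · rw [← h]
      exact Finset.sum_congr rfl fun i _ => ((c i).map_smul _ _).symm
  refine ⟨fun c hc => H.isUnit_of_ne_zero hO h1 c hc, h00 ▸ hu0.1, hu0.2, fun b hb => ?_, hev,
    fun x hx hx' => ?_, fun x hx hx' => ?_, hind,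
    ⟨fun x y h => sub_eq_zero.1 (hull_var_inj H (Sum.inr none) rfl _ ?_), hull_S_surj H⟩⟩
  · have hker : LinearMap.ker u = ⊥ := by
      by_contra hne
      have h0 := H.eq_zero ((C.setup ha hD).adm_quot hO (LinearMap.ker u))
        (C.d_quot_F ha hD 0 _ hne) ((LinearMap.ker u).liftQ u le_rfl)
      refine H.u_ne ?_
      rw [← (LinearMap.ker u).liftQ_mkQ u le_rfl, h0, LinearMap.zero_comp]
    refine C.F_smul_one_eq_zero 0 b ?_
    rw [← u.map_smul] at hb
    exact (LinearMap.ker_eq_bot'.1 hker) _ hb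
  · obtain ⟨f, hf⟩ := C.F_lift 0 x (h00 ▸ hx) hx'
    obtain ⟨c, hc⟩ := H.exists_end hO h1 f
    exact ⟨c, by rw [← hf, ← hc]; rfl⟩
  · by_contra hne
    have i0 := hu0.z 0
    have i1 := hu0.z 1
    rw [zero_add] at i0 i1
    obtain ⟨f0, hf0⟩ := C.F_lift 1 _ i0.1 i0.2
    obtain ⟨f1, hf1⟩ := C.F_lift 1 _ i1.1 i1.2
    obtain ⟨f2, hf2⟩ := C.F_lift 1 x (by rwa [mul_one]) hx'
    have h3 := H.card_le_d hO h1 (show (C.setup ha hD).Adm (C.F 1) from C.adm_F 1) 3
      ![f0, f1, f2] (fun c hc => ?_)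
    · rw [C.d_F ha hD 1 (by norm_num)] at h3
      norm_num at h3
    · have h4 := LinearMap.congr_fun hc (C.one 1)
      simp only [Fin.sum_univ_three, LinearMap.add_apply, LinearMap.comp_apply,
        Matrix.cons_val_zero, Matrix.cons_val_one, Matrix.cons_val_two, Matrix.head_cons,
        Matrix.tail_cons, hf0, hf1, hf2, LinearMap.zero_apply] at h4
      have h5 : c 2 = 0 := by
        by_contra h5
        obtain ⟨w, hw⟩ := H.isUnit_of_ne_zero hO h1 _ h5
        refine hne ⟨-((w⁻¹ : (Module.End C.A U)ˣ) * c 0), -((w⁻¹ : (Module.End C.A U)ˣ) * c 1), ?_⟩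
        have h6 : x = ((w⁻¹ : (Module.End C.A U)ˣ) : Module.End C.A U) (c 2 x) := by
          rw [← hw, ← Module.End.mul_apply, Units.inv_mul, Module.End.one_apply]
        rw [h6, eq_neg_of_add_eq_zero_right h4, map_neg, map_add, neg_add]
        rfl
      rw [h5, LinearMap.zero_apply, add_zero] at h4
      have h7 := hind 1 (fun i => if i = 0 then c 1 else c 0) (by
        rw [Finset.sum_range_succ, Finset.sum_range_one, add_comm]
        simpa using h4)
      intro i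
      fin_cases i
      · simpa using h7 1 le_rfl
      · simpa using h7 0 zero_le_one
      · exact h5
  · rw [smul_sub]
    exact sub_eq_zero.2 h

end Hull

theorem exists_ul (ha : 2 ≤ a) (hD : Div a D κ.ζ κ.Θ κ.T) :
    ∃ (U : Type) (_ : AddCommGroup U) (_ : Module C.A U) (u₀ : U), C.IsUl U u₀ := by
  obtain ⟨U, i1, i2, u, H⟩ := Mach.exists_hull (S := C.setup ha hD) (O := C.F 0) (C.adm_F 0)
    (by simpa using C.d_F ha hD 0 (by norm_num))
  exact ⟨U, i1, i2, _, hull_isUl H⟩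

/-- The dehomogenised action (`S_* ↦ 1`, `S_i ↦ S_*⁻¹ S_i`). -/
theorem exists_act {U : Type} [AddCommGroup U] [Module C.A U]
    (hb : Function.Bijective fun x : U => C.ιB (xv κ (Sum.inr none)) • x) :
    ∃ act : Br κ →+* Module.End ℤ U,
      (∀ (b : Br κ) (n : ℤ) (j : ℕ) (lam : ZMod a → ZMod a), Hom κ b (n, (j : ℤ), lam) →
        ∀ x, C.ιB (xv κ (Sum.inr none) ^ j) • act b x = C.ιB b • x) ∧
      (∀ b (c : Module.End C.A U) x, c (act b x) = act b (c x)) ∧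
      (∀ b d x, C.ιD d • act b x = act b (C.ιD d • x)) ∧
      (∀ b b' x, C.ιB b' • act b x = act b (C.ιB b' • x)) ∧
      (∀ b x, C.σ • act b x = act (σB κ b) (C.σ • x)) ∧
      (∀ (b : Br κ) (δ γ : Gam a), Hom κ b δ →
        ∀ x, C.e (γ + (δ.1, 0, δ.2.2)) • act b x = act b (C.e γ • x)) :=
  C.ul2_act hb

end Crest.Agent.R181.Mc.Ctx
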