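import Crest.Agent.R181.NCRel

/-! Row 181: the binding lemma inside a stage (task NCBindM). -/

set_option autoImplicit false

namespace Crest.Agent.R181

open MvPolynomial

namespace BindM

section general
variable {L D : Type} [Field L] [Ring D] [Algebra L D]

/-- `L`-linear combinations of a Manin family form a Manin family. -/
theorem manin_lin {ι α ν : Type} [Fintype ι] (c : ι → ν → D) (hc : Manin c) (m : α → ι → L) :
    Manin (fun (a : α) (k : ν) => ∑ i, m a i • c i k) := by
  intro a a' k k'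
  have key : ∀ (b b' : α), (∑ i, m b i • c i k) * (∑ i, m b' i • c i k') +
      (∑ i, m b i • c i k') * (∑ i, m b' i • c i k) =
      ∑ i, ∑ i', (m b i * m b' i') • (c i k * c i' k' + c i k' * c i' k) := by
    intro b b'
    simp only [Finset.sum_mul_sum, smul_mul_smul_comm, smul_add, Finset.sum_add_distrib]
  beta_reduce
  rw [key a a', key a' a, Finset.sum_comm]
  refine Finset.sum_congr rfl fun i _ => Finset.sum_congr rfl fun i' _ => ?_
  rw [hc i' i k k', mul_comm (m a i') (m a' i)]

/-- The composite forms `∑ ε, W s ε * lam ε k`. -/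
def comp {κ ν : Type} (W : κ → Fin 2 → D) (lam : Fin 2 → ν → D) (s : κ) (k : ν) : D :=
  ∑ ε, W s ε * lam ε k

theorem comp_sym {κ ν : Type} (W : κ → Fin 2 → D) (lam : Fin 2 → ν → D) (hl : Manin lam)
    (hW : ∀ s ε ε' k, Commute (lam ε' k) (W s ε)) (s s' : κ) (k k' : ν) :
    (2 : L) • (comp W lam s k * comp W lam s' k' + comp W lam s k' * comp W lam s' k) =
      ∑ ε, ∑ ε', (W s ε * W s' ε' + W s ε' * W s' ε) *
        (lam ε k * lam ε' k' + lam ε k' * lam ε' k) := by
  have h1 : ∀ k₁ k₂, comp W lam s k₁ * comp W lam s' k₂ =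
      ∑ ε, ∑ ε', W s ε * W s' ε' * (lam ε k₁ * lam ε' k₂) := by
    intro k₁ k₂
    simp only [comp, Finset.sum_mul_sum]
    refine Finset.sum_congr rfl fun ε _ => Finset.sum_congr rfl fun ε' _ => ?_
    rw [mul_assoc, ← mul_assoc (lam ε k₁), (hW s' ε' ε k₁).eq]
    simp only [mul_assoc]
  have h2 : comp W lam s k * comp W lam s' k' + comp W lam s k' * comp W lam s' k =
      ∑ ε, ∑ ε', W s ε * W s' ε' * (lam ε k * lam ε' k' + lam ε k' * lam ε' k) := by
    rw [h1, h1]
    simp only [mul_add, Finset.sum_add_distrib]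
  have h3 : ∑ ε, ∑ ε', W s ε * W s' ε' * (lam ε k * lam ε' k' + lam ε k' * lam ε' k) =
      ∑ ε, ∑ ε', W s ε' * W s' ε * (lam ε k * lam ε' k' + lam ε k' * lam ε' k) := by
    rw [Finset.sum_comm]
    refine Finset.sum_congr rfl fun ε _ => Finset.sum_congr rfl fun ε' _ => ?_
    rw [hl ε' ε k k']
  rw [two_smul, h2]
  simp only [add_mul, Finset.sum_add_distrib]
  rw [← h3]

theorem two_cancel (h2 : (2 : L) ≠ 0) {x y : D} (h : (2 : L) • x = (2 : L) • y) : x = y := by
  have := congrArg (fun z => (2 : L)⁻¹ • z) h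
  simpa only [smul_smul, inv_mul_cancel₀ h2, one_smul] using this

theorem manin_comp (h2 : (2 : L) ≠ 0) {κ ν : Type} (W : κ → Fin 2 → D) (hM : Manin W)
    (lam : Fin 2 → ν → D) (hl : Manin lam) (hW : ∀ s ε ε' k, Commute (lam ε' k) (W s ε)) :
    Manin (comp W lam) := by
  intro s s' k k'
  apply two_cancel h2
  rw [comp_sym W lam hl hW, comp_sym W lam hl hW]
  refine Finset.sum_congr rfl fun ε _ => Finset.sum_congr rfl fun ε' _ => ?_
  rw [hM s s' ε ε']

theorem rel2_le_comp (h2 : (2 : L) ≠ 0) {κ ν : Type} [Fintype κ] (W : κ → Fin 2 → D)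
    (lam : Fin 2 → ν → D) (hl : Manin lam) (hW : ∀ s ε ε' k, Commute (lam ε' k) (W s ε)) :
    rel2 L W ≤ rel2 L (comp W lam) := by
  refine Ideal.span_mono (Set.union_subset_union ?_ ?_)
  · rintro p ⟨t, ht, rfl⟩
    refine ⟨t, fun k => ?_, rfl⟩
    simp only [comp, Finset.smul_sum]
    rw [Finset.sum_comm]
    refine Finset.sum_eq_zero fun ε _ => ?_
    simp only [← smul_mul_assoc, ← Finset.sum_mul, ht ε, zero_mul]
  · rintro p ⟨q, hq, rfl⟩
    refine ⟨q, fun k k' => ?_, rfl⟩
    apply two_cancel h2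
    rw [smul_zero]
    simp only [Finset.smul_sum]
    have : ∀ s s', (2 : L) • q s s' •
        (comp W lam s k * comp W lam s' k' + comp W lam s k' * comp W lam s' k) =
        ∑ ε, ∑ ε', (q s s' • (W s ε * W s' ε' + W s ε' * W s' ε)) *
          (lam ε k * lam ε' k' + lam ε k' * lam ε' k) := by
      intro s s'
      rw [smul_comm, comp_sym W lam hl hW]
      simp only [Finset.smul_sum, smul_mul_assoc]
    simp only [this]
    calc ∑ s, ∑ s', ∑ ε, ∑ ε', (q s s' • (W s ε * W s' ε' + W s ε' * W s' ε)) *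
          (lam ε k * lam ε' k' + lam ε k' * lam ε' k)
        = ∑ ε, ∑ ε', (∑ s, ∑ s', q s s' • (W s ε * W s' ε' + W s ε' * W s' ε)) *
          (lam ε k * lam ε' k' + lam ε k' * lam ε' k) := by
          simp only [Finset.sum_mul, Fin.sum_univ_two, Finset.sum_add_distrib]
      _ = 0 := by simp only [hq, zero_mul, Finset.sum_const_zero]

/-- A linear substitution transports the relations. -/
theorem aeval_rel2 {α β ν : Type} [Fintype α] [Fintype β] (c' : β → ν → D) (m : α → β → L)
    (p : MvPolynomial α L) (hp : p ∈ rel2 L (fun (a : α) (k : ν) => ∑ b, m a b • c' b k)) :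
    aeval (fun a => lf (m a)) p ∈ rel2 L c' := by
  have : rel2 L (fun (a : α) (k : ν) => ∑ b, m a b • c' b k) ≤
      (rel2 L c').comap (aeval (fun a => lf (m a)) : MvPolynomial α L →ₐ[L] MvPolynomial β L) := by
    refine Ideal.span_le.2 ?_
    rintro p (⟨t, ht, rfl⟩ | ⟨q, hq, rfl⟩)
    · refine Ideal.subset_span (Or.inl ⟨fun b => ∑ a, t a * m a b, fun k => ?_, ?_⟩)
      · rw [← ht k]
        simp only [Finset.sum_smul, Finset.smul_sum, mul_smul]
        rw [Finset.sum_comm]
      · simp only [lf, map_sum, map_mul, algHom_C, aeval_X, algebraMap_eq, Finset.mul_sum,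
          Finset.sum_mul, mul_assoc]
        rw [Finset.sum_comm]
    · refine Ideal.subset_span (Or.inr ⟨fun b b' => ∑ a, ∑ a', q a a' * (m a b * m a' b'),
        fun k k' => ?_, ?_⟩)
      · rw [← hq k k']
        simp only [Finset.sum_smul, Finset.sum_mul_sum, smul_mul_smul_comm,
          ← Finset.sum_add_distrib, Finset.smul_sum, ← smul_add, smul_smul]
        calc _ = ∑ b, ∑ a, ∑ b', ∑ a', (q a a' * (m a b * m a' b')) •
              (c' b k * c' b' k' + c' b k' * c' b' k) :=
              Finset.sum_congr rfl fun b _ => Finset.sum_comm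
          _ = ∑ a, ∑ b, ∑ b', ∑ a', (q a a' * (m a b * m a' b')) •
              (c' b k * c' b' k' + c' b k' * c' b' k) := Finset.sum_comm
          _ = _ := Finset.sum_congr rfl fun a _ => by
              calc _ = ∑ b, ∑ a', ∑ b', (q a a' * (m a b * m a' b')) •
                  (c' b k * c' b' k' + c' b k' * c' b' k) :=
                  Finset.sum_congr rfl fun b _ => Finset.sum_comm
                _ = _ := Finset.sum_comm
      · simp only [lf, map_sum, map_mul, algHom_C, aeval_X, algebraMap_eq, Finset.sum_mul_sum]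
        simp only [Finset.mul_sum, Finset.sum_mul]
        symm
        calc _ = ∑ b, ∑ a, ∑ b', ∑ a', C (q a a') * (C (m a b) * C (m a' b')) *
              (X b * X b' : MvPolynomial β L) :=
              Finset.sum_congr rfl fun b _ => Finset.sum_comm
          _ = ∑ a, ∑ b, ∑ b', ∑ a', C (q a a') * (C (m a b) * C (m a' b')) *
              (X b * X b' : MvPolynomial β L) := Finset.sum_comm
          _ = _ := Finset.sum_congr rfl fun a _ => by
              calc _ = ∑ b, ∑ a', ∑ b', C (q a a') * (C (m a b) * C (m a' b')) *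
                  (X b * X b' : MvPolynomial β L) :=
                  Finset.sum_congr rfl fun b _ => Finset.sum_comm
                _ = ∑ a', ∑ b, ∑ b', C (q a a') * (C (m a b) * C (m a' b')) *
                  (X b * X b' : MvPolynomial β L) := Finset.sum_comm
                _ = _ := by
                  refine Finset.sum_congr rfl fun a' _ => Finset.sum_congr rfl fun b _ =>
                    Finset.sum_congr rfl fun b' _ => ?_
                  ring
  exact this hp

theorem aeval_bform {α β : Type} (σ : MvPolynomial α L →ₐ[L] MvPolynomial β L)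
    (φ : Polynomial L) (a : ℕ) (p q : MvPolynomial α L) :
    σ (bform φ a p q) = bform φ a (σ p) (σ q) := by
  unfold bform
  rw [← AlgHom.comp_apply, comp_aeval]
  congr 2
  funext i
  fin_cases i <;> rfl

theorem map_mem_radical {R S F : Type} [CommRing R] [CommRing S] [FunLike F R S]
    [RingHomClass F R S] (σ : F) {I : Ideal R} {J : Ideal S} (h : ∀ p ∈ I, σ p ∈ J) {p : R}
    (hp : p ∈ I.radical) : σ p ∈ J.radical := by
  obtain ⟨N, hN⟩ := hp
  exact ⟨N, by rw [← map_pow]; exact h _ hN⟩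

/-- The old forms together with the composite forms are Manin. -/
theorem manin_elim (h2 : (2 : L) ≠ 0) {ι κ ν : Type} [Fintype ι] (c : ι → ν → D)
    (hc : Manin c) (t : Fin 2 → ι → L) (w : κ → Fin 2 → D) (hw : Manin w)
    (hcw : ∀ s ε i k, Commute (c i k) (w s ε)) :
    Manin (Sum.elim c (comp w (fun ε k => ∑ i, t ε i • c i k))) := by
  classical
  set lam : Fin 2 → ν → D := fun ε k => ∑ i, t ε i • c i k with hlam
  have hl : Manin lam := manin_lin c hc t
  have hW : ∀ s ε ε' k, Commute (lam ε' k) (w s ε) := fun s ε ε' k =>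
    Commute.sum_left _ _ _ fun i _ => (hcw s ε i k).smul_left _
  have hmix : ∀ i ε k k', c i k * lam ε k' + c i k' * lam ε k =
      lam ε k * c i k' + lam ε k' * c i k := by
    intro i ε k k'
    simp only [hlam, Finset.mul_sum, Finset.sum_mul, mul_smul_comm, smul_mul_assoc,
      ← Finset.sum_add_distrib, ← smul_add]
    exact Finset.sum_congr rfl fun i' _ => by rw [hc i i' k k']
  have hmix' : ∀ i s k k', c i k * comp w lam s k' + c i k' * comp w lam s k =
      comp w lam s k * c i k' + comp w lam s k' * c i k := by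
    intro i s k k'
    simp only [comp, Finset.mul_sum, Finset.sum_mul, ← Finset.sum_add_distrib]
    refine Finset.sum_congr rfl fun ε _ => ?_
    rw [← mul_assoc, ← mul_assoc, (hcw s ε i k).eq, (hcw s ε i k').eq, mul_assoc, mul_assoc,
      mul_assoc, mul_assoc, ← mul_add, ← mul_add, hmix]
  rintro (i | s) (i' | s') k k'
  · exact hc i i' k k'
  · exact hmix' i s' k k'
  · exact (hmix' i' s k k').symm
  · exact manin_comp h2 w hw lam hl hW s s' k k'

end general

variable {n a : ℕ} {ζ : ℂ} (M : St n) (g : Gad M.A a ζ) (hc : ∀ i k, M.c i k ∈ g.toPair.cent)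
  (B : BindOut g) (l : Fin 2 → M.ι → M.A.L)

theorem two_ne (A : DA) : (2 : A.L) ≠ 0 := by
  have : CharZero A.L := charZero_of_injective_algebraMap (algebraMap ℂ A.L).injective
  exact two_ne_zero

/-- the old forms in the new skew field -/
noncomputable def c0 (i : M.ι) (k : Fin n) : B.A'.D := B.f.d ⟨M.c i k, hc i k⟩

theorem manin_c0 : Manin (c0 M g hc B) := by
  intro i i' k k'
  simp only [c0, ← map_mul, ← map_add]
  exact congrArg _ (Subtype.ext (M.manin i i' k k'))

/-- the two chosen linear forms -/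
noncomputable def lam (ε : Fin 2) (k : Fin n) : B.A'.D :=
  ∑ i, B.f.l (l ε i) • c0 M g hc B i k

/-- the new stage -/
noncomputable abbrev st : St n where
  A := B.A'
  ι := M.ι ⊕ B.κ
  c := Sum.elim (c0 M g hc B) (comp B.w (lam M g hc B l))
  manin := manin_elim (two_ne B.A') _ (manin_c0 M g hc B) (fun ε i => B.f.l (l ε i)) B.w
    (fun s s' => B.manin (Sum.inr s) (Sum.inr s')) (fun s ε _ _ => B.comm _ s ε)
  x := fun k => Sum.inl (M.x k)
  hx := by
    intro k
    funext k'
    change B.f.d ⟨M.c (M.x k) k', hc _ _⟩ = _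
    by_cases h : k' = k
    · subst h
      have : (⟨M.c (M.x k') k', hc _ _⟩ : g.toPair.cent) = 1 :=
        Subtype.ext (by simp [M.hx k'])
      rw [this, map_one, Pi.single_eq_same]
    · have : (⟨M.c (M.x k) k', hc _ _⟩ : g.toPair.cent) = 0 :=
        Subtype.ext (by simp [M.hx k, Pi.single_eq_of_ne h])
      rw [this, map_zero, Pi.single_eq_of_ne h]

/-- the matrix of the substitution -/
noncomputable def mat : Fin 2 ⊕ B.κ → M.ι ⊕ B.κ → B.A'.L :=
  Sum.elim (fun ε => Sum.elim (fun i => B.f.l (l ε i)) 0) (fun s => Pi.single (Sum.inr s) 1)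

/-- the substitution -/
noncomputable def sub :
    MvPolynomial (Fin 2 ⊕ B.κ) B.A'.L →ₐ[B.A'.L] MvPolynomial (M.ι ⊕ B.κ) B.A'.L :=
  aeval (fun s => lf (mat M g B l s))

theorem sub_inr (s : B.κ) : sub M g B l (X (Sum.inr s)) = X (Sum.inr s) := by
  rw [sub, aeval_X]
  exact lf_single _

theorem sub_inl (ε : Fin 2) :
    sub M g B l (X (Sum.inl ε)) = ∑ i, C (B.f.l (l ε i)) * X (Sum.inl i) := by
  rw [sub, aeval_X]
  simp [lf, mat, Fintype.sum_sum_type]

theorem push_lf_eq (ε : Fin 2) :
    push B.f.l (Sum.inl : M.ι → M.ι ⊕ B.κ) (lf (l ε)) = sub M g B l (X (Sum.inl ε)) := by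
  rw [sub_inl, lf, map_sum]
  simp only [map_mul, push_C, push_X]

theorem sub_rel (p : MvPolynomial (Fin 2 ⊕ B.κ) B.A'.L) (hp : p ∈ rel2 B.A'.L (binFam B.w)) :
    sub M g B l p ∈ (st M g hc B l).rel := by
  have hl : Manin (lam M g hc B l) :=
    manin_lin _ (manin_c0 M g hc B) (fun ε i => B.f.l (l ε i))
  have hW : ∀ s ε ε' k, Commute (lam M g hc B l ε' k) (binFam B.w s ε) := by
    rintro (ε₀ | s) ε ε' k
    · change Commute _ ((Pi.single ε₀ (1 : B.A'.D) : Fin 2 → B.A'.D) ε)
      by_cases h : ε = ε₀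
      · subst h; rw [Pi.single_eq_same]; exact Commute.one_right _
      · rw [Pi.single_eq_of_ne h]; exact Commute.zero_right _
    · exact Commute.sum_left _ _ _ fun i _ => (B.comm _ s ε).smul_left _
  have h1 := rel2_le_comp (two_ne B.A') (binFam B.w) _ hl hW hp
  have h2 : comp (binFam B.w) (lam M g hc B l) = fun s k => ∑ b, mat M g B l s b •
      Sum.elim (c0 M g hc B) (comp B.w (lam M g hc B l)) b k := by
    funext s k
    rcases s with ε | s
    · simp [comp, binFam, mat, Fintype.sum_sum_type, Pi.single_apply, lam]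
    · simp [comp, binFam, mat, Pi.single_apply]
  rw [h2] at h1
  exact aeval_rel2 _ _ p h1

/-- the extension to the new stage -/
noncomputable def ext : Ext M (st M g hc B l) g.toPair.cent where
  f := B.f
  hc := hc
  e := Sum.inl
  he := fun _ _ => rfl
  hx := fun _ => rfl
  fib := by
    rintro (i | s)
    · exact Ideal.le_radical (Ideal.mem_sup_right (Ideal.subset_span ⟨i, rfl⟩))
    · have h := B.fib s
      rw [← sub_inr M g B l s]
      refine map_mem_radical (sub M g B l) (fun p hp => ?_) h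
      obtain ⟨p₁, hp₁, p₂, hp₂, rfl⟩ := Submodule.mem_sup.1 hp
      rw [map_add]
      refine Ideal.add_mem _ (Ideal.mem_sup_left (sub_rel M g hc B l p₁ hp₁))
        (Ideal.mem_sup_right ?_)
      have hX : ∀ ε, sub M g B l (X (Sum.inl ε)) ∈ Ideal.span
          (Set.range fun i : M.ι => (X (Sum.inl i) : MvPolynomial (M.ι ⊕ B.κ) B.A'.L)) := by
        intro ε
        rw [sub_inl]
        exact Ideal.sum_mem _ fun i _ => Ideal.mul_mem_left _ _ (Ideal.subset_span ⟨i, rfl⟩)
      obtain ⟨u, v, rfl⟩ := Ideal.mem_span_pair.1 hp₂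
      rw [map_add, map_mul, map_mul]
      exact Ideal.add_mem _ (Ideal.mul_mem_left _ _ (hX 0)) (Ideal.mul_mem_left _ _ (hX 1))
  hcomm := by
    intro z hz
    have h0 : ∀ i k, Commute (B.f.d z) (c0 M g hc B i k) := fun i k =>
      Commute.map (show Commute z ⟨M.c i k, hc i k⟩ from Subtype.ext (hz i k).eq) B.f.d
    rintro (i | s) k
    · exact h0 i k
    · have h1 : ∀ ε, Commute (B.f.d z) (lam M g hc B l ε k) := fun ε =>
        Commute.sum_right _ _ _ fun i _ => (h0 i k).smul_right (B.f.l (l ε i))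
      change Commute (B.f.d z) (∑ ε, B.w s ε * lam M g hc B l ε k)
      exact Commute.sum_right _ _ _ fun ε _ => (B.comm z s ε).mul_right (h1 ε)

end BindM

/-- Apply the binding lemma to two linear forms `l, l'` of a stage.
New stage: `ι' = ι ⊕ κ`, `c' (inl i) k = d (c i k)`,
`c' (inr s) k = w s 0 * d (λ k) + w s 1 * d (λ' k)` with `λ k = ∑ i, l i • c i k`,
`λ' k = ∑ i, l' i • c i k`; `y = Pi.single (inr B.y) 1`.  The substitution
`X (inl 0) ↦ push (lf l)`, `X (inl 1) ↦ push (lf l')`, `X (inr s) ↦ X (inr s)` maps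
`rel2 (binFam w)` into the relations of the new stage. -/
theorem bind_model {n a : ℕ} {ζ : ℂ} {P : DA → Prop} (hB : BindStmt P a ζ) (M : St n)
    (hM : P M.A) (g : Gad M.A a ζ) (hc : ∀ i k, M.c i k ∈ g.toPair.cent)
    (l l' : M.ι → M.A.L) :
    ∃ (M' : St n) (E : Ext M M' g.toPair.cent) (y : M'.ι → M'.A.L), P M'.A ∧
      lf y ^ a - push E.f.l E.e (C g.T * bform g.φ a (lf l) (lf l')) ∈ M'.rel.radical := by
  obtain ⟨B, hP⟩ := hB M.A hM g
  refine ⟨BindM.st M g hc B ![l, l'], BindM.ext M g hc B ![l, l'],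
    Pi.single (Sum.inr B.y) 1, hP, ?_⟩
  have h := BindM.map_mem_radical (BindM.sub M g B ![l, l'])
    (BindM.sub_rel M g hc B ![l, l']) B.rel
  rw [map_sub, map_pow, map_mul, BindM.sub_inr, BindM.aeval_bform, algHom_C, algebraMap_eq,
    ← BindM.push_lf_eq, ← BindM.push_lf_eq] at h
  have h1 : lf (Pi.single (Sum.inr B.y) (1 : B.A'.L) : M.ι ⊕ B.κ → B.A'.L) = X (Sum.inr B.y) :=
    lf_single _
  have h2 : push B.f.l (Sum.inl : M.ι → M.ι ⊕ B.κ) (C g.T * bform g.φ a (lf l) (lf l')) =
      C (B.f.l g.T) * bform (g.φ.map (B.f.l : M.A.L →+* B.A'.L)) a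
        (push B.f.l (Sum.inl : M.ι → M.ι ⊕ B.κ) (lf l))
        (push B.f.l (Sum.inl : M.ι → M.ι ⊕ B.κ) (lf l')) := by
    rw [map_mul, push_C, push_bform]
  change lf (Pi.single (Sum.inr B.y) (1 : B.A'.L) : M.ι ⊕ B.κ → B.A'.L) ^ a -
    push B.f.l (Sum.inl : M.ι → M.ι ⊕ B.κ) (C g.T * bform g.φ a (lf l) (lf l')) ∈ _
  rw [h1, h2]
  exact h

end Crest.Agent.R181
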