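import Crest.Agent.R181.NCDefs

/-! Row 181: the algebra of `ζ`-commuting elements used in `NCHub`. -/

set_option autoImplicit false

namespace Crest.Agent.R181

section qc
variable {L D : Type} [Field L] [DivisionRing D] [Algebra L D]

/-- `x y = z ^ e y x`. -/
def QC (z : L) (e : ℤ) (x y : D) : Prop := x * y = z ^ e • (y * x)

theorem qc_zero_iff {z : L} {x y : D} : QC z 0 x y ↔ Commute x y := by
  simp [QC, Commute, SemiconjBy]

theorem qc_one_iff {z : L} {x y : D} : QC z 1 x y ↔ x * y = z • (y * x) := by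
  simp [QC]

theorem QC.of_eq {z : L} {e e' : ℤ} {x y : D} (h : QC z e x y) (he : e = e') : QC z e' x y :=
  he ▸ h

theorem QC.mul_left {z : L} (hz : z ≠ 0) {e e' : ℤ} {x x' y : D} (h : QC z e x y)
    (h' : QC z e' x' y) : QC z (e + e') (x * x') y := by
  unfold QC at *
  rw [mul_assoc, h', mul_smul_comm, ← mul_assoc, h, smul_mul_assoc, smul_smul, zpow_add₀ hz,
    mul_comm (z ^ e'), mul_assoc]

theorem QC.symm {z : L} (hz : z ≠ 0) {e : ℤ} {x y : D} (h : QC z e x y) : QC z (-e) y x := by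
  unfold QC at *
  rw [h, smul_smul, ← zpow_add₀ hz, neg_add_cancel, zpow_zero, one_smul]

theorem QC.mul_right {z : L} (hz : z ≠ 0) {e e' : ℤ} {x y y' : D} (h : QC z e x y)
    (h' : QC z e' x y') : QC z (e + e') x (y * y') :=
  (((h.symm hz).mul_left hz (h'.symm hz)).symm hz).of_eq (by ring)

theorem QC.inv_left {z : L} (hz : z ≠ 0) {e : ℤ} {x y : D} (h : QC z e x y) :
    QC z (-e) x⁻¹ y := by
  by_cases hx : x = 0
  · simp [QC, hx]
  have h2 := h.symm hz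
  unfold QC at *
  calc x⁻¹ * y = x⁻¹ * (y * x) * x⁻¹ := by
        rw [mul_assoc, mul_assoc, mul_inv_cancel₀ hx, mul_one]
    _ = z ^ (-e) • (y * x⁻¹) := by
        rw [h2, mul_smul_comm, smul_mul_assoc, ← mul_assoc, inv_mul_cancel₀ hx, one_mul]

theorem QC.inv_right {z : L} (hz : z ≠ 0) {e : ℤ} {x y : D} (h : QC z e x y) :
    QC z (-e) x y⁻¹ :=
  (((h.symm hz).inv_left hz).symm hz).of_eq (by ring)

theorem QC.neg_left {z : L} {e : ℤ} {x y : D} (h : QC z e x y) : QC z e (-x) y := by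
  unfold QC at *
  rw [neg_mul, h, mul_neg, smul_neg]

theorem QC.neg_right {z : L} {e : ℤ} {x y : D} (h : QC z e x y) : QC z e x (-y) := by
  unfold QC at *
  rw [mul_neg, h, neg_mul, smul_neg]

theorem QC.refl (z : L) (x : D) : QC z 0 x x := qc_zero_iff.2 (Commute.refl x)

theorem QC.pow_right {z : L} (hz : z ≠ 0) {x y : D} (h : QC z 1 x y) (k : ℕ) :
    QC z k x (y ^ k) := by
  induction k with
  | zero => simp [QC]
  | succ k ih => rw [pow_succ]; exact (ih.mul_right hz h).of_eq (by push_cast; ring)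

/-- the `q`-power rule -/
theorem QC.mul_pow {z : L} (hz : z ≠ 0) {x y : D} (h : QC z 1 y x) (k : ℕ) :
    (x * y) ^ k = z ^ (k.choose 2) • (x ^ k * y ^ k) := by
  induction k with
  | zero => simp
  | succ k ih =>
    have h1 : y * x ^ k = z ^ k • (x ^ k * y) := by
      have := h.pow_right hz k
      unfold QC at this
      rwa [zpow_natCast] at this
    have h2 : (k + 1).choose 2 = k.choose 2 + k := by
      rw [Nat.choose_succ_succ' k 1, Nat.choose_one_right, add_comm]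
    rw [pow_succ', ih, mul_smul_comm, h2, pow_add, mul_smul]
    congr 1
    calc x * y * (x ^ k * y ^ k) = x * (y * x ^ k) * y ^ k := by simp only [mul_assoc]
      _ = z ^ k • (x ^ (k + 1) * y ^ (k + 1)) := by
        rw [h1, mul_smul_comm, smul_mul_assoc, pow_succ', pow_succ']
        simp only [mul_assoc]

/-- a product of pairwise commuting elements -/
theorem exists_qc_prod {z : L} (hz : z ≠ 0) (a : ℕ) : ∀ (N : ℕ) (θ : Fin N → D) (Θ : Fin N → L),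
    (∀ m m', Commute (θ m) (θ m')) → (∀ m, θ m ^ a = algebraMap L D (Θ m)) →
    ∃ Q : D, Q ^ a = algebraMap L D (∏ m, Θ m) ∧
      ∀ (x : D) (e : Fin N → ℤ), (∀ m, QC z (e m) x (θ m)) → QC z (∑ m, e m) x Q := by
  intro N
  induction N with
  | zero =>
    intro θ Θ _ _
    exact ⟨1, by simp, fun x e _ => by simp [QC]⟩
  | succ N ih =>
    intro θ Θ hc hp
    obtain ⟨Q, hQ, hQ'⟩ := ih (fun m => θ m.castSucc) (fun m => Θ m.castSucc)
      (fun m m' => hc _ _) (fun m => hp _)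
    have hcom : Commute (θ (Fin.last N)) Q := by
      have := hQ' (θ (Fin.last N)) (fun _ => 0) (fun m => qc_zero_iff.2 (hc _ _))
      rw [Finset.sum_const_zero] at this
      exact qc_zero_iff.1 this
    refine ⟨Q * θ (Fin.last N), ?_, fun x e he => ?_⟩
    · rw [hcom.symm.mul_pow, hQ, hp, Fin.prod_univ_castSucc, map_mul]
    · rw [Fin.sum_univ_castSucc]
      exact (hQ' x (fun m => e m.castSucc) (fun m => he _)).mul_right hz (he _)

end qc

theorem primRoot_pow_choose {a : ℕ} {ζ : ℂ} (ha : 2 ≤ a) (hζ : IsPrimitiveRoot ζ a) :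
    ζ ^ (a.choose 2) = (-1) ^ (a + 1) := by
  rcases Nat.even_or_odd' a with ⟨k, rfl | rfl⟩
  · have hk : 0 < k := by omega
    have h1 : ζ ^ k = -1 := by
      have := hζ.pow (by omega : 0 < 2 * k) (by ring : 2 * k = k * 2)
      exact this.eq_neg_one_of_two_right
    have h2 : (2 * k).choose 2 = k * (2 * k - 1) := by
      rw [Nat.choose_two_right, mul_assoc, Nat.mul_div_cancel_left _ (by norm_num)]
    have h3 : Odd (2 * k - 1) := ⟨k - 1, by omega⟩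
    have h4 : Odd (2 * k + 1) := ⟨k, rfl⟩
    rw [h2, pow_mul, h1, h3.neg_one_pow, h4.neg_one_pow]
  · have h2 : (2 * k + 1).choose 2 = (2 * k + 1) * k := by
      rw [Nat.choose_two_right, Nat.add_sub_cancel, mul_left_comm,
        Nat.mul_div_cancel_left _ (by norm_num)]
    have h3 : Even (2 * k + 1 + 1) := ⟨k + 1, by ring⟩
    rw [h2, pow_mul, hζ.pow_eq_one, one_pow, h3.neg_one_pow]

theorem Gad.exists_twist {A : DA} {a : ℕ} {ζ : ℂ} (g : Gad A a ζ) (u' : A.D) (T' : A.L)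
    (hT' : T' ≠ 0) (hu' : u' ^ a = algebraMap A.L A.D T')
    (hc : QC (algebraMap ℂ A.L ζ) 1 u' g.θ) :
    ∃ g' : Gad A a ζ, g'.u = u' ∧ g'.θ = g.θ ∧ g'.T = T' ∧ g'.φ = g.φ :=
  ⟨{ u := u', θ := g.θ, T := T', Θ := g.Θ, hT := hT', hΘ := g.hΘ, hu := hu', hθ := g.hθ,
     hc := qc_one_iff.1 hc, b := g.b, φ := g.φ, monic := g.monic, deg := g.deg,
     root := g.root, inj := g.inj }, rfl, rfl, rfl, rfl⟩

/-- The change of generators of the inductive step of `hub_bind`. -/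
theorem hub_alg {A : DA} {a N : ℕ} {ζ : ℂ} (ha : 2 ≤ a) (hζ : IsPrimitiveRoot ζ a)
    (g : Fin (N + 1) → Gad A a ζ) (hg : HubRel g) (p : Pair A a ζ)
    (hp : ∀ m, (Commute (g m).u p.u ∧ Commute (g m).u p.θ) ∧
      (Commute (g m).θ p.u ∧ Commute (g m).θ p.θ)) :
    ∃ (g' : Fin N → Gad A a ζ) (gN : Gad A a ζ) (q : Pair A a ζ), HubRel g' ∧
      (∀ m, (g' m).φ = (g m.castSucc).φ) ∧ gN.φ = (g (Fin.last N)).φ ∧
      q.T * gN.T = (g (Fin.last N)).T ∧
      (∀ m, -(q.T * q.Θ * (g' m).T) = (g m.castSucc).T) ∧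
      (∀ m, Commute gN.u (g' m).u ∧ Commute gN.u (g' m).θ) ∧
      (∀ m, Commute gN.θ (g' m).u ∧ Commute gN.θ (g' m).θ) ∧
      (∀ m, Commute q.u (g' m).u ∧ Commute q.u (g' m).θ) ∧
      (∀ m, Commute q.θ (g' m).u ∧ Commute q.θ (g' m).θ) ∧
      (Commute q.u gN.u ∧ Commute q.u gN.θ) ∧ (Commute q.θ gN.u ∧ Commute q.θ gN.θ) ∧
      ∀ x : A.D, (∀ m, Commute x (g m).u ∧ Commute x (g m).θ) → Commute x p.u → Commute x p.θ →
        (∀ m, Commute x (g' m).u ∧ Commute x (g' m).θ) ∧ (Commute x gN.u ∧ Commute x gN.θ) ∧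
          (Commute x q.u ∧ Commute x q.θ) := by
  classical
  obtain ⟨hg1, hg2, hg3⟩ := hg
  set z : A.L := algebraMap ℂ A.L ζ with hzdef
  have hz : z ≠ 0 := by
    rw [hzdef]
    exact (map_ne_zero _).2 (hζ.ne_zero (by omega))
  have hzc : z ^ (a.choose 2) = (-1) ^ (a + 1) := by
    rw [hzdef, ← map_pow, primRoot_pow_choose ha hζ, map_pow, map_neg, map_one]
  obtain ⟨Q, hQ, hQ'⟩ := exists_qc_prod hz a N (fun m => (g m.castSucc).θ)
    (fun m => (g m.castSucc).Θ) (fun m m' => hg3 _ _) (fun m => (g m.castSucc).hθ)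
  have hQ0 : ∀ x : A.D, (∀ m : Fin N, Commute x (g m.castSucc).θ) → QC z 0 x Q := by
    intro x hx
    have := hQ' x (fun _ => 0) (fun m => qc_zero_iff.2 (hx m))
    rwa [Finset.sum_const_zero] at this
  have huθ : ∀ m, QC z 1 (g m).u (g m).θ := fun m => qc_one_iff.2 (g m).hc
  have hQu : ∀ m : Fin N, QC z 1 (g m.castSucc).u Q := by
    intro m
    have := hQ' (g m.castSucc).u (fun m' => if m' = m then 1 else 0) (fun m' => by
      by_cases h : m' = m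
      · subst h; simpa using huθ _
      · simp only [h, if_false]
        exact qc_zero_iff.2 (hg2 _ _ (fun h' => h (Fin.castSucc_injective _ h').symm)))
    simpa using this
  set θN := (g (Fin.last N)).θ with hθN
  set G : A.D := p.u * Q⁻¹ with hG
  set Th : A.D := p.θ * (Q * θN) with hTh
  set H : A.D := Th * G with hH
  have key : ∀ (x : A.D) (α β γ δ : ℤ), QC z α x p.u → QC z β x p.θ → QC z γ x Q →
      QC z δ x θN → QC z (α - γ) x G ∧ QC z (β + γ + δ) x Th ∧ QC z (α + β + δ) x H := by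
    intro x α β γ δ h1 h2 h3 h4
    have e1 : QC z (α - γ) x G := (h1.mul_right hz (h3.inv_right hz)).of_eq (by ring)
    have e2 : QC z (β + γ + δ) x Th := (h2.mul_right hz (h3.mul_right hz h4)).of_eq (by ring)
    exact ⟨e1, e2, (e2.mul_right hz e1).of_eq (by ring)⟩
  have hne : ∀ m : Fin N, m.castSucc ≠ Fin.last N := fun m => (Fin.castSucc_lt_last m).ne
  have kum : ∀ m : Fin N, QC z (-1) (g m.castSucc).u G ∧ QC z 1 (g m.castSucc).u Th ∧
      QC z 0 (g m.castSucc).u H := by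
    intro m
    obtain ⟨h1, h2, h3⟩ := key (g m.castSucc).u 0 0 1 0 (qc_zero_iff.2 (hp _).1.1)
      (qc_zero_iff.2 (hp _).1.2) (hQu m) (qc_zero_iff.2 (hg2 _ _ (hne m)))
    exact ⟨h1.of_eq (by ring), h2.of_eq (by ring), h3.of_eq (by ring)⟩
  have kuN : QC z 0 (g (Fin.last N)).u G ∧ QC z 1 (g (Fin.last N)).u Th ∧
      QC z 1 (g (Fin.last N)).u H := by
    obtain ⟨h1, h2, h3⟩ := key (g (Fin.last N)).u 0 0 0 1 (qc_zero_iff.2 (hp _).1.1)
      (qc_zero_iff.2 (hp _).1.2) (hQ0 _ (fun m => hg2 _ _ (hne m).symm)) (huθ _)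
    exact ⟨h1.of_eq (by ring), h2.of_eq (by ring), h3.of_eq (by ring)⟩
  have k0 : ∀ x : A.D, Commute x p.u → Commute x p.θ → (∀ m, Commute x (g m).θ) →
      QC z 0 x G ∧ QC z 0 x Th ∧ QC z 0 x H := by
    intro x h1 h2 h3
    obtain ⟨h1, h2, h3⟩ := key x 0 0 0 0 (qc_zero_iff.2 h1) (qc_zero_iff.2 h2)
      (hQ0 _ (fun m => h3 _)) (qc_zero_iff.2 (h3 _))
    exact ⟨h1.of_eq (by ring), h2.of_eq (by ring), h3.of_eq (by ring)⟩
  have kθ : ∀ m, QC z 0 (g m).θ G ∧ QC z 0 (g m).θ Th ∧ QC z 0 (g m).θ H :=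
    fun m => k0 _ (hp m).2.1 (hp m).2.2 (fun m' => hg3 _ _)
  have hQpu : QC z 0 p.u Q := hQ0 _ (fun m => (hp _).2.1.symm)
  have hQpθ : QC z 0 p.θ Q := hQ0 _ (fun m => (hp _).2.2.symm)
  have hQθN : QC z 0 θN Q := hQ0 _ (fun m => hg3 _ _)
  have hpp : QC z 1 p.u p.θ := qc_one_iff.2 p.hc
  have kpu : QC z 1 p.u Th ∧ QC z 1 p.u H := by
    obtain ⟨-, h2, h3⟩ := key p.u 0 1 0 0 (QC.refl _ _) hpp hQpu
      (qc_zero_iff.2 (hp _).2.1.symm)
    exact ⟨h2.of_eq (by ring), h3.of_eq (by ring)⟩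
  have kpθ : QC z (-1) p.θ H := by
    obtain ⟨-, -, h3⟩ := key p.θ (-1) 0 0 0 (hpp.symm hz) (QC.refl _ _) hQpθ
      (qc_zero_iff.2 (hp _).2.2.symm)
    exact h3.of_eq (by ring)
  have kQ : QC z 0 Q Th ∧ QC z 0 Q H := by
    obtain ⟨-, h2, h3⟩ := key Q 0 0 0 0 ((hQpu.symm hz).of_eq (by ring))
      ((hQpθ.symm hz).of_eq (by ring)) (QC.refl _ _) ((hQθN.symm hz).of_eq (by ring))
    exact ⟨h2.of_eq (by ring), h3.of_eq (by ring)⟩
  have hGTh : QC z 1 G Th := (kpu.1.mul_left hz (kQ.1.inv_left hz)).of_eq (by ring)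
  have hGH : QC z 1 G H := (kpu.2.mul_left hz (kQ.2.inv_left hz)).of_eq (by ring)
  have hThH : QC z (-1) Th H :=
    (kpθ.mul_left hz (kQ.2.mul_left hz (kθ (Fin.last N)).2.2)).of_eq (by ring)
  -- powers
  set Θp : A.L := ∏ m : Fin N, (g m.castSucc).Θ with hΘp
  have hΘp0 : Θp ≠ 0 := Finset.prod_ne_zero_iff.2 (fun m _ => (g _).hΘ)
  set Ts : A.L := p.T * Θp⁻¹ with hTs
  set δ : A.L := p.Θ * (Θp * (g (Fin.last N)).Θ) with hδ
  have hTs0 : Ts ≠ 0 := mul_ne_zero p.hT (inv_ne_zero hΘp0)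
  have hδ0 : δ ≠ 0 := mul_ne_zero p.hΘ (mul_ne_zero hΘp0 (g _).hΘ)
  have hGa : G ^ a = algebraMap A.L A.D Ts := by
    rw [hG, (qc_zero_iff.1 hQpu).inv_right₀.mul_pow, inv_pow, hQ, p.hu, hTs, map_mul, map_inv₀]
  have hTha : Th ^ a = algebraMap A.L A.D δ := by
    rw [hTh, ((qc_zero_iff.1 hQpθ).mul_right (hp _).2.2.symm).mul_pow,
      (qc_zero_iff.1 hQθN).symm.mul_pow, hQ, p.hθ, (g _).hθ, hδ, map_mul, map_mul]
  have hHa : H ^ a = algebraMap A.L A.D ((-1) ^ (a + 1) * (δ * Ts)) := by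
    rw [hH, hGTh.mul_pow hz, hGa, hTha, hzc, ← map_mul, Algebra.smul_def, ← map_mul]
  have hsg : ((-1 : A.L)) ^ a ≠ 0 := pow_ne_zero _ (neg_ne_zero.2 one_ne_zero)
  have hH0 : ((-1 : A.L)) ^ (a + 1) * (δ * Ts) ≠ 0 :=
    mul_ne_zero (pow_ne_zero _ (neg_ne_zero.2 one_ne_zero)) (mul_ne_zero hδ0 hTs0)
  -- the new gadgets
  have hex : ∀ m : Fin N, ∃ g' : Gad A a ζ, g'.u = -((g m.castSucc).u * H⁻¹) ∧
      g'.θ = (g m.castSucc).θ ∧
      g'.T = (-1) ^ a * ((g m.castSucc).T * ((-1) ^ (a + 1) * (δ * Ts))⁻¹) ∧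
      g'.φ = (g m.castSucc).φ := by
    intro m
    refine (g m.castSucc).exists_twist _ _
      (mul_ne_zero hsg (mul_ne_zero (g _).hT (inv_ne_zero hH0))) ?_ ?_
    · rw [neg_pow, (qc_zero_iff.1 (kum m).2.2).inv_right₀.mul_pow, inv_pow, hHa, (g _).hu,
        ← map_inv₀, ← map_mul, map_mul _ ((-1 : A.L) ^ a), map_pow, map_neg, map_one]
    · exact (((huθ _).mul_left hz (((kθ _).2.2.symm hz).inv_left hz)).neg_left).of_eq (by ring)
  choose g' hg'u hg'θ hg'T hg'φ using hex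
  obtain ⟨gN, hNu, hNθ, hNT, hNφ⟩ := (g (Fin.last N)).exists_twist
    ((g (Fin.last N)).u * G⁻¹) ((g (Fin.last N)).T * Ts⁻¹)
    (mul_ne_zero (g _).hT (inv_ne_zero hTs0))
    (by rw [(qc_zero_iff.1 kuN.1).inv_right₀.mul_pow, inv_pow, hGa, (g _).hu, ← map_inv₀,
      ← map_mul])
    (((huθ _).mul_left hz (((kθ _).1.symm hz).inv_left hz)).of_eq (by ring))
  let q : Pair A a ζ :=
    { u := G, θ := Th, T := Ts, Θ := δ, hT := hTs0, hΘ := hδ0, hu := hGa, hθ := hTha,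
      hc := qc_one_iff.1 hGTh }
  -- commutation with `u' m`
  have ku' : ∀ (x : A.D) (m : Fin N) (α β : ℤ), QC z α x (g m.castSucc).u → QC z β x H →
      QC z (α - β) x (g' m).u := by
    intro x m α β h1 h2
    rw [hg'u]
    exact ((h1.mul_right hz (h2.inv_right hz)).neg_right).of_eq (by ring)
  have kuN' : ∀ (x : A.D) (α β : ℤ), QC z α x (g (Fin.last N)).u → QC z β x G →
      QC z (α - β) x gN.u := by
    intro x α β h1 h2
    rw [hNu]
    exact (h1.mul_right hz (h2.inv_right hz)).of_eq (by ring)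
  have hGu' : ∀ m, QC z 0 G (g' m).u := fun m =>
    (ku' G m _ _ ((kum m).1.symm hz) hGH).of_eq (by ring)
  have hThu' : ∀ m, QC z 0 Th (g' m).u := fun m =>
    (ku' Th m _ _ ((kum m).2.1.symm hz) hThH).of_eq (by ring)
  have hHu' : ∀ m, QC z 0 H (g' m).u := fun m =>
    (ku' H m _ _ ((kum m).2.2.symm hz) (QC.refl _ _)).of_eq (by ring)
  have hθu' : ∀ (m : Fin N) (m' : Fin (N + 1)), m.castSucc ≠ m' → QC z 0 (g m').θ (g' m).u :=
    fun m m' h => (ku' _ m 0 0 (qc_zero_iff.2 (hg2 _ _ h).symm) (kθ _).2.2).of_eq (by ring)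
  refine ⟨g', gN, q, ⟨?_, ?_, ?_⟩, hg'φ, hNφ, ?_, ?_, ?_, ?_, ?_, ?_, ?_, ?_, ?_⟩
  · intro m m' h
    have h1 : QC z 1 (g m'.castSucc).u (g' m).u :=
      (ku' _ m 1 0 (qc_one_iff.2 (hg1 _ _ (Fin.castSucc_lt_castSucc_iff.2 h)))
        (kum m').2.2).of_eq (by ring)
    have h2 := (ku' (g' m).u m' _ _ (h1.symm hz) ((hHu' m).symm hz)).symm hz
    exact qc_one_iff.1 (h2.of_eq (by ring))
  · intro m m' h
    rw [hg'θ]
    exact (qc_zero_iff.1 (hθu' m _ (fun h' => h (Fin.castSucc_injective _ h')))).symm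
  · intro m m'
    rw [hg'θ, hg'θ]
    exact hg3 _ _
  · change Ts * gN.T = _
    rw [hNT]
    field_simp
  · intro m
    change -(Ts * δ * (g' m).T) = _
    rw [hg'T, pow_succ]
    field_simp
  · intro m
    have h1 : QC z 0 (g (Fin.last N)).u (g' m).u :=
      (ku' _ m 1 1 (qc_one_iff.2 (hg1 _ _ (Fin.castSucc_lt_last m))) kuN.2.2).of_eq (by ring)
    refine ⟨(qc_zero_iff.1 ((kuN' _ _ _ (h1.symm hz) ((hGu' m).symm hz)).of_eq (by ring))).symm,
      ?_⟩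
    rw [hg'θ]
    exact (qc_zero_iff.1 ((kuN' _ 0 0 (qc_zero_iff.2 (hg2 _ _ (hne m).symm).symm)
      (kθ _).1).of_eq (by ring))).symm
  · intro m
    rw [hNθ, hg'θ]
    exact ⟨qc_zero_iff.1 (hθu' m _ (hne m)), hg3 _ _⟩
  · intro m
    rw [hg'θ]
    exact ⟨qc_zero_iff.1 (hGu' m), (qc_zero_iff.1 (kθ _).1).symm⟩
  · intro m
    rw [hg'θ]
    exact ⟨qc_zero_iff.1 (hThu' m), (qc_zero_iff.1 (kθ _).2.1).symm⟩
  · rw [hNθ]
    exact ⟨qc_zero_iff.1 ((kuN' G _ _ (kuN.1.symm hz) (QC.refl _ _)).of_eq (by ring)),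
      (qc_zero_iff.1 (kθ _).1).symm⟩
  · rw [hNθ]
    exact ⟨qc_zero_iff.1 ((kuN' Th _ _ (kuN.2.1.symm hz) (hGTh.symm hz)).of_eq (by ring)),
      (qc_zero_iff.1 (kθ _).2.1).symm⟩
  · intro x hx h1 h2
    obtain ⟨e1, e2, e3⟩ := k0 x h1 h2 (fun m => (hx m).2)
    refine ⟨fun m => ⟨qc_zero_iff.1 ((ku' x m 0 0 (qc_zero_iff.2 (hx _).1) e3).of_eq (by ring)),
      ?_⟩, ⟨qc_zero_iff.1 ((kuN' x 0 0 (qc_zero_iff.2 (hx _).1) e1).of_eq (by ring)), ?_⟩,
      qc_zero_iff.1 e1, qc_zero_iff.1 e2⟩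
    · rw [hg'θ]; exact (hx _).2
    · rw [hNθ]; exact (hx _).2

theorem anchor_NCHubAux : True := by
  have := @QC.eq_1
  trivial

end Crest.Agent.R181
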