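import Crest.Agent.R181.NCBindM
import Crest.Agent.R181.NCHubAux

/-! Row 181: binding a sum of `N` binary terms (task NCHub). -/

set_option autoImplicit false

namespace Crest.Agent.R181

open MvPolynomial

theorem PHom.commute_map {A A' : DA} {C : Subalgebra A.L A.D} (f : DA.PHom A A' C)
    {x y : A.D} (hx : x ∈ C) (hy : y ∈ C) (h : Commute x y) :
    Commute (f.d ⟨x, hx⟩) (f.d ⟨y, hy⟩) := by
  have : Commute (⟨x, hx⟩ : C) ⟨y, hy⟩ := Subtype.ext h.eq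
  exact this.map f.d

theorem PHom.map_smul {A A' : DA} {C : Subalgebra A.L A.D} (f : DA.PHom A A' C)
    (r : A.L) (x : C) : f.d (r • x) = f.l r • f.d x := by
  rw [Algebra.smul_def, map_mul, f.hl, Algebra.smul_def]

theorem Pair.mem_cent {A : DA} {a : ℕ} {ζ : ℂ} (p : Pair A a ζ) (x : A.D) :
    x ∈ p.cent ↔ Commute p.u x ∧ Commute p.θ x := by
  simp [Pair.cent, Subalgebra.mem_centralizer_iff, Commute, SemiconjBy]

theorem exists_push_lf {L L' ι ι' : Type} [Field L] [Field L'] [Algebra ℂ L] [Algebra ℂ L']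
    [Fintype ι] [Fintype ι'] [DecidableEq ι'] (l : L →ₐ[ℂ] L') (e : ι → ι') (t : ι → L) :
    ∃ t' : ι' → L', push l e (lf t) = lf t' :=
  ⟨_, push_lf l e t⟩

theorem Ext.push_radical {n : ℕ} {M M' : St n} {C : Subalgebra M.A.L M.A.D} (E : Ext M M' C)
    {p : MvPolynomial M.ι M.A.L} (hp : p ∈ M.rel.radical) :
    push E.f.l E.e p ∈ M'.rel.radical := by
  obtain ⟨W, h1, h2⟩ := E.exists_wext
  rw [← h1, ← h2]
  exact W.push_radical hp

/-- the centraliser of a family of gadgets -/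
theorem exists_famCent {A : DA} {a N : ℕ} {ζ : ℂ} (g : Fin N → Gad A a ζ) :
    ∃ C : Subalgebra A.L A.D, ∀ x, x ∈ C ↔ ∀ m, Commute x (g m).u ∧ Commute x (g m).θ := by
  refine ⟨Subalgebra.centralizer A.L
    (Set.range (fun m => (g m).u) ∪ Set.range (fun m => (g m).θ)), fun x => ?_⟩
  rw [Subalgebra.mem_centralizer_iff]
  constructor
  · intro h m
    exact ⟨(h _ (Or.inl ⟨m, rfl⟩)).symm, (h _ (Or.inr ⟨m, rfl⟩)).symm⟩
  · rintro h _ (⟨m, rfl⟩ | ⟨m, rfl⟩)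
    · exact (h m).1.symm
    · exact (h m).2.symm

/-- The conclusion of `hub_bind` for `N` gadgets. -/
def HubStmt (n a : ℕ) (ζ : ℂ) (P : DA → Prop) (N : ℕ) : Prop :=
  ∀ (M : St n), P M.A → ∀ (g : Fin N → Gad M.A a ζ), HubRel g →
    ∀ (l l' : Fin N → M.ι → M.A.L) (C : Subalgebra M.A.L M.A.D),
    (∀ z ∈ C, ∀ m, Commute z (g m).u ∧ Commute z (g m).θ) → (∀ i k, M.c i k ∈ C) →
    ∃ (M' : St n) (E : Ext M M' C) (y : M'.ι → M'.A.L), P M'.A ∧
      lf y ^ a - push E.f.l E.e (hubForm g l l') ∈ M'.rel.radical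

/-- The inductive step once a free symbol pair is available. -/
theorem hub_step {n a N : ℕ} {ζ : ℂ} {P : DA → Prop} (ha : 2 ≤ a) (hζ : IsPrimitiveRoot ζ a)
    (hB : BindStmt P a ζ) (IH : HubStmt n a ζ P N) (M : St n) (hM : P M.A)
    (g : Fin (N + 1) → Gad M.A a ζ) (hg : HubRel g) (p : Pair M.A a ζ)
    (hp : ∀ m, (Commute (g m).u p.u ∧ Commute (g m).u p.θ) ∧
      (Commute (g m).θ p.u ∧ Commute (g m).θ p.θ))
    (l l' : Fin (N + 1) → M.ι → M.A.L) (C : Subalgebra M.A.L M.A.D)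
    (hC : ∀ z ∈ C, ∀ m, Commute z (g m).u ∧ Commute z (g m).θ)
    (hCp : ∀ z ∈ C, Commute z p.u ∧ Commute z p.θ) (hc : ∀ i k, M.c i k ∈ C) :
    ∃ (M' : St n) (E : Ext M M' C) (y : M'.ι → M'.A.L), P M'.A ∧
      lf y ^ a - push E.f.l E.e (hubForm g l l') ∈ M'.rel.radical := by
  classical
  obtain ⟨g', gN, q, hg', hφ', hφN, hTN, hT', hNu, hNθ, hqu, hqθ, hquN, hqθN, hall⟩ :=
    hub_alg ha hζ g hg p hp
  have hall' := fun x (hx : x ∈ C) => hall x (hC x hx) (hCp x hx).1 (hCp x hx).2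
  obtain ⟨g0, hg0, hφ0⟩ := Pair.exists_gad ha hζ q
  subst hg0
  obtain ⟨C1, hC1⟩ := exists_famCent g'
  have hCC1 : C ≤ C1 := fun x hx => (hC1 x).2 (hall' x hx).1
  obtain ⟨M2, E2, y', hM2, hy'⟩ := IH M hM g' hg' (fun m => l m.castSucc)
    (fun m => l' m.castSucc) C1 (fun z hz => (hC1 z).1 hz) (fun i k => hCC1 (hc i k))
  have mNu : gN.u ∈ C1 := (hC1 _).2 hNu
  have mNθ : gN.θ ∈ C1 := (hC1 _).2 hNθ
  have m0u : g0.u ∈ C1 := (hC1 _).2 hqu
  have m0θ : g0.θ ∈ C1 := (hC1 _).2 hqθ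
  obtain ⟨gN2, hN2u, hN2θ, hN2T, -, hN2φ⟩ := Gad.exists_map E2.f gN mNu mNθ
  obtain ⟨g02, h02u, h02θ, h02T, -, h02φ⟩ := Gad.exists_map E2.f g0 m0u m0θ
  have hc2 : ∀ i k, M2.c i k ∈ gN2.toPair.cent := by
    intro i k
    rw [Pair.mem_cent, hN2u, hN2θ]
    exact ⟨E2.hcomm ⟨_, mNu⟩ (fun i k => (hall' _ (hc i k)).2.1.1.symm) i k,
      E2.hcomm ⟨_, mNθ⟩ (fun i k => (hall' _ (hc i k)).2.1.2.symm) i k⟩
  obtain ⟨tN, htN⟩ := exists_push_lf E2.f.l E2.e (l (Fin.last N))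
  obtain ⟨tN', htN'⟩ := exists_push_lf E2.f.l E2.e (l' (Fin.last N))
  obtain ⟨M3, E3, w, hM3, hw⟩ := bind_model hB M2 hM2 gN2 hc2 tN tN'
  have m02u : g02.u ∈ gN2.toPair.cent := by
    rw [Pair.mem_cent, hN2u, hN2θ, h02u]
    exact ⟨PHom.commute_map _ _ _ hquN.1.symm, PHom.commute_map _ _ _ hquN.2.symm⟩
  have m02θ : g02.θ ∈ gN2.toPair.cent := by
    rw [Pair.mem_cent, hN2u, hN2θ, h02θ]
    exact ⟨PHom.commute_map _ _ _ hqθN.1.symm, PHom.commute_map _ _ _ hqθN.2.symm⟩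
  obtain ⟨g03, h03u, h03θ, h03T, -, h03φ⟩ := Gad.exists_map E3.f g02 m02u m02θ
  have hc3 : ∀ i k, M3.c i k ∈ g03.toPair.cent := by
    intro i k
    rw [Pair.mem_cent, h03u, h03θ]
    refine ⟨E3.hcomm ⟨_, m02u⟩ (fun i k => ?_) i k, E3.hcomm ⟨_, m02θ⟩ (fun i k => ?_) i k⟩
    · change Commute g02.u _
      rw [h02u]
      exact E2.hcomm ⟨_, m0u⟩ (fun i k => (hall' _ (hc i k)).2.2.1.symm) i k
    · change Commute g02.θ _
      rw [h02θ]
      exact E2.hcomm ⟨_, m0θ⟩ (fun i k => (hall' _ (hc i k)).2.2.2.symm) i k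
  obtain ⟨ty, hty⟩ := exists_push_lf E3.f.l E3.e y'
  obtain ⟨M4, E4, y, hM4, hy⟩ := bind_model hB M3 hM3 g03 hc3 w ty
  have hC2 : ∀ z : C, E2.f.d ⟨z, hCC1 z.2⟩ ∈ gN2.toPair.cent := by
    intro z
    rw [Pair.mem_cent, hN2u, hN2θ]
    exact ⟨PHom.commute_map _ _ _ (hall' _ z.2).2.1.1.symm,
      PHom.commute_map _ _ _ (hall' _ z.2).2.1.2.symm⟩
  obtain ⟨F3, hF3l, hF3e, hF3d⟩ := Ext.exists_comp E2 E3 C hCC1 hc hC2
  have hC3 : ∀ z : C, F3.f.d ⟨z, le_refl C z.2⟩ ∈ g03.toPair.cent := by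
    intro z
    have hz : F3.f.d ⟨z, le_refl C z.2⟩ = E3.f.d ⟨E2.f.d ⟨z, hCC1 z.2⟩, hC2 z⟩ := hF3d z
    rw [Pair.mem_cent, h03u, h03θ, hz]
    refine ⟨PHom.commute_map _ _ _ ?_, PHom.commute_map _ _ _ ?_⟩
    · rw [h02u]
      exact PHom.commute_map _ _ _ (hall' _ z.2).2.2.1.symm
    · rw [h02θ]
      exact PHom.commute_map _ _ _ (hall' _ z.2).2.2.2.symm
  obtain ⟨F4, hF4l, hF4e, -⟩ := Ext.exists_comp F3 E4 C (le_refl C) hc hC3
  refine ⟨M4, F4, y, hM4, ?_⟩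
  have hform : hubForm g l l' =
      MvPolynomial.C g0.T * (MvPolynomial.C gN.T *
        bform gN.φ a (lf (l (Fin.last N))) (lf (l' (Fin.last N)))) -
      MvPolynomial.C g0.T * MvPolynomial.C g0.Θ *
        hubForm g' (fun m => l m.castSucc) (fun m => l' m.castSucc) := by
    unfold hubForm
    rw [Fin.sum_univ_castSucc, ← mul_assoc, ← map_mul, hTN, hφN, Finset.mul_sum, sub_eq_add_neg,
      add_comm, ← Finset.sum_neg_distrib]
    congr 1
    refine Finset.sum_congr rfl (fun m _ => ?_)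
    rw [← hT' m, hφ' m]
    simp only [map_neg, map_mul]
    ring
  have h1 := E3.push_radical hy'
  rw [map_sub, map_pow, hty] at h1
  have hb : bform g03.φ a (lf w) (lf ty) =
      lf w ^ a - MvPolynomial.C (E3.f.l (E2.f.l g0.Θ)) * lf ty ^ a := by
    rw [h03φ, h02φ, hφ0, ← bform_X_pow_sub_C]
    simp
  have h2 : MvPolynomial.C g03.T * bform g03.φ a (lf w) (lf ty) -
      push E3.f.l E3.e (push E2.f.l E2.e (hubForm g l l')) ∈ M3.rel.radical := by
    have h3 := sub_mem (Ideal.mul_mem_left _ (MvPolynomial.C g03.T) hw)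
      (Ideal.mul_mem_left _ (MvPolynomial.C g03.T * MvPolynomial.C (E3.f.l (E2.f.l g0.Θ))) h1)
    convert h3 using 1
    rw [hb, hform, hN2T, hN2φ, ← htN, ← htN', ← push_bform, h03T, h02T]
    simp only [map_sub, map_mul, push_C]
    ring
  have h4 := add_mem hy (E4.push_radical h2)
  rw [hF4l, hF4e, hF3l, hF3e, ← push_push, ← push_push]
  convert h4 using 1
  rw [map_sub]
  ring

/-- Induction on `N` (see the task text). -/
theorem hub_bind {n a : ℕ} {ζ : ℂ} {P : DA → Prop} (ha : 2 ≤ a) (hζ : IsPrimitiveRoot ζ a)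
    (hS : SymStmt P a ζ) (hB : BindStmt P a ζ) (N : ℕ) :
    ∀ (M : St n), P M.A → ∀ (g : Fin N → Gad M.A a ζ), HubRel g →
      ∀ (l l' : Fin N → M.ι → M.A.L) (C : Subalgebra M.A.L M.A.D),
      (∀ z ∈ C, ∀ m, Commute z (g m).u ∧ Commute z (g m).θ) → (∀ i k, M.c i k ∈ C) →
      ∃ (M' : St n) (E : Ext M M' C) (y : M'.ι → M'.A.L), P M'.A ∧
        lf y ^ a - push E.f.l E.e (hubForm g l l') ∈ M'.rel.radical := by
  classical
  induction N with
  | zero =>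
    intro M hM g _ l l' C _ hc
    obtain ⟨E, -, -, -⟩ := Ext.exists_refl M C hc
    refine ⟨M, E, 0, hM, ?_⟩
    have ha0 : a ≠ 0 := by omega
    simp [hubForm, lf, ha0]
  | succ N ih =>
    intro M hM g hg l l' C hC hc
    obtain ⟨A1, f, p, hA1, hp⟩ := hS M.A hM
    obtain ⟨E1, -, -, hE1d⟩ := M.exists_ext_base f
    have hex := fun m => Gad.exists_map E1.f (g m) Algebra.mem_top Algebra.mem_top
    choose g1 h1u h1θ h1T _ h1φ using hex
    have hexl := fun m => exists_push_lf E1.f.l E1.e (l m)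
    have hexl' := fun m => exists_push_lf E1.f.l E1.e (l' m)
    choose l1 hl1 using hexl
    choose l1' hl1' using hexl'
    have hg1 : HubRel g1 := by
      refine ⟨fun m m' h => ?_, fun m m' h => ?_, fun m m' => ?_⟩
      · rw [h1u, h1u, ← map_mul, ← map_mul, ← E1.f.l.commutes ζ, ← PHom.map_smul]
        congr 1
        exact Subtype.ext (hg.1 m m' h)
      · rw [h1u, h1θ]
        exact PHom.commute_map _ _ _ (hg.2.1 m m' h)
      · rw [h1θ, h1θ]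
        exact PHom.commute_map _ _ _ (hg.2.2 m m')
    have hp' : ∀ z, Commute (E1.f.d z) p.u ∧ Commute (E1.f.d z) p.θ := by
      intro z
      rw [hE1d]
      exact hp _
    obtain ⟨C0, hC0⟩ := exists_famCent g1
    have hmem : ∀ z : C, E1.f.d ⟨z, Algebra.mem_top⟩ ∈ C0 ⊓ Pair.cent (A := (M.base f).A) p := by
      intro z
      refine Algebra.mem_inf.2 ⟨(hC0 _).2 (fun m => ?_), (Pair.mem_cent _ _).2
        ⟨(hp' _).1.symm, (hp' _).2.symm⟩⟩
      rw [h1u, h1θ]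
      exact ⟨PHom.commute_map _ _ _ (hC _ z.2 m).1, PHom.commute_map _ _ _ (hC _ z.2 m).2⟩
    obtain ⟨M', E', y, hM', hy⟩ := hub_step ha hζ hB ih (M.base f) hA1 g1 hg1 p
      (fun m => by rw [h1u, h1θ]; exact ⟨hp' _, hp' _⟩) l1 l1'
      (C0 ⊓ Pair.cent (A := (M.base f).A) p)
      (fun z hz => (hC0 z).1 (Algebra.mem_inf.1 hz).1)
      (fun z hz => ⟨((Pair.mem_cent _ _).1 (Algebra.mem_inf.1 hz).2).1.symm,
        ((Pair.mem_cent _ _).1 (Algebra.mem_inf.1 hz).2).2.symm⟩)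
      (fun i k => by
        have h := hmem ⟨M.c i k, hc i k⟩
        rw [hE1d] at h
        exact h)
    obtain ⟨F, hFl, hFe, -⟩ := Ext.exists_comp E1 E' C le_top hc hmem
    refine ⟨M', F, y, hM', ?_⟩
    have hform : push E1.f.l E1.e (hubForm g l l') = hubForm g1 l1 l1' := by
      unfold hubForm
      rw [map_sum]
      refine Finset.sum_congr rfl (fun m _ => ?_)
      rw [map_mul, push_C, push_bform, hl1, hl1', h1T, h1φ]
    rw [hFl, hFe, ← push_push, hform]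
    exact hy

theorem anchor_NCHub : True := by
  have := @HubStmt.eq_1
  trivial

end Crest.Agent.R181
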