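import Crest.Agent.R181.NCRel

/-! Row 181: points of homogeneous ideals (task NCPts). -/

set_option autoImplicit false

namespace Crest.Agent.R181

open MvPolynomial

/-- Evaluation along the line through a point: `X i ↦ π i * T`. -/
noncomputable def lineHom {L Ω ι : Type} [Field L] [Field Ω] (j : L →+* Ω) (π : ι → Ω) :
    MvPolynomial ι L →+* Polynomial Ω :=
  eval₂Hom (Polynomial.C.comp j) (fun i => Polynomial.C (π i) * Polynomial.X)

theorem lineHom_X {L Ω ι : Type} [Field L] [Field Ω] (j : L →+* Ω) (π : ι → Ω) (i : ι) :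
    lineHom j π (X i) = Polynomial.C (π i) * Polynomial.X := by
  simp [lineHom]

theorem lineHom_monomial {L Ω ι : Type} [Field L] [Field Ω] (j : L →+* Ω) (π : ι → Ω)
    (μ : ι →₀ ℕ) (c : L) :
    lineHom j π (monomial μ c) =
      Polynomial.C (eval₂ j π (monomial μ c)) * Polynomial.X ^ μ.degree := by
  simp only [lineHom, coe_eval₂Hom, eval₂_monomial, RingHom.coe_comp, Function.comp_apply,
    Finsupp.prod, mul_pow, Finset.prod_mul_distrib, Finset.prod_pow_eq_pow_sum, map_mul, map_prod,
    map_pow, Finsupp.degree_apply, mul_assoc]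

theorem lineHom_homog {L Ω ι : Type} [Field L] [Field Ω] (j : L →+* Ω) (π : ι → Ω)
    {p : MvPolynomial ι L} {d : ℕ} (hp : p.IsHomogeneous d) :
    lineHom j π p = Polynomial.C (eval₂ j π p) * Polynomial.X ^ d := by
  classical
  conv_lhs => rw [p.as_sum]
  conv_rhs => rw [p.as_sum]
  rw [map_sum, eval₂_sum, map_sum, Finset.sum_mul]
  refine Finset.sum_congr rfl fun μ hμ => ?_
  rw [lineHom_monomial]
  have : μ.degree = d := by
    by_contra hne
    exact (mem_support_iff.mp hμ) (hp.coeff_eq_zero hne)
  rw [this]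

theorem lineHom_coeff {L Ω ι : Type} [Field L] [Field Ω] (j : L →+* Ω) (π : ι → Ω)
    (q : MvPolynomial ι L) (e : ℕ) :
    (lineHom j π q).coeff e = eval₂ j π (homogeneousComponent e q) := by
  classical
  conv_lhs => rw [← sum_homogeneousComponent q]
  rw [map_sum, Polynomial.finsetSum_coeff]
  simp_rw [lineHom_homog j π (homogeneousComponent_isHomogeneous _ q),
    Polynomial.coeff_C_mul_X_pow]
  rw [Finset.sum_ite_eq]
  split_ifs with h
  · rfl
  · rw [homogeneousComponent_eq_zero, eval₂_zero]
    simp only [Finset.mem_range, not_lt] at h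
    omega

theorem supportDim_add_length_le {R : Type} [CommRing R] (rs : List R) :
    ∀ (M : Type) [AddCommGroup M] [Module R M] [Module.Finite R M],
      RingTheory.Sequence.IsWeaklyRegular M rs →
      Module.supportDim R (M ⧸ Ideal.ofList rs • (⊤ : Submodule R M)) + rs.length ≤
        Module.supportDim R M := by
  induction rs with
  | nil =>
    intro M _ _ _ _
    rw [Ideal.ofList_nil, Submodule.bot_smul]
    simpa using (Module.supportDim_eq_of_equiv (Submodule.quotEquivOfEqBot ⊥ rfl)).le
  | cons x rs ih =>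
    intro M _ _ _ reg
    rw [RingTheory.Sequence.isWeaklyRegular_cons_iff] at reg
    have h1 := Module.supportDim_quotSMulTop_succ_le_of_notMem_minimalPrimes (M := M) (x := x)
      (fun _ => reg.1.notMem_of_mem_minimalPrimes)
    have h2 := ih (QuotSMulTop x M) reg.2
    rw [Module.supportDim_eq_of_equiv
      (Submodule.quotOfListConsSMulTopEquivQuotSMulTopInner M x rs), List.length_cons,
      Nat.cast_add, Nat.cast_one, ← add_assoc]
    exact le_trans (add_le_add_left h2 1) h1

/-- Nullstellensatz: no nonzero point over the algebraic closure. -/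
theorem X_mem_radical_of_points {L ι : Type} [Field L] [Fintype ι]
    (J : Ideal (MvPolynomial ι L))
    (h : ∀ π : ι → AlgebraicClosure L, (∀ p ∈ J, aeval π p = 0) → π = 0) :
    ∀ i, X i ∈ J.radical := by
  intro i
  rw [← vanishingIdeal_zeroLocus_eq_radical (K := AlgebraicClosure L), mem_vanishingIdeal_iff]
  intro x hx
  rw [aeval_X, h x hx]
  rfl

/-- If all variables are nilpotent modulo `(S, f)` with `S` a set of homogeneous polynomials and
`f` homogeneous of positive degree, then a point of `V(S)` with `f = 1` has algebraic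
coordinates. -/
theorem alg_of_point {L Ω ι : Type} [Field L] [Field Ω] [Infinite Ω] [Fintype ι] (j : L →+* Ω)
    (S : Set (MvPolynomial ι L)) (hS : ∀ p ∈ S, ∃ d, p.IsHomogeneous d)
    (f : MvPolynomial ι L) (a : ℕ) (ha : 0 < a) (hf : f.IsHomogeneous a)
    (h : ∀ i, X i ∈ (Ideal.span S ⊔ Ideal.span {f}).radical)
    (π : ι → Ω) (hπ : ∀ p ∈ S, eval₂ j π p = 0) (h1 : eval₂ j π f = 1) :
    ∀ i, ∃ p : Polynomial L, p ≠ 0 ∧ Polynomial.eval₂ j (π i) p = 0 := by
  classical
  letI : Algebra L Ω := j.toAlgebra
  have hae : ∀ p : MvPolynomial ι L, aeval π p = eval₂ j π p := fun p => rfl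
  choose N₀ hN₀ using h
  set N : ℕ := a + ∑ i, N₀ i with hN
  have haN : a ≤ N := Nat.le_add_right _ _
  have hXN : ∀ i, (X i : MvPolynomial ι L) ^ N ∈ Ideal.span S ⊔ Ideal.span {f} := by
    intro i
    have hle : N₀ i ≤ N :=
      le_trans (Finset.single_le_sum (f := N₀) (fun _ _ => Nat.zero_le _) (Finset.mem_univ i))
        (Nat.le_add_left _ _)
    obtain ⟨c, hc⟩ := Nat.exists_eq_add_of_le hle
    rw [hc, pow_add]
    exact Ideal.mul_mem_right _ _ (hN₀ i)
  have hS0 : ∀ β ∈ Ideal.span S, lineHom j π β = 0 := by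
    intro β hβ
    have : Ideal.span S ≤ RingHom.ker (lineHom j π) := by
      rw [Ideal.span_le]
      intro p hp
      obtain ⟨d, hd⟩ := hS p hp
      simp only [SetLike.mem_coe, RingHom.mem_ker]
      rw [lineHom_homog j π hd, hπ p hp, map_zero, zero_mul]
    exact this hβ
  have hr : ∀ i, ∃ r : MvPolynomial ι L, r.totalDegree < N ∧ aeval π r = π i ^ N := by
    intro i
    obtain ⟨β, hβ, γ, hγ, hsum⟩ := Submodule.mem_sup.mp (hXN i)
    obtain ⟨q, rfl⟩ := Ideal.mem_span_singleton'.mp hγ
    refine ⟨homogeneousComponent (N - a) q, ?_, ?_⟩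
    · have := (homogeneousComponent_isHomogeneous (N - a) q).totalDegree_le
      omega
    · have h2 := congrArg (fun p => (lineHom j π p).coeff N) hsum
      simp only [map_add, map_mul, map_pow, hS0 β hβ, zero_add, lineHom_X,
        lineHom_homog j π hf, h1, map_one, one_mul, mul_pow] at h2
      rw [Polynomial.coeff_mul_X_pow', if_pos haN, lineHom_coeff, ← map_pow,
        Polynomial.coeff_C_mul_X_pow, if_pos rfl] at h2
      rw [hae, h2]
  choose r hrdeg hrev using hr
  let B : Set Ω := Set.range fun ν : ι → Fin N => ∏ i, π i ^ (ν i : ℕ)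
  let M : Submodule L Ω := Submodule.span L B
  have hMfg : M.FG := Submodule.fg_span (Set.finite_range _)
  have hall : ∀ d : ℕ, ∀ p : MvPolynomial ι L, p.totalDegree < d → aeval π p ∈ M := by
    intro d
    induction d with
    | zero => intro p hp; omega
    | succ d ih =>
      intro p hp
      rw [p.as_sum, map_sum]
      refine Submodule.sum_mem _ fun μ hμ => ?_
      have hμd : μ.degree ≤ d := by
        have := le_totalDegree hμ
        rw [Finsupp.degree_apply]
        simp only [Finsupp.sum] at this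
        omega
      by_cases hsmall : ∀ i, μ i < N
      · rw [aeval_monomial, ← Algebra.smul_def]
        refine Submodule.smul_mem _ _ (Submodule.subset_span ⟨fun i => ⟨μ i, hsmall i⟩, ?_⟩)
        simp only
        rw [Finsupp.prod_fintype _ _ (fun i => pow_zero _)]
      · push Not at hsmall
        obtain ⟨i, hi⟩ := hsmall
        have hle : Finsupp.single i N ≤ μ := by
          rw [Finsupp.single_le_iff]; exact hi
        obtain ⟨ν, hν⟩ := exists_add_of_le hle
        have hdeg : μ.degree = N + ν.degree := by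
          rw [hν, map_add, Finsupp.degree_single]
        have hmon : (monomial μ (coeff μ p) : MvPolynomial ι L) =
            X i ^ N * monomial ν (coeff μ p) := by
          rw [X_pow_eq_monomial, monomial_mul, one_mul, ← hν]
        have heq : aeval π (monomial μ (coeff μ p)) =
            aeval π (r i * monomial ν (coeff μ p)) := by
          rw [hmon, map_mul, map_mul, map_pow, aeval_X, hrev]
        rw [heq]
        apply ih
        have h3 := totalDegree_mul (r i) (monomial ν (coeff μ p))
        have h4 := totalDegree_monomial_le ν (coeff μ p)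
        have h5 := hrdeg i
        have h6 : (ν.sum fun _ => id) = ν.degree := by
          rw [Finsupp.degree_apply]; rfl
        omega
  have hrange : (Subalgebra.toSubmodule (aeval π : MvPolynomial ι L →ₐ[L] Ω).range).FG := by
    have hle : Subalgebra.toSubmodule (aeval π : MvPolynomial ι L →ₐ[L] Ω).range ≤ M := by
      rintro _ ⟨p, rfl⟩
      exact hall _ p (Nat.lt_succ_self _)
    haveI : Module.Finite L M := Module.Finite.iff_fg.mpr hMfg
    exact Module.Finite.iff_fg.mp (Submodule.finiteDimensional_of_le hle)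
  intro i
  have hint : IsIntegral L (π i) :=
    IsIntegral.of_mem_of_fg _ hrange _ ⟨X i, aeval_X π i⟩
  obtain ⟨p, hp, hp0⟩ := hint
  exact ⟨p, hp.ne_zero, hp0⟩

/-- The degree `a` part of an ideal generated in degrees `≤ a` has the same (empty) base locus. -/
theorem radical_degree_part {L ι : Type} [Field L] [Fintype ι]
    (S : Set (MvPolynomial ι L)) (a : ℕ) (hS : ∀ p ∈ S, ∃ d ≤ a, p.IsHomogeneous d)
    (h : ∀ i, X i ∈ (Ideal.span S).radical) :
    ∀ i, X i ∈ (Ideal.span ((homogeneousSubmodule ι L a ⊓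
      (Ideal.span S).restrictScalars L : Submodule L (MvPolynomial ι L)) :
        Set (MvPolynomial ι L))).radical := by
  intro i
  rw [Ideal.radical_eq_sInf, Submodule.mem_sInf]
  rintro P ⟨hJP, hP⟩
  by_contra hi
  apply hi
  have hle : Ideal.span S ≤ P := by
    rw [Ideal.span_le]
    intro p hp
    obtain ⟨d, hda, hd⟩ := hS p hp
    have hmem : X i ^ (a - d) * p ∈ P := by
      apply hJP
      apply Ideal.subset_span
      refine ⟨?_, Ideal.mul_mem_left _ _ (Ideal.subset_span hp)⟩
      have := ((isHomogeneous_X L i).pow (a - d)).mul hd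
      rw [one_mul, Nat.sub_add_cancel hda] at this
      exact this
    rcases hP.mem_or_mem hmem with h1 | h1
    · exact absurd (hP.mem_of_pow_mem _ h1) hi
    · exact h1
  exact (hP.radical_le_iff.mpr hle) (h i)

/-- A regular sequence of `n` forms in `n` variables has no nonzero common zero. -/
theorem X_mem_radical_of_regular {n : ℕ} (a : Fin n → ℕ) (ha : ∀ i, 0 < a i)
    (f : Fin n → MvPolynomial (Fin n) ℂ)
    (hf : ∀ i, (f i).IsHomogeneous (a i))
    (hreg : RingTheory.Sequence.IsRegular (MvPolynomial (Fin n) ℂ) (List.ofFn f)) :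
    ∀ i, X i ∈ (Ideal.span (Set.range f)).radical := by
  apply X_mem_radical_of_points
  intro π hπ
  by_contra hne
  obtain ⟨i, hi⟩ := Function.ne_iff.mp hne
  let j : ℂ →+* AlgebraicClosure ℂ := algebraMap ℂ (AlgebraicClosure ℂ)
  let Q : Ideal (MvPolynomial (Fin n) ℂ) := RingHom.ker (lineHom j π)
  let m : Ideal (MvPolynomial (Fin n) ℂ) :=
    RingHom.ker ((Polynomial.evalRingHom 0).comp (lineHom j π))
  haveI hQ : Q.IsPrime := RingHom.ker_isPrime _
  haveI hm : m.IsPrime := RingHom.ker_isPrime _
  have hQm : Q ≤ m := by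
    intro p hp
    have hp' : lineHom j π p = 0 := hp
    change (Polynomial.evalRingHom 0) (lineHom j π p) = 0
    rw [hp', map_zero]
  have hXm : X i ∈ m := by
    change (Polynomial.evalRingHom 0) (lineHom j π (X i)) = 0
    simp [lineHom_X]
  have hXQ : X i ∉ Q := by
    intro h
    have h' : lineHom j π (X i) = 0 := h
    rw [lineHom_X] at h'
    rcases mul_eq_zero.mp h' with h1 | h1
    · exact hi (Polynomial.C_eq_zero.mp h1)
    · exact Polynomial.X_ne_zero h1
  set I : Ideal (MvPolynomial (Fin n) ℂ) :=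
    Ideal.ofList (List.ofFn f) • (⊤ : Submodule (MvPolynomial (Fin n) ℂ) (MvPolynomial (Fin n) ℂ))
    with hI
  have hIQ : I ≤ Q := by
    rw [hI, smul_eq_mul, Ideal.mul_top, Ideal.ofList, Ideal.span_le]
    intro p hp
    obtain ⟨k, rfl⟩ := (List.mem_ofFn' f p).mp hp
    change lineHom j π (f k) = 0
    have h0 : eval₂ j π (f k) = 0 := hπ (f k) (Ideal.subset_span ⟨k, rfl⟩)
    rw [lineHom_homog j π (hf k), h0, map_zero, zero_mul]
  have hdim := supportDim_add_length_le (List.ofFn f) (MvPolynomial (Fin n) ℂ) hreg.1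
  rw [← hI, Module.supportDim_quotient_eq_ringKrullDim, Module.supportDim_self_eq_ringKrullDim,
    MvPolynomial.ringKrullDim_of_isNoetherianRing, ringKrullDim_eq_zero_of_field,
    ringKrullDim_quotient, List.length_ofFn, zero_add, Nat.card_eq_fintype_card,
    Fintype.card_fin] at hdim
  have h1 : 1 ≤ Order.krullDim (PrimeSpectrum.zeroLocus (R := MvPolynomial (Fin n) ℂ) I) := by
    rw [Order.one_le_krullDim_iff]
    refine ⟨⟨⟨Q, hQ⟩, hIQ⟩, ⟨⟨m, hm⟩, le_trans hIQ hQm⟩, ?_⟩
    refine lt_of_le_of_ne hQm fun h => hXQ ?_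
    have h' : Q = m := congrArg (fun x => x.1.asIdeal) h
    rw [h']
    exact hXm
  have h2 : (1 : WithBot ℕ∞) + n ≤ n := le_trans (add_le_add_left h1 _) hdim
  have h3 : ((1 + n : ℕ) : WithBot ℕ∞) ≤ (n : ℕ) := by
    rw [Nat.cast_add, Nat.cast_one]; exact h2
  have h4 : 1 + n ≤ n := by exact_mod_cast h3
  omega

end Crest.Agent.R181
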