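import Crest.Agent.R181.NCHub
import Crest.Agent.R181.NCPts

/-! Row 181: one level of the descending induction (task NCLevel). -/

set_option autoImplicit false

namespace Crest.Agent.R181

open MvPolynomial

theorem NCLevel_eval_smul {L Ω ι : Type} [CommRing L] [CommRing Ω] (φ : L →+* Ω) (π : ι → Ω)
    (t : Ω) {p : MvPolynomial ι L} {d : ℕ} (hp : p.IsHomogeneous d) :
    eval₂ φ (fun i => t * π i) p = t ^ d * eval₂ φ π p := by
  rw [eval₂_eq, eval₂_eq, Finset.mul_sum]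
  refine Finset.sum_congr rfl fun s hs => ?_
  rw [hp.degree_eq_sum_deg_support hs]
  simp only [mul_pow, Finset.prod_mul_distrib, Finset.prod_pow_eq_pow_sum]
  ring

theorem NCLevel_push_id {L L' ι : Type} [Field L] [Field L'] [Algebra ℂ L] [Algebra ℂ L']
    (l : L →ₐ[ℂ] L') (p : MvPolynomial ι L) :
    push l id p = MvPolynomial.map (l : L →+* L') p :=
  rename_id_apply _

/-- the generators of the level ideal -/
def NCLevel_S {n : ℕ} (M : St n) (f : Fin n → MvPolynomial (Fin n) ℂ)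
    (y : Fin n → M.ι → M.A.L) (j j' : ℕ) : Set (MvPolynomial M.ι M.A.L) :=
  (linRel M.A.L M.c ∪ quadRel M.A.L M.c) ∪ {p | ∃ i : Fin n, j ≤ i.val ∧ p = lf (y i)} ∪
    {p | ∃ i : Fin n, i.val < j' ∧ p = M.px (f i)}

theorem NCLevel_span {n : ℕ} (M : St n) (f : Fin n → MvPolynomial (Fin n) ℂ)
    (y : Fin n → M.ι → M.A.L) (j j' : ℕ) :
    Ideal.span (NCLevel_S M f y j j') = M.lev f y j j' := by
  rw [NCLevel_S, Ideal.span_union, Ideal.span_union]
  rfl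

theorem NCLevel_mono {n : ℕ} (M : St n) (f : Fin n → MvPolynomial (Fin n) ℂ)
    (y : Fin n → M.ι → M.A.L) {j₁ j₂ j₁' j₂' : ℕ} (h : j₂ ≤ j₁) (h' : j₁' ≤ j₂') :
    M.lev f y j₁ j₁' ≤ M.lev f y j₂ j₂' := by
  refine sup_le_sup (sup_le_sup_left (Ideal.span_mono ?_) _) (Ideal.span_mono ?_)
  · exact fun _ ⟨i, hi, e⟩ => ⟨i, h.trans hi, e⟩
  · exact fun _ ⟨i, hi, e⟩ => ⟨i, hi.trans_le h', e⟩

theorem NCLevel_lf_mem {n : ℕ} (M : St n) (f : Fin n → MvPolynomial (Fin n) ℂ)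
    (y : Fin n → M.ι → M.A.L) {j : ℕ} (j' : ℕ) {i : Fin n} (h : j ≤ i.val) :
    lf (y i) ∈ M.lev f y j j' :=
  Ideal.mem_sup_left (Ideal.mem_sup_right (Ideal.subset_span ⟨i, h, rfl⟩))

theorem NCLevel_span_le {L L' ι R : Type} [Field L] [Field L'] [CommRing R] (l : L →+* L')
    (ψ : MvPolynomial ι L' →+* R) (I : Ideal R) {W : Set (MvPolynomial ι L)}
    (h : ∀ w ∈ W, ψ (MvPolynomial.map l w) ∈ I) {F : MvPolynomial ι L'}
    (hF : F ∈ Submodule.span L' (MvPolynomial.map l '' W)) : ψ F ∈ I := by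
  refine (Submodule.span_le (p := (I.comap ψ).restrictScalars L')).2 ?_ hF
  rintro _ ⟨w, hw, rfl⟩
  exact h w hw

theorem NCLevel_rel_le {n : ℕ} (M : St n) (f : Fin n → MvPolynomial (Fin n) ℂ)
    (y : Fin n → M.ι → M.A.L) (j j' : ℕ) : M.rel ≤ M.lev f y j j' :=
  le_sup_left.trans le_sup_left

theorem NCLevel_px_hom {n : ℕ} (M : St n) {f : MvPolynomial (Fin n) ℂ} {d : ℕ}
    (hf : f.IsHomogeneous d) : (M.px f).IsHomogeneous d :=
  (hf.map _).rename_isHomogeneous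

theorem NCLevel_hom {n : ℕ} (M : St n) {a : Fin n → ℕ} (ha : Monotone a) (ha2 : ∀ i, 2 ≤ a i)
    {f : Fin n → MvPolynomial (Fin n) ℂ} (hf : ∀ i, (f i).IsHomogeneous (a i))
    (y : Fin n → M.ι → M.A.L) (j : Fin n) (j₀ : ℕ) {j' : ℕ} (hj : j' ≤ j.val + 1) :
    ∀ p ∈ NCLevel_S M f y j₀ j', ∃ d ≤ a j, p.IsHomogeneous d := by
  have := ha2 j
  rintro p ((hp | ⟨i, -, rfl⟩) | ⟨i, hi, rfl⟩)
  · rcases rel2_gen_isHomogeneous _ p hp with h | h
    · exact ⟨1, by omega, h⟩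
    · exact ⟨2, this, h⟩
  · exact ⟨1, by omega, lf_isHomogeneous _⟩
  · exact ⟨a i, ha (Fin.le_def.2 (by omega)), NCLevel_px_hom M (hf i)⟩

theorem NCLevel_push_lev {n : ℕ} {M M' : St n} (V : WExt M M')
    (f : Fin n → MvPolynomial (Fin n) ℂ) {y : Fin n → M.ι → M.A.L} {y' : Fin n → M'.ι → M'.A.L}
    {j : ℕ} (j' : ℕ) (h : ∀ i : Fin n, j ≤ i.val → lf (y' i) = push V.l V.e (lf (y i))) :
    M.lev f y j j' ≤ (M'.lev f y' j j').comap (push V.l V.e) := by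
  refine sup_le (sup_le (fun p hp => NCLevel_rel_le M' f y' j j' (V.hrel p hp))
    (Ideal.span_le.2 ?_)) (Ideal.span_le.2 ?_)
  · rintro _ ⟨i, hi, rfl⟩
    exact Ideal.mem_sup_left (Ideal.mem_sup_right (Ideal.subset_span ⟨i, hi, (h i hi).symm⟩))
  · rintro _ ⟨i, hi, rfl⟩
    exact Ideal.mem_sup_right (Ideal.subset_span ⟨i, hi, V.push_px _⟩)

/-- the form `F` produced by the oracle can replace `f j` -/
theorem NCLevel_points {L L' ι : Type} [Field L] [Field L'] [Fintype ι] (l : L →+* L')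
    (S : Set (MvPolynomial ι L)) (hS : ∀ p ∈ S, ∃ d, p.IsHomogeneous d)
    {f : MvPolynomial ι L} {a : ℕ} (ha : 0 < a) (hf : f.IsHomogeneous a)
    (h : ∀ i, X i ∈ (Ideal.span S ⊔ Ideal.span {f}).radical)
    {F : MvPolynomial ι L'} (hF : F.IsHomogeneous a)
    (hpt : ∀ π : ι → AlgebraicClosure L',
      (∀ i, ∃ p : Polynomial L, p ≠ 0 ∧ Polynomial.eval₂
        ((algebraMap L' (AlgebraicClosure L')).comp l) (π i) p = 0) →
      eval₂ ((algebraMap L' (AlgebraicClosure L')).comp l) π f ≠ 0 → aeval π F ≠ 0) :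
    ∀ i, X i ∈ ((Ideal.span S).map (MvPolynomial.map l) ⊔ Ideal.span {F}).radical := by
  refine X_mem_radical_of_points _ fun π hπ => ?_
  obtain ⟨φ, hφ⟩ : ∃ φ, φ = (algebraMap L' (AlgebraicClosure L')).comp l := ⟨_, rfl⟩
  rw [← hφ] at hpt
  have h1 : ∀ p ∈ S, eval₂ φ π p = 0 := fun p hp => by
    have := hπ _ (Ideal.mem_sup_left (Ideal.mem_map_of_mem _ (Ideal.subset_span hp)))
    rwa [aeval_def, eval₂_map, ← hφ] at this
  have h2 := hπ F (Ideal.mem_sup_right (Ideal.mem_span_singleton_self F))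
  by_cases hc : eval₂ φ π f = 0
  · funext i
    obtain ⟨m, hm⟩ := h i
    have h3 : Ideal.span S ⊔ Ideal.span {f} ≤ RingHom.ker (eval₂Hom φ π) :=
      sup_le (Ideal.span_le.2 h1) ((Ideal.span_singleton_le_iff_mem _).2 hc)
    have h4 := h3 hm
    rw [RingHom.mem_ker, map_pow, eval₂Hom_X'] at h4
    exact eq_zero_of_pow_eq_zero h4
  · exfalso
    obtain ⟨t, ht⟩ := IsAlgClosed.exists_pow_nat_eq (eval₂ φ π f)⁻¹ ha
    have h3 : eval₂ φ (fun i => t * π i) f = 1 := by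
      rw [NCLevel_eval_smul φ π t hf, ht, inv_mul_cancel₀ hc]
    refine hpt (fun i => t * π i) (alg_of_point φ S hS f a ha hf h _ (fun p hp => ?_) h3)
      (h3 ▸ one_ne_zero) ?_
    · obtain ⟨d, hd⟩ := hS p hp
      rw [NCLevel_eval_smul φ π t hd, h1 p hp, mul_zero]
    · rw [aeval_def] at h2 ⊢
      rw [NCLevel_eval_smul _ π t hF, h2, mul_zero]

theorem level_step {n : ℕ} {P : DA → Prop} (a : Fin n → ℕ) (ha : Monotone a)
    (ha2 : ∀ i, 2 ≤ a i) (f : Fin n → MvPolynomial (Fin n) ℂ)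
    (hf : ∀ i, (f i).IsHomogeneous (a i)) (j : Fin n) {ζ : ℂ} (hζ : IsPrimitiveRoot ζ (a j))
    (h1 : A1Stmt P (a j) ζ) (hS : SymStmt P (a j) ζ) (hB : BindStmt P (a j) ζ)
    (M : St n) (hM : P M.A) (y : Fin n → M.ι → M.A.L) (hI : M.Inv a f y (j.val + 1)) :
    ∃ (M' : St n) (y' : Fin n → M'.ι → M'.A.L), P M'.A ∧ M'.Inv a f y' j.val := by
  have : Nonempty M.ι := ⟨M.x j⟩
  have hfj : M.px (f j) ∈ M.lev f y (j.val + 1) (j.val + 1) :=
    Ideal.mem_sup_right (Ideal.subset_span ⟨j, Nat.lt_succ_self _, rfl⟩)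
  have hrad := radical_degree_part (NCLevel_S M f y (j.val + 1) (j.val + 1)) (a j)
    (NCLevel_hom M ha ha2 hf y j _ le_rfl) (by rw [NCLevel_span]; exact hI.1)
  rw [NCLevel_span] at hrad
  obtain ⟨A', f₀, N, g, l, l', hP, hcomm, hHub, hmem, hpt⟩ :=
    h1 M.A hM M.ι _ (fun w hw => (Submodule.mem_inf.1 hw).1) hrad
  obtain ⟨E₀, hE₀, hE₀', -⟩ := M.exists_ext_base f₀
  obtain ⟨W₀, hW₀, hW₀'⟩ := E₀.exists_wext
  rw [hE₀] at hW₀
  rw [hE₀'] at hW₀'
  obtain ⟨M', E, y₀, hP', hrel⟩ := hub_bind (ha2 j) hζ hS hB N (M.base f₀) hP g hHub l l'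
    (Subalgebra.centralizer A'.L (A := A'.D)
      (Set.range (fun m => (g m).u) ∪ Set.range fun m => (g m).θ))
    (fun z hz m => ⟨(hz _ (Or.inl ⟨m, rfl⟩)).symm, (hz _ (Or.inr ⟨m, rfl⟩)).symm⟩) (by
      rintro i k _ (⟨m, rfl⟩ | ⟨m, rfl⟩)
      · exact (hcomm m _).1.symm
      · exact (hcomm m _).2.symm)
  obtain ⟨W₁, hW₁, hW₁'⟩ := E.exists_wext
  rw [← hW₁, ← hW₁'] at hrel
  obtain ⟨V, hV, hV'⟩ := W₀.exists_comp W₁
  have hVp : ∀ p, push V.l V.e p =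
      push W₁.l W₁.e (MvPolynomial.map (f₀.l : M.A.L →+* A'.L) p) := fun p => by
    rw [hV, hV', ← push_push, hW₀, hW₀']
    exact congrArg _ (NCLevel_push_id _ _)
  obtain ⟨F, hF⟩ : ∃ F : MvPolynomial M.ι A'.L, F = hubForm g l l' := ⟨_, rfl⟩
  have hrel' : lf y₀ ^ a j - push W₁.l W₁.e F ∈ M'.rel.radical := hF ▸ hrel
  rw [← hF] at hmem hpt
  obtain ⟨y', hy₀, hy'⟩ : ∃ y' : Fin n → M'.ι → M'.A.L, y' j = y₀ ∧
      ∀ i : Fin n, j.val + 1 ≤ i.val → lf (y' i) = push V.l V.e (lf (y i)) := by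
    refine ⟨Function.update (fun i i' => ∑ i₀, if V.e i₀ = i' then V.l (y i i₀) else 0) j y₀,
      Function.update_self .., fun i hi => ?_⟩
    rw [Function.update_of_ne (fun h => by rw [h] at hi; omega), push_lf]
  rw [← hy₀] at hrel'
  have hFh : F.IsHomogeneous (a j) := by
    refine (Submodule.span_le (p := homogeneousSubmodule M.ι A'.L (a j))).2 ?_ hmem
    rintro _ ⟨w, hw, rfl⟩
    exact IsHomogeneous.map hw.1 _
  have hsp : M.lev f y (j.val + 1) (j.val + 1) ≤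
      Ideal.span (NCLevel_S M f y (j.val + 1) j.val) ⊔ Ideal.span {M.px (f j)} := by
    rw [NCLevel_span]
    refine sup_le (le_sup_left.trans le_sup_left) (Ideal.span_le.2 ?_)
    rintro _ ⟨i, hi, rfl⟩
    rcases (Nat.lt_succ_iff.1 hi).eq_or_lt with h | h
    · rw [Fin.ext h]
      exact Ideal.mem_sup_right (Ideal.mem_span_singleton_self _)
    · exact Ideal.mem_sup_left (Ideal.mem_sup_right (Ideal.subset_span ⟨i, h, rfl⟩))
  have hJ := NCLevel_points (f₀.l : M.A.L →+* A'.L) (NCLevel_S M f y (j.val + 1) j.val)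
    (fun p hp => (NCLevel_hom M ha ha2 hf y j _ (Nat.le_succ _) p hp).imp fun _ h => h.2)
    (lt_of_lt_of_le two_pos (ha2 j)) (NCLevel_px_hom M (hf j))
    (fun i => Ideal.radical_mono hsp (hI.1 i)) hFh
    fun π h₁ h₂ => hpt π h₁ ⟨_, ⟨NCLevel_px_hom M (hf j), hfj⟩, h₂⟩
  rw [NCLevel_span] at hJ
  refine ⟨M', y', hP', W₁.all_radical _ _ hJ (fun p hp => ?_) (NCLevel_rel_le _ _ _ _ _),
    fun i hi => ?_⟩
  · refine (sup_le (Ideal.map_le_iff_le_comap.2 fun q hq => ?_)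
      ((Ideal.span_singleton_le_iff_mem _).2 ?_) :
        _ ≤ (M'.lev f y' j j).radical.comap (push W₁.l W₁.e)) hp
    · have h2 := NCLevel_mono M' f y' (Nat.le_succ _) le_rfl (NCLevel_push_lev V f j.val hy' hq)
      rw [hVp] at h2
      exact Ideal.le_radical h2
    · have h2 : lf (y' j) ^ a j ∈ (M'.lev f y' j j).radical :=
        Ideal.le_radical (Ideal.pow_mem_of_mem _ (NCLevel_lf_mem M' f y' j le_rfl) _
          (lt_of_lt_of_le two_pos (ha2 j)))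
      have h3 := Ideal.sub_mem _ h2 (Ideal.radical_mono (NCLevel_rel_le M' f y' j j) hrel')
      rwa [sub_sub_cancel] at h3
  · rcases hi.eq_or_lt with h | h
    · obtain rfl : j = i := Fin.ext h
      have h2 : push W₁.l W₁.e F ∈ M'.lev f y' (j.val + 1) n := by
        refine NCLevel_span_le _ (push W₁.l W₁.e) _ (fun w hw => ?_) hmem
        have h3 := NCLevel_push_lev V f n hy' (NCLevel_mono M f y le_rfl j.2 hw.2)
        exact (hVp w).symm ▸ (Ideal.mem_comap.1 h3)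
      have h3 := Submodule.add_mem_sup hrel' h2
      rwa [sub_add_cancel] at h3
    · rw [hy' i h, ← map_pow]
      exact (sup_le (fun p hp => Ideal.mem_sup_left (V.push_radical hp))
        (fun p hp => Ideal.mem_sup_right (NCLevel_push_lev V f n
          (fun i' hi' => hy' i' (by omega)) hp)) :
        _ ≤ Ideal.comap (push V.l V.e) (M'.rel.radical ⊔ M'.lev f y' (i.val + 1) n)) (hI.2 i h)

end Crest.Agent.R181
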