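import Crest.Agent.R181.NCDefs

/-! Row 181: transport of relations, composition of extensions (task NCRel). -/

set_option autoImplicit false
set_option linter.unusedSectionVars false

namespace Crest.Agent.R181

open MvPolynomial

section push
variable {L L' L'' ι ι' ι'' : Type} [Field L] [Field L'] [Field L''] [Algebra ℂ L] [Algebra ℂ L']
  [Algebra ℂ L'']

theorem push_X (l : L →ₐ[ℂ] L') (e : ι → ι') (i : ι) : push l e (X i) = X (e i) := by
  simp [push]

theorem push_C (l : L →ₐ[ℂ] L') (e : ι → ι') (r : L) : push l e (C r) = C (l r) := by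
  simp [push]

theorem push_push (l : L →ₐ[ℂ] L') (e : ι → ι') (l' : L' →ₐ[ℂ] L'') (e' : ι' → ι'')
    (p : MvPolynomial ι L) : push l' e' (push l e p) = push (l'.comp l) (e' ∘ e) p := by
  have : (push l' e').comp (push l e) = push (l'.comp l) (e' ∘ e) := by
    apply MvPolynomial.ringHom_ext
    · intro r; simp [push_C]
    · intro i; simp [push_X]
  exact RingHom.congr_fun this p

theorem push_id (p : MvPolynomial ι L) : push (AlgHom.id ℂ L) id p = p := by
  have : push (AlgHom.id ℂ L) (id : ι → ι) = RingHom.id _ := by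
    apply MvPolynomial.ringHom_ext
    · intro r; simp [push_C]
    · intro i; simp [push_X]
  rw [this]; rfl

/-- the image of a linear form is a linear form -/
theorem push_lf [Fintype ι] [Fintype ι'] [DecidableEq ι'] (l : L →ₐ[ℂ] L') (e : ι → ι')
    (t : ι → L) : push l e (lf t) = lf (fun i' => ∑ i, if e i = i' then l (t i) else 0) := by
  simp only [lf, map_sum, map_mul, push_C, push_X, Finset.sum_mul]
  rw [Finset.sum_comm]
  refine Finset.sum_congr rfl fun i _ => ?_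
  rw [Finset.sum_eq_single (e i)]
  · simp
  · intro b _ hb
    simp [Ne.symm hb]
  · simp

theorem push_bform (l : L →ₐ[ℂ] L') (e : ι → ι') (φ : Polynomial L) (a : ℕ)
    (p q : MvPolynomial ι L) :
    push l e (bform φ a p q) = bform (φ.map (l : L →+* L')) a (push l e p) (push l e q) := by
  unfold bform
  rw [Polynomial.homogenize_map]
  have : (push l e).comp (aeval ![p, q] : MvPolynomial (Fin 2) L →ₐ[L] _).toRingHom =
      (aeval ![push l e p, push l e q] : MvPolynomial (Fin 2) L' →ₐ[L'] _).toRingHom.comp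
        (MvPolynomial.map (l : L →+* L')) := by
    apply MvPolynomial.ringHom_ext
    · intro r; simp [push_C]
    · intro i; fin_cases i <;> simp
  exact RingHom.congr_fun this _

theorem lf_single [Fintype ι] [DecidableEq ι] (i : ι) : lf (Pi.single i (1 : L)) = X i := by
  unfold lf
  rw [Finset.sum_eq_single i]
  · simp
  · intro b _ hb
    simp [Pi.single_eq_of_ne hb]
  · simp

theorem lf_isHomogeneous [Fintype ι] (t : ι → L) : (lf t).IsHomogeneous 1 := by
  unfold lf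
  refine IsHomogeneous.sum _ _ _ fun i _ => ?_
  exact (isHomogeneous_X L i).C_mul _

theorem bform_X_pow_sub_C (a : ℕ) (δ : L) (p q : MvPolynomial ι L) :
    bform (Polynomial.X ^ a - Polynomial.C δ) a p q = p ^ a - C δ * q ^ a := by
  unfold bform
  rw [Polynomial.homogenize_sub, Polynomial.homogenize_X_pow le_rfl, Polynomial.homogenize_C]
  simp

end push

/-- every generator of `rel2` is homogeneous of degree one or two -/
theorem rel2_gen_isHomogeneous {L D ι ν : Type} [Field L] [Ring D] [Algebra L D] [Fintype ι]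
    (c : ι → ν → D) (p : MvPolynomial ι L) (hp : p ∈ linRel L c ∪ quadRel L c) :
    p.IsHomogeneous 1 ∨ p.IsHomogeneous 2 := by
  rcases hp with ⟨t, -, rfl⟩ | ⟨q, -, rfl⟩
  · exact Or.inl (IsHomogeneous.sum _ _ _ fun i _ => (isHomogeneous_X L i).C_mul _)
  · refine Or.inr (IsHomogeneous.sum _ _ _ fun i _ => IsHomogeneous.sum _ _ _ fun i' _ => ?_)
    exact ((isHomogeneous_X L i).mul (isHomogeneous_X L i')).C_mul _

theorem DA.PHom.map_smul {A A' : DA} {C : Subalgebra A.L A.D} (f : DA.PHom A A' C) (r : A.L)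
    (z : C) : f.d (r • z) = f.l r • f.d z := by
  rw [Algebra.smul_def, map_mul, f.hl, Algebra.smul_def]

theorem sum_ite_fiber {ι ι' M : Type} [Fintype ι] [Fintype ι'] [DecidableEq ι'] [AddCommMonoid M]
    (e : ι → ι') (F : ι → ι' → M) :
    ∑ i', ∑ i, (if e i = i' then F i i' else 0) = ∑ i, F i (e i) := by
  rw [Finset.sum_comm]
  refine Finset.sum_congr rfl fun i _ => ?_
  simp

theorem sum_ite_fiber2 {ι ι' M : Type} [Fintype ι] [Fintype ι'] [DecidableEq ι'] [AddCommMonoid M]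
    (e : ι → ι') (F : ι → ι → ι' → ι' → M) :
    ∑ i', ∑ j', ∑ i, ∑ j, (if e i = i' ∧ e j = j' then F i j i' j' else 0) =
      ∑ i, ∑ j, F i j (e i) (e j) := by
  have h1 : ∀ i' : ι', ∑ j', ∑ i, ∑ j, (if e i = i' ∧ e j = j' then F i j i' j' else 0) =
      ∑ i, (if e i = i' then ∑ j, F i j i' (e j) else 0) := by
    intro i'
    rw [Finset.sum_comm]
    refine Finset.sum_congr rfl fun i _ => ?_
    by_cases h : e i = i'
    · simp only [h, true_and, if_true]
      exact sum_ite_fiber e fun j j' => F i j i' j'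
    · simp [h]
  simp only [h1]
  exact sum_ite_fiber e fun i i' => ∑ j, F i j i' (e j)

/-- relations are transported along a partial homomorphism -/
theorem push_rel2 {A A' : DA} {C : Subalgebra A.L A.D} (f : DA.PHom A A' C) {ι ι' ν : Type}
    [Fintype ι] [Fintype ι'] [DecidableEq ι'] (c : ι → ν → A.D) (c' : ι' → ν → A'.D)
    (hc : ∀ i k, c i k ∈ C) (e : ι → ι') (he : ∀ i k, c' (e i) k = f.d ⟨c i k, hc i k⟩)
    (p : MvPolynomial ι A.L) (hp : p ∈ rel2 A.L c) : push f.l e p ∈ rel2 A'.L c' := by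
  have hle : rel2 A.L c ≤ (rel2 A'.L c').comap (push f.l e) := by
    refine Ideal.span_le.2 ?_
    rintro p (⟨t, ht, rfl⟩ | ⟨q, hq, rfl⟩)
    · refine Ideal.subset_span (Or.inl ⟨_, fun k => ?_, push_lf f.l e t⟩)
      have h0 : (∑ i, t i • (⟨c i k, hc i k⟩ : C)) = 0 := by
        apply Subtype.ext
        simpa using ht k
      have h1 := congrArg f.d h0
      rw [map_sum, map_zero] at h1
      simp only [f.map_smul, ← he] at h1
      rw [← h1]
      simp only [Finset.sum_smul, ite_smul, zero_smul]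
      exact sum_ite_fiber e fun i i' => f.l (t i) • c' i' k
    · refine Ideal.subset_span (Or.inr ⟨fun i' j' => ∑ i, ∑ j,
        if e i = i' ∧ e j = j' then f.l (q i j) else 0, fun k k' => ?_, ?_⟩)
      · have h0 : (∑ i, ∑ j, q i j • ((⟨c i k, hc i k⟩ : C) * ⟨c j k', hc j k'⟩ +
            ⟨c i k', hc i k'⟩ * ⟨c j k, hc j k⟩)) = 0 := by
          apply Subtype.ext
          simpa using hq k k'
        have h1 := congrArg f.d h0
        simp only [map_sum, map_zero, f.map_smul, map_add, map_mul, ← he] at h1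
        rw [← h1]
        simp only [Finset.sum_smul, ite_smul, zero_smul]
        exact sum_ite_fiber2 e fun i j i' j' =>
          f.l (q i j) • (c' i' k * c' j' k' + c' i' k' * c' j' k)
      · simp only [map_sum, map_mul, push_C, push_X, Finset.sum_mul, apply_ite, map_zero,
          ite_mul, zero_mul]
        exact (sum_ite_fiber2 e fun i j i' j' =>
          (MvPolynomial.C (f.l (q i j)) * (X i' * X j') : MvPolynomial ι' A'.L)).symm
  exact hle hp

variable {n : ℕ}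

theorem Ext.exists_wext {M M' : St n} {C : Subalgebra M.A.L M.A.D} (E : Ext M M' C) :
    ∃ W : WExt M M', W.l = E.f.l ∧ W.e = E.e := by
  exact ⟨⟨E.f.l, E.e, E.hx, fun p hp => push_rel2 E.f M.c M'.c E.hc E.e E.he p hp, E.fib⟩,
    rfl, rfl⟩

theorem WExt.push_radical {M M' : St n} (W : WExt M M') {p : MvPolynomial M.ι M.A.L}
    (hp : p ∈ M.rel.radical) : push W.l W.e p ∈ M'.rel.radical := by
  obtain ⟨m, hm⟩ := hp
  exact ⟨m, by rw [← map_pow]; exact W.hrel _ hm⟩

theorem WExt.push_px {M M' : St n} (W : WExt M M') (f : MvPolynomial (Fin n) ℂ) :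
    push W.l W.e (M.px f) = M'.px f := by
  unfold St.px
  have : (push W.l W.e).comp ((rename M.x : MvPolynomial (Fin n) M.A.L →ₐ[M.A.L] _).toRingHom.comp
        (MvPolynomial.map (algebraMap ℂ M.A.L))) =
      (rename M'.x : MvPolynomial (Fin n) M'.A.L →ₐ[M'.A.L] _).toRingHom.comp
        (MvPolynomial.map (algebraMap ℂ M'.A.L)) := by
    apply MvPolynomial.ringHom_ext
    · intro r; simp [push_C]
    · intro i; simp [push_X, W.hx]
  exact RingHom.congr_fun this f

theorem WExt.all_radical_aux {M M' : St n} (W : WExt M M') (J : Ideal (MvPolynomial M.ι M.A.L))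
    (J' : Ideal (MvPolynomial M'.ι M'.A.L)) (hJ : ∀ i, X i ∈ J.radical)
    (hJJ' : ∀ p ∈ J, push W.l W.e p ∈ J'.radical) (hrel : M'.rel ≤ J') :
    ∀ i', X i' ∈ J'.radical := by
  intro i'
  have h1 : ∀ i, (X (W.e i) : MvPolynomial M'.ι M'.A.L) ∈ J'.radical := by
    intro i
    obtain ⟨m, hm⟩ := hJ i
    have h2 := hJJ' _ hm
    rw [map_pow, push_X] at h2
    exact Ideal.radical_isRadical J' ⟨m, h2⟩
  have h3 : M'.rel ⊔ Ideal.span (Set.range fun i => (X (W.e i) : MvPolynomial M'.ι M'.A.L)) ≤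
      J'.radical := by
    refine sup_le (hrel.trans Ideal.le_radical) (Ideal.span_le.2 ?_)
    rintro _ ⟨i, rfl⟩
    exact h1 i
  exact Ideal.radical_isRadical J' (Ideal.radical_mono h3 (W.fib i'))

theorem WExt.comp_fib {M M' M'' : St n} (W : WExt M M') (W' : WExt M' M'') (i'' : M''.ι) :
    (X i'' : MvPolynomial M''.ι M''.A.L) ∈
      (M''.rel ⊔ Ideal.span (Set.range fun i => X ((W'.e ∘ W.e) i))).radical := by
  refine W'.all_radical_aux _ _ W.fib ?_ le_sup_left i''
  intro p hp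
  refine Ideal.le_radical ?_
  have hle : M'.rel ⊔ Ideal.span (Set.range fun i => (X (W.e i) : MvPolynomial M'.ι M'.A.L)) ≤
      (M''.rel ⊔ Ideal.span (Set.range fun i => X ((W'.e ∘ W.e) i))).comap (push W'.l W'.e) := by
    refine sup_le (fun q hq => Ideal.mem_sup_left (W'.hrel q hq)) (Ideal.span_le.2 ?_)
    rintro _ ⟨i, rfl⟩
    refine Ideal.mem_sup_right (Ideal.subset_span ⟨i, ?_⟩)
    simp [push_X]
  exact hle hp

theorem WExt.exists_comp {M M' M'' : St n} (W : WExt M M') (W' : WExt M' M'') :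
    ∃ V : WExt M M'', V.l = W'.l.comp W.l ∧ V.e = W'.e ∘ W.e := by
  refine ⟨⟨W'.l.comp W.l, W'.e ∘ W.e, fun k => ?_, fun p hp => ?_, W.comp_fib W'⟩, rfl, rfl⟩
  · simp [W.hx, W'.hx]
  · rw [← push_push]
    exact W'.hrel _ (W.hrel p hp)

/-- a radical statement about all old variables passes to all new variables -/
theorem WExt.all_radical {M M' : St n} (W : WExt M M') (J : Ideal (MvPolynomial M.ι M.A.L))
    (J' : Ideal (MvPolynomial M'.ι M'.A.L)) (hJ : ∀ i, X i ∈ J.radical)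
    (hJJ' : ∀ p ∈ J, push W.l W.e p ∈ J'.radical) (hrel : M'.rel ≤ J') :
    ∀ i', X i' ∈ J'.radical := by
  exact W.all_radical_aux J J' hJ hJJ' hrel

theorem Ext.exists_refl (M : St n) (C : Subalgebra M.A.L M.A.D) (hc : ∀ i k, M.c i k ∈ C) :
    ∃ E : Ext M M C, E.f.l = AlgHom.id ℂ M.A.L ∧ E.e = id ∧ ∀ z, E.f.d z = z := by
  refine ⟨⟨⟨AlgHom.id ℂ M.A.L, C.val.toRingHom, fun r => rfl⟩, hc, id, fun i k => rfl,
    fun k => rfl, fun i' => ?_, fun z hz i' k => hz i' k⟩, rfl, rfl, fun z => rfl⟩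
  exact Ideal.le_radical (Ideal.mem_sup_right (Ideal.subset_span ⟨i', rfl⟩))

theorem Ext.exists_comp {M M' M'' : St n} {C : Subalgebra M.A.L M.A.D}
    {C' : Subalgebra M'.A.L M'.A.D} (E : Ext M M' C) (E' : Ext M' M'' C')
    (C₀ : Subalgebra M.A.L M.A.D) (h₀ : C₀ ≤ C) (hc : ∀ i k, M.c i k ∈ C₀)
    (hC : ∀ z : C₀, E.f.d ⟨z, h₀ z.2⟩ ∈ C') :
    ∃ F : Ext M M'' C₀, F.f.l = E'.f.l.comp E.f.l ∧ F.e = E'.e ∘ E.e ∧
      ∀ z : C₀, F.f.d z = E'.f.d ⟨E.f.d ⟨z, h₀ z.2⟩, hC z⟩ := by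
  obtain ⟨W, hWl, hWe⟩ := E.exists_wext
  obtain ⟨W', hWl', hWe'⟩ := E'.exists_wext
  let d0 : C₀ →+* C' :=
    (E.f.d.comp (Subalgebra.inclusion h₀).toRingHom).codRestrict C'.toSubsemiring hC
  have hd0 : ∀ z : C₀, d0 z = ⟨E.f.d ⟨z, h₀ z.2⟩, hC z⟩ := fun z => rfl
  refine ⟨⟨⟨E'.f.l.comp E.f.l, E'.f.d.comp d0, fun r => ?_⟩, hc, E'.e ∘ E.e, fun i k => ?_,
    fun k => ?_, fun i'' => ?_, fun z hz i'' k => ?_⟩, rfl, rfl, fun z => rfl⟩
  · have h1 : d0 (algebraMap M.A.L C₀ r) = algebraMap M'.A.L C' (E.f.l r) := by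
      apply Subtype.ext
      exact E.f.hl r
    rw [RingHom.comp_apply, h1, E'.f.hl]
    rfl
  · have h1 : d0 ⟨M.c i k, hc i k⟩ = ⟨M'.c (E.e i) k, E'.hc _ _⟩ := by
      apply Subtype.ext
      exact (E.he i k).symm
    rw [RingHom.comp_apply, h1]
    exact E'.he _ _
  · simp [E.hx, E'.hx]
  · have := W.comp_fib W' i''
    rwa [hWe, hWe'] at this
  · exact E'.hcomm (d0 z) (fun i' k' => E.hcomm ⟨z, h₀ z.2⟩ hz i' k') i'' k

/-- base change of a stage along a homomorphism -/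
noncomputable def St.base (M : St n) {A' : DA} (f : DA.Hom M.A A') : St n where
  A := A'
  ι := M.ι
  c := fun i k => f.d (M.c i k)
  manin := by
    intro i i' k k'
    simpa only [map_add, map_mul] using congrArg f.d (M.manin i i' k k')
  x := M.x
  hx := by
    intro k
    funext k'
    rw [M.hx k]
    by_cases h : k' = k
    · subst h; simp
    · simp [Pi.single_eq_of_ne h]

theorem St.exists_ext_base (M : St n) {A' : DA} (f : DA.Hom M.A A') :
    ∃ E : Ext M (M.base f) ⊤, E.f.l = f.l ∧ E.e = id ∧ ∀ z, E.f.d z = f.d z := by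
  refine ⟨⟨⟨f.l, f.d.comp (⊤ : Subalgebra M.A.L M.A.D).val.toRingHom, fun r => f.hl r⟩,
    fun _ _ => trivial, id, fun i k => rfl, fun k => rfl, fun i' => ?_, fun z hz i' k => ?_⟩,
    rfl, rfl, fun z => rfl⟩
  · exact Ideal.le_radical (Ideal.mem_sup_right (Ideal.subset_span ⟨i', rfl⟩))
  · exact (hz i' k).map f.d

theorem DA.PHom.map_aeval {A A' : DA} {C : Subalgebra A.L A.D} (f : DA.PHom A A' C) (z : C)
    (b : Polynomial A.L) :
    f.d (Polynomial.aeval z b) = Polynomial.aeval (f.d z) (b.map (f.l : A.L →+* A'.L)) := by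
  rw [Polynomial.aeval_def, Polynomial.aeval_def, Polynomial.hom_eval₂, Polynomial.eval₂_map]
  congr 1
  ext r
  exact f.hl r

theorem DA.PHom.conjB_map {A A' : DA} {C : Subalgebra A.L A.D} (f : DA.PHom A A' C) (ζ : ℂ)
    (θ : C) (b : Polynomial A.L) (i : ℕ) :
    conjB ζ (f.d θ) (b.map (f.l : A.L →+* A'.L)) i =
      f.d (Polynomial.aeval (algebraMap ℂ A.L (ζ ^ i) • θ) b) := by
  rw [f.map_aeval, f.map_smul, AlgHom.commutes]
  rfl

theorem conjB_coe {A : DA} {C : Subalgebra A.L A.D} (ζ : ℂ) (θ : C) (b : Polynomial A.L) (i : ℕ) :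
    ((Polynomial.aeval (algebraMap ℂ A.L (ζ ^ i) • θ) b : C) : A.D) = conjB ζ (θ : A.D) b i := by
  unfold conjB
  exact (Polynomial.aeval_algHom_apply C.val (algebraMap ℂ A.L (ζ ^ i) • θ) b).symm

/-- transport of a gadget along a partial homomorphism -/
theorem Gad.exists_map {A A' : DA} {a : ℕ} {ζ : ℂ} {C : Subalgebra A.L A.D}
    (f : DA.PHom A A' C) (g : Gad A a ζ) (hu : g.u ∈ C) (hθ : g.θ ∈ C) :
    ∃ g' : Gad A' a ζ, g'.u = f.d ⟨g.u, hu⟩ ∧ g'.θ = f.d ⟨g.θ, hθ⟩ ∧ g'.T = f.l g.T ∧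
      g'.Θ = f.l g.Θ ∧ g'.φ = g.φ.map (f.l : A.L →+* A'.L) := by
  have hl : Function.Injective f.l := (f.l : A.L →+* A'.L).injective
  refine ⟨⟨⟨f.d ⟨g.u, hu⟩, f.d ⟨g.θ, hθ⟩, f.l g.T, f.l g.Θ, ?_, ?_, ?_, ?_, ?_⟩,
    g.b.map (f.l : A.L →+* A'.L), g.φ.map (f.l : A.L →+* A'.L), g.monic.map _, ?_, ?_, ?_⟩,
    rfl, rfl, rfl, rfl, rfl⟩
  · exact (map_ne_zero_iff _ hl).2 g.hT
  · exact (map_ne_zero_iff _ hl).2 g.hΘ
  · rw [← map_pow, ← f.hl]
    congr 1
    exact Subtype.ext g.hu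
  · rw [← map_pow, ← f.hl]
    congr 1
    exact Subtype.ext g.hθ
  · rw [← map_mul, ← map_mul, ← f.l.commutes, ← f.map_smul]
    congr 1
    exact Subtype.ext g.hc
  · rw [g.monic.natDegree_map, g.deg]
  · intro i
    change Polynomial.aeval (conjB ζ (f.d ⟨g.θ, hθ⟩) _ i) _ = 0
    rw [f.conjB_map, ← f.map_aeval]
    have h0 : Polynomial.aeval (Polynomial.aeval (algebraMap ℂ A.L (ζ ^ i) •
        (⟨g.θ, hθ⟩ : C)) g.b) g.φ = 0 := by
      apply Subtype.ext
      have h1 := Polynomial.aeval_algHom_apply C.val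
        (Polynomial.aeval (algebraMap ℂ A.L (ζ ^ i) • (⟨g.θ, hθ⟩ : C)) g.b) g.φ
      change _ = ((_ : C) : A.D) at h1
      rw [← h1]
      change Polynomial.aeval ((_ : C) : A.D) _ = 0
      rw [conjB_coe]
      exact g.root i
    rw [h0, map_zero]
  · intro i j hi hj hij
    change conjB ζ (f.d ⟨g.θ, hθ⟩) _ i = conjB ζ (f.d ⟨g.θ, hθ⟩) _ j at hij
    rw [f.conjB_map, f.conjB_map, ← sub_eq_zero, ← map_sub] at hij
    refine g.inj i j hi hj ?_
    have hint : IsIntegral A.L (⟨g.θ, hθ⟩ : C) := by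
      refine IsIntegral.of_pow (n := a) (by omega) ?_
      have : (⟨g.θ, hθ⟩ : C) ^ a = algebraMap A.L C g.Θ := Subtype.ext g.hθ
      rw [this]
      exact isIntegral_algebraMap
    have hmem : ∀ m : ℕ, Polynomial.aeval (algebraMap ℂ A.L (ζ ^ m) • (⟨g.θ, hθ⟩ : C)) g.b ∈
        Algebra.adjoin A.L {(⟨g.θ, hθ⟩ : C)} := by
      intro m
      have h1 : algebraMap ℂ A.L (ζ ^ m) • (⟨g.θ, hθ⟩ : C) ∈
          Algebra.adjoin A.L {(⟨g.θ, hθ⟩ : C)} :=
        Subalgebra.smul_mem _ (Algebra.self_mem_adjoin_singleton _ _) _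
      have h2 := Polynomial.aeval_mem_adjoin_singleton A.L
        (algebraMap ℂ A.L (ζ ^ m) • (⟨g.θ, hθ⟩ : C)) (p := g.b)
      exact (Algebra.adjoin_le (by simpa using h1)) h2
    have hz := IsIntegral.of_mem_of_fg _ hint.fg_adjoin_singleton _
      (Subalgebra.sub_mem _ (hmem i) (hmem j))
    by_contra hne
    have hne' : Polynomial.aeval (algebraMap ℂ A.L (ζ ^ i) • (⟨g.θ, hθ⟩ : C)) g.b -
        Polynomial.aeval (algebraMap ℂ A.L (ζ ^ j) • (⟨g.θ, hθ⟩ : C)) g.b ≠ 0 := by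
      intro h
      apply hne
      have h2 := congrArg (fun z : C => (z : A.D)) (sub_eq_zero.1 h)
      simpa only [conjB_coe] using h2
    exact ((hz.isUnit hne').map f.d).ne_zero hij

/-- the gadget `y ^ a = T (l ^ a - Θ l' ^ a)` of a symbol pair -/
theorem Pair.exists_gad {A : DA} {a : ℕ} {ζ : ℂ} (ha : 2 ≤ a) (hζ : IsPrimitiveRoot ζ a)
    (p : Pair A a ζ) :
    ∃ g : Gad A a ζ, g.toPair = p ∧ g.φ = Polynomial.X ^ a - Polynomial.C p.Θ := by
  have hθ0 : p.θ ≠ 0 := by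
    intro h
    have h1 := p.hθ
    rw [h, zero_pow (by omega)] at h1
    exact p.hΘ ((map_eq_zero_iff _ (algebraMap A.L A.D).injective).1 h1.symm)
  refine ⟨⟨p, Polynomial.X, Polynomial.X ^ a - Polynomial.C p.Θ,
    Polynomial.monic_X_pow_sub_C _ (by omega), Polynomial.natDegree_X_pow_sub_C, ?_, ?_⟩, rfl, rfl⟩
  · intro i
    simp only [conjB, Polynomial.aeval_X, map_sub, map_pow, Polynomial.aeval_C, smul_pow]
    rw [p.hθ, ← pow_mul, mul_comm, pow_mul, ← map_pow, hζ.pow_eq_one]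
    simp
  · intro i j hi hj hij
    simp only [conjB, Polynomial.aeval_X] at hij
    have h1 := smul_left_injective A.L hθ0 hij
    exact hζ.pow_inj hi hj ((algebraMap ℂ A.L).injective h1)

end Crest.Agent.R181
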